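import Crest.Agent.R216.Cls2

/-! # Row 216, regularised inverses and tempered cut-offs -/

set_option autoImplicit false
open Set Filter Metric
open scoped ContDiff RealInnerProductSpace Topology

noncomputable section
namespace Crest.Agent.R216

theorem cls3_rpow {r : ℝ} (hr : r ≤ 0) :
    ∃ φ : ℝ → ℝ, Bdd φ ∧ (∀ y, 0 ≤ φ y) ∧ ∀ y, 1 ≤ y → φ y = y ^ r := by
  set φ : ℝ → ℝ := fun y => Real.smoothTransition (2 * y - 1) * y ^ r with hφ
  have h0 : ∀ y, y < 1 / 2 → φ =ᶠ[𝓝 y] fun _ => 0 := fun y hy => by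
    filter_upwards [gt_mem_nhds hy] with z hz
    simp only [hφ, Real.smoothTransition.zero_of_nonpos (show 2 * z - 1 ≤ 0 by linarith), zero_mul]
  have h1 : ∀ y, 1 ≤ y → φ y = y ^ r := fun y hy => by
    simp only [hφ, Real.smoothTransition.one_of_one_le (show 1 ≤ 2 * y - 1 by linarith), one_mul]
  have hs : ContDiff ℝ ∞ φ := by
    rw [contDiff_iff_contDiffAt]
    intro y
    rcases lt_or_ge y (1 / 2) with hy | hy
    · exact contDiffAt_const.congr_of_eventuallyEq (h0 y hy)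
    · refine ContDiffAt.mul ?_ (Real.contDiffAt_rpow_const_of_ne (by linarith))
      exact (Real.smoothTransition.contDiff.comp
        ((contDiff_const.mul contDiff_id).sub contDiff_const)).contDiffAt
  refine ⟨φ, ⟨hs, fun j => ?_⟩, fun y => ?_, h1⟩
  · obtain ⟨C, hC⟩ := (isCompact_Icc (a := (0 : ℝ)) (b := 2)).exists_bound_of_continuousOn
      (hs.continuous_iteratedFDeriv (m := j) (by exact_mod_cast le_top)).continuousOn
    refine ⟨max C |(descPochhammer ℝ j).eval r|, fun y => ?_⟩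
    rcases lt_or_ge y 0 with hy | hy
    · rw [((h0 y (by linarith)).iteratedFDeriv ℝ j).eq_of_nhds, iteratedFDeriv_fun_zero]
      simp
    rcases le_or_gt y 2 with hy2 | hy2
    · exact (hC y ⟨hy, hy2⟩).trans (le_max_left _ _)
    · have he : φ =ᶠ[𝓝 y] fun z => z ^ r := by
        filter_upwards [lt_mem_nhds hy2] with z hz
        exact h1 z (by linarith)
      rw [(he.iteratedFDeriv ℝ j).eq_of_nhds, norm_iteratedFDeriv_eq_norm_iteratedDeriv,
        iteratedDeriv_eq_iterate, Real.iter_deriv_rpow_const, norm_mul, Real.norm_eq_abs,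
        Real.norm_of_nonneg (Real.rpow_nonneg hy _)]
      refine le_trans (mul_le_of_le_one_right (abs_nonneg _) ?_) (le_max_right _ _)
      exact Real.rpow_le_one_of_one_le_of_nonpos (by linarith)
        (by linarith [(Nat.cast_nonneg j : (0 : ℝ) ≤ j)])
  · rcases lt_or_ge y 0 with hy | hy
    · exact (h0 y (by linarith)).eq_of_nhds.ge
    · exact mul_nonneg (Real.smoothTransition.nonneg _) (Real.rpow_nonneg hy _)

/-- e.g. `φ y = smoothTransition (2 y - 1) * y⁻¹`; for `y > 1` the derivatives are those of `y⁻¹`,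
on `[0, 2]` use compactness, for `y < 1/2` it vanishes. -/
theorem exists_rinv : ∃ φ : ℝ → ℝ, Bdd φ ∧ ∀ y, 1 ≤ y → φ y = y⁻¹ := by
  obtain ⟨φ, h1, -, h3⟩ := cls3_rpow (r := -1) (by norm_num)
  exact ⟨φ, h1, fun y hy => by rw [h3 y hy, Real.rpow_neg_one]⟩

theorem exists_rsqrt : ∃ φ : ℝ → ℝ, Bdd φ ∧ (∀ y, 0 ≤ φ y) ∧ ∀ y, 1 ≤ y → φ y = (√y)⁻¹ := by
  obtain ⟨φ, h1, h2, h3⟩ := cls3_rpow (r := -(1 / 2)) (by norm_num)
  exact ⟨φ, h1, h2, fun y hy => by
    rw [h3 y hy, Real.rpow_neg (by linarith), Real.sqrt_eq_rpow]⟩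

theorem cls3_deriv (j : ℕ) : ∃ P : Polynomial ℝ,
    iteratedDeriv j expNegInvGlue = fun y => P.eval y⁻¹ * expNegInvGlue y := by
  induction j with
  | zero => exact ⟨1, by simp⟩
  | succ j ih =>
    obtain ⟨P, hP⟩ := ih
    refine ⟨Polynomial.X ^ 2 * (P - Polynomial.derivative P), ?_⟩
    rw [iteratedDeriv_succ, hP]
    funext y
    exact (expNegInvGlue.hasDerivAt_polynomial_eval_inv_mul P y).deriv

theorem cls3_poly (P : Polynomial ℝ) {α : ℝ} (hα : 0 < α) :
    ∃ C : ℝ, 0 ≤ C ∧ ∀ t : ℝ, 0 ≤ t → |P.eval t| ≤ C * Real.exp (α * t) := by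
  induction P using Polynomial.induction_on' with
  | add p q hp hq =>
    obtain ⟨C, hC, h⟩ := hp
    obtain ⟨C', hC', h'⟩ := hq
    refine ⟨C + C', by positivity, fun t ht => ?_⟩
    rw [Polynomial.eval_add, add_mul]
    exact (abs_add_le _ _).trans (add_le_add (h t ht) (h' t ht))
  | monomial n a =>
    refine ⟨|a| * (n.factorial / α ^ n), by positivity, fun t ht => ?_⟩
    have h := Real.pow_div_factorial_le_exp (α * t) (by positivity) n
    rw [Polynomial.eval_monomial, abs_mul, abs_of_nonneg (pow_nonneg ht n), mul_assoc]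
    refine mul_le_mul_of_nonneg_left ?_ (abs_nonneg a)
    calc t ^ n = n.factorial / α ^ n * ((α * t) ^ n / n.factorial) := by
          rw [mul_pow]; field_simp
      _ ≤ _ := by gcongr

/-- `Θ^(j) y = P_j(y⁻¹) Θ y` (`expNegInvGlue.hasDerivAt_polynomial_eval_inv_mul`), and
`|P(y⁻¹)| Θ(y)^(1/(n+1))` is bounded on `y > 0`, hence
`|Θ^(j)| ≤ C Θ^(1-1/(n+1)) ≤ C (Θ + κ) κ^(-1/(n+1))` with `κ = (μ^n)⁻¹`. -/
theorem expNegInvGlue_tempered (n j : ℕ) : ∃ C : ℝ, ∀ m : ℝ, 1 ≤ m → ∀ y,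
    ‖iteratedFDeriv ℝ j expNegInvGlue y‖ ≤ C * (expNegInvGlue y + (m ^ n)⁻¹) * m := by
  obtain ⟨P, hP⟩ := cls3_deriv j
  have hn : (0 : ℝ) < n + 1 := by positivity
  obtain ⟨C, hC0, hC⟩ := cls3_poly P (α := 1 / (n + 1)) (by positivity)
  refine ⟨C, fun m hm y => ?_⟩
  have hm0 : 0 < m := by linarith
  rw [norm_iteratedFDeriv_eq_norm_iteratedDeriv, hP, norm_mul, Real.norm_eq_abs,
    Real.norm_of_nonneg (expNegInvGlue.nonneg y)]
  rcases le_or_gt y 0 with hy | hy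
  · rw [expNegInvGlue.zero_of_nonpos hy, mul_zero]
    positivity
  set s := Real.exp (1 / (n + 1) * y⁻¹) with hs
  have hs0 : 0 < s := Real.exp_pos _
  have hΘ : expNegInvGlue y = (s ^ (n + 1))⁻¹ := by
    rw [hs, ← Real.exp_nat_mul, ← Real.exp_neg, expNegInvGlue, if_neg hy.not_ge]
    congr 2
    push_cast
    field_simp
  rw [hΘ, mul_assoc]
  refine (mul_le_mul_of_nonneg_right (hC _ (inv_pos.2 hy).le) (by positivity)).trans ?_
  rw [← hs, mul_assoc]
  refine mul_le_mul_of_nonneg_left ?_ hC0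
  rcases le_total s m with h | h
  · rw [mul_comm]
    exact mul_le_mul (le_add_of_nonneg_right (by positivity)) h hs0.le (by positivity)
  · calc s * (s ^ (n + 1))⁻¹ = (s ^ n)⁻¹ * 1 := by rw [pow_succ]; field_simp
      _ ≤ (m ^ n)⁻¹ * m := by gcongr
      _ ≤ _ := by gcongr; exact le_add_of_nonneg_left (by positivity)

theorem expNegInvGlue_le_one (y : ℝ) : expNegInvGlue y ≤ 1 := by
  unfold expNegInvGlue
  split_ifs with h
  · exact zero_le_one
  · exact Real.exp_le_one_iff.2 (neg_nonpos.2 (inv_nonneg.2 (not_le.1 h).le))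

section
variable {X : Type*} [NormedAddCommGroup X] [NormedSpace ℝ X] {J N : Type*} {π : J → N}
  {μ : J → ℝ}

theorem cls3_smul {f : J → X → ℝ} (hμ : ∀ i, 1 ≤ μ i) (h : Sx π μ (fun _ _ => 1) f) (c : J → ℝ)
    (C : N → ℝ) (m : ℕ) (hc : ∀ i, |c i| ≤ C (π i) * μ i ^ m) :
    Sx π μ (fun _ _ => 1) (fun i x => c i • f i x) :=
  (h.fam_smul c).of_le hμ (fun _ _ => zero_le_one) m C fun i _ => by simpa using hc i

/-- regularised inverse: `g = L * φ (L * f)`, `L = C * μ ^ m` -/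
theorem Sx.rinv {f : J → X → ℝ} (hμ : ∀ i, 1 ≤ μ i) (h : Sx π μ (fun _ _ => 1) f) (C : N → ℝ)
    (hC : ∀ n, 0 < C n) (m : ℕ) : ∃ g : J → X → ℝ, Sx π μ (fun _ _ => 1) g ∧
      ∀ i x, (C (π i) * μ i ^ m)⁻¹ ≤ f i x → g i x = (f i x)⁻¹ := by
  obtain ⟨φ, h1, h2⟩ := exists_rinv
  have hL : ∀ i, 0 < C (π i) * μ i ^ m := fun i =>
    mul_pos (hC _) (pow_pos (zero_lt_one.trans_le (hμ i)) _)
  have hb : ∀ i, |C (π i) * μ i ^ m| ≤ C (π i) * μ i ^ m := fun i => (abs_of_pos (hL i)).le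
  refine ⟨_, cls3_smul hμ ((cls3_smul hμ h _ C m hb).comp hμ h1) _ C m hb, fun i x hx => ?_⟩
  have h3 := hL i
  have h4 : 0 < f i x := (inv_pos.2 h3).trans_le hx
  rw [inv_le_iff_one_le_mul₀' h3] at hx
  simp only [smul_eq_mul]
  rw [h2 _ hx]
  generalize C (π i) * μ i ^ m = L at *
  field_simp

theorem Sx.rsqrt {f : J → X → ℝ} (hμ : ∀ i, 1 ≤ μ i) (h : Sx π μ (fun _ _ => 1) f) (C : N → ℝ)
    (hC : ∀ n, 0 < C n) (m : ℕ) : ∃ g : J → X → ℝ, Sx π μ (fun _ _ => 1) g ∧ (∀ i x, 0 ≤ g i x) ∧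
      ∀ i x, (C (π i) * μ i ^ m)⁻¹ ≤ f i x → g i x = (√(f i x))⁻¹ := by
  obtain ⟨φ, h1, h0, h2⟩ := exists_rsqrt
  have hL : ∀ i, 0 < C (π i) * μ i ^ m := fun i =>
    mul_pos (hC _) (pow_pos (zero_lt_one.trans_le (hμ i)) _)
  have hb : ∀ i, |C (π i) * μ i ^ m| ≤ C (π i) * μ i ^ m := fun i => (abs_of_pos (hL i)).le
  have hb' : ∀ i, |√(C (π i) * μ i ^ m)| ≤ (C (π i) + 1) * μ i ^ m := fun i => by
    have h3 := hL i
    have h4 : 1 ≤ μ i ^ m := one_le_pow₀ (hμ i)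
    rw [abs_of_nonneg (Real.sqrt_nonneg _), add_mul, one_mul]
    refine Real.sqrt_le_iff.2 ⟨by positivity, ?_⟩
    nlinarith
  refine ⟨_, cls3_smul hμ ((cls3_smul hμ h _ C m hb).comp hμ h1) _ (fun n => C n + 1) m hb',
    fun i x => mul_nonneg (Real.sqrt_nonneg _) (h0 _), fun i x hx => ?_⟩
  have h3 := hL i
  have h4 : 0 < f i x := (inv_pos.2 h3).trans_le hx
  rw [inv_le_iff_one_le_mul₀' h3] at hx
  simp only [smul_eq_mul]
  rw [h2 _ hx, Real.sqrt_mul h3.le]
  have h5 := Real.sqrt_pos.2 h3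
  generalize √(C (π i) * μ i ^ m) = L at *
  field_simp

/-- Inverse of a positive function which is its own weight.  At the point `x₀`, `(f x)⁻¹ =
2 (f x₀)⁻¹ φ (2 f x / f x₀)` near `x₀` with `φ` from `exists_rinv`; use the pointwise bound
`norm_iteratedFDeriv_comp_le` and `Filter.EventuallyEq.iteratedFDeriv`. -/
theorem Sx.inv_weight {f : J → X → ℝ} (hμ : ∀ i, 1 ≤ μ i) (hf : ∀ i x, 0 < f i x)
    (h : Sx π μ f f) : Sx π μ (fun i x => (f i x)⁻¹) (fun i x => (f i x)⁻¹) := by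
  obtain ⟨φ, ⟨h1, h1'⟩, h2⟩ := exists_rinv
  choose Cφ hCφ using h1'
  have hCφ0 : ∀ j, 0 ≤ Cφ j := fun j => (norm_nonneg _).trans (hCφ j 0)
  obtain ⟨c, hc⟩ := h.toBd hμ
  obtain ⟨B, hB⟩ := hc c le_rfl
  refine Sx.of_Bd_pow (B := fun n j => 2 * (j.factorial * (∑ l ∈ Finset.range (j + 1), Cφ l) *
    (1 + 2 * ∑ l ∈ Finset.range (j + 1), |B n l|) ^ j)) hμ (fun i x => (inv_pos.2 (hf i x)).le)
    (2 * c) 0 fun i => ⟨(hB i).smooth.inv fun x => (hf i x).ne', one_le_pow₀ (hμ i), fun j => ?_,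
      fun x => by have := hf i x; positivity, fun j x => ?_⟩
  · have := Finset.sum_nonneg fun l (_ : l ∈ Finset.range (j + 1)) => hCφ0 l
    positivity
  have hx := hf i x
  have hμc : 1 ≤ μ i ^ c := one_le_pow₀ (hμ i)
  have hsm : ContDiff ℝ ∞ fun z => (2 / f i x) • f i z := (hB i).smooth.const_smul _
  have he : (fun z => (f i z)⁻¹) =ᶠ[𝓝 x] fun z => (2 / f i x) • (φ ∘ fun z => (2 / f i x) • f i z) z := by
    have h3 : 1 < (2 / f i x) • f i x := by
      rw [smul_eq_mul, div_mul_cancel₀ _ hx.ne']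
      norm_num
    filter_upwards [hsm.continuous.continuousAt.eventually (lt_mem_nhds h3)] with z hz
    have := hf i z
    simp only [Function.comp_apply, h2 _ hz.le]
    simp only [smul_eq_mul]
    field_simp
  set D0 := 1 + 2 * ∑ l ∈ Finset.range (j + 1), |B (π i) l| with hD0
  have hS : 0 ≤ ∑ l ∈ Finset.range (j + 1), |B (π i) l| := Finset.sum_nonneg fun _ _ => abs_nonneg _
  have hD1 : 1 ≤ D0 := by linarith
  have key := norm_iteratedFDeriv_comp_le h1 hsm (n := j) (by exact_mod_cast le_top) x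
    (C := ∑ l ∈ Finset.range (j + 1), Cφ l) (D := D0 * μ i ^ (2 * c))
    (fun l hl => (hCφ l _).trans (Finset.single_le_sum (fun l _ => hCφ0 l)
      (Finset.mem_range.2 (Nat.lt_succ_of_le hl)))) fun l hl1 hl => by
      rw [iteratedFDeriv_const_smul_apply'
        ((hB i).smooth.contDiffAt.of_le (by exact_mod_cast le_top)), norm_smul,
        Real.norm_of_nonneg (by positivity)]
      have h4 : B (π i) l ≤ ∑ l ∈ Finset.range (j + 1), |B (π i) l| :=
        (le_abs_self _).trans (Finset.single_le_sum (f := fun l => |B (π i) l|)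
          (fun _ _ => abs_nonneg _) (Finset.mem_range.2 (Nat.lt_succ_of_le hl)))
      have h5 : 2 * B (π i) l ≤ D0 ^ l := le_trans (by linarith) (le_self_pow₀ hD1 (by omega))
      have h6 : μ i ^ c ≤ (μ i ^ c) ^ l := le_self_pow₀ hμc (by omega)
      calc 2 / f i x * ‖iteratedFDeriv ℝ l (f i) x‖
          ≤ 2 / f i x * (B (π i) l * (f i x * μ i ^ c) * (μ i ^ c) ^ l) :=
            mul_le_mul_of_nonneg_left ((hB i).bound l x) (by positivity)
        _ = 2 * B (π i) l * (μ i ^ c * (μ i ^ c) ^ l) := by field_simp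
        _ ≤ D0 ^ l * ((μ i ^ c) ^ l * (μ i ^ c) ^ l) := by gcongr
        _ = _ := by ring
  rw [(he.iteratedFDeriv ℝ j).eq_of_nhds, iteratedFDeriv_const_smul_apply'
    ((h1.comp hsm).contDiffAt.of_le (by exact_mod_cast le_top)), norm_smul,
    Real.norm_of_nonneg (by positivity)]
  refine (mul_le_mul_of_nonneg_left key (by positivity)).trans (le_of_eq ?_)
  rw [mul_pow]
  ring

theorem Sx.theta {y : J → X → ℝ} (hμ : ∀ i, 1 ≤ μ i) (h : Sx π μ (fun _ _ => 1) y)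
    (n : N → ℕ) : Sx π μ (fun i x => expNegInvGlue (y i x) + (μ i ^ n (π i))⁻¹)
      (fun i x => expNegInvGlue (y i x)) := by
  choose C hC using expNegInvGlue_tempered
  refine h.comp_weight hμ expNegInvGlue.contDiff (fun i x => ?_) (fun a j => C (n a) j) 1
    fun i x j => ?_
  · have := expNegInvGlue.nonneg (y i x)
    have := hμ i
    positivity
  · rw [pow_one]
    exact hC _ j _ (hμ i) _

end

end Crest.Agent.R216
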