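import Crest.Agent.R216.Defs

/-! # Row 216, atlas lemmas: transitions, smooth functions, extension by zero -/

set_option autoImplicit false
open Set Filter Metric
open scoped ContDiff RealInnerProductSpace Topology

noncomputable section
namespace Crest.Agent.R216

namespace Atl

variable {V : Type} [NormedAddCommGroup V] [NormedSpace ℝ V] {M : Type*} [TopologicalSpace M]
  (A : Atl V M) {W : Type*} [NormedAddCommGroup W] [NormedSpace ℝ W]

theorem p_mem (a : A.ι) (x : V) : A.p a x ∈ (A.e a).source := by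
  exact (A.e a).map_target (by rw [A.tgt]; trivial)

@[simp] theorem e_p (a : A.ι) (x : V) : A.e a (A.p a x) = x := by
  exact (A.e a).right_inv (by rw [A.tgt]; trivial)

theorem p_e (a : A.ι) {y : M} (hy : y ∈ (A.e a).source) : A.p a (A.e a y) = y := by
  exact (A.e a).left_inv hy

theorem continuous_p (a : A.ι) : Continuous (A.p a) := by
  have := (A.e a).continuousOn_symm
  rw [A.tgt] at this
  exact continuousOn_univ.1 this

theorem injective_p (a : A.ι) : Function.Injective (A.p a) := by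
  exact Function.LeftInverse.injective (A.e_p a)

theorem isOpenMap_p (a : A.ι) : IsOpenMap (A.p a) := by
  intro U hU
  exact (A.e a).isOpen_image_symm_of_subset_target hU (by rw [A.tgt]; exact subset_univ _)

theorem isOpen_O (a b : A.ι) : IsOpen (A.O a b) := by
  exact (A.e b).open_source.preimage (A.continuous_p a)

@[simp] theorem T_self (a : A.ι) : A.T a a = id := by
  funext x
  exact A.e_p a x

@[simp] theorem O_self (a : A.ι) : A.O a a = univ := by
  exact eq_univ_of_forall fun x => A.p_mem a x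

variable {A}

theorem p_T {a b : A.ι} {x : V} (hx : x ∈ A.O a b) : A.p b (A.T a b x) = A.p a x := by
  exact A.p_e b hx

theorem T_mem_O {a b : A.ι} {x : V} (hx : x ∈ A.O a b) : A.T a b x ∈ A.O b a := by
  show A.p b (A.T a b x) ∈ (A.e a).source
  rw [p_T hx]
  exact A.p_mem a x

theorem T_T {a b : A.ι} {x : V} (hx : x ∈ A.O a b) : A.T b a (A.T a b x) = x := by
  show A.e a (A.p b (A.T a b x)) = x
  rw [p_T hx, e_p]

theorem mem_O_of_eq {a b : A.ι} {x z : V} (h : A.p a x = A.p b z) :
    x ∈ A.O a b ∧ A.T a b x = z := by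
  refine ⟨?_, ?_⟩
  · show A.p a x ∈ (A.e b).source
    rw [h]
    exact A.p_mem b z
  · show A.e b (A.p a x) = z
    rw [h, e_p]

theorem contDiffAt_T {a b : A.ι} {x : V} (hx : x ∈ A.O a b) : ContDiffAt ℝ ∞ (A.T a b) x := by
  exact (A.smooth a b).contDiffAt ((A.isOpen_O a b).mem_nhds hx)

theorem comp_p_eventuallyEq {Y : Type*} (F : M → Y) {a b : A.ι} {x : V} (hx : x ∈ A.O a b) :
    (fun x => F (A.p a x)) =ᶠ[𝓝 x] (fun x => F (A.p b (A.T a b x))) := by
  filter_upwards [(A.isOpen_O a b).mem_nhds hx] with z hz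
  rw [p_T hz]

theorem fderiv_T_comp {a b c : A.ι} {x : V} (hb : x ∈ A.O a b) (hc : x ∈ A.O a c) :
    fderiv ℝ (A.T a c) x = (fderiv ℝ (A.T b c) (A.T a b x)).comp (fderiv ℝ (A.T a b) x) := by
  have h1 : A.T a c =ᶠ[𝓝 x] A.T b c ∘ A.T a b := comp_p_eventuallyEq (A.e c) hb
  have h2 : A.T a b x ∈ A.O b c := by
    show A.p b (A.T a b x) ∈ (A.e c).source
    rw [p_T hb]
    exact hc
  rw [h1.fderiv_eq, fderiv_comp x ((contDiffAt_T h2).differentiableAt (by simp))
    ((contDiffAt_T hb).differentiableAt (by simp))]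

theorem fderiv_T_inv {a b : A.ι} {x : V} (hx : x ∈ A.O a b) (v : V) :
    fderiv ℝ (A.T b a) (A.T a b x) (fderiv ℝ (A.T a b) x v) = v := by
  have h := fderiv_T_comp (c := a) hx (by simp)
  rw [T_self, fderiv_id] at h
  exact (congrArg (fun L : V →L[ℝ] V => L v) h).symm

theorem fderiv_T_injective {a b : A.ι} {x : V} (hx : x ∈ A.O a b) :
    Function.Injective (fderiv ℝ (A.T a b) x) := by
  exact Function.LeftInverse.injective (fderiv_T_inv hx)

/-- chain rule between two charts -/
theorem Sm.fderiv_chart {F : M → W} (hF : A.Sm F) {a b : A.ι} {x : V} (hx : x ∈ A.O a b) :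
    fderiv ℝ (fun x => F (A.p a x)) x
      = (fderiv ℝ (fun x => F (A.p b x)) (A.T a b x)).comp (fderiv ℝ (A.T a b) x) := by
  rw [(comp_p_eventuallyEq F hx).fderiv_eq]
  exact fderiv_comp x (g := fun x => F (A.p b x)) ((hF b).differentiable (by simp) _)
    ((contDiffAt_T hx).differentiableAt (by simp))

/-- Smoothness can be checked on the unit balls (use `cover`, `comp_p_eventuallyEq`,
`contDiff_iff_contDiffAt`). -/
theorem Sm_of_local {F : M → W}
    (h : ∀ a x, ‖x‖ < 1 → ContDiffAt ℝ ∞ (fun x => F (A.p a x)) x) : A.Sm F := by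
  intro a
  rw [contDiff_iff_contDiffAt]
  intro x
  obtain ⟨b, hb, hb1⟩ := A.cover (A.p a x)
  exact (ContDiffAt.comp (g := fun x => F (A.p b x)) x (h b _ hb1)
    (contDiffAt_T hb)).congr_of_eventuallyEq (comp_p_eventuallyEq F hb)

theorem Sm.continuous {F : M → W} (hF : A.Sm F) : Continuous F := by
  rw [continuous_iff_continuousAt]
  intro y
  obtain ⟨b, hb, -⟩ := A.cover y
  refine ((hF b).continuous.continuousAt.comp ((A.e b).continuousAt hb)).congr ?_
  filter_upwards [(A.e b).open_source.mem_nhds hb] with z hz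
  simp only [Function.comp_apply, A.p_e b hz]

theorem Sm.add {F G : M → W} (hF : A.Sm F) (hG : A.Sm G) : A.Sm (fun y => F y + G y) := by
  exact fun a => (hF a).add (hG a)

theorem Sm.sub {F G : M → W} (hF : A.Sm F) (hG : A.Sm G) : A.Sm (fun y => F y - G y) := by
  exact fun a => (hF a).sub (hG a)

theorem Sm.smul {f : M → ℝ} {G : M → W} (hf : A.Sm f) (hG : A.Sm G) :
    A.Sm (fun y => f y • G y) := by
  exact fun a => (hf a).smul (hG a)

theorem Sm.const (w : W) : A.Sm (fun _ => w) := by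
  exact fun _ => contDiff_const

theorem Sm.sum {κ : Type*} (s : Finset κ) {F : κ → M → W} (hF : ∀ k ∈ s, A.Sm (F k)) :
    A.Sm (fun y => ∑ k ∈ s, F k y) := by
  exact fun a => ContDiff.sum fun k hk => hF k hk a

theorem Sm.comp {W' : Type*} [NormedAddCommGroup W'] [NormedSpace ℝ W'] {φ : W → W'}
    (hφ : ContDiff ℝ ∞ φ) {F : M → W} (hF : A.Sm F) : A.Sm (fun y => φ (F y)) := by
  exact fun a => hφ.comp (hF a)

theorem Imm_of_local {A : Atl E2 M} {F : M → W} (hF : A.Sm F)
    (h : ∀ a x, ‖x‖ < 1 → Function.Injective (fderiv ℝ (fun x => F (A.p a x)) x)) : A.Imm F := by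
  intro a x
  obtain ⟨b, hb, hb1⟩ := A.cover (A.p a x)
  rw [hF.fderiv_chart hb]
  exact (h b _ hb1).comp (fderiv_T_injective hb)

variable (A)

theorem isCompact_image_p (a : A.ι) {K : Set V} (hK : IsCompact K) : IsCompact (A.p a '' K) := by
  exact hK.image (A.continuous_p a)

@[simp] theorem push_p {Y : Type*} [Zero Y] (a : A.ι) (u : V → Y) (x : V) :
    A.push a u (A.p a x) = u x := by
  simp only [push, A.p_mem a x, if_true, e_p]

theorem push_p_of_mem {Y : Type*} [Zero Y] {a b : A.ι} (u : V → Y) {x : V} (hx : x ∈ A.O b a) :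
    A.push a u (A.p b x) = u (A.T b a x) := by
  exact if_pos hx

theorem push_eq_zero {Y : Type*} [Zero Y] (a : A.ι) {u : V → Y} {K : Set V}
    (hu : ∀ x, x ∉ K → u x = 0) {y : M} (hy : y ∉ A.p a '' K) : A.push a u y = 0 := by
  unfold push
  split_ifs with h
  · exact hu _ fun hK => hy ⟨_, hK, A.p_e a h⟩
  · rfl

/-- Extension by zero. At `x ∉ O b a` the open set `(p b)⁻¹' (p a '' K)ᶜ` (compact sets are closed)
is a neighbourhood on which `Ψ = 0`. -/
theorem contDiff_extend [T2Space M] (a b : A.ι) {K : Set V} (hK : IsCompact K) {Ψ : V → W}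
    (hΨ : ∀ x ∈ A.O b a, ContDiffAt ℝ ∞ Ψ x) (h0 : ∀ x ∈ A.O b a, A.T b a x ∉ K → Ψ x = 0)
    (h1 : ∀ x, x ∉ A.O b a → Ψ x = 0) : ContDiff ℝ ∞ Ψ := by
  rw [contDiff_iff_contDiffAt]
  intro x
  by_cases hx : x ∈ A.O b a
  · exact hΨ x hx
  · have hU : IsOpen (A.p b ⁻¹' (A.p a '' K)ᶜ) :=
      (A.isCompact_image_p a hK).isClosed.isOpen_compl.preimage (A.continuous_p b)
    have hxU : x ∈ A.p b ⁻¹' (A.p a '' K)ᶜ := by
      rintro ⟨z, -, hz⟩
      exact hx (mem_O_of_eq hz.symm).1
    refine (contDiffAt_const (c := (0 : W))).congr_of_eventuallyEq ?_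
    filter_upwards [hU.mem_nhds hxU] with z hz
    by_cases h : z ∈ A.O b a
    · exact h0 z h fun hK => hz ⟨_, hK, p_T h⟩
    · exact h1 z h

theorem Sm_push [T2Space M] (a : A.ι) {u : V → W} (hu : ContDiff ℝ ∞ u)
    (hc : HasCompactSupport u) : A.Sm (A.push a u) := by
  intro b
  refine A.contDiff_extend a b hc.isCompact (fun x hx => ?_) (fun x hx h => ?_) fun x hx => ?_
  · refine (hu.contDiffAt.comp x (contDiffAt_T hx)).congr_of_eventuallyEq ?_
    filter_upwards [(A.isOpen_O b a).mem_nhds hx] with z hz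
    exact A.push_p_of_mem u hz
  · rw [A.push_p_of_mem u hx]
    exact image_eq_zero_of_notMem_tsupport h
  · exact if_neg hx

/-- away from the support, `push a u` vanishes near a point -/
theorem push_eventually_zero [T2Space M] (a b : A.ι) {u : V → W} {K : Set V} (hK : IsCompact K)
    (hu : ∀ x, x ∉ K → u x = 0) {x : V} (hx : A.p b x ∉ A.p a '' K) :
    (fun z => A.push a u (A.p b z)) =ᶠ[𝓝 x] fun _ => 0 := by
  have hU : IsOpen (A.p b ⁻¹' (A.p a '' K)ᶜ) :=
    (A.isCompact_image_p a hK).isClosed.isOpen_compl.preimage (A.continuous_p b)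
  filter_upwards [hU.mem_nhds hx] with z hz
  exact A.push_eq_zero a hu hz

/-- Partition of unity: take bumps `β a` (`= 1` on the unit ball, supported in `ball 0 (3/2)`),
`s = Σ push a (β a) > 0` is `Sm`, and `χ a x = β a x / s (p a x)`. -/
theorem exists_pou [T2Space M] [FiniteDimensional ℝ V] :
    ∃ χ : A.ι → V → ℝ, (∀ a, ContDiff ℝ ∞ (χ a)) ∧ (∀ a, tsupport (χ a) ⊆ ball 0 (3 / 2)) ∧
      (∀ a x, 0 ≤ χ a x) ∧ ∀ y, ∑ a, A.push a (χ a) y = 1 := by
  let β : ContDiffBump (0 : V) := ⟨1, 5 / 4, one_pos, by norm_num⟩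
  let s : M → ℝ := fun y => ∑ a, A.push a β y
  have hnn : ∀ a y, 0 ≤ A.push a β y := by
    intro a y
    unfold push
    split_ifs
    · exact β.nonneg
    · exact le_rfl
  have hs : A.Sm s := Sm.sum _ fun a _ => A.Sm_push a β.contDiff β.hasCompactSupport
  have hpos : ∀ y, 0 < s y := by
    intro y
    obtain ⟨a, ha, ha1⟩ := A.cover y
    refine lt_of_lt_of_le ?_ (Finset.single_le_sum (fun a _ => hnn a y) (Finset.mem_univ a))
    have : A.push a β y = 1 := by
      unfold push
      rw [if_pos ha]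
      exact β.one_of_mem_closedBall (mem_closedBall_zero_iff.2 ha1.le)
    rw [this]
    exact one_pos
  refine ⟨fun a x => β x / s (A.p a x), fun a => β.contDiff.div (hs a) fun x => (hpos _).ne',
    fun a => ?_, fun a x => div_nonneg β.nonneg (hpos _).le, fun y => ?_⟩
  · have h1 : tsupport (fun x => β x / s (A.p a x)) ⊆ tsupport β :=
      closure_mono fun x hx h => hx (by simp only [h, zero_div])
    rw [β.tsupport_eq] at h1
    exact h1.trans (closedBall_subset_ball (show (5 / 4 : ℝ) < 3 / 2 by norm_num))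
  · have h1 : ∀ a, A.push a (fun x => β x / s (A.p a x)) y = A.push a β y / s y := by
      intro a
      unfold push
      split_ifs with h
      · simp only [A.p_e a h]
      · rw [zero_div]
    simp only [h1]
    rw [← Finset.sum_div]
    exact div_self (hpos y).ne'

end Atl

end Crest.Agent.R216
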