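import Crest.Agent.R216.Jet1
import Crest.Agent.R216.AtlL1

/-! # Row 216, second fundamental form: tensoriality and the Gauss equation -/

set_option autoImplicit false
open Set Filter Metric
open scoped ContDiff RealInnerProductSpace Topology

noncomputable section
namespace Crest.Agent.R216

section
variable {W : Type*} [NormedAddCommGroup W] [InnerProductSpace ℝ W]

theorem pb_apply (G : E2 → W) (x v w : E2) :
    pb G x v w = ⟪fderiv ℝ G x v, fderiv ℝ G x w⟫ := by
  simp only [pb, ContinuousLinearMap.bilinearComp_apply]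
  rfl

theorem contDiff_pb {G : E2 → W} (hG : ContDiff ℝ ∞ G) : ContDiff ℝ ∞ (pb G) := by
  have h1 : ContDiff ℝ ∞ (fderiv ℝ G) := hG.fderiv_right (m := ∞) (by simp)
  rw [contDiff_clm_apply_iff]
  intro v
  rw [contDiff_clm_apply_iff]
  intro w
  simp only [pb_apply]
  exact (h1.clm_apply contDiff_const).inner ℝ (h1.clm_apply contDiff_const)

theorem pb_congr {G G' : E2 → W} {x : E2} (h : G =ᶠ[𝓝 x] G') : pb G =ᶠ[𝓝 x] pb G' := by
  filter_upwards [h.fderiv (𝕜 := ℝ)] with y hy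
  simp only [pb, hy]

theorem norm_pb_sub_le (G G' : E2 → W) (x : E2) :
    ‖pb G x - pb G' x‖
      ≤ (‖fderiv ℝ G x‖ + ‖fderiv ℝ G' x‖) * ‖fderiv ℝ G x - fderiv ℝ G' x‖ := by
  refine ContinuousLinearMap.opNorm_le_bound₂ _ (by positivity) fun v w => ?_
  have e : (pb G x - pb G' x) v w
      = ⟪fderiv ℝ G x v, (fderiv ℝ G x - fderiv ℝ G' x) w⟫
        + ⟪(fderiv ℝ G x - fderiv ℝ G' x) v, fderiv ℝ G' x w⟫ := by
    simp only [sub_apply, pb_apply, inner_sub_left, inner_sub_right]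
    ring
  rw [e]
  generalize fderiv ℝ G x - fderiv ℝ G' x = D
  generalize fderiv ℝ G x = L
  generalize fderiv ℝ G' x = L'
  have h1 : ‖⟪L v, D w⟫‖ ≤ (‖L‖ * ‖v‖) * (‖D‖ * ‖w‖) :=
    (norm_inner_le_norm _ _).trans
      (mul_le_mul (L.le_opNorm v) (D.le_opNorm w) (norm_nonneg _) (by positivity))
  have h2 : ‖⟪D v, L' w⟫‖ ≤ (‖D‖ * ‖v‖) * (‖L'‖ * ‖w‖) :=
    (norm_inner_le_norm _ _).trans
      (mul_le_mul (D.le_opNorm v) (L'.le_opNorm w) (norm_nonneg _) (by positivity))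
  calc _ ≤ ‖⟪L v, D w⟫‖ + ‖⟪D v, L' w⟫‖ := norm_add_le _ _
    _ ≤ (‖L‖ * ‖v‖) * (‖D‖ * ‖w‖) + (‖D‖ * ‖v‖) * (‖L'‖ * ‖w‖) := add_le_add h1 h2
    _ = _ := by ring

theorem d2_apply {X Y : Type*} [NormedAddCommGroup X] [NormedSpace ℝ X] [NormedAddCommGroup Y]
    [NormedSpace ℝ Y] {G : X → Y} {x : X} (hG : ContDiffAt ℝ ∞ G x) (a b : X) :
    d2 G x a b = fderiv ℝ (fun y => fderiv ℝ G y b) x a := by
  have h1 : DifferentiableAt ℝ (fderiv ℝ G) x :=
    (hG.fderiv_right (m := 1) (by norm_cast)).differentiableAt one_ne_zero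
  rw [fderiv_clm_apply h1 (differentiableAt_const b)]
  simp [d2]

theorem d2_symm {X Y : Type*} [NormedAddCommGroup X] [NormedSpace ℝ X] [NormedAddCommGroup Y]
    [NormedSpace ℝ Y] {G : X → Y} {x : X} (hG : ContDiffAt ℝ ∞ G x) (a b : X) :
    d2 G x a b = d2 G x b a := by
  refine (hG.isSymmSndFDerivAt ?_).eq a b
  rw [minSmoothness_of_isRCLikeNormedField]
  norm_cast

theorem eventually_differentiableAt {X Y : Type*} [NormedAddCommGroup X] [NormedSpace ℝ X]
    [NormedAddCommGroup Y] [NormedSpace ℝ Y] {G : X → Y} {x : X} (hG : ContDiffAt ℝ ∞ G x) :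
    ∀ᶠ y in 𝓝 x, DifferentiableAt ℝ G y := by
  have h : ContDiffAt ℝ 1 G x := hG.of_le (by norm_cast)
  filter_upwards [h.eventually (by simp)] with y hy
  exact hy.differentiableAt one_ne_zero

theorem d2_add {X Y : Type*} [NormedAddCommGroup X] [NormedSpace ℝ X] [NormedAddCommGroup Y]
    [NormedSpace ℝ Y] {G G' : X → Y} {x : X} (hG : ContDiffAt ℝ ∞ G x)
    (hG' : ContDiffAt ℝ ∞ G' x) : d2 (fun y => G y + G' y) x = d2 G x + d2 G' x := by
  have h1 : DifferentiableAt ℝ (fderiv ℝ G) x :=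
    (hG.fderiv_right (m := 1) (by norm_cast)).differentiableAt one_ne_zero
  have h1' : DifferentiableAt ℝ (fderiv ℝ G') x :=
    (hG'.fderiv_right (m := 1) (by norm_cast)).differentiableAt one_ne_zero
  have e : fderiv ℝ (fun y => G y + G' y) =ᶠ[𝓝 x] fun y => fderiv ℝ G y + fderiv ℝ G' y := by
    filter_upwards [eventually_differentiableAt hG, eventually_differentiableAt hG'] with y hy hy'
    exact fderiv_fun_add hy hy'
  unfold d2
  rw [e.fderiv_eq, fderiv_fun_add h1 h1']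

theorem norm_d2_eq {X Y : Type*} [NormedAddCommGroup X] [NormedSpace ℝ X] [NormedAddCommGroup Y]
    [NormedSpace ℝ Y] (G : X → Y) (x : X) : ‖d2 G x‖ = ‖iteratedFDeriv ℝ 2 G x‖ := by
  rw [← norm_iteratedFDeriv_fderiv (n := 1), norm_iteratedFDeriv_one]
  rfl

theorem continuous_d2 {X Y : Type*} [NormedAddCommGroup X] [NormedSpace ℝ X]
    [NormedAddCommGroup Y] [NormedSpace ℝ Y] {G : X → Y} (hG : ContDiff ℝ ∞ G) :
    Continuous (d2 G) := by
  have h1 : ContDiff ℝ ∞ (fderiv ℝ G) := hG.fderiv_right (m := ∞) (by simp)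
  exact h1.continuous_fderiv (by simp)

theorem II_congr {G G' : E2 → W} {x : E2} (h : G =ᶠ[𝓝 x] G') (a b : E2) :
    II G x a b = II G' x a b := by
  unfold II d2
  rw [h.fderiv_eq, (h.fderiv (𝕜 := ℝ)).fderiv_eq]

theorem d2_comp {X Y Z : Type*} [NormedAddCommGroup X] [NormedSpace ℝ X] [NormedAddCommGroup Y]
    [NormedSpace ℝ Y] [NormedAddCommGroup Z] [NormedSpace ℝ Z] {G : Y → Z} {T : X → Y} {x : X}
    (hG : ContDiffAt ℝ ∞ G (T x)) (hT : ContDiffAt ℝ ∞ T x) (a b : X) :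
    d2 (fun y => G (T y)) x a b
      = d2 G (T x) (fderiv ℝ T x a) (fderiv ℝ T x b) + fderiv ℝ G (T x) (d2 T x a b) := by
  have hTd : DifferentiableAt ℝ T x := hT.differentiableAt (by simp)
  have h1 : DifferentiableAt ℝ (fderiv ℝ G) (T x) :=
    (hG.fderiv_right (m := 1) (by norm_cast)).differentiableAt one_ne_zero
  have h2 : DifferentiableAt ℝ (fderiv ℝ T) x :=
    (hT.fderiv_right (m := 1) (by norm_cast)).differentiableAt one_ne_zero
  have e : fderiv ℝ (fun y => G (T y)) =ᶠ[𝓝 x]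
      fun y => (fderiv ℝ G (T y)).comp (fderiv ℝ T y) := by
    filter_upwards [eventually_differentiableAt hT,
      hT.continuousAt.eventually (eventually_differentiableAt hG)] with y hy hy'
    exact fderiv_comp y hy' hy
  have h3 : HasFDerivAt (fun y => fderiv ℝ G (T y))
      ((fderiv ℝ (fderiv ℝ G) (T x)).comp (fderiv ℝ T x)) x :=
    h1.hasFDerivAt.comp x hTd.hasFDerivAt
  have h4 := h3.clm_comp h2.hasFDerivAt
  unfold d2
  rw [e.fderiv_eq, h4.fderiv]
  simp [add_comm]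

/-- Tensoriality: `d2 (G ∘ T) a b = d2 G (DT a) (DT b) + DG (d2 T a b)`, the last term is killed
by the projection, and the projection only depends on the plane (`nproj_basis`; `det2 (DT b0)
(DT b1) ≠ 0`). -/
theorem II_comp {G : E2 → W} {T : E2 → E2} {x : E2} (hG : ContDiffAt ℝ ∞ G (T x))
    (hT : ContDiffAt ℝ ∞ T x) (hi : Function.Injective (fderiv ℝ G (T x)))
    (hTi : Function.Injective (fderiv ℝ T x)) (a b : E2) :
    II (fun y => G (T y)) x a b = II G (T x) (fderiv ℝ T x a) (fderiv ℝ T x b) := by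
  have hGd : DifferentiableAt ℝ G (T x) := hG.differentiableAt (by simp)
  have hTd : DifferentiableAt ℝ T x := hT.differentiableAt (by simp)
  have e1 : fderiv ℝ (fun y => G (T y)) x = (fderiv ℝ G (T x)).comp (fderiv ℝ T x) :=
    fderiv_comp x hGd hTd
  have hdet : det2 (fderiv ℝ T x b0) (fderiv ℝ T x b1) ≠ 0 := by
    have h1 := (g2_pos_iff ((fderiv ℝ G (T x)).comp (fderiv ℝ T x))).2 (hi.comp hTi)
    simp only [ContinuousLinearMap.comp_apply] at h1
    rw [g2_map] at h1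
    intro h0
    rw [h0] at h1
    simp at h1
  have hg : g2 (fderiv ℝ G (T x) b0) (fderiv ℝ G (T x) b1) ≠ 0 :=
    ((g2_pos_iff _).2 hi).ne'
  unfold II IIj
  rw [d2_comp hG hT, e1]
  simp only [ContinuousLinearMap.comp_apply]
  rw [nproj_basis hi hdet, nproj_add]
  have e2 : nproj (fderiv ℝ G (T x) b0) (fderiv ℝ G (T x) b1) (fderiv ℝ G (T x) (d2 T x a b))
      = 0 := by
    rw [E2_decomp (d2 T x a b), map_add, map_smul, map_smul]
    exact nproj_span hg _ _
  rw [e2, add_zero]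

theorem _root_.Crest.Agent.R216.Atl.II_chart {M : Type*} [TopologicalSpace M] {A : Atl E2 M}
    {F : M → W} (hF : A.Sm F) (hi : A.Imm F) {a b : A.ι} {x : E2} (hx : x ∈ A.O a b) (u v : E2) :
    II (fun x => F (A.p a x)) x u v
      = II (fun x => F (A.p b x)) (A.T a b x) (fderiv ℝ (A.T a b) x u) (fderiv ℝ (A.T a b) x v) := by
  rw [II_congr (A.comp_p_eventuallyEq F hx)]
  exact II_comp (G := fun x => F (A.p b x)) (hF b).contDiffAt (A.contDiffAt_T hx) (hi b _)
    (A.fderiv_T_injective hx) u v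

theorem kap_congr {g g' : E2 → Bil} {x : E2} (h : g =ᶠ[𝓝 x] g') : kap g x = kap g' x := by
  have h1 : ∀ i j : E2, (fun y => g y i j) =ᶠ[𝓝 x] fun y => g' y i j := by
    intro i j
    filter_upwards [h] with y hy
    rw [hy]
  have h2 : ∀ l i j : E2, (fun y => fderiv ℝ (fun z => g z i j) y l) =ᶠ[𝓝 x]
      fun y => fderiv ℝ (fun z => g' z i j) y l := by
    intro l i j
    filter_upwards [(h1 i j).fderiv (𝕜 := ℝ)] with y hy
    rw [hy]
  unfold kap
  congr 1
  · funext i j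
    rw [h.self_of_nhds]
  · funext k i j
    rw [(h1 i j).fderiv_eq]
  · funext k l i j
    rw [(h2 l i j).fderiv_eq]

end

end Crest.Agent.R216
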