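import Crest.Agent.R216.Int1
import Crest.Agent.R216.Jet2

/-! # Row 216, smoothing operators of high order, cut-offs -/

set_option autoImplicit false
open Set Filter Metric
open scoped ContDiff RealInnerProductSpace Topology

noncomputable section
namespace Crest.Agent.R216

section
variable {W : Type} [NormedAddCommGroup W] [NormedSpace ℝ W] [CompleteSpace W]

open MeasureTheory in
theorem sm1_conv {A B : Type} [NormedAddCommGroup A] [NormedSpace ℝ A] [NormedAddCommGroup B]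
    [NormedSpace ℝ B] [CompleteSpace B] (L : A →L[ℝ] B →L[ℝ] W) {f : E2 → A}
    (hf : LocallyIntegrable f volume) (x : E2) (j : ℕ) : ∀ {g : E2 → B}, ContDiff ℝ ∞ g →
      HasCompactSupport g → ∀ m : Fin j → E2,
      iteratedFDeriv ℝ j (convolution f g L volume) x m
        = ∫ t, L (f t) (iteratedFDeriv ℝ j g (x - t) m) := by
  induction j with
  | zero => intro g _ _ m; simp [convolution_def]
  | succ j ih =>
    intro g hg hc m
    have h1 : ContDiff ℝ ∞ (fderiv ℝ g) := hg.fderiv_right (m := ∞) (by simp)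
    have h2 : (fun y => fderiv ℝ (convolution f g L volume) y (m (Fin.last j)))
        = convolution f (fun y => fderiv ℝ g y (m (Fin.last j))) L volume := by
      funext y
      rw [(hc.hasFDerivAt_convolution_right L hf (hg.of_le (by simp)) y).fderiv,
        convolution_precompR_apply L hf (hc.fderiv ℝ) h1.continuous]
    rw [Int1_succ (hc.contDiff_convolution_right L hf hg), h2,
      ih (h1.clm_apply contDiff_const) (hc.fderiv_apply ℝ _)]
    simp only [Int1_succ hg]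

open MeasureTheory in
/-- the scaled kernels -/
theorem sm1_kernel : ∃ C : ℕ → ℝ, (∀ j, 0 ≤ C j) ∧ ∀ ℓ : ℝ, 0 < ℓ → ∃ k : E2 → ℝ,
    ContDiff ℝ ∞ k ∧ HasCompactSupport k ∧ (∀ t, 0 ≤ k t) ∧ ∫ t, k t = 1 ∧
      (∀ t, k t ≠ 0 → ‖t‖ ≤ ℓ) ∧ ∀ j t, ‖iteratedFDeriv ℝ j k t‖ ≤ C j * (ℓ⁻¹) ^ (j + 2) := by
  let φ : ContDiffBump (0 : E2) := ⟨1 / 2, 1, by norm_num, by norm_num⟩
  have hρ : ContDiff ℝ ∞ (φ.normed volume) := φ.contDiff_normed
  have hC : ∀ j : ℕ, ∃ C : ℝ, ∀ t, ‖iteratedFDeriv ℝ j (φ.normed volume) t‖ ≤ C := fun j =>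
    (φ.hasCompactSupport_normed.iteratedFDeriv j).exists_bound_of_continuous
      (hρ.continuous_iteratedFDeriv (by exact_mod_cast le_top))
  choose C hC using hC
  refine ⟨C, fun j => (norm_nonneg _).trans (hC j 0), fun ℓ hℓ => ?_⟩
  have hs : ContDiff ℝ ∞ fun t : E2 => φ.normed volume (ℓ⁻¹ • t) :=
    hρ.comp (contDiff_id.const_smul _)
  have hsupp : ∀ t : E2, (ℓ⁻¹) ^ 2 • φ.normed volume (ℓ⁻¹ • t) ≠ 0 → ‖t‖ ≤ ℓ := by
    intro t ht
    have h1 : ℓ⁻¹ • t ∈ Function.support (φ.normed volume) := right_ne_zero_of_smul ht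
    rw [φ.support_normed_eq, mem_ball_zero_iff, norm_smul, Real.norm_of_nonneg (by positivity),
      inv_mul_lt_iff₀ hℓ] at h1
    simpa [φ] using h1.le
  refine ⟨fun t => (ℓ⁻¹) ^ 2 • φ.normed volume (ℓ⁻¹ • t), hs.const_smul _,
    HasCompactSupport.intro (isCompact_closedBall 0 ℓ) fun t ht => ?_,
    fun t => smul_nonneg (by positivity) (φ.nonneg_normed _), ?_, hsupp, fun j t => ?_⟩
  · by_contra h
    exact ht (mem_closedBall_zero_iff.2 (hsupp t h))
  · rw [integral_smul, Measure.integral_comp_inv_smul_of_nonneg volume _ hℓ.le, φ.integral_normed]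
    simp [hℓ.ne']
  · rw [iteratedFDeriv_const_smul_apply' (hs.of_le (by exact_mod_cast le_top)).contDiffAt,
      iteratedFDeriv_comp_const_smul _ (hρ.of_le (by exact_mod_cast le_top)), smul_smul, norm_smul,
      Real.norm_of_nonneg (by positivity), ← pow_add, add_comm 2 j, mul_comm]
    exact mul_le_mul_of_nonneg_right (hC j _) (by positivity)

/-- Basic mollifier `S u x = ∫ ρ(y) u (x - ℓ y) dy = ∫ ℓ⁻² ρ((x - y)/ℓ) u y dy` (`ρ ≥ 0` smooth,
compactly supported in the unit ball, integral one).  Either use Mathlib's `convolution` with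
`HasCompactSupport.hasFDerivAt_convolution_left/right` and induction on `j` (generalising the target
space), or a product kernel and `norm_iteratedFDeriv_param_integral` twice (the loss `ℓ⁻²` in the
first bound allows to estimate the kernel by its supremum; `u` is supported in `closedBall 0 R`).
The last bound: `D^j (u - S u) x = ∫ ρ(y) (D^j u x - D^j u (x - ℓ y))` and the mean value
inequality. -/
theorem exists_mollifier (R : ℝ) : ∃ B : ℕ → ℝ, (∀ j, 0 ≤ B j) ∧ ∀ ℓ : ℝ, 0 < ℓ → ℓ ≤ 1 →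
    ∃ S : (E2 → W) → (E2 → W), ∀ u : E2 → W, ContDiff ℝ ∞ u →
      (∀ x, x ∉ closedBall (0 : E2) R → u x = 0) →
      ContDiff ℝ ∞ (S u) ∧ (∀ x, x ∉ closedBall (0 : E2) (R + 1) → S u x = 0) ∧
      (∀ b, (∀ x, ‖u x‖ ≤ b) → ∀ j x, ‖iteratedFDeriv ℝ j (S u) x‖ ≤ B j * b * (ℓ⁻¹) ^ (j + 2)) ∧
      (∀ j b, (∀ x, ‖iteratedFDeriv ℝ j u x‖ ≤ b) → ∀ x, ‖iteratedFDeriv ℝ j (S u) x‖ ≤ b) ∧
      ∀ j b, (∀ x, ‖iteratedFDeriv ℝ (j + 1) u x‖ ≤ b) →
        ∀ x, ‖iteratedFDeriv ℝ j (fun y => u y - S u y) x‖ ≤ ℓ * b := by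
  obtain ⟨C, hC0, hker⟩ := sm1_kernel
  set V : ℝ := (MeasureTheory.volume : MeasureTheory.Measure E2).real (closedBall 0 R) with hV
  have hV0 : 0 ≤ V := MeasureTheory.measureReal_nonneg
  refine ⟨fun j => C j * V, fun j => mul_nonneg (hC0 j) hV0, fun ℓ hℓ hℓ1 => ?_⟩
  obtain ⟨k, hk, hkc, hk0, hk1, hks, hkb⟩ := hker ℓ hℓ
  have hki : MeasureTheory.Integrable k := hk.continuous.integrable_of_hasCompactSupport hkc
  refine ⟨fun u => MeasureTheory.convolution k u (ContinuousLinearMap.lsmul ℝ ℝ)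
    MeasureTheory.volume, fun u hu hu0 => ?_⟩
  beta_reduce
  have huc : HasCompactSupport u := HasCompactSupport.intro (isCompact_closedBall 0 R) hu0
  have hS := huc.contDiff_convolution_right (ContinuousLinearMap.lsmul ℝ ℝ)
    hki.locallyIntegrable hu
  have form : ∀ j x (m : Fin j → E2), iteratedFDeriv ℝ j (MeasureTheory.convolution k u
      (ContinuousLinearMap.lsmul ℝ ℝ) MeasureTheory.volume) x m
      = ∫ t, k t • iteratedFDeriv ℝ j u (x - t) m := fun j x m =>
    sm1_conv _ hki.locallyIntegrable x j hu huc m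
  have avg : ∀ (F : E2 → W) (c : ℝ), (∀ t, ‖t‖ ≤ ℓ → ‖F t‖ ≤ c) → ‖∫ t, k t • F t‖ ≤ c := by
    intro F c hF
    refine (MeasureTheory.norm_integral_le_of_norm_le (hki.mul_const c)
      (Eventually.of_forall fun t => ?_)).trans
      (by rw [MeasureTheory.integral_mul_const, hk1, one_mul])
    rw [norm_smul, Real.norm_of_nonneg (hk0 t)]
    by_cases h : k t = 0
    · simp [h]
    · exact mul_le_mul_of_nonneg_left (hF t (hks t h)) (hk0 t)
  refine ⟨hS, fun x hx => ?_, fun b hb j x => ?_, fun j b hb x => ?_, fun j b hb x => ?_⟩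
  · rw [MeasureTheory.convolution_def]
    refine MeasureTheory.integral_eq_zero_of_ae (Eventually.of_forall fun t => ?_)
    by_cases h : k t = 0
    · simp [h]
    · have h1 : x - t ∉ closedBall (0 : E2) R := by
        intro h2
        rw [mem_closedBall_zero_iff] at h2 hx
        have := norm_add_le (x - t) t
        rw [sub_add_cancel] at this
        linarith [hks t h]
      simp [hu0 _ h1]
  · have hb0 : 0 ≤ b := (norm_nonneg _).trans (hb 0)
    have hCj := hC0 j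
    refine ContinuousMultilinearMap.opNorm_le_bound (by positivity) fun m => ?_
    rw [← MeasureTheory.convolution_flip,
      sm1_conv _ hu.continuous.locallyIntegrable x j hk hkc m,
      ← MeasureTheory.setIntegral_eq_integral_of_forall_compl_eq_zero (s := closedBall 0 R)
        (fun t ht => by simp [hu0 t ht])]
    refine (MeasureTheory.norm_setIntegral_le_of_norm_le_const
      (C := C j * (ℓ⁻¹) ^ (j + 2) * (∏ i, ‖m i‖) * b)
      MeasureTheory.measure_closedBall_lt_top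
      fun t _ => ?_).trans (le_of_eq (by rw [← hV]; ring))
    simp only [ContinuousLinearMap.flip_apply, ContinuousLinearMap.lsmul_apply, norm_smul]
    refine mul_le_mul (((iteratedFDeriv ℝ j k (x - t)).le_opNorm m).trans ?_) (hb t)
      (norm_nonneg _) (by positivity)
    exact mul_le_mul_of_nonneg_right (hkb j _) (by positivity)
  · refine ContinuousMultilinearMap.opNorm_le_bound ((norm_nonneg _).trans (hb 0)) fun m => ?_
    rw [form]
    exact avg _ _ fun t _ => ((iteratedFDeriv ℝ j u (x - t)).le_opNorm m).trans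
      (mul_le_mul_of_nonneg_right (hb _) (by positivity))
  · have hb0 : 0 ≤ b := (norm_nonneg _).trans (hb 0)
    refine ContinuousMultilinearMap.opNorm_le_bound (by positivity) fun m => ?_
    have hd : Differentiable ℝ (iteratedFDeriv ℝ j u) :=
      hu.differentiable_iteratedFDeriv (by exact_mod_cast WithTop.coe_lt_top (j : ℕ))
    have hi : MeasureTheory.Integrable fun t => k t • iteratedFDeriv ℝ j u (x - t) m := by
      refine Continuous.integrable_of_hasCompactSupport (hk.continuous.smul ?_) hkc.smul_right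
      have := hd.continuous
      fun_prop
    have h1 : iteratedFDeriv ℝ j (fun y => u y - MeasureTheory.convolution k u
        (ContinuousLinearMap.lsmul ℝ ℝ) MeasureTheory.volume y) x m
        = ∫ t, k t • (iteratedFDeriv ℝ j u x - iteratedFDeriv ℝ j u (x - t)) m := by
      have h2 := iteratedFDeriv_sub_apply (i := j) (x := x)
        ((hu.of_le (by exact_mod_cast le_top)).contDiffAt)
        ((hS.of_le (by exact_mod_cast le_top)).contDiffAt)
      rw [show (fun y => u y - MeasureTheory.convolution k u (ContinuousLinearMap.lsmul ℝ ℝ)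
        MeasureTheory.volume y) = u - MeasureTheory.convolution k u
        (ContinuousLinearMap.lsmul ℝ ℝ) MeasureTheory.volume from rfl, h2]
      simp only [sub_apply, smul_sub]
      rw [form, MeasureTheory.integral_sub (hki.smul_const _) hi,
        integral_smul_const, hk1, one_smul]
    rw [h1]
    refine avg _ _ fun t ht => (ContinuousMultilinearMap.le_opNorm _ m).trans
      (mul_le_mul_of_nonneg_right ?_ (by positivity))
    have h3 := convex_univ.norm_image_sub_le_of_norm_fderiv_le (𝕜 := ℝ)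
      (f := iteratedFDeriv ℝ j u) (C := b) (fun z _ => hd z)
      (fun z _ => by rw [norm_fderiv_iteratedFDeriv]; exact hb z) (mem_univ (x - t)) (mem_univ x)
    rw [sub_sub_cancel] at h3
    nlinarith

/-- Higher order smoothing by induction on `D₁`: `v_{D+1} = v_D + S (u - v_D)`, so that
`u - v_{D+1} = (1 - S)(u - v_D)`; keep track of the support radius `2 + D` and of
`‖u - v_D‖ ≤ 2^D b`. -/
theorem exists_smoothing (D₁ : ℕ) : ∃ B : ℕ → ℝ, (∀ j, 0 ≤ B j) ∧ ∀ ℓ : ℝ, 0 < ℓ → ℓ ≤ 1 →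
    ∀ u : E2 → W, ContDiff ℝ ∞ u → (∀ x, x ∉ closedBall (0 : E2) 2 → u x = 0) →
      ∃ v : E2 → W, ContDiff ℝ ∞ v ∧
      (∀ b, (∀ x, ‖u x‖ ≤ b) → ∀ j x, ‖iteratedFDeriv ℝ j v x‖ ≤ B j * b * (ℓ⁻¹) ^ (j + 2)) ∧
      ∀ j b, (∀ x, ‖iteratedFDeriv ℝ (j + D₁) u x‖ ≤ b) →
        ∀ x, ‖iteratedFDeriv ℝ j (fun y => u y - v y) x‖ ≤ ℓ ^ D₁ * b := by
  have key : ∀ D : ℕ, ∃ B : ℕ → ℝ, (∀ j, 0 ≤ B j) ∧ ∀ ℓ : ℝ, 0 < ℓ → ℓ ≤ 1 →
      ∀ u : E2 → W, ContDiff ℝ ∞ u → (∀ x, x ∉ closedBall (0 : E2) 2 → u x = 0) →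
        ∃ v : E2 → W, ContDiff ℝ ∞ v ∧
        (∀ x, x ∉ closedBall (0 : E2) (2 + D) → u x - v x = 0) ∧
        (∀ b, (∀ x, ‖u x‖ ≤ b) → ∀ x, ‖u x - v x‖ ≤ 2 ^ D * b) ∧
        (∀ b, (∀ x, ‖u x‖ ≤ b) → ∀ j x, ‖iteratedFDeriv ℝ j v x‖ ≤ B j * b * (ℓ⁻¹) ^ (j + 2)) ∧
        ∀ j b, (∀ x, ‖iteratedFDeriv ℝ (j + D) u x‖ ≤ b) →
          ∀ x, ‖iteratedFDeriv ℝ j (fun y => u y - v y) x‖ ≤ ℓ ^ D * b := by
    intro D
    induction D with
    | zero =>
      refine ⟨fun _ => 0, fun _ => le_rfl, fun ℓ _ _ u _ hu0 => ⟨fun _ => 0, contDiff_const,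
        fun x hx => by simpa using hu0 x (by simpa using hx), fun b hb x => by simpa using hb x,
        fun b _ j x => by simp, fun j b hb x => by simpa using hb x⟩⟩
    | succ D ih =>
      obtain ⟨B, hB, ih⟩ := ih
      obtain ⟨B', hB', hm⟩ := exists_mollifier (W := W) (2 + D)
      refine ⟨fun j => B j + B' j * 2 ^ D, fun j => by have := hB j; have := hB' j; positivity,
        fun ℓ hℓ hℓ1 u hu hu0 => ?_⟩
      obtain ⟨v, hv, h1, h2, h3, h4⟩ := ih ℓ hℓ hℓ1 u hu hu0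
      obtain ⟨S, hS⟩ := hm ℓ hℓ hℓ1
      obtain ⟨s1, s2, s3, s4, s5⟩ := hS (fun y => u y - v y) (hu.sub hv) h1
      have e : ∀ y, u y - (v y + S (fun y => u y - v y) y)
          = (u y - v y) - S (fun y => u y - v y) y := fun y => by abel
      refine ⟨fun y => v y + S (fun y => u y - v y) y, hv.add s1, fun x hx => ?_,
        fun b hb x => ?_, fun b hb j x => ?_, fun j b hb x => ?_⟩
      · have hx' : x ∉ closedBall (0 : E2) (2 + D + 1) := by
          push_cast at hx; rwa [add_assoc]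
        rw [e, s2 x hx', h1 x fun h => hx' (closedBall_subset_closedBall (by linarith) h), sub_zero]
      · have h5 := s4 0 (2 ^ D * b) (fun x => by simpa using h2 b hb x) x
        rw [norm_iteratedFDeriv_zero] at h5
        rw [e, pow_succ]
        linarith [norm_sub_le (u x - v x) (S (fun y => u y - v y) x), h2 b hb x]
      · have h5 := iteratedFDeriv_add_apply (i := j) (x := x)
          ((hv.of_le (by exact_mod_cast le_top)).contDiffAt)
          ((s1.of_le (by exact_mod_cast le_top)).contDiffAt)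
        rw [show (fun y => v y + S (fun y => u y - v y) y) = v + S (fun y => u y - v y) from rfl,
          h5]
        refine (norm_add_le _ _).trans ((add_le_add (h3 b hb j x)
          (s3 _ (h2 b hb) j x)).trans (le_of_eq (by ring)))
      · simp only [e]
        refine (s5 j (ℓ ^ D * b) (h4 (j + 1) b ?_) x).trans (le_of_eq (by ring))
        rwa [add_assoc, add_comm 1 D]
  obtain ⟨B, hB, h⟩ := key D₁
  refine ⟨B, hB, fun ℓ hℓ hℓ1 u hu hu0 => ?_⟩
  obtain ⟨v, hv, -, -, h3, h4⟩ := h ℓ hℓ hℓ1 u hu hu0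
  exact ⟨v, hv, h3, h4⟩

end

/-- a fixed cut-off -/
def zeta : ContDiffBump (0 : E2) := ⟨7 / 4, 15 / 8, by norm_num, by norm_num⟩

theorem zeta_eq_one {x : E2} (hx : x ∈ closedBall (0 : E2) (7 / 4)) : zeta x = 1 := by
  exact zeta.one_of_mem_closedBall hx

theorem zeta_eq_zero {x : E2} (hx : x ∉ ball (0 : E2) (15 / 8)) : zeta x = 0 := by
  exact zeta.zero_of_le_dist (not_lt.1 hx)

theorem zeta_smul_eventuallyEq {W : Type*} [NormedAddCommGroup W] [NormedSpace ℝ W] (u : E2 → W)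
    {x : E2} (hx : x ∈ closedBall (0 : E2) (3 / 2)) : (fun y => zeta y • u y) =ᶠ[𝓝 x] u := by
  filter_upwards [isOpen_ball.mem_nhds
    (closedBall_subset_ball (by norm_num : (3 / 2 : ℝ) < 7 / 4) hx)] with y hy
  rw [zeta_eq_one (ball_subset_closedBall hy), one_smul]

theorem sm1_cut {φ : E2 → ℝ} (hφ : ContDiff ℝ ∞ φ) (hφ0 : tsupport φ ⊆ closedBall 0 2) :
    ∃ C : ℕ → ℝ, (∀ j, 0 ≤ C j) ∧ ∀ {W : Type _} [NormedAddCommGroup W] [NormedSpace ℝ W]
      (u : E2 → W) (j : ℕ) (b : ℝ), ContDiff ℝ ∞ u →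
      (∀ i ≤ j, ∀ x ∈ closedBall (0 : E2) 2, ‖iteratedFDeriv ℝ i u x‖ ≤ b) →
      ∀ x, ‖iteratedFDeriv ℝ j (fun y => φ y • u y) x‖ ≤ C j * b := by
  have hc : HasCompactSupport φ :=
    (isCompact_closedBall 0 2).of_isClosed_subset (isClosed_tsupport _) hφ0
  have hC : ∀ j : ℕ, ∃ C : ℝ, ∀ t, ‖iteratedFDeriv ℝ j φ t‖ ≤ C := fun j =>
    (hc.iteratedFDeriv j).exists_bound_of_continuous
      (hφ.continuous_iteratedFDeriv (by exact_mod_cast le_top))
  choose C hC using hC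
  have hC0 : ∀ j, 0 ≤ C j := fun j => (norm_nonneg _).trans (hC j 0)
  refine ⟨fun j => ∑ i ∈ Finset.range (j + 1), (j.choose i : ℝ) * C i,
    fun j => Finset.sum_nonneg fun i _ => mul_nonneg (Nat.cast_nonneg _) (hC0 i),
    fun u j b hu hb x => ?_⟩
  refine (norm_iteratedFDeriv_smul_le hφ hu x (by exact_mod_cast le_top)).trans ?_
  rw [Finset.sum_mul]
  refine Finset.sum_le_sum fun i _ => ?_
  have hb0 : 0 ≤ b := (norm_nonneg _).trans (hb 0 (Nat.zero_le _) 0 (by simp))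
  by_cases hx : x ∈ closedBall (0 : E2) 2
  · exact mul_le_mul (mul_le_mul_of_nonneg_left (hC i x) (Nat.cast_nonneg _))
      (hb _ (Nat.sub_le _ _) x hx) (norm_nonneg _) (mul_nonneg (Nat.cast_nonneg _) (hC0 i))
  · have h0 : iteratedFDeriv ℝ i φ x = 0 := by
      by_contra h
      exact hx (hφ0 (support_iteratedFDeriv_subset i h))
    rw [h0, norm_zero, mul_zero, zero_mul]
    exact mul_nonneg (mul_nonneg (Nat.cast_nonneg _) (hC0 i)) hb0

/-- Leibniz (`norm_iteratedFDeriv_smul_le`); off `closedBall 0 (15/8)` the product vanishes near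
the point. -/
theorem norm_iteratedFDeriv_cut {W : Type*} [NormedAddCommGroup W] [NormedSpace ℝ W]
    {φ : E2 → ℝ} (hφ : ContDiff ℝ ∞ φ) (hφ0 : tsupport φ ⊆ closedBall 0 2) (D : ℕ) :
    ∃ C : ℝ, 1 ≤ C ∧ ∀ (u : E2 → W) (b : ℝ), ContDiff ℝ ∞ u →
      (∀ j ≤ D, ∀ x ∈ closedBall (0 : E2) 2, ‖iteratedFDeriv ℝ j u x‖ ≤ b) →
      ∀ j ≤ D, ∀ x, ‖iteratedFDeriv ℝ j (fun y => φ y • u y) x‖ ≤ C * b := by
  obtain ⟨C, hC0, hC⟩ := sm1_cut hφ hφ0
  have hs : 0 ≤ ∑ j ∈ Finset.range (D + 1), C j := Finset.sum_nonneg fun j _ => hC0 j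
  refine ⟨1 + ∑ j ∈ Finset.range (D + 1), C j, by linarith, fun u b hu hb j hj x => ?_⟩
  have hb0 : 0 ≤ b := (norm_nonneg _).trans (hb 0 (Nat.zero_le _) 0 (by simp))
  refine (hC u j b hu (fun i hi => hb i (hi.trans hj)) x).trans
    (mul_le_mul_of_nonneg_right ?_ hb0)
  have := Finset.single_le_sum (f := C) (fun j _ => hC0 j)
    (Finset.mem_range.2 (Nat.lt_succ_of_le hj))
  linarith

theorem tsupport_zeta : tsupport zeta ⊆ closedBall (0 : E2) 2 := by
  rw [zeta.tsupport_eq]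
  exact closedBall_subset_closedBall (by norm_num [zeta])

/-- class version of the cut-off -/
theorem Bd_cut {W : Type*} [NormedAddCommGroup W] [NormedSpace ℝ W] (B : ℕ → ℝ) :
    ∃ B' : ℕ → ℝ, ∀ (m s : ℝ) (u : E2 → W), 1 ≤ m → 0 ≤ s → ContDiff ℝ ∞ u →
      (∀ j, ∀ x ∈ closedBall (0 : E2) 2, ‖iteratedFDeriv ℝ j u x‖ ≤ B j * s * m ^ j) →
      Bd B' m (fun _ => s) (fun y => zeta y • u y) := by
  obtain ⟨C, hC0, hC⟩ := sm1_cut zeta.contDiff tsupport_zeta
  have hs : ∀ j, 0 ≤ ∑ i ∈ Finset.range (j + 1), |B i| := fun j =>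
    Finset.sum_nonneg fun i _ => abs_nonneg _
  refine ⟨fun j => C j * ∑ i ∈ Finset.range (j + 1), |B i|, fun m s u hm hs0 hu hb =>
    ⟨zeta.contDiff.smul hu, hm, fun j => mul_nonneg (hC0 j) (hs j), fun _ => hs0, fun j x => ?_⟩⟩
  refine (hC u j ((∑ i ∈ Finset.range (j + 1), |B i|) * s * m ^ j) hu
    (fun i hi y hy => (hb i y hy).trans ?_) x).trans (le_of_eq (by ring))
  have h1 : B i ≤ ∑ i ∈ Finset.range (j + 1), |B i| :=
    (le_abs_self _).trans (Finset.single_le_sum (f := fun i => |B i|) (fun _ _ => abs_nonneg _)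
      (Finset.mem_range.2 (Nat.lt_succ_of_le hi)))
  exact mul_le_mul (mul_le_mul_of_nonneg_right h1 hs0) (pow_le_pow_right₀ hm hi)
    (by positivity) (mul_nonneg (hs j) hs0)

/-- derivatives of the induced metric
(`ContinuousLinearMap.norm_iteratedFDeriv_le_of_bilinear`, `norm_iteratedFDeriv_fderiv`) -/
theorem norm_iteratedFDeriv_pb_le {G : E2 → E4} (hG : ContDiff ℝ ∞ G) (j : ℕ) (x : E2) {b : ℝ}
    (hb : ∀ i ≤ j + 1, ‖iteratedFDeriv ℝ i G x‖ ≤ b) :
    ‖iteratedFDeriv ℝ j (pb G) x‖ ≤ 2 ^ j * b ^ 2 := by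
  have hb0 : 0 ≤ b := (norm_nonneg _).trans (hb 0 (Nat.zero_le _))
  have h1 : ContDiff ℝ ∞ (fderiv ℝ G) := hG.fderiv_right (m := ∞) (by simp)
  have hp := contDiff_pb hG
  have hd : ∀ (v : E2), ∀ i ≤ j, ‖iteratedFDeriv ℝ i (fun y => fderiv ℝ G y v) x‖ ≤ ‖v‖ * b := by
    intro v i hi
    refine (norm_iteratedFDeriv_clm_apply_const h1.contDiffAt (by exact_mod_cast le_top)).trans
      (mul_le_mul_of_nonneg_left ?_ (norm_nonneg _))
    rw [norm_iteratedFDeriv_fderiv]
    exact hb _ (by omega)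
  refine ContinuousMultilinearMap.opNorm_le_bound (by positivity) fun m => ?_
  refine ContinuousLinearMap.opNorm_le_bound₂ _ (by positivity) fun v w => ?_
  rw [← iteratedFDeriv_clm_apply_const_apply hp (by exact_mod_cast le_top),
    ← iteratedFDeriv_clm_apply_const_apply (hp.clm_apply contDiff_const)
      (by exact_mod_cast le_top)]
  refine (ContinuousMultilinearMap.le_opNorm _ m).trans ?_
  have h2 := (innerSL ℝ : E4 →L[ℝ] E4 →L[ℝ] ℝ).norm_iteratedFDeriv_le_of_bilinear_of_le_one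
    (h1.clm_apply (contDiff_const (c := v))) (h1.clm_apply (contDiff_const (c := w))) x
    (n := j) (by exact_mod_cast le_top) (norm_innerSL_le ℝ)
  have h3 : ∑ i ∈ Finset.range (j + 1), (j.choose i : ℝ) *
      ‖iteratedFDeriv ℝ i (fun y => fderiv ℝ G y v) x‖ *
      ‖iteratedFDeriv ℝ (j - i) (fun y => fderiv ℝ G y w) x‖
      ≤ ∑ i ∈ Finset.range (j + 1), (j.choose i : ℝ) * ((‖v‖ * b) * (‖w‖ * b)) := by
    refine Finset.sum_le_sum fun i hi => ?_
    rw [mul_assoc]
    exact mul_le_mul_of_nonneg_left (mul_le_mul (hd v i (Nat.lt_succ_iff.1 (Finset.mem_range.1 hi)))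
      (hd w _ (Nat.sub_le _ _)) (norm_nonneg _) (by positivity)) (Nat.cast_nonneg _)
  rw [← Finset.sum_mul, ← Nat.cast_sum, Nat.sum_range_choose] at h3
  simp only [pb_apply]
  refine (mul_le_mul_of_nonneg_right (h2.trans h3) (by positivity)).trans (le_of_eq ?_)
  push_cast
  ring

end Crest.Agent.R216
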