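import Crest.Agent.R216.Patch
import Crest.Agent.R216.Cls3
import Crest.Agent.R216.Smooth1

/-! # Row 216, tempered amplitudes of a stage -/

set_option autoImplicit false
open Set Filter Metric
open scoped ContDiff RealInnerProductSpace Topology

noncomputable section
namespace Crest.Agent.R216

theorem amp_g3 {J N : Type*} {π : J → N} {μ : J → ℝ} {u v z : J → E2 → E4} (hμ : ∀ i, 1 ≤ μ i)
    (hu : Sx π μ (fun _ _ => 1) u) (hv : Sx π μ (fun _ _ => 1) v) (hz : Sx π μ (fun _ _ => 1) z) :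
    Sx π μ (fun _ _ => 1) (fun i x => g3 (u i x) (v i x) (z i x)) := by
  have uu := hu.inner1 hμ hu
  have uv := hu.inner1 hμ hv
  have uz := hu.inner1 hμ hz
  have vv := hv.inner1 hμ hv
  have vz := hv.inner1 hμ hz
  have zz := hz.inner1 hμ hz
  refine (((uu.mul1 hμ ((vv.mul1 hμ zz).sub hμ (vz.mul1 hμ vz))).sub hμ
    (uv.mul1 hμ ((uv.mul1 hμ zz).sub hμ (vz.mul1 hμ uz)))).add hμ
    (uz.mul1 hμ ((uv.mul1 hμ vz).sub hμ (vv.mul1 hμ uz)))).congr fun i x => ?_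
  simp only [g3, sq]

theorem amp_good (t : Fin 3 → Tri)
    (hgen : ∀ T T', T ≠ T' → ∀ i i', det2 ((t T).et i) ((t T').et i') ≠ 0) :
    ∃ c₃ > (0 : ℝ), ∀ (L : E2 →L[ℝ] E4) (Q : E2 →L[ℝ] E2 →L[ℝ] E4), (∀ v w, Q v w = Q w v) →
      ∀ (τ : E2) (e : ℝ), ‖τ‖ ≤ 1 → 0 < e → e ≤ g3 (L b0) (L b1) (Q τ τ) →
        ∃ T, ∀ i, c₃ * e ≤ g3 (L ((t T).es i)) (L ((t T).et i)) (Q ((t T).et i) ((t T).et i)) := by
  obtain ⟨c₀, hc₀, hc⟩ := exists_good_triple t hgen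
  have hd : ∀ T i, det2 ((t T).es i) ((t T).et i) ≠ 0 := fun T i =>
    det2_ne_zero ((t T).l_es i) ((t T).l_et i) fun h0 => by
      simpa [h0] using (t T).norm_et i
  obtain ⟨p₀, hp₀⟩ := Finite.exists_min
    fun p : Fin 3 × Fin 3 => det2 ((t p.1).es p.2) ((t p.1).et p.2) ^ 2
  have hp : 0 < det2 ((t p₀.1).es p₀.2) ((t p₀.1).et p₀.2) ^ 2 := by
    have := hd p₀.1 p₀.2
    positivity
  refine ⟨det2 ((t p₀.1).es p₀.2) ((t p₀.1).et p₀.2) ^ 2 * c₀ ^ 2, by positivity,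
    fun L Q hQ τ e hτ he hg => ?_⟩
  have h2 : g2 (L b0) (L b1) ≠ 0 := fun h0 => by
    rw [jet1_g3_zero h0] at hg
    linarith
  have h2' : 0 < g2 (L b0) (L b1) := (g2_nonneg _ _).lt_of_ne' h2
  have hL := (g2_pos_iff L).1 h2'
  let P : E4 →ₗ[ℝ] E4 :=
    { toFun := nproj (L b0) (L b1)
      map_add' := nproj_add _ _
      map_smul' := fun c z => nproj_smul _ _ z c }
  obtain ⟨T, hT⟩ := hc
    ((ContinuousLinearMap.compL ℝ E2 E4 E4 (LinearMap.toContinuousLinearMap P)).comp Q)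
    (fun v w => congrArg (nproj (L b0) (L b1)) (hQ v w)) τ hτ
  refine ⟨T, fun i => ?_⟩
  have h3 : c₀ * ‖nproj (L b0) (L b1) (Q τ τ)‖ ≤
    ‖nproj (L b0) (L b1) (Q ((t T).et i) ((t T).et i))‖ := hT i
  have h4 := pow_le_pow_left₀ (by positivity) h3 2
  have h5 : g2 (L ((t T).es i)) (L ((t T).et i)) ≠ 0 := by
    rw [g2_map]
    exact mul_ne_zero (pow_ne_zero _ (hd T i)) h2
  rw [g3_eq h2] at hg
  rw [g3_eq h5, nproj_basis hL (hd T i), g2_map]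
  calc _ ≤ det2 ((t T).es i) ((t T).et i) ^ 2 * c₀ ^ 2 *
        (g2 (L b0) (L b1) * ‖nproj (L b0) (L b1) (Q τ τ)‖ ^ 2) :=
        mul_le_mul (mul_le_mul_of_nonneg_right (hp₀ (T, i)) (by positivity)) hg he.le (by positivity)
    _ = det2 ((t T).es i) ((t T).et i) ^ 2 * g2 (L b0) (L b1) *
        (c₀ * ‖nproj (L b0) (L b1) (Q τ τ)‖) ^ 2 := by ring
    _ ≤ _ := mul_le_mul_of_nonneg_left h4 (by positivity)

theorem amp_prod {a b c d κ : ℝ} (ha : a ∈ Icc (0 : ℝ) 1) (hb : b ∈ Icc (0 : ℝ) 1)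
    (hc : c ∈ Icc (0 : ℝ) 1) (hd : d ∈ Icc (0 : ℝ) 1) (hκ : κ ∈ Icc (0 : ℝ) 1) :
    (a + κ) * ((b + κ) * (c + κ) * (d + κ)) ≤ a * (b * c * d) + 15 * κ := by
  have key : ∀ {x y e : ℝ}, x ∈ Icc (0 : ℝ) 1 → y ∈ Icc (0 : ℝ) 1 → 0 ≤ e →
      (x + e * κ) * (y + κ) ≤ x * y + (2 * e + 1) * κ := by
    intro x y e hx hy he
    have h1 : x * κ ≤ κ := mul_le_of_le_one_left hκ.1 hx.2
    have h2 : e * κ * y ≤ e * κ := mul_le_of_le_one_right (mul_nonneg he hκ.1) hy.2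
    have h3 : e * κ * κ ≤ e * κ := mul_le_of_le_one_right (mul_nonneg he hκ.1) hκ.2
    nlinarith
  have hbc : b * c ∈ Icc (0 : ℝ) 1 := ⟨mul_nonneg hb.1 hc.1, mul_le_one₀ hb.2 hc.1 hc.2⟩
  have hbcd : b * c * d ∈ Icc (0 : ℝ) 1 := ⟨mul_nonneg hbc.1 hd.1, mul_le_one₀ hbc.2 hd.1 hd.2⟩
  have h1 := key hb hc zero_le_one
  have h2 := key hbc hd (e := 2 * 1 + 1) (by norm_num)
  have h3 := key hbcd ha (e := 2 * (2 * 1 + 1) + 1) (by norm_num)
  rw [one_mul] at h1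
  have h4 := (mul_le_mul_of_nonneg_right h1 (add_nonneg hd.1 hκ.1)).trans h2
  have h5 := (mul_le_mul_of_nonneg_right h4 (add_nonneg ha.1 hκ.1)).trans h3
  linarith

theorem amp_bdd {u : E2 → ℝ} (hu : ContDiff ℝ ∞ u) : Bdd fun x => zeta x * u x :=
  Bdd.of_hasCompactSupport (zeta.contDiff.mul hu) zeta.hasCompactSupport.mul_right

theorem amp_family {c : E2} {R η : ℝ} (hR : 0 < R) (hη : 0 < η)
    (hsub : closedBall c R ⊆ closedBall 0 (3 / 2)) (t : Fin 3 → Tri)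
    (hgen : ∀ T T', T ≠ T' → ∀ i i', det2 ((t T).et i) ((t T').et i') ≠ 0) {om : E2 → ℝ}
    (hom : ContDiff ℝ ∞ om) (hom0 : ∀ x, 0 < om x) {J N : Type*} {π : J → N} {μ : J → ℝ}
    (hμ : ∀ p, 1 ≤ μ p) (nn : N → ℕ) {G : J → E2 → E4} {h : J → E2 → Bil}
    (hG : Sx π μ (fun _ _ => 1) G) (hh : Sx π μ (fun _ _ => 1) h)
    (hsym : ∀ p x v w, h p x v w = h p x w v)
    (hcone : ∀ p, ∀ x ∈ closedBall c R, ∀ T i, η ≤ (t T).Λ i (h p x))
    (hnd : ∀ p, ∀ x ∈ closedBall c R, ∃ τ : E2, ‖τ‖ ≤ 1 ∧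
      (μ p)⁻¹ ≤ g3 (fderiv ℝ (G p) x b0) (fderiv ℝ (G p) x b1) (d2 (G p) x τ τ)) :
    ∃ c₃ > (0 : ℝ), ∃ a : Fin 3 → Fin 3 → J → E2 → ℝ,
      (∀ T i, Sx π μ (fun p x => |a T i p x| + (μ p ^ nn (π p))⁻¹) (a T i)) ∧
      (∀ T i, Sx π μ (fun _ _ => 1) (a T i)) ∧
      (∀ T i p, tsupport (a T i p) ⊆ closedBall c R) ∧
      (∀ T i p, ∀ x ∈ tsupport (a T i p), c₃ / (2 * μ p) ≤ g3 (fderiv ℝ (G p) x ((t T).es i))
        (fderiv ℝ (G p) x ((t T).et i)) (d2 (G p) x ((t T).et i) ((t T).et i))) ∧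
      ∀ p x, ∑ T, ∑ i, a T i p x ^ 2 • sq2 ((t T).l i)
        = (expNegInvGlue (R ^ 2 - ‖x - c‖ ^ 2) * om x) ^ 2 • h p x := by
  obtain ⟨c₃, hc₃, hgood⟩ := amp_good t hgen
  obtain ⟨om₀, hom₀, hom₁⟩ := (isCompact_closedBall c R).exists_forall_le'
    hom.continuous.continuousOn fun x _ => hom0 x
  have hμ0 : ∀ p, 0 < μ p := fun p => zero_lt_one.trans_le (hμ p)
  have hz : ∀ x ∈ closedBall c R, zeta x = 1 := fun x hx =>
    zeta_eq_one (closedBall_subset_closedBall (by norm_num) (hsub hx))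
  have hΘ : ∀ y, expNegInvGlue y ∈ Icc (0 : ℝ) 1 := fun y =>
    ⟨expNegInvGlue.nonneg y, expNegInvGlue_le_one y⟩
  have hκ : ∀ p, (μ p ^ nn (π p))⁻¹ ∈ Icc (0 : ℝ) 1 := fun p =>
    ⟨(inv_pos.2 (pow_pos (hμ0 p) _)).le, inv_le_one_of_one_le₀ (one_le_pow₀ (hμ p))⟩
  have hout : ∀ x, x ∉ closedBall c R → R ^ 2 - ‖x - c‖ ^ 2 ≤ 0 := fun x hx => by
    rw [mem_closedBall_iff_norm, not_le] at hx
    nlinarith
  -- the Gram determinants
  obtain ⟨γ, hγ⟩ : ∃ γ : Fin 3 → Fin 3 → J → E2 → ℝ, ∀ T i p x, γ T i p x =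
      g3 (fderiv ℝ (G p) x ((t T).es i)) (fderiv ℝ (G p) x ((t T).et i))
        (d2 (G p) x ((t T).et i) ((t T).et i)) := ⟨_, fun _ _ _ _ => rfl⟩
  have sγ : ∀ T i, Sx π μ (fun _ _ => 1) (γ T i) := fun T i =>
    (amp_g3 hμ (hG.dir' ((t T).es i)) (hG.dir' ((t T).et i))
      ((hG.dir' ((t T).et i)).dir' ((t T).et i))).congr fun p x => by
        rw [hγ, d2_apply (hG.smooth p).contDiffAt]
  have s1 : Sx π μ (fun _ _ => 1) (fun (_ : J) (_ : E2) => (1 : ℝ)) :=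
    (Sy.const hμ fun _ => (1 : ℝ)).toSx.mono fun _ _ => by simp
  obtain ⟨y, hy⟩ : ∃ y : Fin 3 → Fin 3 → J → E2 → ℝ, ∀ T i p x, y T i p x =
      2 / c₃ * μ p * γ T i p x - 1 := ⟨_, fun _ _ _ _ => rfl⟩
  have sy : ∀ T i, Sx π μ (fun _ _ => 1) (y T i) := fun T i =>
    ((cls3_smul hμ (sγ T i) (fun p => 2 / c₃ * μ p) (fun _ => 2 / c₃) 1 fun p => by
      have := hμ0 p
      rw [pow_one, abs_of_pos (by positivity)]).sub hμ s1).congr fun p x => by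
        rw [hy, smul_eq_mul]
  have sθ := fun T i => (sy T i).theta hμ nn
  have one_of : ∀ {f : J → E2 → ℝ} {g : J → E2 → ℝ},
      Sx π μ (fun p x => expNegInvGlue (g p x) + (μ p ^ nn (π p))⁻¹) f →
      Sx π μ (fun _ _ => 1) f := fun hf =>
    hf.of_le hμ (fun _ _ => zero_le_one) 0 (fun _ => 2) fun p x => by
      have h1 := (hκ p).2
      rw [pow_zero]
      exact (add_le_add (hΘ _).2 h1).trans (by norm_num)
  obtain ⟨u, hu⟩ : ∃ u : Fin 3 → J → E2 → ℝ, ∀ T p x, u T p x =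
      expNegInvGlue (y T 0 p x) * expNegInvGlue (y T 1 p x) * expNegInvGlue (y T 2 p x) :=
    ⟨_, fun _ _ _ => rfl⟩
  have hu01 : ∀ T p x, u T p x ∈ Icc (0 : ℝ) 1 := fun T p x => by
    rw [hu]
    exact ⟨mul_nonneg (mul_nonneg (hΘ _).1 (hΘ _).1) (hΘ _).1,
      mul_le_one₀ (mul_le_one₀ (hΘ _).2 (hΘ _).1 (hΘ _).2) (hΘ _).1 (hΘ _).2⟩
  have su := fun T => (((sθ T 0).mul hμ (sθ T 1)).mul hμ (sθ T 2)).congr fun p x => (hu T p x).symm
  have su1 : ∀ T, Sx π μ (fun _ _ => 1) (u T) := fun T =>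
    (((one_of (sθ T 0)).mul1 hμ (one_of (sθ T 1))).mul1 hμ (one_of (sθ T 2))).congr
      fun p x => (hu T p x).symm
  have hΘ1 : 0 < expNegInvGlue 1 := expNegInvGlue.pos_of_pos one_pos
  obtain ⟨ρ, sρ, -, hρ⟩ := (Sx.sum Finset.univ hμ (fun _ _ => zero_le_one)
    fun T _ => (su1 T).mul1 hμ (su1 T)).rsqrt hμ (fun _ => ((expNegInvGlue 1 ^ 3) ^ 2)⁻¹)
      (fun _ => by positivity) 0
  have hlow : ∀ p, ∀ x ∈ closedBall c R,
      (expNegInvGlue 1 ^ 3) ^ 2 ≤ ∑ T, u T p x * u T p x := fun p x hx => by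
    obtain ⟨τ, h1, h2⟩ := hnd p x hx
    obtain ⟨T, hT⟩ := hgood _ _ (d2_symm (hG.smooth p).contDiffAt) τ _ h1 (inv_pos.2 (hμ0 p)) h2
    have h3 : ∀ i, expNegInvGlue 1 ≤ expNegInvGlue (y T i p x) := fun i => by
      refine expNegInvGlue.monotone ?_
      have h4 := mul_le_mul_of_nonneg_left (hT i)
        (by have := hμ0 p; positivity : 0 ≤ 2 / c₃ * μ p)
      have h5 : 2 / c₃ * μ p * (c₃ * (μ p)⁻¹) = 2 := by
        have := (hμ0 p).ne'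
        field_simp
      rw [hy, hγ]
      linarith
    have h4 : expNegInvGlue 1 ^ 3 ≤ u T p x := by
      rw [hu, pow_three']
      exact mul_le_mul (mul_le_mul (h3 0) (h3 1) hΘ1.le (hΘ _).1) (h3 2) hΘ1.le
        (mul_nonneg (hΘ _).1 (hΘ _).1)
    refine le_trans ?_ (Finset.single_le_sum (f := fun T => u T p x * u T p x)
      (fun T _ => mul_self_nonneg _) (Finset.mem_univ T))
    rw [← sq]
    exact pow_le_pow_left₀ (by positivity) h4 2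
  have hρ' : ∀ p, ∀ x ∈ closedBall c R, ρ p x = (√(∑ T, u T p x * u T p x))⁻¹ := fun p x hx =>
    hρ p x (by simpa using hlow p x hx)
  have hpos : ∀ p, ∀ x ∈ closedBall c R, 0 < ∑ T, u T p x * u T p x := fun p x hx =>
    lt_of_lt_of_le (by positivity) (hlow p x hx)
  have hσ := fun T i => (hh.clm ((t T).Λ i)).rsqrt hμ (fun _ => η⁻¹) (fun _ => by positivity) 0
  choose σ sσ _ hσ using hσ
  have hs : ∀ T i p, ∀ x ∈ closedBall c R,
      (t T).Λ i (h p x) * σ T i p x = √((t T).Λ i (h p x)) := fun T i p x hx => by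
    rw [hσ T i p x (by simpa using hcone p x hx T i), ← div_eq_mul_inv, Real.div_sqrt]
  have sΘ := ((Sx.fixed (π := π) hμ (amp_bdd (u := fun x => R ^ 2 - ‖x - c‖ ^ 2)
    (contDiff_const.sub ((contDiff_id.sub contDiff_const).norm_sq ℝ)))).theta hμ nn)
  have hΘ0 : ∀ x, expNegInvGlue (zeta x * (R ^ 2 - ‖x - c‖ ^ 2)) =
      expNegInvGlue (R ^ 2 - ‖x - c‖ ^ 2) := fun x => by
    by_cases hx : x ∈ closedBall c R
    · rw [hz x hx, one_mul]
    · rw [expNegInvGlue.zero_of_nonpos (hout x hx), expNegInvGlue.zero_of_nonpos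
        (mul_nonpos_of_nonneg_of_nonpos (zeta.nonneg' x) (hout x hx))]
  simp only [hΘ0] at sΘ
  obtain ⟨v, hv⟩ : ∃ v : Fin 3 → Fin 3 → J → E2 → ℝ, ∀ T i p x, v T i p x =
      zeta x * om x * ρ p x * ((t T).Λ i (h p x) * σ T i p x) := ⟨_, fun _ _ _ _ => rfl⟩
  have sv : ∀ T i, Sx π μ (fun _ _ => 1) (v T i) := fun T i =>
    (((Sx.fixed hμ (amp_bdd hom)).mul1 hμ sρ).mul1 hμ
      ((hh.clm ((t T).Λ i)).mul1 hμ (sσ T i))).congr fun p x => (hv T i p x).symm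
  have hv' : ∀ T i p, ∀ x ∈ closedBall c R, v T i p x =
      om x * (√(∑ T, u T p x * u T p x))⁻¹ * √((t T).Λ i (h p x)) := fun T i p x hx => by
    rw [hv, hz x hx, one_mul, hρ' p x hx, hs T i p x hx]
  have hvl : ∀ T i p, ∀ x ∈ closedBall c R, om₀ * 2⁻¹ * √η ≤ v T i p x := fun T i p x hx => by
    rw [hv' T i p x hx]
    have h1 : √(∑ T, u T p x * u T p x) ≤ 2 := by
      refine Real.sqrt_le_iff.2 ⟨by norm_num, ?_⟩
      refine (Finset.sum_le_card_nsmul _ _ 1 fun T _ =>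
        mul_le_one₀ (hu01 T p x).2 (hu01 T p x).1 (hu01 T p x).2).trans (by norm_num)
    have h2 := Real.sqrt_pos.2 (hpos p x hx)
    have h3 := hom0 x
    exact mul_le_mul (mul_le_mul (hom₁ x hx) (inv_anti₀ h2 h1) (by norm_num) h3.le)
      (Real.sqrt_le_sqrt (hcone p x hx T i)) (Real.sqrt_nonneg _) (by positivity)
  have hv0 : 0 < om₀ * 2⁻¹ * √η := by have := Real.sqrt_pos.2 hη; positivity
  have hzero : ∀ T i p x, x ∉ closedBall c R →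
      expNegInvGlue (R ^ 2 - ‖x - c‖ ^ 2) * u T p x * v T i p x = 0 := fun T i p x hx => by
    rw [expNegInvGlue.zero_of_nonpos (hout x hx), zero_mul, zero_mul]
  refine ⟨c₃, hc₃, fun T i p x => expNegInvGlue (R ^ 2 - ‖x - c‖ ^ 2) * u T p x * v T i p x,
    fun T i => ?_, fun T i => ((one_of sΘ).mul1 hμ (su1 T)).mul1 hμ (sv T i), fun T i p => ?_,
    fun T i p => ?_, fun p x => ?_⟩
  · obtain ⟨K, hK⟩ := (sΘ.mul hμ (su T)).mul hμ (sv T i)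
    refine Sx.of_le hμ ⟨K, hK.indicator (Z := fun _ => closedBall c R) (fun _ => isClosed_closedBall)
      fun p x => hzero T i p x⟩ (fun p x => add_nonneg (abs_nonneg _) (hκ p).1) 0
      (fun _ => (om₀ * 2⁻¹ * √η)⁻¹ + 15) fun p x => ?_
    have h0 := (hκ p).1
    by_cases hx : x ∈ closedBall c R
    · rw [indicator_of_mem hx, mul_one, pow_zero, mul_one]
      refine (amp_prod (hΘ _) (hΘ _) (hΘ _) (hΘ _) (hκ p)).trans ?_
      rw [← hu]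
      have h1 : 0 ≤ expNegInvGlue (R ^ 2 - ‖x - c‖ ^ 2) * u T p x :=
        mul_nonneg (hΘ _).1 (hu01 T p x).1
      have h2 := (mul_le_mul_of_nonneg_left (hvl T i p x hx) h1).trans (le_abs_self _)
      rw [← le_div_iff₀ hv0, div_eq_inv_mul] at h2
      have h3 := abs_nonneg (expNegInvGlue (R ^ 2 - ‖x - c‖ ^ 2) * u T p x * v T i p x)
      have h4 := mul_nonneg (inv_pos.2 hv0).le h0
      nlinarith
    · rw [indicator_of_notMem hx]
      positivity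
  · exact closure_minimal (fun x hx => by_contra fun hx' => hx (hzero T i p x hx'))
      isClosed_closedBall
  · have h1 : tsupport (fun x => expNegInvGlue (R ^ 2 - ‖x - c‖ ^ 2) * u T p x * v T i p x) ⊆
        {x | 0 ≤ y T i p x} := by
      refine closure_minimal (fun x hx => by_contra fun hx' => hx ?_)
        (isClosed_le continuous_const ((sy T i).smooth p).continuous)
      have h2 := expNegInvGlue.zero_of_nonpos (not_le.1 hx').le
      have h3 : u T p x = 0 := by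
        rw [hu]
        fin_cases i <;> simp_all
      simp only [h3, mul_zero, zero_mul]
    intro x hx
    have h2 : 0 ≤ y T i p x := h1 hx
    have h3 := hμ0 p
    rw [hy, sub_nonneg, div_mul_eq_mul_div, div_mul_eq_mul_div, one_le_div hc₃] at h2
    rw [← hγ, div_le_iff₀ (by positivity)]
    linarith
  · by_cases hx : x ∈ closedBall c R
    · have h1 : ∀ T, ∑ i, (expNegInvGlue (R ^ 2 - ‖x - c‖ ^ 2) * u T p x * v T i p x) ^ 2 •
          sq2 ((t T).l i) = ((expNegInvGlue (R ^ 2 - ‖x - c‖ ^ 2) * om x) ^ 2 *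
            (∑ T, u T p x * u T p x)⁻¹ * (u T p x * u T p x)) • h p x := fun T => by
        conv_rhs => rw [(t T).decomp (h p x) (hsym p x), Finset.smul_sum]
        refine Finset.sum_congr rfl fun i _ => ?_
        rw [smul_smul, hv' T i p x hx]
        simp only [mul_pow, inv_pow, Real.sq_sqrt (hpos p x hx).le,
          Real.sq_sqrt (hη.le.trans (hcone p x hx T i))]
        congr 1
        ring
      simp only [h1]
      rw [← Finset.sum_smul, ← Finset.mul_sum, inv_mul_cancel_right₀ (hpos p x hx).ne']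
    · refine ContinuousLinearMap.ext fun v => ContinuousLinearMap.ext fun w => ?_
      simp [expNegInvGlue.zero_of_nonpos (hout x hx)]

/-- **Amplitudes.**  Universal family with outer index `(n, B)`.  `γ T i = g3 (DG es) (DG et)
(d2 G et et)` is in `Sx 1` (`d2_apply`).  On the disc some `T` has `γ T i ≥ c₃ / m` for all `i`
(`g3_eq`, `g2_map`, `nproj_basis`, `exists_good_triple` applied to `Q = P ∘ d2 G`, `P` the linear
map `nproj (DG b0) (DG b1)`; `g3 > 0` gives `g2 > 0`).  `u T = Π_i Θ (2 m γ T i / c₃ - 1)`,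
`ρ = Sx.rsqrt (Σ_T (u T)²)` (threshold `Θ(1)^6`), `s T i = Λ h * Sx.rsqrt (Λ h)` (threshold `η`),
`a T i = Θ(R² - ‖x-c‖²) * u T * (zeta om * ρ * s T i)`.  To see `Θ(R² - ‖x-c‖²)` as `Θ ∘ (Bdd)` use
`zeta x * (R² - ‖x-c‖²)`.  Weights: `Sx.theta` four times, `Π (Θ_i + κ) ≤ Π Θ_i + 15 κ`
(`expNegInvGlue_le_one`), and on the disc the last factor is bounded below by a fixed constant; off
the closed disc `a = 0` (`Bd.indicator`).  On `tsupport (a T i)`, `2 m γ / c₃ ≥ 1`. -/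
theorem exists_amp {c : E2} {R η : ℝ} (hR : 0 < R) (hη : 0 < η)
    (hsub : closedBall c R ⊆ closedBall 0 (3 / 2)) (t : Fin 3 → Tri)
    (hgen : ∀ T T', T ≠ T' → ∀ i i', det2 ((t T).et i) ((t T').et i') ≠ 0) {om : E2 → ℝ}
    (hom : ContDiff ℝ ∞ om) (hom0 : ∀ x, 0 < om x) :
    ∃ (k : ℕ) (m₀ : ℝ), 1 ≤ k ∧ ∀ (n : ℕ) (B : ℕ → ℝ), ∃ B' : ℕ → ℝ,
      ∀ (m : ℝ) (G : E2 → E4) (h : E2 → Bil), m₀ ≤ m → Bd B m (fun _ => m) G →
        Bd B m (fun _ => m) h → (∀ x v w, h x v w = h x w v) →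
        (∀ x ∈ closedBall c R, ∀ T i, η ≤ (t T).Λ i (h x)) →
        (∀ x ∈ closedBall c R, ∃ τ : E2, ‖τ‖ ≤ 1 ∧
          m⁻¹ ≤ g3 (fderiv ℝ G x b0) (fderiv ℝ G x b1) (d2 G x τ τ)) →
        ∃ a : Fin 3 → Fin 3 → E2 → ℝ,
          (∀ T i, Bd B' (m ^ k) (fun x => (|a T i x| + (m ^ n)⁻¹) * m ^ k) (a T i)) ∧
          (∀ T i x, |a T i x| ≤ B' 0 * m ^ k) ∧
          (∀ T i, tsupport (a T i) ⊆ closedBall c R) ∧
          (∀ T i, ∀ x ∈ tsupport (a T i), (m ^ k)⁻¹ ≤ g3 (fderiv ℝ G x ((t T).es i))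
            (fderiv ℝ G x ((t T).et i)) (d2 G x ((t T).et i) ((t T).et i))) ∧
          ∀ x, ∑ T, ∑ i, a T i x ^ 2 • sq2 ((t T).l i)
            = (expNegInvGlue (R ^ 2 - ‖x - c‖ ^ 2) * om x) ^ 2 • h x := by
  let J := {p : (ℕ × (ℕ → ℝ)) × ℝ × (E2 → E4) × (E2 → Bil) //
    Bd p.1.2 p.2.1 (fun _ => p.2.1) p.2.2.1 ∧ Bd p.1.2 p.2.1 (fun _ => p.2.1) p.2.2.2 ∧
    (∀ x v w, p.2.2.2 x v w = p.2.2.2 x w v) ∧
    (∀ x ∈ closedBall c R, ∀ T i, η ≤ (t T).Λ i (p.2.2.2 x)) ∧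
    ∀ x ∈ closedBall c R, ∃ τ : E2, ‖τ‖ ≤ 1 ∧
      (p.2.1)⁻¹ ≤ g3 (fderiv ℝ p.2.2.1 x b0) (fderiv ℝ p.2.2.1 x b1) (d2 p.2.2.1 x τ τ)}
  have hμ : ∀ p : J, 1 ≤ p.1.2.1 := fun p => p.2.1.one_le
  obtain ⟨c₃, hc₃, a, h1, h2, h3, h4, h5⟩ := amp_family hR hη hsub t hgen hom hom0
    (π := fun p : J => p.1.1) (μ := fun p => p.1.2.1) hμ Prod.fst
    (G := fun p => p.1.2.2.1) (h := fun p => p.1.2.2.2)
    (Sx.of_Bd_pow (B := Prod.snd) hμ (fun _ _ => zero_le_one) 1 1 fun p => by simpa using p.2.1)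
    (Sx.of_Bd_pow (B := Prod.snd) hμ (fun _ _ => zero_le_one) 1 1 fun p => by simpa using p.2.2.1)
    (fun p => p.2.2.2.1) (fun p => p.2.2.2.2.1) fun p => p.2.2.2.2.2
  choose k₁ hk₁ using fun T i => (h1 T i).toBd hμ
  choose k₂ C hC hk₂ using fun T i => (h2 T i).norm_le
  obtain ⟨k, hk⟩ : ∃ k, ∀ T i, 2 ≤ k ∧ k₁ T i ≤ k ∧ k₂ T i ≤ k := by
    obtain ⟨k, hk⟩ := (Set.finite_range fun p : Fin 3 × Fin 3 => k₁ p.1 p.2 + k₂ p.1 p.2).bddAbove
    refine ⟨k + 2, fun T i => ?_⟩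
    have : k₁ T i + k₂ T i ≤ k := hk ⟨(T, i), rfl⟩
    omega
  choose D hD using fun T i => hk₁ T i k (hk T i).2.1
  refine ⟨k, 2 / c₃, by have := (hk 0 0).1; omega, fun n B =>
    ⟨fun j => ∑ p : Fin 3 × Fin 3, (|D p.1 p.2 (n, B) j| + |C p.1 p.2 (n, B)|),
      fun m G h hm hG hh hs hc hn => ?_⟩⟩
  let p : J := ⟨((n, B), m, G, h), hG, hh, hs, hc, hn⟩
  have hm1 : 1 ≤ m := hG.one_le
  have hle : ∀ T i j, |D T i (n, B) j| + |C T i (n, B)| ≤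
      ∑ p : Fin 3 × Fin 3, (|D p.1 p.2 (n, B) j| + |C p.1 p.2 (n, B)|) := fun T i j =>
    Finset.single_le_sum (f := fun p : Fin 3 × Fin 3 => |D p.1 p.2 (n, B) j| + |C p.1 p.2 (n, B)|)
      (fun _ _ => by positivity) (Finset.mem_univ (T, i))
  refine ⟨fun T i => a T i p, fun T i => (hD T i p).mono (fun j => ?_) le_rfl fun _ => le_rfl,
    fun T i x => (hk₂ T i p x).trans ?_, fun T i => h3 T i p,
    fun T i x hx => le_trans ?_ (h4 T i p x hx), h5 p⟩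
  · exact ((le_abs_self _).trans (le_add_of_nonneg_right (abs_nonneg _))).trans (hle T i j)
  · rw [mul_one]
    exact mul_le_mul (((le_abs_self _).trans (le_add_of_nonneg_left (abs_nonneg _))).trans
      (hle T i 0)) (pow_le_pow_right₀ hm1 (hk T i).2.2) (by positivity)
      (Finset.sum_nonneg fun _ _ => by positivity)
  · refine (inv_anti₀ (by positivity) (pow_le_pow_right₀ hm1 (hk T i).1)).trans ?_
    show (m ^ 2)⁻¹ ≤ c₃ / (2 * m)
    rw [div_le_iff₀ hc₃] at hm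
    rw [inv_eq_one_div, div_le_div_iff₀ (by positivity) (by positivity)]
    nlinarith

end Crest.Agent.R216
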