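import Crest.Agent.R216.Jet2

/-! # Row 216, tensors on the atlas, the steps -/

set_option autoImplicit false
set_option maxSynthPendingDepth 3
open Set Filter Metric
open scoped ContDiff RealInnerProductSpace Topology

noncomputable section
namespace Crest.Agent.R216

namespace Atl

variable {M : Type*} [TopologicalSpace M] {A : Atl E2 M}
  {W : Type*} [NormedAddCommGroup W] [InnerProductSpace ℝ W]

theorem Ten.add {H H' : A.ι → E2 → Bil} (h : A.Ten H) (h' : A.Ten H') :
    A.Ten (fun a x => H a x + H' a x) := by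
  refine ⟨fun a => (h.smooth a).add (h'.smooth a), fun a x v w => ?_, fun a b x hx v w => ?_⟩
  · simp only [add_apply]
    rw [h.symm, h'.symm]
  · simp only [add_apply]
    rw [h.compat a b x hx, h'.compat a b x hx]

theorem Ten.sub {H H' : A.ι → E2 → Bil} (h : A.Ten H) (h' : A.Ten H') :
    A.Ten (fun a x => H a x - H' a x) := by
  refine ⟨fun a => (h.smooth a).sub (h'.smooth a), fun a x v w => ?_, fun a b x hx v w => ?_⟩
  · simp only [sub_apply]
    rw [h.symm, h'.symm]
  · simp only [sub_apply]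
    rw [h.compat a b x hx, h'.compat a b x hx]

theorem Ten.smul {f : M → ℝ} (hf : A.Sm f) {H : A.ι → E2 → Bil} (h : A.Ten H) :
    A.Ten (fun a x => f (A.p a x) • H a x) := by
  refine ⟨fun a => (hf a).smul (h.smooth a), fun a x v w => ?_, fun a b x hx v w => ?_⟩
  · simp only [smul_apply]
    rw [h.symm]
  · simp only [smul_apply]
    rw [h.compat a b x hx, p_T hx]

theorem Ten.const_smul (c : ℝ) {H : A.ι → E2 → Bil} (h : A.Ten H) :
    A.Ten (fun a x => c • H a x) := by
  exact Ten.smul (Sm.const c) h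

theorem Ten.sum {κ : Type*} (s : Finset κ) {H : κ → A.ι → E2 → Bil} (h : ∀ k ∈ s, A.Ten (H k)) :
    A.Ten (fun a x => ∑ k ∈ s, H k a x) := by
  refine ⟨fun a => ContDiff.sum fun k hk => (h k hk).smooth a, fun a x v w => ?_,
    fun a b x hx v w => ?_⟩
  · simp only [sum_apply]
    exact Finset.sum_congr rfl fun k hk => (h k hk).symm a x v w
  · simp only [sum_apply]
    exact Finset.sum_congr rfl fun k hk => (h k hk).compat a b x hx v w

theorem Ten_pull {F : M → W} (hF : A.Sm F) : A.Ten (A.pull F) := by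
  refine ⟨fun a => contDiff_pb (hF a), fun a x v w => ?_, fun a b x hx v w => ?_⟩
  · simp only [pull, pb_apply]
    exact real_inner_comm _ _
  · simp only [pull, pb_apply]
    rw [hF.fderiv_chart hx]
    rfl

theorem Met_pull {F : M → W} (hF : A.Sm F) (hi : A.Imm F) : A.Met (A.pull F) := by
  refine ⟨Ten_pull hF, fun a x v hv => ?_⟩
  simp only [pull, pb_apply]
  exact real_inner_self_pos.2 fun h => hv (hi a x (h.trans (map_zero _).symm))

theorem Imm_of_Met {F : M → W} (h : A.Met (A.pull F)) : A.Imm F := by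
  intro a x
  refine (injective_iff_map_eq_zero _).2 fun v hv => ?_
  by_contra h0
  have := h.pos a x v h0
  simp only [pull, pb_apply, hv, inner_zero_left] at this
  exact lt_irrefl _ this

theorem Ten.ext {H H' : A.ι → E2 → Bil} (h : A.Ten H) (h' : A.Ten H')
    (he : ∀ a x, ‖x‖ < 1 → H a x = H' a x) : H = H' := by
  funext a x
  obtain ⟨b, hb, hb'⟩ := A.cover (A.p a x)
  ext v w
  rw [h.compat a b x hb, h'.compat a b x hb, he b (A.T a b x) hb']

@[simp] theorem pushT_self (a : A.ι) (h : E2 → Bil) (x : E2) : A.pushT a h a x = h x := by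
  ext v w
  simp [pushT]

theorem pushT_eq_zero (a : A.ι) {h : E2 → Bil} {K : Set E2} (hK : ∀ x, x ∉ K → h x = 0)
    {b : A.ι} {x : E2} (hx : A.p b x ∉ A.p a '' K) : A.pushT a h b x = 0 := by
  unfold pushT
  split_ifs with hm
  · rw [hK _ fun hk => hx ⟨_, hk, p_T hm⟩]
    ext v w
    simp
  · rfl

theorem pushT_add (a : A.ι) (h h' : E2 → Bil) (b : A.ι) (x : E2) :
    A.pushT a (fun z => h z + h' z) b x = A.pushT a h b x + A.pushT a h' b x := by
  unfold pushT
  split_ifs with hm
  · ext v w
    simp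
  · simp

theorem pushT_sum {κ : Type*} (s : Finset κ) (a : A.ι) (h : κ → E2 → Bil) (b : A.ι) (x : E2) :
    A.pushT a (fun z => ∑ k ∈ s, h k z) b x = ∑ k ∈ s, A.pushT a (h k) b x := by
  unfold pushT
  split_ifs with hm
  · ext v w
    simp
  · simp

theorem atl2_bilinearComp {B : E2 → Bil} {L : E2 → E2 →L[ℝ] E2} {x : E2}
    (hB : ContDiffAt ℝ ∞ B x) (hL : ContDiffAt ℝ ∞ L x) :
    ContDiffAt ℝ ∞ (fun z => (B z).bilinearComp (L z) (L z)) x := by
  have hf := (ContinuousLinearMap.flipₗᵢ ℝ E2 E2 ℝ).contDiff (n := ∞)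
  have h1 : ContDiffAt ℝ ∞ (fun z => ((B z).comp (L z)).flip) x :=
    hf.contDiffAt.comp x (hB.clm_comp hL)
  exact hf.contDiffAt.comp x (h1.clm_comp hL)

/-- `contDiff_extend` for smoothness, `fderiv_T_comp` for compatibility -/
theorem Ten_pushT [T2Space M] (a : A.ι) {h : E2 → Bil} (hh : ContDiff ℝ ∞ h)
    (hc : HasCompactSupport h) (hs : ∀ x v w, h x v w = h x w v) : A.Ten (A.pushT a h) := by
  refine ⟨fun b => ?_, fun b x v w => ?_, fun b c x hx v w => ?_⟩
  · refine A.contDiff_extend a b hc.isCompact (fun x hx => ?_) (fun x hx hk => ?_) fun x hx => ?_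
    · have hT := contDiffAt_T hx
      have hD : ContDiffAt ℝ ∞ (fderiv ℝ (A.T b a)) x := hT.fderiv_right (by simp)
      have h1 : ContDiffAt ℝ ∞ (fun z => h (A.T b a z)) x := hh.contDiffAt.comp x hT
      refine (atl2_bilinearComp h1 hD).congr_of_eventuallyEq ?_
      filter_upwards [(A.isOpen_O b a).mem_nhds hx] with z hz
      simp only [pushT, if_pos hz]
    · simp only [pushT, if_pos hx, image_eq_zero_of_notMem_tsupport hk]
      ext v w
      simp
    · simp only [pushT, if_neg hx]
  · unfold pushT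
    split_ifs with hm
    · simp only [ContinuousLinearMap.bilinearComp_apply]
      exact hs _ _ _
    · rfl
  · have e : A.T b c x ∈ A.O c a ↔ x ∈ A.O b a := by
      simp only [O, mem_preimage, p_T hx]
    by_cases hm : x ∈ A.O b a
    · have e2 : A.T c a (A.T b c x) = A.T b a x := congrArg (A.e a) (p_T hx)
      simp only [pushT, if_pos hm, if_pos (e.2 hm), ContinuousLinearMap.bilinearComp_apply]
      rw [fderiv_T_comp hx hm, e2]
      rfl
    · simp only [pushT, if_neg hm, if_neg (mt e.1 hm)]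
      rfl

/-- localisation of a tensor with a function `θ` given in chart `a` -/
theorem Ten.pushT_smul {H : A.ι → E2 → Bil} (h : A.Ten H) (a : A.ι) (θ : E2 → ℝ) (b : A.ι)
    (x : E2) : A.pushT a (fun z => θ z • H a z) b x = A.push a θ (A.p b x) • H b x := by
  by_cases hm : x ∈ A.O b a
  · rw [A.push_p_of_mem θ hm]
    ext v w
    simp only [pushT, if_pos hm, ContinuousLinearMap.bilinearComp_apply, smul_apply]
    rw [h.compat b a x hm]
  · have hm' : A.p b x ∉ (A.e a).source := hm
    simp only [pushT, if_neg hm, push, if_neg hm', zero_smul]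

/-- changing `F` inside a compact part of chart `a` -/
theorem pull_add_push [T2Space M] {F : M → W} (hF : A.Sm F) (a : A.ι) {V : E2 → W}
    (hV : ContDiff ℝ ∞ V) (hc : HasCompactSupport V) (b : A.ι) (x : E2) :
    A.pull (fun y => F y + A.push a V y) b x = A.pull F b x +
      A.pushT a (fun z => pb (fun z => F (A.p a z) + V z) z - pb (fun z => F (A.p a z)) z) b x := by
  by_cases hm : x ∈ A.O b a
  · have hG := hF.add (A.Sm_push a hV hc)
    ext v w
    simp only [add_apply, pushT, if_pos hm, ContinuousLinearMap.bilinearComp_apply, sub_apply]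
    rw [(Ten_pull hG).compat b a x hm, (Ten_pull hF).compat b a x hm]
    simp only [pull, push_p]
    ring
  · have hx : A.p b x ∉ A.p a '' tsupport V := by
      rintro ⟨z, -, hz⟩
      exact hm (show A.p b x ∈ (A.e a).source from hz ▸ A.p_mem a z)
    have ev := A.push_eventually_zero a b hc.isCompact
      (fun z hz => image_eq_zero_of_notMem_tsupport hz) hx
    simp only [pushT, if_neg hm, add_zero, pull]
    refine (pb_congr ?_).eq_of_nhds
    filter_upwards [ev] with z hz
    rw [hz, add_zero]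

@[simp] theorem vec_self (a : A.ι) (v x : E2) : A.vec a v a x = v := by
  simp [vec]

theorem vec_trans {a b c : A.ι} (v : E2) {x : E2} (ha : x ∈ A.O b a) (hc : x ∈ A.O b c) :
    fderiv ℝ (A.T b c) x (A.vec a v b x) = A.vec a v c (A.T b c x) := by
  have hz : A.T b a x ∈ A.O a b := T_mem_O ha
  have hz' : A.T b a x ∈ A.O a c := by
    simp only [O, mem_preimage, p_T ha]
    exact hc
  have e2 : A.T c a (A.T b c x) = A.T b a x := congrArg (A.e a) (p_T hc)
  unfold vec
  rw [e2, fderiv_T_comp hz hz', T_T ha]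
  rfl

theorem vec_ne_zero {a b : A.ι} {v : E2} (hv : v ≠ 0) {x : E2} (ha : x ∈ A.O b a) :
    A.vec a v b x ≠ 0 := by
  exact fun h => hv (fderiv_T_injective (T_mem_O ha) (h.trans (map_zero _).symm))

theorem continuousAt_vec {a b : A.ι} (v : E2) {x : E2} (ha : x ∈ A.O b a) :
    ContinuousAt (A.vec a v b) x := by
  have hD : ContDiffAt ℝ ∞ (fderiv ℝ (A.T a b)) (A.T b a x) :=
    (contDiffAt_T (T_mem_O ha)).fderiv_right (by simp)
  exact (ContinuousAt.comp (f := A.T b a) hD.continuousAt
    (contDiffAt_T ha).continuousAt).clm_apply continuousAt_const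

end Atl

namespace Steps

variable {M : Type*} [TopologicalSpace M] {A : Atl E2 M} (S : Steps A)

theorem contDiff_am (j : Fin S.J) : ContDiff ℝ ∞ (S.am j) := by
  exact (expNegInvGlue.contDiff.comp
    (contDiff_const.sub ((contDiff_id.sub contDiff_const).norm_sq ℝ))).mul (S.b_smooth j)

theorem am_pos {j : Fin S.J} {x : E2} (hx : x ∈ ball (S.c j) (S.r j)) : 0 < S.am j x := by
  rw [mem_ball_iff_norm] at hx
  refine mul_pos (expNegInvGlue.pos_of_pos ?_) (S.b_pos j x)
  have := norm_nonneg (x - S.c j)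
  nlinarith

theorem am_eq_zero {j : Fin S.J} {x : E2} (hx : x ∉ ball (S.c j) (S.r j)) : S.am j x = 0 := by
  rw [mem_ball_iff_norm, not_lt] at hx
  unfold am
  rw [expNegInvGlue.zero_of_nonpos, zero_mul]
  have := S.r_pos j
  nlinarith

theorem isCompact_D (j : Fin S.J) : IsCompact (S.D j) := by
  exact A.isCompact_image_p _ (isCompact_closedBall _ _)

theorem isOpen_Do (j : Fin S.J) : IsOpen (S.Do j) := by
  exact A.isOpenMap_p _ _ isOpen_ball

theorem Ten_inc [T2Space M] (j : Fin S.J) : A.Ten (S.inc j) := by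
  refine Atl.Ten_pushT _ (((S.contDiff_am j).pow 2).smul contDiff_const) ?_ fun x v w => ?_
  · refine HasCompactSupport.intro (isCompact_closedBall (S.c j) (S.r j)) fun x hx => ?_
    rw [S.am_eq_zero fun h => hx (ball_subset_closedBall h)]
    simp
  · simp only [smul_apply, sq2_apply]
    rw [mul_comm (S.l j v)]

theorem inc_nonneg (j : Fin S.J) (a : A.ι) (x v : E2) : 0 ≤ S.inc j a x v v := by
  unfold inc Atl.pushT
  split_ifs with hm
  · simp only [ContinuousLinearMap.bilinearComp_apply, smul_apply, sq2_apply, smul_eq_mul]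
    exact mul_nonneg (sq_nonneg _) (mul_self_nonneg _)
  · exact le_rfl

theorem inc_eq_zero {j : Fin S.J} {a : A.ι} {x : E2} (hx : A.p a x ∉ S.Do j) :
    S.inc j a x = 0 := by
  refine Atl.pushT_eq_zero _ (K := ball (S.c j) (S.r j)) (fun z hz => ?_) hx
  rw [S.am_eq_zero hz]
  simp

theorem Met_gs [T2Space M] {g₀ : A.ι → E2 → Bil} (h : A.Met g₀) (n : ℕ) : A.Met (S.gs g₀ n) := by
  refine ⟨h.toTen.add (Atl.Ten.sum _ fun i _ => S.Ten_inc i), fun a x v hv => ?_⟩
  simp only [gs, add_apply, sum_apply]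
  exact add_pos_of_pos_of_nonneg (h.pos a x v hv)
    (Finset.sum_nonneg fun i _ => S.inc_nonneg i a x v)

theorem gs_zero (g₀ : A.ι → E2 → Bil) : S.gs g₀ 0 = g₀ := by
  funext a x
  simp [gs]

theorem gs_succ (g₀ : A.ι → E2 → Bil) (j : Fin S.J) (a : A.ι) (x : E2) :
    S.gs g₀ (j.val + 1) a x = S.gs g₀ j.val a x + S.inc j a x := by
  have e : (Finset.univ.filter fun i : Fin S.J => i.val < j.val + 1) =
      insert j (Finset.univ.filter fun i : Fin S.J => i.val < j.val) := by
    ext i
    simp only [Finset.mem_filter, Finset.mem_univ, true_and, Finset.mem_insert, Fin.ext_iff]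
    omega
  unfold gs
  rw [e, Finset.sum_insert (by simp)]
  abel

end Steps

end Crest.Agent.R216
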