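import Crest.Agent.R216.AtlL2

/-! # Row 216, transfer of bounds between charts -/

set_option autoImplicit false
open Set Filter Metric
open scoped ContDiff RealInnerProductSpace Topology

noncomputable section
namespace Crest.Agent.R216

/-- Local composition bound.  For `x₀ ∈ K` work on a small ball inside `O`
(`norm_iteratedFDerivWithin_comp_le` with `s = O`, `t = univ`; on the open set `O`,
`iteratedFDerivWithin = iteratedFDeriv`), the derivatives of `T` of order `≤ D` being bounded on the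
compact set `K`. -/
theorem local_comp_bound {V W : Type*} [NormedAddCommGroup V] [NormedSpace ℝ V]
    [NormedAddCommGroup W] [NormedSpace ℝ W] {T : V → V} {O K : Set V} (hO : IsOpen O)
    (hT : ContDiffOn ℝ ∞ T O) (hK : IsCompact K) (hKO : K ⊆ O) (D : ℕ) :
    ∃ C : ℝ, 1 ≤ C ∧ ∀ (u : V → W) (b : ℝ), ContDiff ℝ ∞ u → ∀ x ∈ K,
      (∀ i ≤ D, ‖iteratedFDeriv ℝ i u (T x)‖ ≤ b) →
      ∀ j ≤ D, ‖iteratedFDeriv ℝ j (fun y => u (T y)) x‖ ≤ C * b := by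
  have hb : ∀ i : ℕ, ∃ B : ℝ, ∀ x ∈ K, ‖iteratedFDerivWithin ℝ i T O x‖ ≤ B := fun i =>
    hK.exists_bound_of_continuousOn
      ((hT.continuousOn_iteratedFDerivWithin (m := i) (mod_cast le_top) hO.uniqueDiffOn).mono hKO)
  choose B hB using hb
  set E : ℝ := 1 + ∑ i ∈ Finset.range (D + 1), |B i| with hE
  have hE0 : 0 ≤ ∑ i ∈ Finset.range (D + 1), |B i| := Finset.sum_nonneg fun _ _ => abs_nonneg _
  have hE1 : 1 ≤ E := by linarith
  have hBE : ∀ i ≤ D, B i ≤ E := fun i hi => by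
    have := Finset.single_le_sum (f := fun i => |B i|) (fun _ _ => abs_nonneg _)
      (Finset.mem_range.2 (Nat.lt_succ_of_le hi))
    linarith [le_abs_self (B i)]
  have hfac : (1 : ℝ) ≤ D.factorial := by exact_mod_cast D.factorial_pos
  refine ⟨D.factorial * E ^ D, one_le_mul_of_one_le_of_one_le hfac (one_le_pow₀ hE1),
    fun u b hu x hx hb j hj => ?_⟩
  have hb0 : 0 ≤ b := (norm_nonneg _).trans (hb 0 (Nat.zero_le _))
  have h1 := norm_iteratedFDerivWithin_comp_le (g := u) (f := T) (n := j) (s := O) (t := univ)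
    (x := x) (N := ∞) hu.contDiffOn hT (mod_cast le_top) uniqueDiffOn_univ hO.uniqueDiffOn
    (mapsTo_univ _ _) (hKO hx) (C := b) (D := E)
    (fun i hi => by rw [iteratedFDerivWithin_univ]; exact hb i (hi.trans hj))
    (fun i hi1 hi => ((hB i x hx).trans (hBE i (hi.trans hj))).trans
      (le_self_pow₀ hE1 (by omega)))
  rw [iteratedFDerivWithin_of_isOpen j hO (hKO hx)] at h1
  refine h1.trans ?_
  have h2 : (j.factorial : ℝ) ≤ D.factorial := by exact_mod_cast Nat.factorial_le hj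
  have h3 : E ^ j ≤ E ^ D := pow_le_pow_right₀ hE1 hj
  calc (j.factorial : ℝ) * b * E ^ j = j.factorial * E ^ j * b := by ring
    _ ≤ D.factorial * E ^ D * b := by gcongr

theorem AtlL3_max {κ : Type*} [Finite κ] (C : κ → ℝ) : ∃ C₀ : ℝ, 1 ≤ C₀ ∧ ∀ k, C k ≤ C₀ := by
  obtain ⟨B, hB⟩ := Finite.exists_le C
  exact ⟨max 1 B, le_max_left _ _, fun k => (hB k).trans (le_max_right _ _)⟩

theorem AtlL3_II_smul (G : E2 → E4) (x τ : E2) (c : ℝ) :
    II G x (c • τ) (c • τ) = (c * c) • II G x τ τ := by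
  simp only [II, IIj, map_smul, smul_apply, smul_smul, nproj_smul]

namespace Atl

variable {M : Type*} [TopologicalSpace M] (A : Atl E2 M)
  {W : Type*} [NormedAddCommGroup W] [NormedSpace ℝ W]

theorem AtlL3_compact [T2Space M] (c a : A.ι) :
    IsCompact (closedBall (0 : E2) 2 ∩ A.p c ⁻¹' (A.p a '' closedBall (0 : E2) 2)) :=
  (isCompact_closedBall (0 : E2) 2).inter_right
    ((A.isCompact_image_p a (isCompact_closedBall (0 : E2) 2)).isClosed.preimage (A.continuous_p c))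

theorem AtlL3_sub (c a : A.ι) :
    closedBall (0 : E2) 2 ∩ A.p c ⁻¹' (A.p a '' closedBall (0 : E2) 2) ⊆ A.O c a := by
  rintro x ⟨-, z, -, hz⟩
  exact (mem_O_of_eq hz.symm).1

/-- A compact subset of chart `a` is a finite union of compact pieces `K b ⊆ O a b` with
`T a b (K b) ⊆ ball 0 1`. -/
theorem exists_compact_pieces (a : A.ι) {K : Set E2} (hK : IsCompact K) :
    ∃ P : A.ι → Set E2, (∀ b, IsCompact (P b)) ∧ (∀ b, P b ⊆ A.O a b) ∧
      (∀ b, ∀ x ∈ P b, ‖A.T a b x‖ < 1) ∧ ∀ x ∈ K, ∃ b, x ∈ P b := by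
  have hU : ∀ b, IsOpen (A.O a b ∩ A.T a b ⁻¹' ball 0 1) := fun b =>
    ContinuousOn.isOpen_inter_preimage
      (fun x hx => (contDiffAt_T hx).continuousAt.continuousWithinAt) (A.isOpen_O a b) isOpen_ball
  obtain ⟨P, h1, h2, h3⟩ := hK.finite_compact_cover Finset.univ
    (fun b => A.O a b ∩ A.T a b ⁻¹' ball 0 1) (fun b _ => hU b) (by
      intro x _
      obtain ⟨b, hb, hb1⟩ := A.cover (A.p a x)
      exact mem_iUnion₂.2 ⟨b, Finset.mem_univ _, hb, mem_ball_zero_iff.2 hb1⟩)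
  refine ⟨P, h1, fun b x hx => (h2 b hx).1, fun b x hx => mem_ball_zero_iff.1 (h2 b hx).2,
    fun x hx => ?_⟩
  rw [h3] at hx
  obtain ⟨b, -, hb⟩ := mem_iUnion₂.1 hx
  exact ⟨b, hb⟩

theorem CB_of_ball (D : ℕ) : ∃ C : ℝ, 1 ≤ C ∧ ∀ (F : M → W) (b : ℝ), A.Sm F →
    (∀ a, ∀ j ≤ D, ∀ x ∈ ball (0 : E2) 1, ‖iteratedFDeriv ℝ j (fun x => F (A.p a x)) x‖ ≤ b) →
    A.CB D F (fun _ => C * b) := by
  choose P hP1 hP2 hP3 hP4 using fun a =>
    A.exists_compact_pieces a (isCompact_closedBall (0 : E2) 2)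
  choose C hC1 hC2 using fun ab : A.ι × A.ι => local_comp_bound (W := W) (A.isOpen_O ab.1 ab.2)
    (fun x hx => (contDiffAt_T hx).contDiffWithinAt) (hP1 ab.1 ab.2) (hP2 ab.1 ab.2) D
  obtain ⟨C₀, hC₀, hC⟩ := AtlL3_max C
  refine ⟨C₀, hC₀, fun F b hF hb a j hj x hx => ?_⟩
  obtain ⟨c, hc⟩ := hP4 a x hx
  have hT := mem_ball_zero_iff.2 (hP3 a c x hc)
  have hb0 : 0 ≤ b := (norm_nonneg _).trans (hb c 0 (Nat.zero_le _) _ hT)
  rw [((comp_p_eventuallyEq F (hP2 a c hc)).iteratedFDeriv ℝ j).eq_of_nhds]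
  exact (hC2 (a, c) (fun z => F (A.p c z)) b (hF c) x hc (fun i hi => hb c i hi _ hT) j hj).trans
    (mul_le_mul_of_nonneg_right (hC _) hb0)

/-- The set of `x ∈ closedBall 0 2` with `p c x ∈ p a '' closedBall 0 2` is compact and contained in
`O c a`; at the other points `push a u ∘ p c` vanishes near `x` (`push_eventually_zero`). -/
theorem CB_push [T2Space M] (D : ℕ) : ∃ C : ℝ, 1 ≤ C ∧ ∀ (a : A.ι) (u : E2 → W) (b : ℝ),
    ContDiff ℝ ∞ u → (∀ x, x ∉ closedBall (0 : E2) 2 → u x = 0) →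
    (∀ j ≤ D, ∀ x, ‖iteratedFDeriv ℝ j u x‖ ≤ b) → A.CB D (A.push a u) (fun _ => C * b) := by
  choose C hC1 hC2 using fun ca : A.ι × A.ι => local_comp_bound (W := W) (A.isOpen_O ca.1 ca.2)
    (fun x hx => (contDiffAt_T hx).contDiffWithinAt) (A.AtlL3_compact ca.1 ca.2)
    (A.AtlL3_sub ca.1 ca.2) D
  obtain ⟨C₀, hC₀, hC⟩ := AtlL3_max C
  refine ⟨C₀, hC₀, fun a u b hu h0 hb c j hj x hx => ?_⟩
  have hb0 : 0 ≤ b := (norm_nonneg _).trans (hb 0 (Nat.zero_le _) 0)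
  by_cases hxa : A.p c x ∈ A.p a '' closedBall (0 : E2) 2
  · have hO : x ∈ A.O c a := A.AtlL3_sub c a ⟨hx, hxa⟩
    have he : (fun z => A.push a u (A.p c z)) =ᶠ[𝓝 x] fun z => u (A.T c a z) := by
      filter_upwards [(A.isOpen_O c a).mem_nhds hO] with z hz using A.push_p_of_mem u hz
    rw [(he.iteratedFDeriv ℝ j).eq_of_nhds]
    exact (hC2 (c, a) u b hu x ⟨hx, hxa⟩ (fun i hi => hb i hi _) j hj).trans
      (mul_le_mul_of_nonneg_right (hC _) hb0)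
  · have he := A.push_eventually_zero a c (isCompact_closedBall (0 : E2) 2) h0 hxa
    rw [(he.iteratedFDeriv ℝ j).eq_of_nhds, iteratedFDeriv_fun_zero]
    simp only [Pi.zero_apply, norm_zero]
    positivity

theorem norm_pushT_le [T2Space M] : ∃ C : ℝ, 1 ≤ C ∧ ∀ (a : A.ι) (h : E2 → Bil) (b : ℝ),
    (∀ x, x ∉ closedBall (0 : E2) 2 → h x = 0) → (∀ x, ‖h x‖ ≤ b) →
    ∀ c, ∀ x ∈ closedBall (0 : E2) 2, ‖A.pushT a h c x‖ ≤ C * b := by
  have hB : ∀ ca : A.ι × A.ι, ∃ B : ℝ,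
      ∀ x ∈ closedBall (0 : E2) 2 ∩ A.p ca.1 ⁻¹' (A.p ca.2 '' closedBall (0 : E2) 2),
        ‖fderiv ℝ (A.T ca.1 ca.2) x‖ ≤ B := fun ca =>
    (A.AtlL3_compact ca.1 ca.2).exists_bound_of_continuousOn fun x hx =>
      ((contDiffAt_T (A.AtlL3_sub ca.1 ca.2 hx)).continuousAt_fderiv
        (by simp)).continuousWithinAt
  choose B hB using hB
  obtain ⟨C₀, hC₀, hC⟩ := AtlL3_max B
  refine ⟨C₀ * C₀, one_le_mul_of_one_le_of_one_le hC₀ hC₀, fun a h b h0 hb c x hx => ?_⟩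
  have hb0 : 0 ≤ b := (h 0).opNorm_nonneg.trans (hb 0)
  have hC0 : 0 ≤ C₀ := by linarith
  by_cases hxa : A.p c x ∈ A.p a '' closedBall (0 : E2) 2
  · have hO : x ∈ A.O c a := A.AtlL3_sub c a ⟨hx, hxa⟩
    have hL : ‖fderiv ℝ (A.T c a) x‖ ≤ C₀ := (hB (c, a) x ⟨hx, hxa⟩).trans (hC _)
    have hL' : ∀ v, ‖fderiv ℝ (A.T c a) x v‖ ≤ C₀ * ‖v‖ := fun v =>
      (fderiv ℝ (A.T c a) x).le_of_opNorm_le hL v
    simp only [pushT, if_pos hO]
    refine ContinuousLinearMap.opNorm_le_bound₂ _ (by positivity) fun v w => ?_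
    rw [ContinuousLinearMap.bilinearComp_apply]
    refine ((h (A.T c a x)).le_opNorm₂ _ _).trans ?_
    calc ‖h (A.T c a x)‖ * ‖fderiv ℝ (A.T c a) x v‖ * ‖fderiv ℝ (A.T c a) x w‖
        ≤ b * (C₀ * ‖v‖) * (C₀ * ‖w‖) := by
          have := hL' v
          have := hL' w
          have := hb (A.T c a x)
          gcongr
      _ = C₀ * C₀ * b * ‖v‖ * ‖w‖ := by ring
  · rw [pushT_eq_zero a h0 hxa, ContinuousLinearMap.opNorm_zero]
    positivity

/-- a fixed smooth function has bounded derivatives on the chart balls -/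
theorem Sm.exists_CB {A : Atl E2 M} {F : M → W} (hF : A.Sm F) :
    ∃ β : ℕ → ℝ, (∀ j, 0 ≤ β j) ∧ ∀ D, A.CB D F β := by
  have hB : ∀ (j : ℕ) (a : A.ι), ∃ B : ℝ, ∀ x ∈ closedBall (0 : E2) 2,
      ‖iteratedFDeriv ℝ j (fun x => F (A.p a x)) x‖ ≤ B := fun j a =>
    (isCompact_closedBall (0 : E2) 2).exists_bound_of_continuousOn
      ((hF a).continuous_iteratedFDeriv (m := j) (mod_cast le_top)).continuousOn
  choose B hB using hB
  choose β hβ1 hβ using fun j => AtlL3_max (B j)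
  exact ⟨β, fun j => zero_le_one.trans (hβ1 j), fun D a j _ x hx => (hB j a x hx).trans (hβ j a)⟩

theorem CB.mono {A : Atl E2 M} {D D' : ℕ} {F : M → W} {β β' : ℕ → ℝ} (h : A.CB D F β)
    (hD : D' ≤ D) (hβ : ∀ j ≤ D', β j ≤ β' j) : A.CB D' F β' := by
  exact fun a j hj x hx => (h a j (hj.trans hD) x hx).trans (hβ j hj)

theorem CB.add {A : Atl E2 M} {D : ℕ} {F G : M → W} {β β' : ℕ → ℝ} (hF : A.Sm F) (hG : A.Sm G)
    (h : A.CB D F β) (h' : A.CB D G β') :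
    A.CB D (fun y => F y + G y) (fun j => β j + β' j) := by
  intro a j hj x hx
  have h1 : ContDiffAt ℝ j (fun x => F (A.p a x)) x := (hF a).contDiffAt.of_le (mod_cast le_top)
  have h2 : ContDiffAt ℝ j (fun x => G (A.p a x)) x := (hG a).contDiffAt.of_le (mod_cast le_top)
  have h3 := iteratedFDeriv_add_apply h1 h2
  refine (congrArg norm h3).trans_le ?_
  exact (norm_add_le _ _).trans (add_le_add (h a j hj x hx) (h' a j hj x hx))

/-- Uniform non-degeneracy from local information (`II_chart`; cover the compact ball of chart `a`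
by finitely many compact neighbourhoods inside `O a b ∩ T⁻¹ U` on which `‖D(T b a)‖` is bounded). -/
theorem ND_of_local {G : ℕ → M → E4} (hG : ∀ n, A.Sm (G n)) (hi : ∀ n, A.Imm (G n))
    (h : ∀ y, ∃ b, y ∈ (A.e b).source ∧ ∃ U ∈ 𝓝 (A.e b y), ∃ c > (0 : ℝ), ∀ᶠ n in atTop,
      ∀ x ∈ U, ∃ τ : E2, ‖τ‖ ≤ 1 ∧ c ≤ ‖II (fun x => G n (A.p b x)) x τ τ‖) :
    ∃ ν > (0 : ℝ), ∀ᶠ n in atTop, A.ND (G n) ν := by
  have hloc : ∀ a x, ∃ N ∈ 𝓝 x, ∃ ν > (0 : ℝ), ∀ᶠ n in atTop, ∀ z ∈ N,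
      ∃ τ : E2, ‖τ‖ ≤ 1 ∧ ν ≤ ‖II (fun x => G n (A.p a x)) z τ τ‖ := by
    intro a x
    obtain ⟨b, hb, U, hU, c, hc, hn⟩ := h (A.p a x)
    have hO : x ∈ A.O a b := hb
    have hT : ContinuousAt (A.T a b) x := (contDiffAt_T hO).continuousAt
    have hD : ContinuousAt (fun z => ‖fderiv ℝ (A.T b a) (A.T a b z)‖) x :=
      (ContinuousAt.comp (f := A.T a b)
        ((contDiffAt_T (T_mem_O hO)).continuousAt_fderiv (by simp)) hT).norm
    set L : ℝ := ‖fderiv ℝ (A.T b a) (A.T a b x)‖ + 1 with hL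
    have hL0 : 0 < L := by positivity
    have h1 : ∀ᶠ z in 𝓝 x, ‖fderiv ℝ (A.T b a) (A.T a b z)‖ < L :=
      hD.eventually (gt_mem_nhds (lt_add_one _))
    have h2 : ∀ᶠ z in 𝓝 x, A.T a b z ∈ U := hT.eventually hU
    have h3 : ∀ᶠ z in 𝓝 x, z ∈ A.O a b := (A.isOpen_O a b).mem_nhds hO
    refine ⟨_, h1.and (h2.and h3), L⁻¹ * L⁻¹ * c, by positivity, hn.mono fun n hn z hz => ?_⟩
    obtain ⟨k1, k2, k3⟩ := hz
    obtain ⟨τ, hτ, hcτ⟩ := hn _ k2
    set σ := fderiv ℝ (A.T b a) (A.T a b z) τ with hσ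
    have hσ1 : ‖σ‖ ≤ L := by
      refine ((fderiv ℝ (A.T b a) (A.T a b z)).le_opNorm τ).trans ?_
      calc ‖fderiv ℝ (A.T b a) (A.T a b z)‖ * ‖τ‖ ≤ L * 1 := by gcongr
        _ = L := mul_one L
    have hσ2 : fderiv ℝ (A.T a b) z σ = τ := by
      have := fderiv_T_inv (T_mem_O k3) τ
      rwa [T_T k3] at this
    refine ⟨L⁻¹ • σ, ?_, ?_⟩
    · rw [norm_smul, norm_inv, Real.norm_of_nonneg hL0.le, inv_mul_le_iff₀ hL0, mul_one]
      exact hσ1
    · rw [AtlL3_II_smul, II_chart (hG n) (hi n) k3, hσ2, norm_smul,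
        Real.norm_of_nonneg (by positivity)]
      exact mul_le_mul_of_nonneg_left hcτ (by positivity)
  have hch : ∀ a, ∃ ν > (0 : ℝ), ∀ᶠ n in atTop, ∀ z ∈ closedBall (0 : E2) 2,
      ∃ τ : E2, ‖τ‖ ≤ 1 ∧ ν ≤ ‖II (fun x => G n (A.p a x)) z τ τ‖ := by
    intro a
    refine (isCompact_closedBall (0 : E2) 2).induction_on
      (p := fun S => ∃ ν > (0 : ℝ), ∀ᶠ n in atTop, ∀ z ∈ S,
        ∃ τ : E2, ‖τ‖ ≤ 1 ∧ ν ≤ ‖II (fun x => G n (A.p a x)) z τ τ‖) ?_ ?_ ?_ ?_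
    · exact ⟨1, one_pos, Eventually.of_forall fun _ _ h => h.elim⟩
    · rintro S S' hS ⟨ν, hν, hn⟩
      exact ⟨ν, hν, hn.mono fun n hn z hz => hn z (hS hz)⟩
    · rintro S S' ⟨ν, hν, hn⟩ ⟨ν', hν', hn'⟩
      refine ⟨min ν ν', lt_min hν hν', (hn.and hn').mono fun n hn z hz => ?_⟩
      rcases hz with hz | hz
      · obtain ⟨τ, h1, h2⟩ := hn.1 z hz
        exact ⟨τ, h1, (min_le_left _ _).trans h2⟩
      · obtain ⟨τ, h1, h2⟩ := hn.2 z hz
        exact ⟨τ, h1, (min_le_right _ _).trans h2⟩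
    · intro x _
      obtain ⟨N, hN, h1⟩ := hloc a x
      exact ⟨N, mem_nhdsWithin_of_mem_nhds hN, h1⟩
  choose ν hν hn using hch
  have h1 : ∀ᶠ t in 𝓝[>] (0 : ℝ), ∀ a, t < ν a :=
    eventually_all.2 fun a => mem_nhdsWithin_of_mem_nhds (gt_mem_nhds (hν a))
  obtain ⟨t, ht, ht0⟩ := (h1.and self_mem_nhdsWithin).exists
  refine ⟨t, ht0, (eventually_all.2 hn).mono fun n hn a x hx => ?_⟩
  obtain ⟨τ, h2, h3⟩ := hn a x hx
  exact ⟨τ, h2, (ht a).le.trans h3⟩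

end Atl

end Crest.Agent.R216
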