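import Mathlib

/-! # Row 216, weighted symbol classes of families (definitions) -/

set_option autoImplicit false
open Set Filter Metric
open scoped ContDiff RealInnerProductSpace Topology

noncomputable section
namespace Crest.Agent.R216

section
variable {X W : Type*} [NormedAddCommGroup X] [NormedSpace ℝ X] [NormedAddCommGroup W]
  [NormedSpace ℝ W] {J N : Type*}

/-- explicit bounds: `‖D^j u x‖ ≤ B j * w x * μ ^ j` -/
structure Bd (B : ℕ → ℝ) (μ : ℝ) (w : X → ℝ) (u : X → W) : Prop where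
  smooth : ContDiff ℝ ∞ u
  one_le : 1 ≤ μ
  B_nonneg : ∀ j, 0 ≤ B j
  w_nonneg : ∀ x, 0 ≤ w x
  bound : ∀ j x, ‖iteratedFDeriv ℝ j u x‖ ≤ B j * w x * μ ^ j

/-- Two-level families: the exponent `k` is uniform in everything, the constants may depend on the
outer index `π i`. -/
def Sy (π : J → N) (μ : J → ℝ) (w : J → X → ℝ) (u : J → X → W) : Prop :=
  ∃ k : ℕ, ∃ B : N → ℕ → ℝ, ∀ i, Bd (B (π i)) (μ i) (fun x => w i x * μ i ^ k) (u i)

/-- the same after replacing the scale `μ` by a power -/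
def Sx (π : J → N) (μ : J → ℝ) (w : J → X → ℝ) (u : J → X → W) : Prop :=
  ∃ K : ℕ, Sy π (fun i => μ i ^ (K + 1)) w u

/-- all derivatives are bounded -/
def Bdd (u : X → W) : Prop :=
  ContDiff ℝ ∞ u ∧ ∀ j, ∃ C : ℝ, ∀ x, ‖iteratedFDeriv ℝ j u x‖ ≤ C

/-- `2π`-periodic in the fast variable -/
def Per {Y : Type*} (u : X × ℝ → Y) : Prop := ∀ x θ, u (x, θ + 2 * Real.pi) = u (x, θ)

/-- derivative in the fast variable -/
def dθ (u : X × ℝ → W) (z : X × ℝ) : W := fderiv ℝ u z (0, 1)

/-- derivative in a slow direction -/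
def dx (v : X) (u : X × ℝ → W) (z : X × ℝ) : W := fderiv ℝ u z (v, 0)

/-- mean over the fast variable -/
def mean (u : X × ℝ → W) (x : X) : W :=
  (2 * Real.pi)⁻¹ • ∫ θ in (0 : ℝ)..(2 * Real.pi), u (x, θ)

/-- primitive of the oscillating part vanishing at `θ = 0` -/
def prim0 (u : X × ℝ → W) (z : X × ℝ) : W := ∫ θ in (0 : ℝ)..z.2, (u (z.1, θ) - mean u z.1)

/-- mean-zero primitive of the oscillating part -/
def prim (u : X × ℝ → W) (z : X × ℝ) : W := prim0 u z - mean (prim0 u) z.1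

/-- integration along the lines in direction `e` -/
def tint (e : X) (q : X → W) (x : X) : W := ∫ σ in (-5 : ℝ)..0, q (x + σ • e)

end

end Crest.Agent.R216
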