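import Crest.Agent.R216.Cls

/-! # Row 216, algebra of the classes Bd, Sy -/

set_option autoImplicit false
open Set Filter Metric
open scoped ContDiff RealInnerProductSpace Topology

noncomputable section
namespace Crest.Agent.R216

section
variable {X Y W W₁ W₂ W₃ : Type*} [NormedAddCommGroup X] [NormedSpace ℝ X]
  [NormedAddCommGroup Y] [NormedSpace ℝ Y] [NormedAddCommGroup W] [NormedSpace ℝ W]
  [NormedAddCommGroup W₁] [NormedSpace ℝ W₁] [NormedAddCommGroup W₂] [NormedSpace ℝ W₂]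
  [NormedAddCommGroup W₃] [NormedSpace ℝ W₃] {J N : Type*} {π : J → N} {μ : J → ℝ}

theorem Cls1_zero {u : X → W} {Z : Set X} (hZ : IsClosed Z) (hu : ∀ x, x ∉ Z → u x = 0) (j : ℕ)
    {x : X} (hx : x ∉ Z) : iteratedFDeriv ℝ j u x = 0 := by
  have h : u =ᶠ[𝓝 x] fun _ => 0 := mem_of_superset (hZ.isOpen_compl.mem_nhds hx) hu
  rw [(h.iteratedFDeriv ℝ j).self_of_nhds]
  simp

theorem Cls1_right {u : X → W} (hu : ContDiff ℝ ∞ u) {L : Y →L[ℝ] X} (hL : ‖L‖ ≤ 1) (j : ℕ)
    (y : Y) : ‖iteratedFDeriv ℝ j (u ∘ L) y‖ ≤ ‖iteratedFDeriv ℝ j u (L y)‖ := by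
  rw [L.iteratedFDeriv_comp_right hu y (by exact_mod_cast le_top)]
  refine (ContinuousMultilinearMap.norm_compContinuousLinearMap_le _ _).trans
    (mul_le_of_le_one_right (norm_nonneg _) ?_)
  exact Finset.prod_le_one (fun _ _ => norm_nonneg _) fun _ _ => hL

theorem Bd.mono {B B' : ℕ → ℝ} {m m' : ℝ} {w w' : X → ℝ} {u : X → W} (h : Bd B m w u)
    (hB : ∀ j, B j ≤ B' j) (hm : m ≤ m') (hw : ∀ x, w x ≤ w' x) : Bd B' m' w' u := by
  have hw0 := fun x => (h.w_nonneg x).trans (hw x)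
  have hB0 := fun j => (h.B_nonneg j).trans (hB j)
  refine ⟨h.smooth, h.one_le.trans hm, hB0, hw0, fun j x => (h.bound j x).trans ?_⟩
  have h1 := h.one_le
  exact mul_le_mul (mul_le_mul (hB j) (hw x) (h.w_nonneg x) (hB0 j))
    (pow_le_pow_left₀ (by linarith) hm j) (by positivity) (mul_nonneg (hB0 j) (hw0 x))

theorem Bd.add {B B' : ℕ → ℝ} {m : ℝ} {w : X → ℝ} {u u' : X → W} (h : Bd B m w u)
    (h' : Bd B' m w u') : Bd (fun j => B j + B' j) m w (fun x => u x + u' x) := by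
  refine ⟨h.smooth.add h'.smooth, h.one_le, fun j => add_nonneg (h.B_nonneg j) (h'.B_nonneg j),
    h.w_nonneg, fun j x => ?_⟩
  rw [fun_iteratedFDeriv_add_apply (h.smooth.contDiffAt.of_le (by exact_mod_cast le_top))
    (h'.smooth.contDiffAt.of_le (by exact_mod_cast le_top)), add_mul, add_mul]
  exact (norm_add_le _ _).trans (add_le_add (h.bound j x) (h'.bound j x))

theorem Bd.congr {B : ℕ → ℝ} {m : ℝ} {w : X → ℝ} {u u' : X → W} (h : Bd B m w u)
    (he : ∀ x, u x = u' x) : Bd B m w u' := by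
  rwa [← funext he]

theorem Bd.norm_le {B : ℕ → ℝ} {m : ℝ} {w : X → ℝ} {u : X → W} (h : Bd B m w u) (x : X) :
    ‖u x‖ ≤ B 0 * w x := by
  simpa using h.bound 0 x

/-- outside a closed set off which `u` vanishes the weight can be replaced by zero -/
theorem Bd.indicator {B : ℕ → ℝ} {m : ℝ} {w : X → ℝ} {u : X → W} (h : Bd B m w u) {Z : Set X}
    (hZ : IsClosed Z) (hu : ∀ x, x ∉ Z → u x = 0) : Bd B m (Z.indicator w) u := by
  refine ⟨h.smooth, h.one_le, h.B_nonneg, indicator_nonneg fun x _ => h.w_nonneg x, fun j x => ?_⟩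
  by_cases hx : x ∈ Z
  · rw [indicator_of_mem hx]
    exact h.bound j x
  · rw [indicator_of_notMem hx, Cls1_zero hZ hu j hx]
    simp

theorem Sy.of_Bd {B : N → ℕ → ℝ} {w : J → X → ℝ} {u : J → X → W}
    (h : ∀ i, Bd (B (π i)) (μ i) (w i) (u i)) : Sy π μ w u := by
  exact ⟨0, B, fun i => by simpa using h i⟩

theorem Sy.one_le {w : J → X → ℝ} {u : J → X → W} (h : Sy π μ w u) (i : J) : 1 ≤ μ i := by
  obtain ⟨k, B, h⟩ := h
  exact (h i).one_le

theorem Sy.smooth {w : J → X → ℝ} {u : J → X → W} (h : Sy π μ w u) (i : J) :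
    ContDiff ℝ ∞ (u i) := by
  obtain ⟨k, B, h⟩ := h
  exact (h i).smooth

theorem Sy.w_nonneg {w : J → X → ℝ} {u : J → X → W} (h : Sy π μ w u) (i : J) (x : X) :
    0 ≤ w i x := by
  obtain ⟨k, B, h⟩ := h
  have h1 := (h i).one_le
  exact nonneg_of_mul_nonneg_left ((h i).w_nonneg x) (by positivity)

theorem Sy.eq_zero {w : J → X → ℝ} {u : J → X → W} (h : Sy π μ w u) {i : J} {x : X}
    (hx : w i x = 0) : u i x = 0 := by
  obtain ⟨k, B, h⟩ := h
  simpa [hx] using (h i).norm_le x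

theorem Sy.norm_le {w : J → X → ℝ} {u : J → X → W} (h : Sy π μ w u) :
    ∃ k : ℕ, ∃ C : N → ℝ, (∀ n, 1 ≤ C n) ∧ ∀ i x, ‖u i x‖ ≤ C (π i) * w i x * μ i ^ k := by
  obtain ⟨k, B, h⟩ := h
  refine ⟨k, fun n => max 1 (B n 0), fun n => le_max_left _ _, fun i x => ?_⟩
  rw [mul_assoc]
  exact ((h i).norm_le x).trans (mul_le_mul_of_nonneg_right (le_max_right _ _) ((h i).w_nonneg x))

theorem Sy.of_le {w w' : J → X → ℝ} {u : J → X → W} (h : Sy π μ w u) (hw' : ∀ i x, 0 ≤ w' i x)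
    (k : ℕ) (C : N → ℝ) (hle : ∀ i x, w i x ≤ C (π i) * w' i x * μ i ^ k) : Sy π μ w' u := by
  obtain ⟨l, B, h⟩ := h
  refine ⟨k + l, fun n j => B n j * |C n|, fun i => ?_⟩
  have h1 := (h i).one_le
  refine ⟨(h i).smooth, h1, fun j => mul_nonneg ((h i).B_nonneg j) (abs_nonneg _),
    fun x => mul_nonneg (hw' i x) (by positivity), fun j x => ((h i).bound j x).trans ?_⟩
  have h2 := (h i).B_nonneg j
  have h3 := hw' i x
  have h4 : w i x ≤ |C (π i)| * w' i x * μ i ^ k :=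
    (hle i x).trans (by gcongr; exact le_abs_self _)
  calc _ ≤ B (π i) j * (|C (π i)| * w' i x * μ i ^ k * μ i ^ l) * μ i ^ j := by gcongr
    _ = _ := by ring

theorem Sy.mono {w w' : J → X → ℝ} {u : J → X → W} (h : Sy π μ w u)
    (hle : ∀ i x, w i x ≤ w' i x) : Sy π μ w' u := by
  exact h.of_le (fun i x => (h.w_nonneg i x).trans (hle i x)) 0 (fun _ => 1) (by simpa using hle)

theorem Sy.congr {w : J → X → ℝ} {u u' : J → X → W} (h : Sy π μ w u)
    (he : ∀ i x, u i x = u' i x) : Sy π μ w u' := by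
  rwa [← show u = u' from funext fun i => funext (he i)]

theorem Sy.indicator {w : J → X → ℝ} {u : J → X → W} (h : Sy π μ w u) {Z : J → Set X}
    (hZ : ∀ i, IsClosed (Z i)) (hu : ∀ i x, x ∉ Z i → u i x = 0) :
    Sy π μ (fun i => (Z i).indicator (w i)) u := by
  obtain ⟨k, B, h⟩ := h
  refine ⟨k, B, fun i => ((h i).indicator (hZ i) (hu i)).mono (fun _ => le_rfl) le_rfl fun x => ?_⟩
  by_cases hx : x ∈ Z i <;> simp [hx]

/-- re-indexing of families -/
theorem Sy.comap {J' N' : Type*} {w : J → X → ℝ} {u : J → X → W} (h : Sy π μ w u) (f : J' → J)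
    (π' : J' → N') (g : N' → N) (hf : ∀ i, π (f i) = g (π' i)) :
    Sy π' (fun i => μ (f i)) (fun i => w (f i)) (fun i => u (f i)) := by
  obtain ⟨k, B, h⟩ := h
  exact ⟨k, fun n => B (g n), fun i => by simpa only [← hf i] using h (f i)⟩

theorem Sy.zero {w : J → X → ℝ} (hμ : ∀ i, 1 ≤ μ i) (hw : ∀ i x, 0 ≤ w i x) :
    Sy π μ w (fun _ _ => (0 : W)) := by
  exact Sy.of_Bd (B := fun _ _ => 0) fun i =>
    ⟨contDiff_const, hμ i, fun _ => le_rfl, hw i, fun j x => by simp⟩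

theorem Sy.add {w : J → X → ℝ} {u v : J → X → W} (h : Sy π μ w u) (h' : Sy π μ w v) :
    Sy π μ w (fun i x => u i x + v i x) := by
  have hw := h.w_nonneg
  obtain ⟨k, B, h⟩ := h
  obtain ⟨k', B', h'⟩ := h'
  refine ⟨k + k', fun n j => B n j + B' n j, fun i => Bd.add
    ((h i).mono (fun _ => le_rfl) le_rfl fun x => ?_)
    ((h' i).mono (fun _ => le_rfl) le_rfl fun x => ?_)⟩
  · exact mul_le_mul_of_nonneg_left (pow_le_pow_right₀ (h i).one_le (by omega)) (hw i x)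
  · exact mul_le_mul_of_nonneg_left (pow_le_pow_right₀ (h i).one_le (by omega)) (hw i x)

theorem Cls1_fam {w : J → X → ℝ} {u : J → X → W₁} (h : Sy π μ w u) (L : J → W₁ →L[ℝ] W₂) :
    Sy π μ (fun i x => ‖L i‖ * w i x) (fun i x => L i (u i x)) := by
  obtain ⟨k, B, h⟩ := h
  refine ⟨k, B, fun i => ⟨(L i).contDiff.comp (h i).smooth, (h i).one_le, (h i).B_nonneg,
    fun x => ?_, fun j x => ?_⟩⟩
  · rw [mul_assoc]
    exact mul_nonneg (norm_nonneg _) ((h i).w_nonneg x)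
  · refine ((L i).norm_iteratedFDeriv_comp_left (h i).smooth.contDiffAt
      (by exact_mod_cast le_top)).trans ?_
    exact (mul_le_mul_of_nonneg_left ((h i).bound j x) (norm_nonneg _)).trans_eq (by ring)

theorem Cls1_clm {w : J → X → ℝ} {u : J → X → W₁} (h : Sy π μ w u) (L : W₁ →L[ℝ] W₂) :
    Sy π μ w (fun i x => L (u i x)) :=
  (Cls1_fam h fun _ => L).of_le h.w_nonneg 0 (fun _ => ‖L‖) fun i x => by simp

theorem Sy.neg {w : J → X → ℝ} {u : J → X → W} (h : Sy π μ w u) :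
    Sy π μ w (fun i x => -u i x) := by
  exact Cls1_clm h (-ContinuousLinearMap.id ℝ W)

theorem Sy.sub {w : J → X → ℝ} {u v : J → X → W} (h : Sy π μ w u) (h' : Sy π μ w v) :
    Sy π μ w (fun i x => u i x - v i x) := by
  exact (h.add h'.neg).congr fun i x => (sub_eq_add_neg _ _).symm

theorem Sy.clm {w : J → X → ℝ} {u : J → X → W₁} (h : Sy π μ w u) (L : W₁ →L[ℝ] W₂) :
    Sy π μ w (fun i x => L (u i x)) := by
  exact Cls1_clm h L

theorem Sy.const_smul {w : J → X → ℝ} {u : J → X → W} (h : Sy π μ w u) (c : ℝ) :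
    Sy π μ w (fun i x => c • u i x) := by
  exact h.clm (c • ContinuousLinearMap.id ℝ W)

theorem Sy.const_mul {w : J → X → ℝ} {u : J → X → ℝ} (h : Sy π μ w u) (c : ℝ) :
    Sy π μ w (fun i x => c * u i x) := by
  exact h.const_smul c

theorem Sy.fam_smul {w : J → X → ℝ} {u : J → X → W} (h : Sy π μ w u) (c : J → ℝ) :
    Sy π μ (fun i x => |c i| * w i x) (fun i x => c i • u i x) := by
  refine (Cls1_fam h fun i => c i • ContinuousLinearMap.id ℝ W).mono fun i x =>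
    mul_le_mul_of_nonneg_right ?_ (h.w_nonneg i x)
  rw [norm_smul]
  exact mul_le_of_le_one_right (abs_nonneg _) ContinuousLinearMap.norm_id_le

theorem Sy.fam_mul {w : J → X → ℝ} {u : J → X → ℝ} (h : Sy π μ w u) (c : J → ℝ) :
    Sy π μ (fun i x => |c i| * w i x) (fun i x => c i * u i x) := by
  exact h.fam_smul c

/-- Leibniz: `ContinuousLinearMap.norm_iteratedFDeriv_le_of_bilinear` -/
theorem Sy.bilin {w₁ w₂ : J → X → ℝ} {u : J → X → W₁} {v : J → X → W₂} (h : Sy π μ w₁ u)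
    (h' : Sy π μ w₂ v) (L : W₁ →L[ℝ] W₂ →L[ℝ] W₃) :
    Sy π μ (fun i x => w₁ i x * w₂ i x) (fun i x => L (u i x) (v i x)) := by
  obtain ⟨k, B, h⟩ := h
  obtain ⟨k', B', h'⟩ := h'
  refine ⟨k + k', fun n j => ‖L‖ * ∑ a ∈ Finset.range (j + 1),
    (j.choose a : ℝ) * B n a * B' n (j - a), fun i => ?_⟩
  have e : (fun x => w₁ i x * w₂ i x * μ i ^ (k + k')) =
      fun x => (w₁ i x * μ i ^ k) * (w₂ i x * μ i ^ k') := by
    funext x
    ring
  rw [e]
  have hB := (h i).B_nonneg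
  have hB' := (h' i).B_nonneg
  refine ⟨L.isBoundedBilinearMap.contDiff.comp ((h i).smooth.prodMk (h' i).smooth), (h i).one_le,
    fun j => mul_nonneg L.opNorm_nonneg (Finset.sum_nonneg fun a _ =>
      mul_nonneg (mul_nonneg (Nat.cast_nonneg _) (hB a)) (hB' _)),
    fun x => mul_nonneg ((h i).w_nonneg x) ((h' i).w_nonneg x), fun j x => ?_⟩
  refine (L.norm_iteratedFDeriv_le_of_bilinear (h i).smooth (h' i).smooth x
    (by exact_mod_cast le_top)).trans ?_
  rw [mul_assoc, mul_assoc, Finset.sum_mul]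
  refine mul_le_mul_of_nonneg_left (Finset.sum_le_sum fun a ha => ?_) L.opNorm_nonneg
  have h1 := (h i).bound a x
  have h2 := (h' i).bound (j - a) x
  have h3 : μ i ^ j = μ i ^ a * μ i ^ (j - a) := by
    rw [← pow_add, Nat.add_sub_cancel' (Nat.lt_succ_iff.1 (Finset.mem_range.1 ha))]
  rw [mul_assoc]
  refine (mul_le_mul_of_nonneg_left (mul_le_mul h1 h2 (norm_nonneg _)
    ((norm_nonneg _).trans h1)) (Nat.cast_nonneg _)).trans_eq ?_
  rw [h3]
  ring

theorem Sy.mul {w₁ w₂ : J → X → ℝ} {u v : J → X → ℝ} (h : Sy π μ w₁ u) (h' : Sy π μ w₂ v) :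
    Sy π μ (fun i x => w₁ i x * w₂ i x) (fun i x => u i x * v i x) := by
  exact h.bilin h' (ContinuousLinearMap.mul ℝ ℝ)

theorem Sy.smul {w₁ w₂ : J → X → ℝ} {u : J → X → ℝ} {v : J → X → W} (h : Sy π μ w₁ u)
    (h' : Sy π μ w₂ v) :
    Sy π μ (fun i x => w₁ i x * w₂ i x) (fun i x => u i x • v i x) := by
  exact h.bilin h' (ContinuousLinearMap.lsmul ℝ ℝ)

theorem Sy.inner {H : Type*} [NormedAddCommGroup H] [InnerProductSpace ℝ H] {w₁ w₂ : J → X → ℝ}
    {u v : J → X → H} (h : Sy π μ w₁ u) (h' : Sy π μ w₂ v) :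
    Sy π μ (fun i x => w₁ i x * w₂ i x) (fun i x => ⟪u i x, v i x⟫) := by
  exact h.bilin h' (innerSL ℝ)

/-- multiplication by a weight-one factor -/
theorem Sy.one_mul {w : J → X → ℝ} {u v : J → X → ℝ} (h : Sy π μ (fun _ _ => 1) u)
    (h' : Sy π μ w v) : Sy π μ w (fun i x => u i x * v i x) := by
  simpa using h.mul h'

theorem Sy.mul_one {w : J → X → ℝ} {u v : J → X → ℝ} (h : Sy π μ w u)
    (h' : Sy π μ (fun _ _ => 1) v) : Sy π μ w (fun i x => u i x * v i x) := by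
  simpa using h.mul h'

theorem Sy.smul_one {w : J → X → ℝ} {u : J → X → ℝ} {v : J → X → W} (h : Sy π μ w u)
    (h' : Sy π μ (fun _ _ => 1) v) : Sy π μ w (fun i x => u i x • v i x) := by
  simpa using h.smul h'

theorem Sy.one_inner {H : Type*} [NormedAddCommGroup H] [InnerProductSpace ℝ H] {w : J → X → ℝ}
    {u v : J → X → H} (h : Sy π μ (fun _ _ => 1) u) (h' : Sy π μ w v) :
    Sy π μ w (fun i x => ⟪u i x, v i x⟫) := by
  simpa using h.inner h'

theorem Sy.const (hμ : ∀ i, 1 ≤ μ i) (v : J → W) :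
    Sy π μ (fun i (_ : X) => ‖v i‖) (fun i _ => v i) := by
  refine Sy.of_Bd (B := fun _ _ => 1) fun i =>
    ⟨contDiff_const, hμ i, fun _ => zero_le_one, fun _ => norm_nonneg _, fun j x => ?_⟩
  have := hμ i
  rcases eq_or_ne j 0 with rfl | hj
  · simp
  · rw [iteratedFDeriv_const_of_ne hj, Pi.zero_apply, norm_zero]
    positivity

theorem Sy.fderiv {w : J → X → ℝ} {u : J → X → W} (h : Sy π μ w u) :
    Sy π μ w (fun i x => fderiv ℝ (u i) x) := by
  have hw := h.w_nonneg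
  obtain ⟨k, B, h⟩ := h
  refine ⟨k + 1, fun n j => B n (j + 1), fun i => ?_⟩
  have h1 := (h i).one_le
  refine ⟨(h i).smooth.fderiv_right (m := ∞) le_rfl, h1, fun j => (h i).B_nonneg _,
    fun x => mul_nonneg (hw i x) (by positivity), fun j x => ?_⟩
  rw [norm_iteratedFDeriv_fderiv]
  exact ((h i).bound (j + 1) x).trans_eq (by ring)

theorem Sy.dir {w : J → X → ℝ} {u : J → X → W} (h : Sy π μ w u) (v : J → X)
    (hv : ∀ i, ‖v i‖ ≤ μ i) : Sy π μ w (fun i x => _root_.fderiv ℝ (u i) x (v i)) := by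
  refine (Cls1_fam h.fderiv fun i => ContinuousLinearMap.apply ℝ W (v i)).of_le h.w_nonneg 1
    (fun _ => 1) fun i x => ?_
  rw [_root_.one_mul, pow_one, mul_comm]
  refine mul_le_mul_of_nonneg_left (le_trans ?_ (hv i)) (h.w_nonneg i x)
  exact ContinuousLinearMap.opNorm_le_bound _ (norm_nonneg _) fun f =>
    (f.le_opNorm _).trans_eq (mul_comm _ _)

theorem Sy.dθ {w : J → X × ℝ → ℝ} {u : J → X × ℝ → W} (h : Sy π μ w u) :
    Sy π μ w (fun i => dθ (u i)) := by
  exact h.dir (fun _ => (0, 1)) fun i => by simpa using h.one_le i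

theorem Sy.dx {w : J → X × ℝ → ℝ} {u : J → X × ℝ → W} (h : Sy π μ w u) (v : J → X)
    (hv : ∀ i, ‖v i‖ ≤ μ i) : Sy π μ w (fun i => dx (v i) (u i)) := by
  exact h.dir (fun i => (v i, 0)) fun i => by simpa using hv i

theorem Sy.comp_affine {w : J → X → ℝ} {u : J → X → W} (h : Sy π μ w u) (L : J → (Y →L[ℝ] X))
    (hL : ∀ i, ‖L i‖ ≤ 1) (c : J → X) :
    Sy π μ (fun i y => w i (L i y + c i)) (fun i y => u i (L i y + c i)) := by
  obtain ⟨k, B, h⟩ := h
  refine ⟨k, B, fun i => ⟨(h i).smooth.comp ((L i).contDiff.add contDiff_const), (h i).one_le,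
    (h i).B_nonneg, fun y => (h i).w_nonneg _, fun j y => le_trans ?_ ((h i).bound j _)⟩⟩
  have h1 : ContDiff ℝ ∞ fun x => u i (x + c i) :=
    (h i).smooth.comp (contDiff_id.add contDiff_const)
  rw [← iteratedFDeriv_comp_add_right]
  exact Cls1_right h1 (hL i) j y

theorem Sy.fst {w : J → X → ℝ} {u : J → X → W} (h : Sy π μ w u) :
    Sy π μ (fun i (z : X × ℝ) => w i z.1) (fun i z => u i z.1) := by
  simpa using h.comp_affine (fun _ => ContinuousLinearMap.fst ℝ X ℝ)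
    (fun _ => ContinuousLinearMap.norm_fst_le ℝ X ℝ) fun _ => 0

theorem Sy.fixed (hμ : ∀ i, 1 ≤ μ i) {u : X → W} (hu : Bdd u) :
    Sy π μ (fun _ _ => 1) (fun _ => u) := by
  choose C hC using hu.2
  have h0 : ∀ j, 0 ≤ C j := fun j => (norm_nonneg _).trans (hC j 0)
  refine Sy.of_Bd (B := fun _ => C) fun i =>
    ⟨hu.1, hμ i, h0, fun _ => zero_le_one, fun j x => (hC j x).trans ?_⟩
  rw [_root_.mul_one]
  exact le_mul_of_one_le_right (h0 j) (one_le_pow₀ (hμ i))

theorem Bdd.of_hasCompactSupport {u : X → W} (hu : ContDiff ℝ ∞ u) (hc : HasCompactSupport u) :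
    Bdd u := by
  exact ⟨hu, fun j => (hu.continuous_iteratedFDeriv
    (by exact_mod_cast le_top)).bounded_above_of_compact_support (hc.iteratedFDeriv j)⟩

/-- periodic in the fast variable and compactly supported in the slow variable -/
theorem Bdd.of_per {u : X × ℝ → W} (hu : ContDiff ℝ ∞ u) (hp : Per u) {K : Set X}
    (hK : IsCompact K) (h0 : ∀ x θ, x ∉ K → u (x, θ) = 0) : Bdd u := by
  refine ⟨hu, fun j => ?_⟩
  obtain ⟨C, hC⟩ := IsCompact.exists_bound_of_continuousOn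
    (hK.prod (isCompact_Icc (a := 0) (b := 2 * Real.pi))) (hu.continuous_iteratedFDeriv (m := j) (by exact_mod_cast le_top)).continuousOn
  refine ⟨max C 0, fun ⟨x, θ⟩ => ?_⟩
  by_cases hx : x ∈ K
  · have e : (fun z => u (z + (0, 2 * Real.pi))) = u := funext fun ⟨y, t⟩ => by
      simpa using hp y t
    have hper : Function.Periodic (fun t => iteratedFDeriv ℝ j u (x, t)) (2 * Real.pi) :=
      fun t => by
        have := iteratedFDeriv_comp_add_right (𝕜 := ℝ) (f := u) j (0, 2 * Real.pi) (x, t)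
        rw [e] at this
        simpa using this.symm
    obtain ⟨t, ht, h1⟩ := hper.exists_mem_Ico₀ Real.two_pi_pos θ
    rw [h1]
    exact (hC (x, t) ⟨hx, Ico_subset_Icc_self ht⟩).trans (le_max_left _ _)
  · rw [Cls1_zero (hK.isClosed.preimage continuous_fst) (fun z hz => h0 z.1 z.2 hz) j
      (x := (x, θ)) hx, norm_zero]
    exact le_max_right _ _

/-- the trivial family -/
theorem Bdd.of_Sy {u : Unit → X → W} (h : Sy (fun _ : Unit => ()) (fun _ => 1) (fun _ _ => 1) u) :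
    Bdd (u ()) := by
  obtain ⟨k, B, h⟩ := h
  exact ⟨(h ()).smooth, fun j => ⟨B () j, fun x => by simpa using (h ()).bound j x⟩⟩

theorem Bdd.cos_snd : Bdd (fun z : X × ℝ => Real.cos z.2) := by
  refine ⟨Real.contDiff_cos.comp contDiff_snd, fun j => ⟨1, fun z => ?_⟩⟩
  refine (Cls1_right Real.contDiff_cos (ContinuousLinearMap.norm_snd_le ℝ X ℝ) j z).trans ?_
  rw [norm_iteratedFDeriv_eq_norm_iteratedDeriv]
  exact Real.abs_iteratedDeriv_cos_le_one j _

end

end Crest.Agent.R216
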