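import Crest.Agent.R216.Cls1

/-! # Row 216, the class Sx: compositions, inverses, tempered cut-offs -/

set_option autoImplicit false
open Set Filter Metric
open scoped ContDiff RealInnerProductSpace Topology

noncomputable section
namespace Crest.Agent.R216

section
variable {X Y W W₁ W₂ W₃ : Type*} [NormedAddCommGroup X] [NormedSpace ℝ X]
  [NormedAddCommGroup Y] [NormedSpace ℝ Y] [NormedAddCommGroup W] [NormedSpace ℝ W]
  [NormedAddCommGroup W₁] [NormedSpace ℝ W₁] [NormedAddCommGroup W₂] [NormedSpace ℝ W₂]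
  [NormedAddCommGroup W₃] [NormedSpace ℝ W₃] {J N : Type*} {π : J → N} {μ : J → ℝ}

theorem Sy.toSx {w : J → X → ℝ} {u : J → X → W} (h : Sy π μ w u) : Sx π μ w u := by
  exact ⟨0, by simpa using h⟩

/-- `hμ` is needed since `1 ≤ μ ^ (K+1)` does not exclude `μ ≤ -1` -/
theorem Sx.sy_ge {w : J → X → ℝ} {u : J → X → W} (hμ : ∀ i, 1 ≤ μ i) (h : Sx π μ w u) :
    ∃ K₀ : ℕ, ∀ K, K₀ ≤ K → Sy π (fun i => μ i ^ (K + 1)) w u := by
  obtain ⟨K₀, h⟩ := h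
  have hw := h.w_nonneg
  obtain ⟨k, B, h⟩ := h
  refine ⟨K₀, fun K hK => ⟨k, B, fun i => ?_⟩⟩
  have h1 : μ i ^ (K₀ + 1) ≤ μ i ^ (K + 1) := pow_le_pow_right₀ (hμ i) (by omega)
  exact (h i).mono (fun _ => le_rfl) h1 fun x => mul_le_mul_of_nonneg_left
    (pow_le_pow_left₀ (zero_le_one.trans (h i).one_le) h1 k) (hw i x)

theorem Sx.of_Bd_pow {B : N → ℕ → ℝ} {w : J → X → ℝ} {u : J → X → W} (hμ : ∀ i, 1 ≤ μ i)
    (hw : ∀ i x, 0 ≤ w i x) (c k : ℕ)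
    (h : ∀ i, Bd (B (π i)) (μ i ^ c) (fun x => w i x * μ i ^ k) (u i)) : Sx π μ w u := by
  refine ⟨c, k, B, fun i => (h i).mono (fun _ => le_rfl)
    (pow_le_pow_right₀ (hμ i) (Nat.le_succ c)) fun x => mul_le_mul_of_nonneg_left ?_ (hw i x)⟩
  exact pow_le_pow_left₀ (zero_le_one.trans (hμ i)) (le_self_pow₀ (hμ i) (Nat.succ_ne_zero c)) k

theorem Sx.toBd {w : J → X → ℝ} {u : J → X → W} (hμ : ∀ i, 1 ≤ μ i) (h : Sx π μ w u) :
    ∃ c₀ : ℕ, ∀ c, c₀ ≤ c → ∃ B : N → ℕ → ℝ,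
      ∀ i, Bd (B (π i)) (μ i ^ c) (fun x => w i x * μ i ^ c) (u i) := by
  obtain ⟨K, h⟩ := h
  have hw := h.w_nonneg
  obtain ⟨k, B, h⟩ := h
  refine ⟨(K + 1) * (k + 1), fun c hc => ⟨B, fun i => (h i).mono (fun _ => le_rfl)
    (pow_le_pow_right₀ (hμ i) (by nlinarith)) fun x => mul_le_mul_of_nonneg_left ?_ (hw i x)⟩⟩
  rw [← pow_mul]
  exact pow_le_pow_right₀ (hμ i) (by nlinarith)

theorem Sx.smooth {w : J → X → ℝ} {u : J → X → W} (h : Sx π μ w u) (i : J) :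
    ContDiff ℝ ∞ (u i) := by
  obtain ⟨K, h⟩ := h
  exact h.smooth i

theorem Sx.w_nonneg {w : J → X → ℝ} {u : J → X → W} (h : Sx π μ w u) (i : J) (x : X) :
    0 ≤ w i x := by
  obtain ⟨K, h⟩ := h
  exact h.w_nonneg i x

theorem Sx.norm_le {w : J → X → ℝ} {u : J → X → W} (h : Sx π μ w u) :
    ∃ k : ℕ, ∃ C : N → ℝ, (∀ n, 1 ≤ C n) ∧ ∀ i x, ‖u i x‖ ≤ C (π i) * w i x * μ i ^ k := by
  obtain ⟨K, h⟩ := h
  obtain ⟨k, C, h1, h2⟩ := h.norm_le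
  exact ⟨(K + 1) * k, C, h1, fun i x => by simpa only [pow_mul] using h2 i x⟩

theorem Sx.of_le {w w' : J → X → ℝ} {u : J → X → W} (hμ : ∀ i, 1 ≤ μ i) (h : Sx π μ w u)
    (hw' : ∀ i x, 0 ≤ w' i x) (k : ℕ) (C : N → ℝ)
    (hle : ∀ i x, w i x ≤ C (π i) * w' i x * μ i ^ k) : Sx π μ w' u := by
  obtain ⟨K, h⟩ := h
  refine ⟨K, h.of_le hw' k (fun n => |C n|) fun i x => (hle i x).trans ?_⟩
  have h0 : 0 ≤ μ i := zero_le_one.trans (hμ i)
  exact mul_le_mul (mul_le_mul_of_nonneg_right (le_abs_self _) (hw' i x))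
    (pow_le_pow_left₀ h0 (le_self_pow₀ (hμ i) (Nat.succ_ne_zero K)) k) (pow_nonneg h0 k)
    (mul_nonneg (abs_nonneg _) (hw' i x))

theorem Sx.mono {w w' : J → X → ℝ} {u : J → X → W} (h : Sx π μ w u)
    (hle : ∀ i x, w i x ≤ w' i x) : Sx π μ w' u := by
  obtain ⟨K, h⟩ := h
  exact ⟨K, h.mono hle⟩

theorem Sx.congr {w : J → X → ℝ} {u u' : J → X → W} (h : Sx π μ w u)
    (he : ∀ i x, u i x = u' i x) : Sx π μ w u' := by
  obtain ⟨K, h⟩ := h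
  exact ⟨K, h.congr he⟩

theorem Sx.add {w : J → X → ℝ} {u v : J → X → W} (hμ : ∀ i, 1 ≤ μ i) (h : Sx π μ w u)
    (h' : Sx π μ w v) : Sx π μ w (fun i x => u i x + v i x) := by
  obtain ⟨K, h⟩ := h.sy_ge hμ
  obtain ⟨K', h'⟩ := h'.sy_ge hμ
  exact ⟨max K K', (h _ (le_max_left _ _)).add (h' _ (le_max_right _ _))⟩

theorem Sx.sub {w : J → X → ℝ} {u v : J → X → W} (hμ : ∀ i, 1 ≤ μ i) (h : Sx π μ w u)
    (h' : Sx π μ w v) : Sx π μ w (fun i x => u i x - v i x) := by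
  obtain ⟨K, h⟩ := h.sy_ge hμ
  obtain ⟨K', h'⟩ := h'.sy_ge hμ
  exact ⟨max K K', (h _ (le_max_left _ _)).sub (h' _ (le_max_right _ _))⟩

theorem Sx.sum {κ : Type*} (s : Finset κ) {w : J → X → ℝ} {u : κ → J → X → W} (hμ : ∀ i, 1 ≤ μ i)
    (hw : ∀ i x, 0 ≤ w i x) (h : ∀ k ∈ s, Sx π μ w (u k)) :
    Sx π μ w (fun i x => ∑ k ∈ s, u k i x) := by
  classical
  induction s using Finset.induction_on with
  | empty => simpa using (Sy.zero (π := π) (W := W) hμ hw).toSx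
  | insert a s ha ih =>
    simp only [Finset.sum_insert ha]
    exact (h a (Finset.mem_insert_self _ _)).add hμ
      (ih fun k hk => h k (Finset.mem_insert_of_mem hk))

theorem Sx.clm {w : J → X → ℝ} {u : J → X → W₁} (h : Sx π μ w u) (L : W₁ →L[ℝ] W₂) :
    Sx π μ w (fun i x => L (u i x)) := by
  obtain ⟨K, h⟩ := h
  exact ⟨K, h.clm L⟩

theorem Sx.const_mul {w : J → X → ℝ} {u : J → X → ℝ} (h : Sx π μ w u) (c : ℝ) :
    Sx π μ w (fun i x => c * u i x) := by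
  obtain ⟨K, h⟩ := h
  exact ⟨K, h.const_mul c⟩

theorem Sx.fam_smul {w : J → X → ℝ} {u : J → X → W} (h : Sx π μ w u) (c : J → ℝ) :
    Sx π μ (fun i x => |c i| * w i x) (fun i x => c i • u i x) := by
  obtain ⟨K, h⟩ := h
  exact ⟨K, h.fam_smul c⟩

theorem Sx.bilin {w₁ w₂ : J → X → ℝ} {u : J → X → W₁} {v : J → X → W₂} (hμ : ∀ i, 1 ≤ μ i)
    (h : Sx π μ w₁ u) (h' : Sx π μ w₂ v) (L : W₁ →L[ℝ] W₂ →L[ℝ] W₃) :
    Sx π μ (fun i x => w₁ i x * w₂ i x) (fun i x => L (u i x) (v i x)) := by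
  obtain ⟨K, h⟩ := h.sy_ge hμ
  obtain ⟨K', h'⟩ := h'.sy_ge hμ
  exact ⟨max K K', (h _ (le_max_left _ _)).bilin (h' _ (le_max_right _ _)) L⟩

theorem Sx.mul {w₁ w₂ : J → X → ℝ} {u v : J → X → ℝ} (hμ : ∀ i, 1 ≤ μ i) (h : Sx π μ w₁ u)
    (h' : Sx π μ w₂ v) :
    Sx π μ (fun i x => w₁ i x * w₂ i x) (fun i x => u i x * v i x) := by
  obtain ⟨K, h⟩ := h.sy_ge hμ
  obtain ⟨K', h'⟩ := h'.sy_ge hμ
  exact ⟨max K K', (h _ (le_max_left _ _)).mul (h' _ (le_max_right _ _))⟩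

theorem Sx.mul1 {u v : J → X → ℝ} (hμ : ∀ i, 1 ≤ μ i) (h : Sx π μ (fun _ _ => 1) u)
    (h' : Sx π μ (fun _ _ => 1) v) : Sx π μ (fun _ _ => 1) (fun i x => u i x * v i x) := by
  obtain ⟨K, h⟩ := h.sy_ge hμ
  obtain ⟨K', h'⟩ := h'.sy_ge hμ
  exact ⟨max K K', (h _ (le_max_left _ _)).one_mul (h' _ (le_max_right _ _))⟩

theorem Sx.smul1 {u : J → X → ℝ} {v : J → X → W} (hμ : ∀ i, 1 ≤ μ i)
    (h : Sx π μ (fun _ _ => 1) u) (h' : Sx π μ (fun _ _ => 1) v) :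
    Sx π μ (fun _ _ => 1) (fun i x => u i x • v i x) := by
  obtain ⟨K, h⟩ := h.sy_ge hμ
  obtain ⟨K', h'⟩ := h'.sy_ge hμ
  exact ⟨max K K', (h _ (le_max_left _ _)).smul_one (h' _ (le_max_right _ _))⟩

theorem Sx.inner1 {H : Type*} [NormedAddCommGroup H] [InnerProductSpace ℝ H] {u v : J → X → H}
    (hμ : ∀ i, 1 ≤ μ i) (h : Sx π μ (fun _ _ => 1) u) (h' : Sx π μ (fun _ _ => 1) v) :
    Sx π μ (fun _ _ => 1) (fun i x => ⟪u i x, v i x⟫) := by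
  obtain ⟨K, h⟩ := h.sy_ge hμ
  obtain ⟨K', h'⟩ := h'.sy_ge hμ
  exact ⟨max K K', (h _ (le_max_left _ _)).one_inner (h' _ (le_max_right _ _))⟩

theorem Sx.dir {w : J → X → ℝ} {u : J → X → W} (hμ : ∀ i, 1 ≤ μ i) (h : Sx π μ w u) (v : J → X)
    (hv : ∀ i, ‖v i‖ ≤ μ i) : Sx π μ w (fun i x => fderiv ℝ (u i) x (v i)) := by
  obtain ⟨K, h⟩ := h
  exact ⟨K, h.dir v fun i => (hv i).trans (le_self_pow₀ (hμ i) (Nat.succ_ne_zero K))⟩

/-- fixed direction -/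
theorem Sx.dir' {w : J → X → ℝ} {u : J → X → W} (h : Sx π μ w u) (v : X) :
    Sx π μ w (fun i x => fderiv ℝ (u i) x v) := by
  obtain ⟨K, h⟩ := h
  exact ⟨K, h.fderiv.clm (ContinuousLinearMap.apply ℝ W v)⟩

theorem Sx.fst {w : J → X → ℝ} {u : J → X → W} (h : Sx π μ w u) :
    Sx π μ (fun i (z : X × ℝ) => w i z.1) (fun i z => u i z.1) := by
  obtain ⟨K, h⟩ := h
  exact ⟨K, h.fst⟩

theorem Sx.fixed (hμ : ∀ i, 1 ≤ μ i) {u : X → W} (hu : Bdd u) :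
    Sx π μ (fun _ _ => 1) (fun _ => u) := by
  exact (Sy.fixed hμ hu).toSx

/-- Faà di Bruno (`norm_iteratedFDeriv_comp_le`, with `D = (1 + Σ_{i ≤ n} B i) * m ^ (k+1)`) with a
pointwise weight for the outer function. -/
theorem Sx.comp_weight {u : J → X → W₁} (hμ : ∀ i, 1 ≤ μ i) (h : Sx π μ (fun _ _ => 1) u)
    {φ : W₁ → W₂} (hφ : ContDiff ℝ ∞ φ) {w : J → X → ℝ} (hw : ∀ i x, 0 ≤ w i x)
    (C : N → ℕ → ℝ) (k : ℕ)
    (hb : ∀ i x j, ‖iteratedFDeriv ℝ j φ (u i x)‖ ≤ C (π i) j * w i x * μ i ^ k) :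
    Sx π μ w (fun i x => φ (u i x)) := by
  obtain ⟨c, h⟩ := h.toBd hμ
  obtain ⟨B, h⟩ := h c le_rfl
  refine Sx.of_Bd_pow (B := fun n j => (j.factorial : ℝ) * (∑ a ∈ Finset.range (j + 1), |C n a|) *
    (1 + ∑ a ∈ Finset.range (j + 1), |B n a|) ^ j) hμ hw (c * 2) k fun i => ?_
  have h0 : 0 ≤ μ i := zero_le_one.trans (hμ i)
  have hm := (h i).one_le
  refine ⟨hφ.comp (h i).smooth, one_le_pow₀ (hμ i), fun j => by positivity,
    fun x => mul_nonneg (hw i x) (pow_nonneg h0 k), fun j x => ?_⟩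
  have hS : 0 ≤ ∑ a ∈ Finset.range (j + 1), |B (π i) a| :=
    Finset.sum_nonneg fun _ _ => abs_nonneg _
  refine (norm_iteratedFDeriv_comp_le hφ (h i).smooth (by exact_mod_cast le_top) x
    (C := (∑ a ∈ Finset.range (j + 1), |C (π i) a|) * (w i x * μ i ^ k))
    (D := (1 + ∑ a ∈ Finset.range (j + 1), |B (π i) a|) * μ i ^ (c * 2))
    (fun a ha => ?_) fun a ha1 ha => ?_).trans_eq (by rw [mul_pow]; ring)
  · refine (hb i x a).trans ?_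
    rw [mul_assoc]
    refine mul_le_mul_of_nonneg_right ((le_abs_self _).trans ?_)
      (mul_nonneg (hw i x) (pow_nonneg h0 k))
    exact Finset.single_le_sum (f := fun a => |C (π i) a|) (fun _ _ => abs_nonneg _)
      (Finset.mem_range.2 (Nat.lt_succ_of_le ha))
  · refine ((h i).bound a x).trans ?_
    have h1 : B (π i) a ≤ (1 + ∑ a ∈ Finset.range (j + 1), |B (π i) a|) ^ a := by
      refine le_trans ?_ (le_self_pow₀ (by linarith) (by omega))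
      have := Finset.single_le_sum (f := fun a => |B (π i) a|) (fun _ _ => abs_nonneg _)
        (Finset.mem_range.2 (Nat.lt_succ_of_le ha))
      linarith [le_abs_self (B (π i) a)]
    have h2 : μ i ^ c ≤ (μ i ^ c) ^ a := le_self_pow₀ hm (by omega)
    rw [one_mul, mul_pow, pow_mul, sq, mul_pow, ← mul_assoc]
    exact mul_le_mul_of_nonneg_right (mul_le_mul h1 h2 (by positivity) (by positivity))
      (by positivity)

theorem Sx.comp {u : J → X → W₁} (hμ : ∀ i, 1 ≤ μ i) (h : Sx π μ (fun _ _ => 1) u)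
    {φ : W₁ → W₂} (hφ : Bdd φ) : Sx π μ (fun _ _ => 1) (fun i x => φ (u i x)) := by
  choose C hC using hφ.2
  exact h.comp_weight hμ hφ.1 (fun _ _ => zero_le_one) (fun _ => C) 0 fun i x j => by
    simpa using hC j (u i x)

end

end Crest.Agent.R216
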