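import Mathlib

/-!
# Row 216: isometric immersions of closed surfaces into `ℝ⁴` — common definitions

Everything is done over an abstract finite atlas `Atl V M` whose charts map onto the whole model
space.  Functions on `M` are read in charts (`F ∘ A.p a`), tensors are compatible families of chart
expressions.

Overview of the proof.
* `Top/*` (helper48): every compact surface has an immersion `f : M → ℝ³`.
* `Geo` (helper48): from `f` and `g` one gets `Geo A g`: a short immersion `F0` without asymptotic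
  directions, and finitely many discs / directions / amplitudes with
  `g = dF0² + Σ am j² • l j ⊗ l j` and the combinatorial properties recorded in `Geo`.
* `Main` (helper74): `Geo A g → ∃ F, Sm F ∧ pull F = g` by one large corrugation step per disc, each
  followed by the perturbation theorem `perturb`.
-/

set_option autoImplicit false

open scoped ContDiff RealInnerProductSpace Topology
open Set Metric

noncomputable section

namespace Crest.Agent.R216

abbrev E2 := EuclideanSpace ℝ (Fin 2)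
abbrev E3 := EuclideanSpace ℝ (Fin 3)
abbrev E4 := EuclideanSpace ℝ (Fin 4)

/-- Bilinear forms on the plane. -/
abbrev Bil := E2 →L[ℝ] E2 →L[ℝ] ℝ

/-- A finite smooth atlas all of whose charts are onto the model space `V`, the unit balls of
the charts covering `M`. -/
structure Atl (V : Type) [NormedAddCommGroup V] [NormedSpace ℝ V] (M : Type*)
    [TopologicalSpace M] where
  ι : Type
  fin : Fintype ι
  e : ι → OpenPartialHomeomorph M V
  tgt : ∀ a, (e a).target = univ
  smooth : ∀ a b, ContDiffOn ℝ ∞ (fun x => e b ((e a).symm x)) ((e a).symm ⁻¹' (e b).source)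
  cover : ∀ y, ∃ a, y ∈ (e a).source ∧ ‖e a y‖ < 1

attribute [instance] Atl.fin

namespace Atl

variable {V : Type} [NormedAddCommGroup V] [NormedSpace ℝ V] {M : Type*} [TopologicalSpace M]
  (A : Atl V M)

/-- the parametrisation of chart `a` -/
def p (a : A.ι) : V → M := fun x => (A.e a).symm x

/-- transition map from chart `a` to chart `b` -/
def T (a b : A.ι) : V → V := fun x => A.e b (A.p a x)

/-- domain (in chart `a`) of the transition map `T a b` -/
def O (a b : A.ι) : Set V := A.p a ⁻¹' (A.e b).source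

/-- smooth functions on `M` -/
def Sm {W : Type*} [NormedAddCommGroup W] [NormedSpace ℝ W] (F : M → W) : Prop :=
  ∀ a, ContDiff ℝ ∞ (fun x => F (A.p a x))

open Classical in
/-- extension by zero of a function given in chart `a` -/
def push {W : Type*} [Zero W] (a : A.ι) (u : V → W) : M → W :=
  fun y => if y ∈ (A.e a).source then u (A.e a y) else 0

/-- `C^D` bounds on the closed balls of radius two of all charts -/
def CB {W : Type*} [NormedAddCommGroup W] [NormedSpace ℝ W] (D : ℕ) (F : M → W)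
    (β : ℕ → ℝ) : Prop :=
  ∀ a, ∀ j ≤ D, ∀ x ∈ closedBall (0 : V) 2,
    ‖iteratedFDeriv ℝ j (fun x => F (A.p a x)) x‖ ≤ β j

end Atl

/-! ### Jets of maps of the plane -/

section jets

variable {W : Type*} [NormedAddCommGroup W] [InnerProductSpace ℝ W]

/-- standard basis of the plane -/
def b0 : E2 := EuclideanSpace.single 0 1
/-- standard basis of the plane -/
def b1 : E2 := EuclideanSpace.single 1 1

/-- determinant of two plane vectors -/
def det2 (a b : E2) : ℝ := a 0 * b 1 - a 1 * b 0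

/-- pull-back of the Euclidean metric by `G` -/
def pb (G : E2 → W) (x : E2) : Bil :=
  (innerSL ℝ : W →L[ℝ] W →L[ℝ] ℝ).bilinearComp (fderiv ℝ G x) (fderiv ℝ G x)

/-- second derivative -/
def d2 {X Y : Type*} [NormedAddCommGroup X] [NormedSpace ℝ X] [NormedAddCommGroup Y]
    [NormedSpace ℝ Y] (G : X → Y) (x : X) : X →L[ℝ] X →L[ℝ] Y :=
  fderiv ℝ (fderiv ℝ G) x

/-- Gram determinant of two vectors -/
def g2 (u v : W) : ℝ := ⟪u, u⟫ * ⟪v, v⟫ - ⟪u, v⟫ ^ 2

/-- Gram determinant of three vectors -/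
def g3 (u v z : W) : ℝ :=
  ⟪u, u⟫ * (⟪v, v⟫ * ⟪z, z⟫ - ⟪v, z⟫ ^ 2) - ⟪u, v⟫ * (⟪u, v⟫ * ⟪z, z⟫ - ⟪v, z⟫ * ⟪u, z⟫)
    + ⟪u, z⟫ * (⟪u, v⟫ * ⟪v, z⟫ - ⟪v, v⟫ * ⟪u, z⟫)

/-- orthogonal projection of `z` onto the orthogonal complement of `span {u, v}`
(meaningful when `g2 u v ≠ 0`) -/
def nproj (u v z : W) : W :=
  z - ((⟪v, v⟫ * ⟪u, z⟫ - ⟪u, v⟫ * ⟪v, z⟫) / g2 u v) • u
    - ((⟪u, u⟫ * ⟪v, z⟫ - ⟪u, v⟫ * ⟪u, z⟫) / g2 u v) • v

/-- second fundamental form computed from a 2-jet -/
def IIj (L : E2 →L[ℝ] W) (Q : E2 →L[ℝ] E2 →L[ℝ] W) (a b : E2) : W :=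
  nproj (L b0) (L b1) (Q a b)

/-- second fundamental form of `G` at `x` -/
def II (G : E2 → W) (x : E2) (a b : E2) : W := IIj (fderiv ℝ G x) (d2 G x) a b

/-- `det g * (Gauss curvature)` as a function of the 2-jet `(h, h₁, h₂)` of the metric:
`h₁ k i j = ∂_k g_ij`, `h₂ k l i j = ∂_k ∂_l g_ij`. -/
def kapJ (h : E2 → E2 → ℝ) (h₁ : E2 → E2 → E2 → ℝ) (h₂ : E2 → E2 → E2 → E2 → ℝ) : ℝ :=
  let Γ : E2 → E2 → E2 → ℝ := fun i j k => (h₁ j i k + h₁ i j k - h₁ k i j) / 2
  let tp : ℝ → ℝ → ℝ → ℝ → ℝ := fun z₀ z₁ y₀ y₁ =>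
    (h b1 b1 * z₀ * y₀ - h b0 b1 * (z₀ * y₁ + z₁ * y₀) + h b0 b0 * z₁ * y₁)
      / (h b0 b0 * h b1 b1 - h b0 b1 ^ 2)
  (-(h₂ b1 b1 b0 b0) / 2 + h₂ b0 b1 b0 b1 - h₂ b0 b0 b1 b1 / 2)
    - tp (Γ b0 b0 b0) (Γ b0 b0 b1) (Γ b1 b1 b0) (Γ b1 b1 b1)
    + tp (Γ b0 b1 b0) (Γ b0 b1 b1) (Γ b0 b1 b0) (Γ b0 b1 b1)

/-- `det g * (Gauss curvature of g)` at `x` (Theorema egregium: `Jet.gauss`). -/
def kap (g : E2 → Bil) (x : E2) : ℝ :=
  kapJ (fun i j => g x i j) (fun k i j => fderiv ℝ (fun y => g y i j) x k)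
    (fun k l i j => fderiv ℝ (fun y => fderiv ℝ (fun z => g z i j) y l) x k)

/-- `l ⊗ l` -/
def sq2 (l : E2 →L[ℝ] ℝ) : Bil := (ContinuousLinearMap.mul ℝ ℝ).bilinearComp l l

end jets

namespace Atl

variable {M : Type*} [TopologicalSpace M] (A : Atl E2 M)

/-- a smooth symmetric 2-tensor, given by its chart expressions -/
structure Ten (H : A.ι → E2 → Bil) : Prop where
  smooth : ∀ a, ContDiff ℝ ∞ (H a)
  symm : ∀ a x v w, H a x v w = H a x w v
  compat : ∀ a b, ∀ x ∈ A.O a b, ∀ v w,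
    H a x v w = H b (A.T a b x) (fderiv ℝ (A.T a b) x v) (fderiv ℝ (A.T a b) x w)

/-- a Riemannian metric -/
structure Met (H : A.ι → E2 → Bil) : Prop extends A.Ten H where
  pos : ∀ a x v, v ≠ 0 → 0 < H a x v v

/-- the metric induced by `F` -/
def pull {W : Type*} [NormedAddCommGroup W] [InnerProductSpace ℝ W] (F : M → W) :
    A.ι → E2 → Bil :=
  fun a x => pb (fun x => F (A.p a x)) x

open Classical in
/-- extension by zero of a tensor given in chart `a` -/
def pushT (a : A.ι) (h : E2 → Bil) : A.ι → E2 → Bil :=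
  fun b x => if x ∈ A.O b a then
    (h (A.T b a x)).bilinearComp (fderiv ℝ (A.T b a) x) (fderiv ℝ (A.T b a) x) else 0

/-- `F` is an immersion -/
def Imm {W : Type*} [NormedAddCommGroup W] [NormedSpace ℝ W] (F : M → W) : Prop :=
  ∀ a x, Function.Injective (fderiv ℝ (fun x => F (A.p a x)) x)

/-- quantitative non-vanishing of the second fundamental form -/
def ND (F : M → E4) (ν : ℝ) : Prop :=
  ∀ a, ∀ x ∈ closedBall (0 : E2) 2, ∃ τ : E2, ‖τ‖ ≤ 1 ∧ ν ≤ ‖II (fun x => F (A.p a x)) x τ τ‖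

/-- the constant vector `v` of chart `a`, read in chart `b` at the point `x` -/
def vec (a : A.ι) (v : E2) (b : A.ι) (x : E2) : E2 := fderiv ℝ (A.T a b) (A.T b a x) v

end Atl

/-- The steps: discs, directions and amplitudes.  Step `j` lives in chart `ch j`, on the disc
`closedBall (c j) (r j)`, and adds `am j ^ 2 • l j ⊗ l j` to the metric. -/
structure Steps {M : Type*} [TopologicalSpace M] (A : Atl E2 M) where
  J : ℕ
  ch : Fin J → A.ι
  c : Fin J → E2
  r : Fin J → ℝ
  es : Fin J → E2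
  et : Fin J → E2
  l : Fin J → (E2 →L[ℝ] ℝ)
  b : Fin J → E2 → ℝ
  r_pos : ∀ j, 0 < r j
  sub : ∀ j, closedBall (c j) (r j) ⊆ ball 0 (3 / 2)
  l_es : ∀ j, l j (es j) = 1
  l_et : ∀ j, l j (et j) = 0
  norm_et : ∀ j, ‖et j‖ = 1
  b_smooth : ∀ j, ContDiff ℝ ∞ (b j)
  b_pos : ∀ j x, 0 < b j x

namespace Steps

variable {M : Type*} [TopologicalSpace M] {A : Atl E2 M} (S : Steps A)

/-- amplitude of step `j` (in chart `ch j`); positive exactly on the open disc -/
def am (j : Fin S.J) (x : E2) : ℝ := expNegInvGlue (S.r j ^ 2 - ‖x - S.c j‖ ^ 2) * S.b j x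

/-- closed disc of step `j` -/
def D (j : Fin S.J) : Set M := A.p (S.ch j) '' closedBall (S.c j) (S.r j)

/-- open disc of step `j` -/
def Do (j : Fin S.J) : Set M := A.p (S.ch j) '' ball (S.c j) (S.r j)

/-- the direction `et j` read in chart `a` -/
def tau (j : Fin S.J) (a : A.ι) (x : E2) : E2 := A.vec (S.ch j) (S.et j) a x

/-- the tensor added by step `j` -/
def inc (j : Fin S.J) : A.ι → E2 → Bil :=
  A.pushT (S.ch j) (fun x => (S.am j x) ^ 2 • sq2 (S.l j))

/-- the metric after the steps `i < n` -/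
def gs (g₀ : A.ι → E2 → Bil) (n : ℕ) : A.ι → E2 → Bil :=
  fun a x => g₀ a x + ∑ i : Fin S.J with i.val < n, S.inc i a x

end Steps

/-- Geometric input of the main construction. `Bad j` is the part of the boundary circle of disc `j`
where a later step is active and the curvature after step `j` is not known to be positive. -/
structure Geo {M : Type*} [TopologicalSpace M] (A : Atl E2 M) (g : A.ι → E2 → Bil) where
  S : Steps A
  F0 : M → E4
  Bad : Fin S.J → Set E2
  F0_sm : A.Sm F0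
  F0_imm : A.Imm F0
  /-- no asymptotic directions -/
  F0_II : ∀ a x (τ : E2), τ ≠ 0 → II (fun x => F0 (A.p a x)) x τ τ ≠ 0
  sum : S.gs (A.pull F0) S.J = g
  bad_closed : ∀ j, IsClosed (Bad j)
  bad_sub : ∀ j, Bad j ⊆ sphere (S.c j) (S.r j)
  /-- off `Bad j`: nothing happens later, or the curvature after step `j` is positive -/
  good : ∀ j, ∀ x ∈ sphere (S.c j) (S.r j), x ∉ Bad j →
    (∀ i, j < i → A.p (S.ch j) x ∉ S.D i) ∨ 0 < kap (S.gs (A.pull F0) (j.val + 1) (S.ch j)) x
  /-- on `Bad j` the direction of step `j` is transverse to the circle -/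
  bad_tr : ∀ j, ∀ x ∈ Bad j, ⟪x - S.c j, S.et j⟫ ≠ 0
  /-- an earlier step is active at every point of `Bad j` -/
  bad_ex : ∀ j, ∀ x ∈ Bad j, ∃ i, i < j ∧ A.p (S.ch j) x ∈ S.D i
  /-- earlier active steps: the point is interior, and the directions of step `j` and of all later
  active steps are transverse to the direction of the earlier step -/
  bad_gen : ∀ j, ∀ x ∈ Bad j, ∀ i, i < j → A.p (S.ch j) x ∈ S.D i →
    A.p (S.ch j) x ∈ S.Do i ∧
    ∀ k, j ≤ k → A.p (S.ch j) x ∈ S.D k →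
      S.l i (S.tau k (S.ch i) (A.T (S.ch j) (S.ch i) x)) ≠ 0

end Crest.Agent.R216
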