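import Crest.Agent.R216.StepDefs
import Crest.Agent.R216.Cls3

/-! # Row 216, construction of the frames -/

set_option autoImplicit false
open Set Filter Metric
open scoped ContDiff RealInnerProductSpace Topology

noncomputable section
namespace Crest.Agent.R216

/-- elementary trilinear map `u i * v j * z k • e_l` -/
def frT (i j k l : Fin 4) : E4 →L[ℝ] E4 →L[ℝ] E4 →L[ℝ] E4 :=
  (EuclideanSpace.proj i : E4 →L[ℝ] ℝ).smulRight ((EuclideanSpace.proj j : E4 →L[ℝ] ℝ).smulRight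
    ((EuclideanSpace.proj k : E4 →L[ℝ] ℝ).smulRight (EuclideanSpace.single l (1 : ℝ) : E4)))

set_option maxSynthPendingDepth 3 in
/-- the minor with columns `a, b, c` times `e_l` -/
def frD (a b c l : Fin 4) : E4 →L[ℝ] E4 →L[ℝ] E4 →L[ℝ] E4 :=
  frT a b c l - frT a c b l - frT b a c l + frT b c a l + frT c a b l - frT c b a l

set_option maxSynthPendingDepth 3 in
theorem frD_apply (a b c l : Fin 4) (u v z : E4) : frD a b c l u v z =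
    (u a * v b * z c - u a * v c * z b - u b * v a * z c + u b * v c * z a + u c * v a * z b
      - u c * v b * z a) • (EuclideanSpace.single l (1 : ℝ) : E4) := by
  simp only [frD, frT, sub_apply, add_apply, ContinuousLinearMap.smulRight_apply, smul_apply,
    PiLp.proj_apply]
  module

theorem fr_inner (u v : E4) : ⟪u, v⟫ = u 0 * v 0 + u 1 * v 1 + u 2 * v 2 + u 3 * v 3 := by
  simp [PiLp.inner_apply, Fin.sum_univ_four, mul_comm]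

set_option maxSynthPendingDepth 3 in
/-- the vector product -/
def frX : E4 →L[ℝ] E4 →L[ℝ] E4 →L[ℝ] E4 := frD 1 2 3 0 - frD 0 2 3 1 + frD 0 1 3 2 - frD 0 1 2 3

set_option maxSynthPendingDepth 3 in
theorem frX_apply (u v z : E4) : frX u v z =
    frD 1 2 3 0 u v z - frD 0 2 3 1 u v z + frD 0 1 3 2 u v z - frD 0 1 2 3 u v z := rfl

/-- the vector product of three vectors of `ℝ⁴` (cofactor expansion) -/
theorem exists_cross : ∃ X : E4 →L[ℝ] E4 →L[ℝ] E4 →L[ℝ] E4, ∀ u v z : E4,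
    ⟪u, X u v z⟫ = 0 ∧ ⟪v, X u v z⟫ = 0 ∧ ⟪z, X u v z⟫ = 0 ∧ ⟪X u v z, X u v z⟫ = g3 u v z := by
  refine ⟨frX, fun u v z => ?_⟩
  simp only [frX_apply, frD_apply, g3, fr_inner]
  simp
  refine ⟨?_, ?_, ?_, ?_⟩ <;> ring

theorem fr_g3_le (s u v : E4) : g3 s u v ≤ g2 u v * ‖s‖ ^ 2 := by
  rw [g3_swap12, g3_swap23]
  exact g3_le u v s

/-- Pointwise frame.  With `u = Gt`, `v = Gtt`, `s = Gs`, `γ₂ = g2 u v`, `γ₃ = g3 s u v > 0`:
`f1 = γ₂⁻¹ (⟪v,v⟫ u - ⟪u,v⟫ v)`, `f2 = γ₂⁻¹ (⟪u,u⟫ v - ⟪u,v⟫ u)`, `nproj u v s = s - ⟪s,f1⟫ u - ⟪s,f2⟫ v`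
has squared norm `γ₃ / γ₂` (`g3_eq`). -/
theorem Fr.mk' {s u v n : E4} (h3 : 0 < g3 s u v) (hn : ⟪u, n⟫ = 0 ∧ ⟪v, n⟫ = 0 ∧ ⟪s, n⟫ = 0 ∧
      ⟪n, n⟫ = g3 s u v) {i2 r3 r23 : ℝ} (hi2 : i2 = (g2 u v)⁻¹) (hr3 : r3 = (√(g3 s u v))⁻¹)
    (hr23 : r23 = (√(g2 u v * g3 s u v))⁻¹) :
    Fr s u v (i2 • (⟪v, v⟫ • u - ⟪u, v⟫ • v)) (i2 • (⟪u, u⟫ • v - ⟪u, v⟫ • u))
      (r23 • (g2 u v • s - (⟪v, v⟫ * ⟪u, s⟫ - ⟪u, v⟫ * ⟪v, s⟫) • u
        - (⟪u, u⟫ * ⟪v, s⟫ - ⟪u, v⟫ * ⟪u, s⟫) • v))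
      (r3 • n) (r23 * g3 s u v) (r23 * g2 u v) := by
  obtain ⟨n1, n2, n3, n4⟩ := hn
  have h2 : 0 < g2 u v := by
    refine (g2_nonneg u v).lt_of_ne fun h => ?_
    have := fr_g3_le s u v
    rw [← h, zero_mul] at this
    linarith
  have k1 : i2 * g2 u v = 1 := by rw [hi2, inv_mul_cancel₀ h2.ne']
  have k2 : r3 * r3 * g3 s u v = 1 := by
    rw [hr3, ← mul_inv, Real.mul_self_sqrt h3.le, inv_mul_cancel₀ h3.ne']
  have k3 : r23 * r23 * (g2 u v * g3 s u v) = 1 := by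
    rw [hr23, ← mul_inv, Real.mul_self_sqrt (by positivity), inv_mul_cancel₀ (by positivity)]
  have k4 : 0 < r23 := by
    rw [hr23]
    positivity
  have k5 : r23 * g3 s u v * r23 = i2 := by linear_combination i2 * k3 - r23 * g3 s u v * r23 * k1
  have c1 : ⟪v, u⟫ = ⟪u, v⟫ := real_inner_comm _ _
  have c2 : ⟪s, u⟫ = ⟪u, s⟫ := real_inner_comm _ _
  have c3 : ⟪s, v⟫ = ⟪v, s⟫ := real_inner_comm _ _
  have c4 : ⟪n, u⟫ = 0 := by rw [real_inner_comm, n1]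
  have c5 : ⟪n, v⟫ = 0 := by rw [real_inner_comm, n2]
  have d2 : g2 u v = ⟪u, u⟫ * ⟪v, v⟫ - ⟪u, v⟫ ^ 2 := rfl
  have d3 : g3 s u v = g2 u v * ⟪s, s⟫ - (⟪v, v⟫ * ⟪u, s⟫ - ⟪u, v⟫ * ⟪v, s⟫) * ⟪u, s⟫
      - (⟪u, u⟫ * ⟪v, s⟫ - ⟪u, v⟫ * ⟪u, s⟫) * ⟪v, s⟫ := by
    rw [g3, g2, c2, c3]
    ring
  generalize hE : g2 u v • s - (⟪v, v⟫ * ⟪u, s⟫ - ⟪u, v⟫ * ⟪v, s⟫) • u
    - (⟪u, u⟫ * ⟪v, s⟫ - ⟪u, v⟫ * ⟪u, s⟫) • v = E
  have e1 : ⟪u, E⟫ = 0 := by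
    simp only [← hE, inner_sub_right, real_inner_smul_right, d2]
    ring
  have e2 : ⟪v, E⟫ = 0 := by
    simp only [← hE, inner_sub_right, real_inner_smul_right, d2, c1]
    ring
  have e3 : ⟪s, E⟫ = g3 s u v := by
    simp only [← hE, inner_sub_right, real_inner_smul_right, d3, c2, c3]
  have e4 : ⟪E, E⟫ = g2 u v * g3 s u v := by
    nth_rewrite 1 [← hE]
    simp only [inner_sub_left, real_inner_smul_left, e1, e2, e3]
    ring
  have e5 : ⟪E, n⟫ = 0 := by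
    simp only [← hE, inner_sub_left, real_inner_smul_left, n1, n2, n3]
    ring
  have e6 : ⟪E, u⟫ = 0 := by rw [real_inner_comm, e1]
  have e7 : ⟪E, v⟫ = 0 := by rw [real_inner_comm, e2]
  constructor
  case span =>
    rw [smul_smul, k5, ← hE]
    simp only [inner_sub_right, real_inner_smul_right, c2, c3]
    match_scalars
    · linear_combination -k1
    · ring
    · ring
  case rho_pos => positivity
  case irho_mul => linear_combination k3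
  all_goals
    simp only [inner_sub_right, real_inner_smul_right, real_inner_smul_left, c1, c4, c5, n1, n2, n3,
      n4, e1, e2, e3, e4, e5, e6, e7, mul_zero, sub_self]
  · linear_combination k1 - i2 * d2
  · ring
  · ring
  · linear_combination k1 - i2 * d2
  · linear_combination k3
  · linear_combination k2

/-- Frames for a family.  All inner products, `g2`, `g3` are in `Sx 1`.  Where
`(C μ^m)⁻¹ ≤ g3 s u v` one has `g2 u v ≥ g3 / ‖s‖²` (`g3_le`, symmetry) with `‖s‖ ≤ C' μ^k`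
(`Sx.norm_le`), so `Sx.rinv`, `Sx.rsqrt` give `i2, r3, r23`. -/
theorem exists_frames {J N : Type} {π : J → N} {μ : J → ℝ} (hμ : ∀ i, 1 ≤ μ i)
    {s u v : J → E2 → E4} (hs : Sx π μ (fun _ _ => 1) s) (hu : Sx π μ (fun _ _ => 1) u)
    (hv : Sx π μ (fun _ _ => 1) v) (C : N → ℝ) (hC : ∀ n, 0 < C n) (m : ℕ) :
    ∃ (f1 f2 e0 nu : J → E2 → E4) (rho irho : J → E2 → ℝ),
      Sx π μ (fun _ _ => 1) f1 ∧ Sx π μ (fun _ _ => 1) f2 ∧ Sx π μ (fun _ _ => 1) e0 ∧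
      Sx π μ (fun _ _ => 1) nu ∧ Sx π μ (fun _ _ => 1) rho ∧ Sx π μ (fun _ _ => 1) irho ∧
      ∀ i x, (C (π i) * μ i ^ m)⁻¹ ≤ g3 (s i x) (u i x) (v i x) →
        Fr (s i x) (u i x) (v i x) (f1 i x) (f2 i x) (e0 i x) (nu i x) (rho i x) (irho i x) := by
  obtain ⟨X, hX⟩ := exists_cross
  obtain ⟨k, C', hC', hsn⟩ := hs.norm_le
  have hC0 : ∀ n, 0 < C' n := fun n => one_pos.trans_le (hC' n)
  have uu := hu.inner1 hμ hu
  have uv := hu.inner1 hμ hv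
  have vv := hv.inner1 hμ hv
  have us := hu.inner1 hμ hs
  have vs := hv.inner1 hμ hs
  have hn : Sx π μ (fun _ _ => 1) (fun i x => X (s i x) (u i x) (v i x)) :=
    ((hs.bilin hμ hu X).bilin hμ hv (ContinuousLinearMap.id ℝ (E4 →L[ℝ] E4))).mono
      fun _ _ => by simp
  have h2 : Sx π μ (fun _ _ => 1) (fun i x => g2 (u i x) (v i x)) :=
    ((uu.mul1 hμ vv).sub hμ (uv.mul1 hμ uv)).congr fun i x => by rw [g2, sq]
  have h3 : Sx π μ (fun _ _ => 1) (fun i x => g3 (s i x) (u i x) (v i x)) :=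
    (hn.inner1 hμ hn).congr fun i x => (hX _ _ _).2.2.2
  obtain ⟨i2, hi2, ei2⟩ := h2.rinv hμ (fun n => C n * C' n ^ 2)
    (fun n => mul_pos (hC n) (pow_pos (hC0 n) 2)) (m + 2 * k)
  obtain ⟨r3, hr3, -, er3⟩ := h3.rsqrt hμ C hC m
  obtain ⟨r23, hr23, -, er23⟩ := (h2.mul1 hμ h3).rsqrt hμ (fun n => C n * C' n ^ 2 * C n)
    (fun n => mul_pos (mul_pos (hC n) (pow_pos (hC0 n) 2)) (hC n)) (m + 2 * k + m)
  refine ⟨_, _, _, _, _, _, hi2.smul1 hμ ((vv.smul1 hμ hu).sub hμ (uv.smul1 hμ hv)),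
    hi2.smul1 hμ ((uu.smul1 hμ hv).sub hμ (uv.smul1 hμ hu)),
    hr23.smul1 hμ (((h2.smul1 hμ hs).sub hμ
      (((vv.mul1 hμ us).sub hμ (uv.mul1 hμ vs)).smul1 hμ hu)).sub hμ
      (((uu.mul1 hμ vs).sub hμ (uv.mul1 hμ us)).smul1 hμ hv)),
    hr3.smul1 hμ hn, hr23.mul1 hμ h3, hr23.mul1 hμ h2, fun i x h => ?_⟩
  have m0 : 0 < μ i := one_pos.trans_le (hμ i)
  have c0 := hC (π i)
  have c1 := hC0 (π i)
  have b2 : (C (π i) * C' (π i) ^ 2 * μ i ^ (m + 2 * k))⁻¹ ≤ g2 (u i x) (v i x) := by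
    have h4 := hsn i x
    have h5 := g2_nonneg (u i x) (v i x)
    have h6 : (C (π i) * μ i ^ m)⁻¹ ≤ g2 (u i x) (v i x) * (C' (π i) * 1 * μ i ^ k) ^ 2 :=
      h.trans ((fr_g3_le _ _ _).trans (by gcongr))
    rw [inv_le_iff_one_le_mul₀ (by positivity)] at h6 ⊢
    refine h6.trans_eq ?_
    ring
  obtain ⟨x1, x2, x3, x4⟩ := hX (s i x) (u i x) (v i x)
  refine Fr.mk' (lt_of_lt_of_le (by positivity) h) ⟨x2, x3, x1, x4⟩ (ei2 i x b2) (er3 i x h)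
    (er23 i x (le_trans (le_of_eq ?_) (mul_le_mul b2 h (by positivity) (g2_nonneg _ _))))
  rw [← mul_inv]
  congr 1
  ring

end Crest.Agent.R216
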