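import Crest.Agent.R216.Loop1
import Crest.Agent.R216.Defs

/-! # Row 216, large loops -/

set_option autoImplicit false
open Set Filter Metric
open scoped ContDiff RealInnerProductSpace Topology

noncomputable section
namespace Crest.Agent.R216

/-- `ρ = √(rho² + a²)` -/
def bigR (rho a : E2 → ℝ) (x : E2) : ℝ := √(rho x ^ 2 + a x ^ 2)

/-- the minimal turning angle `3 a / √(ρ (ρ + rho))` -/
def Bst (rho a : E2 → ℝ) (x : E2) : ℝ := 3 * a x / √(bigR rho a x * (bigR rho a x + rho x))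

theorem Loop2_R_pos {rho a : E2 → ℝ} (hpos : ∀ x, 0 < rho x) (x : E2) : 0 < bigR rho a x := by
  have := hpos x
  exact Real.sqrt_pos.2 (by positivity)

theorem Loop2_R_sq (rho a : E2 → ℝ) (x : E2) : bigR rho a x ^ 2 = rho x ^ 2 + a x ^ 2 :=
  Real.sq_sqrt (by positivity)

theorem contDiff_bigR {rho a : E2 → ℝ} (hr : ContDiff ℝ ∞ rho) (hpos : ∀ x, 0 < rho x)
    (ha : ContDiff ℝ ∞ a) : ContDiff ℝ ∞ (bigR rho a) := ((hr.pow 2).add (ha.pow 2)).sqrt fun x => by have := hpos x; positivity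

theorem contDiff_Bst {rho a : E2 → ℝ} (hr : ContDiff ℝ ∞ rho) (hpos : ∀ x, 0 < rho x)
    (ha : ContDiff ℝ ∞ a) : ContDiff ℝ ∞ (Bst rho a) := by
  have hR := contDiff_bigR hr hpos ha
  have hp : ∀ x, 0 < bigR rho a x * (bigR rho a x + rho x) := fun x => by
    have := hpos x
    have := Loop2_R_pos (a := a) hpos x
    positivity
  exact (contDiff_const.mul ha).div ((hR.mul (hR.add hr)).sqrt fun x => (hp x).ne')
    fun x => (Real.sqrt_pos.2 (hp x)).ne'

theorem Loop2_div {a E : E2 → ℝ} (ha : ContDiff ℝ ∞ a) (hE : ContDiff ℝ ∞ E)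
    (hEa : ∀ x ∈ tsupport E, 0 < a x) : ContDiff ℝ ∞ fun x => E x / a x := by
  refine contDiff_iff_contDiffAt.2 fun x => ?_
  by_cases hx : x ∈ tsupport E
  · exact hE.contDiffAt.div ha.contDiffAt (hEa x hx).ne'
  · refine (contDiffAt_const (c := (0 : ℝ))).congr_of_eventuallyEq ?_
    filter_upwards [notMem_tsupport_iff_eventuallyEq.1 hx] with y hy
    simp [hy]

theorem Loop2_anti {u : E2 × ℝ → ℝ} (hu : Continuous u) {x : E2}
    (h : ∀ θ, u (x, θ + Real.pi) = -u (x, θ)) : mean u x = 0 := by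
  have h1 := intervalIntegral.integral_add_adjacent_intervals (Int2_ii hu x 0 Real.pi)
    (Int2_ii hu x Real.pi (2 * Real.pi))
  have h2 := intervalIntegral.integral_comp_add_right (a := 0) (b := Real.pi)
    (fun θ => u (x, θ)) Real.pi
  simp only [h, intervalIntegral.integral_neg] at h2
  rw [zero_add, ← two_mul] at h2
  rw [mean, ← h1, ← h2, add_neg_cancel, smul_zero]

theorem Loop2_snc_ge {y : ℝ} (h0 : 0 ≤ y) (h1 : y ≤ Real.pi / 2) : 1 / 2 ≤ snc y := by
  rcases h0.eq_or_lt with rfl | h0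
  · rw [snc_zero]; norm_num
  · have h2 := Real.mul_le_sin h0.le h1
    rw [← mul_snc, mul_comm] at h2
    have h3 : 2 / Real.pi ≤ snc y := le_of_mul_le_mul_left h2 h0
    refine le_trans ?_ h3
    rw [div_le_div_iff₀ two_pos Real.pi_pos]
    linarith [Real.pi_le_four]

/-- the profile `T` -/
def Loop2_T (B : E2 → ℝ) (z : E2 × ℝ) : ℝ :=
  -(Real.cos z.2 ^ 2 * (snc (B z.1 * Real.cos z.2 / 2) ^ 2 / 2))

theorem Loop2_T_mul (B : E2 → ℝ) (z : E2 × ℝ) :
    B z.1 ^ 2 * Loop2_T B z = Real.cos (B z.1 * Real.cos z.2) - 1 := by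
  have := one_sub_cos_eq (B z.1 * Real.cos z.2)
  rw [Loop2_T]
  linear_combination this

theorem Loop2_T_smooth {B : E2 → ℝ} (hB : ContDiff ℝ ∞ B) : ContDiff ℝ ∞ (Loop2_T B) := by
  have h1 : ContDiff ℝ ∞ fun z : E2 × ℝ => Real.cos z.2 := Real.contDiff_cos.comp contDiff_snd
  exact ((h1.pow 2).mul (((contDiff_snc.comp
    (((hB.comp contDiff_fst).mul h1).div_const 2)).pow 2).div_const 2)).neg

theorem Loop2_T_pi (B : E2 → ℝ) (x : E2) (t : ℝ) : Loop2_T B (x, t + Real.pi) = Loop2_T B (x, t) := by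
  simp only [Loop2_T, Real.cos_add_pi, mul_neg, neg_div, snc_neg, neg_sq]

theorem Loop2_T_neg (B : E2 → ℝ) (x : E2) (t : ℝ) : Loop2_T B (x, -t) = Loop2_T B (x, t) := by
  simp only [Loop2_T, Real.cos_neg]

/-- the reparametrisation with `mean T(ϑ) = -y` -/
theorem Loop2_theta {B y : E2 → ℝ} (hB : ContDiff ℝ ∞ B) (hy : ContDiff ℝ ∞ y) (hB0 : ∀ x, 0 ≤ B x)
    (hy0 : ∀ x, 0 < y x) (hy1 : ∀ x, y x ≤ 1 / 9) (hy2 : ∀ x, B x ^ 2 * y x < 1) :
    ∃ ϑ : E2 × ℝ → ℝ, ContDiff ℝ ∞ ϑ ∧ (∀ z, 0 < dθ ϑ z) ∧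
      (∀ x θ, ϑ (x, θ + Real.pi) = ϑ (x, θ) + Real.pi) ∧ (∀ x θ, ϑ (x, -θ) = -ϑ (x, θ)) ∧
      (∀ x, Function.Surjective (fun θ => ϑ (x, θ))) ∧
      ∀ x, mean (fun z => Loop2_T B (z.1, ϑ z)) x = -y x := by
  set f : E2 × ℝ → ℝ := fun z => Loop2_T B z + y z.1 with hf
  have fs : ContDiff ℝ ∞ f := (Loop2_T_smooth hB).add (hy.comp contDiff_fst)
  have fpi : ∀ x t, f (x, t + Real.pi) = f (x, t) := fun x t => by simp only [hf, Loop2_T_pi]
  have fper : Per f := fun x t => by rw [two_mul, ← add_assoc, fpi, fpi]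
  have fneg : ∀ x t, f (x, -t) = f (x, t) := fun x t => by simp only [hf, Loop2_T_neg]
  obtain ⟨lam, ls, hl⟩ := exists_tilt fs fper
    (fun x => ⟨Real.pi / 2, by simpa [hf, Loop2_T] using hy0 x⟩) fun x => by
      rcases le_or_gt (B x) (Real.pi / 2) with h | h
      · refine ⟨0, ?_⟩
        have h1 := Loop2_snc_ge (y := B x / 2) (by linarith [hB0 x]) (by linarith [hB0 x])
        have h2 := hy1 x
        simp only [hf, Loop2_T, Real.cos_zero, mul_one, one_pow, one_mul]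
        nlinarith
      · have hp := Real.pi_pos
        have hB' : 0 < B x := by linarith
        have h1 : Real.cos (Real.arccos (Real.pi / 2 / B x)) = Real.pi / 2 / B x :=
          Real.cos_arccos (le_trans (by norm_num) (by positivity : (0 : ℝ) ≤ _))
            ((div_le_one hB').2 h.le)
        refine ⟨Real.arccos (Real.pi / 2 / B x), ?_⟩
        have h2 := Loop2_T_mul B (x, Real.arccos (Real.pi / 2 / B x))
        simp only [h1, mul_div_cancel₀ _ hB'.ne', Real.cos_pi_div_two] at h2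
        have h3 := hy2 x
        refine neg_of_mul_neg_left (b := B x ^ 2) ?_ (sq_nonneg _)
        simp only [hf]
        linarith
  set g : E2 × ℝ → ℝ := fun z => Real.exp (lam z.1 * f z) with hg
  have gs : ContDiff ℝ ∞ g := ((ls.comp contDiff_fst).mul fs).exp
  have gpos : ∀ z, 0 < g z := fun z => Real.exp_pos _
  have mpos : ∀ x, 0 < mean g x := fun x =>
    mean_pos gs.continuous (fun x t => by simp only [hg, fper x t]) (fun θ => (gpos _).le)
      (gpos (x, 0))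
  have ms : ContDiff ℝ ∞ fun x => (mean g x)⁻¹ := (contDiff_mean gs).inv fun x => (mpos x).ne'
  have hm1 : ∀ x, mean (fun z => (mean g z.1)⁻¹ * g z) x = 1 := fun x => by
    rw [mean_mul_left (fun x => (mean g x)⁻¹), inv_mul_cancel₀ (mpos x).ne']
  obtain ⟨ϑ, t1, t2, t3, t4, t5, t6⟩ := exists_reparam (ϱ := fun z => (mean g z.1)⁻¹ * g z)
    ((ms.comp contDiff_fst).mul gs) (fun z => mul_pos (inv_pos.2 (mpos _)) (gpos _))
    (fun x t => by simp only [hg, fpi]) (fun x t => by simp only [hg, fneg]) hm1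
  refine ⟨ϑ, t1, t2, t3, t4, t5, fun x => ?_⟩
  have h1 := t6 f fs.continuous x
  have h2 : mean (fun z => (mean g z.1)⁻¹ * g z * f z) x = 0 := by
    rw [← mul_zero (mean g x)⁻¹, ← hl x, ← mean_mul_left (fun x => (mean g x)⁻¹)]
    exact mean_congr fun θ => by simp only [hg]; ring
  have h3 := mean_add (u := fun z => Loop2_T B (z.1, ϑ z)) (v := fun z => y z.1)
    ((Loop2_T_smooth hB).continuous.comp (continuous_fst.prodMk t1.continuous))
    (hy.continuous.comp continuous_fst) x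
  rw [mean_fst] at h3
  rw [h2] at h1
  exact eq_neg_of_add_eq_zero_left (h3.symm.trans h1)

theorem Loop2_turn {B : E2 → ℝ} {ϑ : E2 × ℝ → ℝ} (hB : ContDiff ℝ ∞ B) (hB0 : ∀ x, 0 ≤ B x)
    (t1 : ContDiff ℝ ∞ ϑ) (t2 : ∀ z, 0 < dθ ϑ z) (z : E2 × ℝ)
    (h : dθ (fun z => B z.1 * Real.cos (ϑ z)) z = 0) :
    |B z.1 * Real.cos (ϑ z)| = B z.1 ∧
      ∀ v, |dx v (fun z => B z.1 * Real.cos (ϑ z)) z| = |fderiv ℝ B z.1 v| := by
  have d1 : HasFDerivAt (fun z : E2 × ℝ => B z.1) _ z :=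
    (hB.differentiable (by simp) z.1).hasFDerivAt.comp z hasFDerivAt_fst
  have d2 := (t1.differentiable (by simp) z).hasFDerivAt.cos
  have d3 : fderiv ℝ (fun z : E2 × ℝ => B z.1 * Real.cos (ϑ z)) z = _ := (d1.mul d2).fderiv
  have e1 : dθ (fun z => B z.1 * Real.cos (ϑ z)) z = -(B z.1 * Real.sin (ϑ z) * dθ ϑ z) := by
    rw [dθ, d3]
    simp [dθ, mul_assoc]
  have e2 : ∀ v, dx v (fun z => B z.1 * Real.cos (ϑ z)) z =
      -(B z.1 * Real.sin (ϑ z) * dx v ϑ z) + Real.cos (ϑ z) * fderiv ℝ B z.1 v := fun v => by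
    rw [dx, d3]
    simp [dx, mul_assoc]
  rw [e1, neg_eq_zero] at h
  have h1 := (mul_eq_zero.1 h).resolve_right (t2 z).ne'
  simp only [e2, h1, zero_mul, neg_zero, zero_add]
  rcases mul_eq_zero.1 h1 with h2 | h2
  · have hmin : IsLocalMin B z.1 := Eventually.of_forall fun x => by rw [h2]; exact hB0 x
    simp [h2, hmin.fderiv_eq_zero]
  · have h3 : |Real.cos (ϑ z)| = 1 := by
      have := Real.sin_sq_add_cos_sq (ϑ z)
      rw [h2] at this
      exact (sq_eq_sq₀ (abs_nonneg _) zero_le_one).1 (by rw [sq_abs]; linarith)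
    simp [abs_mul, h3, abs_of_nonneg (hB0 z.1)]

/-- **Loops with prescribed turning angle** `B = Bst + E`.
Put `ρ = bigR`, `s = (√(ρ(ρ+rho)))⁻¹`, `Ba = 3 s + E / a` (smooth: near every point `a > 0` or
`E = 0`), so `B = a Ba`; `y = s² / Ba² > 0`, `T (x,t) = -cos² t * snc (B cos t / 2)² / 2`
(so `B² T = cos (B cos t) - 1`), `f = T + y`.  `f (π/2) = y > 0`; `f < 0` somewhere: if `B = 0`
then `a = 0`, `E / a = 0`, `y = 1/9`, `T 0 = -1/2`; if `0 < B ≤ π/2` then at `t = 0`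
`1 - cos B ≥ 2 B²/π² ≥ 18 a² s²/π² > a² s² = B² y`; if `B > π/2` take `cos t = π/(2B)`:
`1 - cos (π/2) = 1 > a² s² = 1 - rho/ρ`.  `exists_tilt` gives `λ`; `ϱ = e^{λ f} / mean e^{λ f}`;
`exists_reparam` gives `ϑ`; `α = B cos ϑ`, `q1 = a (ρ Ba² T(ϑ) + (ρ + rho)⁻¹)`,
`q2 = ρ Ba cos ϑ snc α`.  `mean T(ϑ) = -y`; `q2 (θ + π) = -q2 θ`; for the mean of `q1² + q2²`
distinguish `a = 0` and `a > 0`.  Turning points: `α_θ = -B sin ϑ ϑ_θ`; if `B x = 0` then `x` is a
minimum of `B ≥ 0`, so `DB x = 0`. -/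
theorem exists_loop {rho a E : E2 → ℝ} (hr : ContDiff ℝ ∞ rho) (hpos : ∀ x, 0 < rho x)
    (ha : ContDiff ℝ ∞ a) (ha0 : ∀ x, 0 ≤ a x) (hE : ContDiff ℝ ∞ E) (hE0 : ∀ x, 0 ≤ E x)
    (hEa : ∀ x ∈ tsupport E, 0 < a x) :
    ∃ α q1 q2 : E2 × ℝ → ℝ, ContDiff ℝ ∞ α ∧ ContDiff ℝ ∞ q1 ∧ ContDiff ℝ ∞ q2 ∧
      Per q1 ∧ Per q2 ∧ (∀ x θ, q1 (x, -θ) = q1 (x, θ)) ∧ (∀ x θ, q2 (x, -θ) = q2 (x, θ)) ∧
      (∀ z, rho z.1 + a z.1 * q1 z = bigR rho a z.1 * Real.cos (α z)) ∧
      (∀ z, a z.1 * q2 z = bigR rho a z.1 * Real.sin (α z)) ∧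
      (∀ x, mean q1 x = 0) ∧ (∀ x, mean q2 x = 0) ∧
      (∀ x, mean (fun z => q1 z ^ 2 + q2 z ^ 2) x = 1) ∧
      (∀ x, 0 < mean (fun z => q2 z ^ 2) x) ∧
      ∀ z, dθ α z = 0 → |α z| = Bst rho a z.1 + E z.1 ∧
        ∀ v, |dx v α z| = |fderiv ℝ (fun x => Bst rho a x + E x) z.1 v| := by
  have Rs := contDiff_bigR hr hpos ha
  have Rp := Loop2_R_pos (a := a) hpos
  have Rsq := Loop2_R_sq rho a
  have Bs : ContDiff ℝ ∞ fun x => Bst rho a x + E x := (contDiff_Bst hr hpos ha).add hE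
  set R := bigR rho a with hR
  set B : E2 → ℝ := fun x => Bst rho a x + E x with hB
  have hp : ∀ x, 0 < R x * (R x + rho x) := fun x => mul_pos (Rp x) (add_pos (Rp x) (hpos x))
  set s : E2 → ℝ := fun x => (√(R x * (R x + rho x)))⁻¹ with hs
  have sp : ∀ x, 0 < s x := fun x => inv_pos.2 (Real.sqrt_pos.2 (hp x))
  have ss : ContDiff ℝ ∞ s := ((Rs.mul (Rs.add hr)).sqrt fun x => (hp x).ne').inv
    fun x => (Real.sqrt_pos.2 (hp x)).ne'
  have ssq : ∀ x, s x ^ 2 = (R x * (R x + rho x))⁻¹ := fun x => by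
    simp only [hs, inv_pow, Real.sq_sqrt (hp x).le]
  set Ba : E2 → ℝ := fun x => 3 * s x + E x / a x with hBa
  have Bas : ContDiff ℝ ∞ Ba := (contDiff_const.mul ss).add (Loop2_div ha hE hEa)
  have Bage : ∀ x, 3 * s x ≤ Ba x := fun x =>
    le_add_of_nonneg_right (div_nonneg (hE0 x) (ha0 x))
  have Bap : ∀ x, 0 < Ba x := fun x => lt_of_lt_of_le (by linarith [sp x]) (Bage x)
  have hBe : ∀ x, B x = a x * Ba x := fun x => by
    have e : a x * (E x / a x) = E x := by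
      by_cases hx : x ∈ tsupport E
      · exact mul_div_cancel₀ _ (hEa x hx).ne'
      · simp [image_eq_zero_of_notMem_tsupport hx]
    simp only [hB, hBa, hs, Bst, mul_add, e, ← hR]
    ring
  have hB0 : ∀ x, 0 ≤ B x := fun x => by rw [hBe]; exact mul_nonneg (ha0 x) (Bap x).le
  have hinv : ∀ x, a x ^ 2 * (R x + rho x)⁻¹ = R x - rho x := fun x => by
    have := add_pos (Rp x) (hpos x)
    field_simp
    linear_combination (-1 : ℝ) * Rsq x
  obtain ⟨ϑ, t1, t2, t3, t4, t5, t6⟩ := Loop2_theta (y := fun x => s x ^ 2 / Ba x ^ 2) Bs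
    ((ss.pow 2).div (Bas.pow 2) fun x => (pow_pos (Bap x) 2).ne') hB0
    (fun x => div_pos (pow_pos (sp x) 2) (pow_pos (Bap x) 2))
    (fun x => by
      rw [div_le_div_iff₀ (pow_pos (Bap x) 2) (by norm_num)]
      nlinarith [Bage x, sp x])
    (fun x => by
      have h1 := (Bap x).ne'
      have e : B x ^ 2 * (s x ^ 2 / Ba x ^ 2) = (a x ^ 2 * (R x + rho x)⁻¹) / R x := by
        rw [hBe, ssq, mul_inv]
        field_simp
      rw [e, hinv, div_lt_one (Rp x)]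
      linarith [hpos x])
  have t3' : ∀ x θ, ϑ (x, θ + 2 * Real.pi) = ϑ (x, θ) + 2 * Real.pi := fun x θ => by
    rw [two_mul, ← add_assoc, t3, t3, add_assoc]
  set p : E2 × ℝ → ℝ := fun z => R z.1 * Ba z.1 ^ 2 * Loop2_T B (z.1, ϑ z) + (R z.1 + rho z.1)⁻¹
    with hpd
  have Ts : ContDiff ℝ ∞ fun z : E2 × ℝ => Loop2_T B (z.1, ϑ z) :=
    (Loop2_T_smooth Bs).comp (contDiff_fst.prodMk t1)
  have is : ContDiff ℝ ∞ fun x => (R x + rho x)⁻¹ :=
    (Rs.add hr).inv fun x => (add_pos (Rp x) (hpos x)).ne'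
  have ps : ContDiff ℝ ∞ p :=
    (((Rs.mul (Bas.pow 2)).comp contDiff_fst).mul Ts).add (is.comp contDiff_fst)
  have pm : ∀ x, mean p x = 0 := fun x => by
    have h1 := mean_add (u := fun z => R z.1 * Ba z.1 ^ 2 * Loop2_T B (z.1, ϑ z))
      (v := fun z => (R z.1 + rho z.1)⁻¹)
      (((Rs.mul (Bas.pow 2)).comp contDiff_fst).mul Ts).continuous
      (is.comp contDiff_fst).continuous x
    rw [mean_fst (fun x => (R x + rho x)⁻¹), mean_mul_left (fun x => R x * Ba x ^ 2), t6,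
      ssq] at h1
    rw [hpd, h1]
    have := (Bap x).ne'
    have := (Rp x).ne'
    have := (add_pos (Rp x) (hpos x)).ne'
    field_simp
    ring
  have αs : ContDiff ℝ ∞ fun z : E2 × ℝ => B z.1 * Real.cos (ϑ z) :=
    (Bs.comp contDiff_fst).mul (Real.contDiff_cos.comp t1)
  set q2 : E2 × ℝ → ℝ := fun z => R z.1 * Ba z.1 * Real.cos (ϑ z) * snc (B z.1 * Real.cos (ϑ z))
    with hq2
  have q2s : ContDiff ℝ ∞ q2 :=
    (((Rs.mul Bas).comp contDiff_fst).mul (Real.contDiff_cos.comp t1)).mul (contDiff_snc.comp αs)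
  have q2p : Per q2 := fun x θ => by simp only [hq2, t3', Real.cos_add_two_pi]
  have c1 : ∀ z : E2 × ℝ, rho z.1 + a z.1 * (a z.1 * p z) =
      R z.1 * Real.cos (B z.1 * Real.cos (ϑ z)) := fun z => by
    have h1 := Loop2_T_mul B (z.1, ϑ z)
    have h2 := hinv z.1
    simp only at h1
    rw [hBe z.1, mul_pow, ← hBe z.1] at h1
    simp only [hpd]
    linear_combination R z.1 * h1 + h2
  have c2 : ∀ z : E2 × ℝ, a z.1 * q2 z = R z.1 * Real.sin (B z.1 * Real.cos (ϑ z)) := fun z => by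
    rw [← mul_snc]
    simp only [hq2]
    rw [hBe z.1]
    ring
  refine ⟨fun z => B z.1 * Real.cos (ϑ z), fun z => a z.1 * p z, q2, αs,
    (ha.comp contDiff_fst).mul ps, q2s, fun x θ => ?_, q2p, fun x θ => ?_, fun x θ => ?_, c1, c2,
    fun x => ?_, fun x => Loop2_anti q2s.continuous fun θ => ?_, fun x => ?_, fun x => ?_,
    Loop2_turn Bs hB0 t1 t2⟩
  · simp only [hpd, t3', two_mul Real.pi, ← add_assoc, t3, Loop2_T_pi]
  · simp only [hpd, t4, Loop2_T_neg]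
  · simp only [hq2, t4, Real.cos_neg]
  · rw [mean_mul_left a, pm, mul_zero]
  · simp only [hq2, t3, Real.cos_add_pi, mul_neg, snc_neg, neg_mul]
  · have e : ∀ θ, (a x * p (x, θ)) ^ 2 + q2 (x, θ) ^ 2 = 1 - 2 * rho x * p (x, θ) := by
      intro θ
      rcases (ha0 x).eq_or_lt with h | h
      · have h1 : R x = rho x := by
          have := Rsq x
          rw [← h] at this
          exact (sq_eq_sq₀ (Rp x).le (hpos x).le).1 (by linarith)
        have h2 : B x = 0 := by rw [hBe, ← h, zero_mul]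
        have h3 := (hpos x).ne'
        simp only [hpd, hq2, Loop2_T, ← h, h1, h2, zero_mul, zero_div, snc_zero]
        field_simp
        ring
      · have h1 := c1 (x, θ)
        have h2 := c2 (x, θ)
        have h3 := Real.sin_sq_add_cos_sq (B x * Real.cos (ϑ (x, θ)))
        have h4 := Rsq x
        simp only at h1 h2
        refine mul_left_cancel₀ (pow_pos h 2).ne' ?_
        have h5 : (rho x + a x * (a x * p (x, θ))) ^ 2 + (a x * q2 (x, θ)) ^ 2 = R x ^ 2 := by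
          rw [h1, h2]
          linear_combination R x ^ 2 * h3
        linear_combination h5 + h4
    rw [mean_congr (v := fun z => 1 - 2 * rho z.1 * p z) e,
      mean_sub (u := fun _ => (1 : ℝ)) (v := fun z => 2 * rho z.1 * p z) continuous_const
        (((contDiff_const.mul hr).comp contDiff_fst).mul ps).continuous,
      mean_fst (fun _ => (1 : ℝ)), mean_mul_left (fun x => 2 * rho x), pm]
    ring
  · have hB1 : 0 < B x + 1 := by linarith [hB0 x]
    obtain ⟨θ, hθ⟩ := t5 x (Real.arccos (B x + 1)⁻¹)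
    have h1 : Real.cos (ϑ (x, θ)) = (B x + 1)⁻¹ := by
      simp only at hθ
      rw [hθ]
      exact Real.cos_arccos (le_trans (by norm_num) (inv_pos.2 hB1).le)
        (inv_le_one_of_one_le₀ (by linarith [hB0 x]))
    refine mean_pos (q2s.pow 2).continuous (fun x θ => by simp only [q2p x θ])
      (fun θ => sq_nonneg _) (θ₀ := θ) (pow_pos ?_ 2)
    have h2 : B x * (B x + 1)⁻¹ ≤ 1 := by
      rw [← div_eq_mul_inv, div_le_one hB1]
      linarith
    have h3 := Loop2_snc_ge (y := B x * (B x + 1)⁻¹) (mul_nonneg (hB0 x) (inv_pos.2 hB1).le)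
      (by linarith [Real.pi_gt_three])
    simp only [hq2, h1]
    exact mul_pos (mul_pos (mul_pos (Rp x) (Bap x)) (inv_pos.2 hB1)) (by linarith)

end Crest.Agent.R216
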