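import Crest.Agent.R216.Large
import Crest.Agent.R216.Frames
import Crest.Agent.R216.Loop2

/-! # Row 216, large step data from a turning angle -/

set_option autoImplicit false
open Set Filter Metric
open scoped ContDiff RealInnerProductSpace Topology

noncomputable section
namespace Crest.Agent.R216

/-- the amplitude of a disc -/
def amp (c : E2) (r : ℝ) (b : E2 → ℝ) (x : E2) : ℝ := expNegInvGlue (r ^ 2 - ‖x - c‖ ^ 2) * b x

/-- Fixed frame near a closed disc, with `rho > 0` everywhere. -/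
structure Base (G : E2 → E4) (c : E2) (r : ℝ) (es et : E2) where
  f1 : E2 → E4
  f2 : E2 → E4
  e0 : E2 → E4
  nu : E2 → E4
  rho : E2 → ℝ
  irho : E2 → ℝ
  O : Set E2
  bf1 : Bdd f1
  bf2 : Bdd f2
  be0 : Bdd e0
  bnu : Bdd nu
  brho : Bdd rho
  birho : Bdd irho
  isOpen : IsOpen O
  sub : closedBall c r ⊆ O
  pos : ∀ x, 0 < rho x
  fr : ∀ x ∈ O, Fr (fderiv ℝ G x es) (fderiv ℝ G x et) (d2 G x et et) (f1 x) (f2 x) (e0 x) (nu x)
    (rho x) (irho x)

theorem d86_cut {K U : Set E2} (hK : IsCompact K) (hU : IsOpen U) (h : K ⊆ U) :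
    ∃ (ζ : E2 → ℝ) (O K' : Set E2), ContDiff ℝ ∞ ζ ∧ IsOpen O ∧ K ⊆ O ∧ O ⊆ U ∧ IsCompact K' ∧
      K' ⊆ U ∧ (∀ x ∈ O, ζ x = 1) ∧ (∀ x, x ∉ K' → ζ x = 0) ∧ ∀ x, ζ x ∈ Icc (0 : ℝ) 1 := by
  obtain ⟨K', h1, h2, h3⟩ := exists_compact_between hK hU h
  obtain ⟨f, f1, f2, f3⟩ := exists_contMDiffMap_one_nhds_of_subset_interior
    (modelWithCornersSelf ℝ E2) (n := ⊤) hK.isClosed h2
  obtain ⟨O, o1, o2, o3⟩ := mem_nhdsSet_iff_exists.1 f1
  exact ⟨f, O ∩ U, K', f.contMDiff.contDiff, o1.inter hU, subset_inter o2 h, inter_subset_right,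
    h1, h3, fun x hx => o3 hx.1, f2, f3⟩

theorem d86_bdd {ζ f : E2 → ℝ} {K : Set E2} (hζ : ContDiff ℝ ∞ ζ) (hK : IsCompact K)
    (h0 : ∀ x, x ∉ K → ζ x = 0) (hf : ContDiff ℝ ∞ f) : Bdd fun x => ζ x * f x :=
  Bdd.of_hasCompactSupport (hζ.mul hf) (.intro hK fun x hx => by rw [h0 x hx, zero_mul])

theorem d86_per {ζ : E2 → ℝ} {f : E2 × ℝ → ℝ} {K : Set E2} (hζ : ContDiff ℝ ∞ ζ) (hK : IsCompact K)
    (h0 : ∀ x, x ∉ K → ζ x = 0) (hf : ContDiff ℝ ∞ f) (hp : Per f) :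
    Bdd fun z : E2 × ℝ => ζ z.1 * f z :=
  Bdd.of_per ((hζ.comp contDiff_fst).mul hf) (fun x θ => congrArg (ζ x * ·) (hp x θ)) hK
    fun x θ hx => by rw [h0 x hx, zero_mul]

theorem d86_sx {W : Type*} [NormedAddCommGroup W] [NormedSpace ℝ W] {u : Unit → E2 → W}
    (h : Sx (fun _ : Unit => ()) (fun _ => 1) (fun _ _ => 1) u) : Bdd (u ()) := by
  obtain ⟨K, h⟩ := h
  simp only [one_pow] at h
  exact Bdd.of_Sy h

/-- `exists_frames` for the trivial family (`J = N = Unit`, `μ = 1`, `Bdd.of_Sy`), threshold half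
the minimum of `g3` on the disc; then replace `rho` by `ζ rho + (1 - ζ)` with `ζ` compactly supported
in the open set where the frame is valid and `= 1` on a neighbourhood `O` of the disc. -/
theorem exists_base {G : E2 → E4} (hG : Bdd G) (c : E2) (r : ℝ) (es et : E2)
    (h3 : ∀ x ∈ closedBall c r, 0 < g3 (fderiv ℝ G x es) (fderiv ℝ G x et) (d2 G x et et)) :
    Nonempty (Base G c r es et) := by
  have hμ : ∀ _ : Unit, (1 : ℝ) ≤ 1 := fun _ => le_rfl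
  have h0 : Sx (fun _ : Unit => ()) (fun _ => 1) (fun _ _ => 1) fun _ => G := Sx.fixed hμ hG
  have e : ∀ x, d2 G x et et = fderiv ℝ (fun y => fderiv ℝ G y et) x et := fun x =>
    d2_apply hG.1.contDiffAt et et
  simp only [e] at h3
  have hs := ((h0.dir' es).smooth ()).continuous
  have hu := ((h0.dir' et).smooth ()).continuous
  have hv := (((h0.dir' et).dir' et).smooth ()).continuous
  have hc : Continuous fun x => g3 (fderiv ℝ G x es) (fderiv ℝ G x et)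
      (fderiv ℝ (fun y => fderiv ℝ G y et) x et) := by
    unfold g3
    fun_prop
  obtain ⟨δ, hδ, h4⟩ := (isCompact_closedBall c r).exists_forall_le' hc.continuousOn h3
  obtain ⟨f1, f2, e0, nu, rho, irho, a1, a2, a3, a4, a5, a6, a7⟩ := exists_frames hμ (h0.dir' es)
    (h0.dir' et) ((h0.dir' et).dir' et) (fun _ => (δ / 2)⁻¹) (fun _ => by positivity) 0
  simp only [pow_zero, mul_one, inv_inv] at a7
  obtain ⟨ζ, O, K, z1, z2, z3, z4, z5, z6, z7, z8, z9⟩ := d86_cut (isCompact_closedBall c r)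
    (isOpen_lt (continuous_const (y := δ / 2)) hc) fun x hx => (half_lt_self hδ).trans_le (h4 x hx)
  refine ⟨⟨f1 (), f2 (), e0 (), nu (), fun x => ζ x * (rho () x - 1) + 1, irho (), O, d86_sx a1,
    d86_sx a2, d86_sx a3, d86_sx a4, ?_, d86_sx a6, z2, z3, fun x => ?_, fun x hx => ?_⟩⟩
  · exact Bdd.of_Sy ((Sy.fixed hμ (d86_bdd z1 z5 z8 ((a5.smooth ()).sub contDiff_const))).add
      ((Sy.const hμ fun _ => (1 : ℝ)).mono fun _ _ => norm_one.le))
  · by_cases hx : x ∈ K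
    · have h5 := (a7 () x (le_of_lt (z6 hx))).rho_pos
      obtain ⟨h6, h7⟩ := z9 x
      rcases h7.eq_or_lt with h8 | h8
      · rw [h8]; linarith
      · nlinarith [mul_nonneg h6 h5.le]
    · rw [z8 x hx]; norm_num
  · rw [z7 x hx, one_mul, sub_add_cancel, e]
    exact a7 () x (le_of_lt (z4 hx))

/-- Large step data with turning angle `Bst + E`.  Take `α, q1, q2` from `exists_loop`, a cut-off
`ζ` with compact support and `= 1` on `ball c (r+1)`; data `ζ q1`, `ζ q2` (`Bdd.of_per`),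
`ip = ζ (bigR²)⁻¹`, `im = ζ (mean q2²)⁻¹`, `Z = closedBall c r`, `O = β.O ∩ ball c (r+1)`,
`κ = τ = 1`, `β = 0`; `a = amp c r b = Θ(ζ (r² - ‖x-c‖²)) (ζ b)`.  `hq = 0`: off `Z` `a = 0`, on `Z`
`hq = p1² + p2² - rho² - a²`.  `dθ U0 = a (q1 e0 + q2 nu)` by `dθ_prim`. -/
theorem exists_large_data {G : E2 → E4} (hG : Bdd G) {c : E2} {r : ℝ} {es et : E2}
    (β : Base G c r es et) (hr : 0 < r) (hsub : closedBall c r ⊆ closedBall 0 2) (het : ‖et‖ = 1)
    {b : E2 → ℝ} (hb : ContDiff ℝ ∞ b) (hb0 : ∀ x, 0 < b x) {E : E2 → ℝ} (hE : ContDiff ℝ ∞ E)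
    (hE0 : ∀ x, 0 ≤ E x) (hEs : tsupport E ⊆ ball c r) :
    ∃ (d : SD) (α : E2 × ℝ → ℝ) (O : Set E2), d.Lg ∧ d.G = G ∧ d.a = amp c r b ∧ d.es = es ∧
      d.et = et ∧ d.Z = closedBall c r ∧ IsOpen O ∧ closedBall c r ⊆ O ∧ O ⊆ β.O ∧
      ContDiff ℝ ∞ α ∧
      (∀ x ∈ O, ∀ θ, dθ d.U0 (x, θ)
        = (bigR β.rho (amp c r b) x * Real.cos (α (x, θ)) - β.rho x) • β.e0 x
          + (bigR β.rho (amp c r b) x * Real.sin (α (x, θ))) • β.nu x) ∧
      ∀ z, dθ α z = 0 → |α z| = Bst β.rho (amp c r b) z.1 + E z.1 ∧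
        |dx et α z| = |fderiv ℝ (fun x => Bst β.rho (amp c r b) x + E x) z.1 et| := by
  have hy : ContDiff ℝ ∞ fun x : E2 => r ^ 2 - ‖x - c‖ ^ 2 :=
    contDiff_const.sub ((contDiff_id.sub contDiff_const).norm_sq ℝ)
  have ha : ContDiff ℝ ∞ (amp c r b) := (expNegInvGlue.contDiff.comp hy).mul hb
  have hy0 : ∀ x, x ∉ closedBall c r → r ^ 2 - ‖x - c‖ ^ 2 ≤ 0 := fun x hx => by
    rw [mem_closedBall_iff_norm, not_le] at hx
    exact sub_nonpos.2 (pow_le_pow_left₀ hr.le hx.le 2)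
  have ha0 : ∀ x, x ∉ closedBall c r → amp c r b x = 0 := fun x hx => by
    rw [amp, expNegInvGlue.zero_of_nonpos (hy0 x hx), zero_mul]
  obtain ⟨α, q1, q2, l1, l2, l3, l4, l5, l6, l7, l8, l9, m1, m2, m3, m4, m5⟩ :=
    exists_loop β.brho.1 β.pos ha (fun x => mul_nonneg (expNegInvGlue.nonneg _) (hb0 x).le) hE hE0
      fun x hx => mul_pos (expNegInvGlue.pos_of_pos (sub_pos.2 (pow_lt_pow_left₀
        (mem_ball_iff_norm.1 (hEs hx)) (norm_nonneg _) two_ne_zero))) (hb0 x)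
  obtain ⟨ζ, O, K, z1, z2, z3, z4, z5, -, z7, z8, z9⟩ :=
    d86_cut (isCompact_closedBall c r) β.isOpen β.sub
  have hR : ∀ x, 0 < β.rho x ^ 2 + amp c r b x ^ 2 := fun x =>
    add_pos_of_pos_of_nonneg (pow_pos (β.pos x) 2) (sq_nonneg _)
  have hp : ∀ z, (β.rho z.1 + amp c r b z.1 * q1 z) ^ 2 + (amp c r b z.1 * q2 z) ^ 2 =
      β.rho z.1 ^ 2 + amp c r b z.1 ^ 2 := fun z => by
    rw [l8, l9, mul_pow, mul_pow, ← mul_add, Real.cos_sq_add_sin_sq, mul_one, bigR,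
      Real.sq_sqrt (hR _).le]
  have b1 := d86_per z1 z5 z8 l2 l4
  have b2 := d86_per z1 z5 z8 l3 l5
  obtain ⟨δ, hδ, h4⟩ := (isCompact_closedBall c r).exists_forall_le' hb.continuous.continuousOn
    fun x _ => hb0 x
  refine ⟨⟨G, amp c r b, fun z => ζ z.1 * q1 z, fun z => ζ z.1 * q2 z, β.f1, β.f2, β.e0, β.nu, β.rho,
    β.irho, fun x => ζ x * (mean (fun z => q2 z ^ 2) x)⁻¹,
    fun z => ζ z.1 * (β.rho z.1 ^ 2 + amp c r b z.1 ^ 2)⁻¹, es, et, closedBall c r, O, 1, 1, 0⟩, α, O,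
    ⟨⟨isClosed_closedBall, z2, z3, hsub, het, one_pos, le_rfl, one_pos, le_rfl, le_rfl,
      by norm_num, ha0, fun x θ => congrArg (ζ x * ·) (l4 x θ),
      fun x θ => congrArg (ζ x * ·) (l5 x θ), fun _ _ => rfl,
      fun x θ => congrArg (ζ x * ·) (l6 x θ), fun x θ => congrArg (ζ x * ·) (l7 x θ),
      fun x hx => ?_, fun x _ => ?_, fun x _ => ?_, fun x hx => ?_, fun x hx => ?_,
      fun x hx θ => ?_⟩, fun z => ?_, hG, b1, b2,
      d86_per z1 z5 z8 ((((β.brho.1.pow 2).add (ha.pow 2)).inv fun x => (hR x).ne').comp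
        contDiff_fst) fun _ _ => rfl, β.bf1, β.bf2, β.be0, β.bnu, β.brho, β.birho,
      d86_bdd z1 z5 z8 ((contDiff_mean (l3.pow 2)).inv fun x => (m4 x).ne'), _, _, δ,
      d86_bdd z1 z5 z8 hy, d86_bdd z1 z5 z8 hb, hδ, fun x hx => ?_, fun x => ?_⟩,
    rfl, rfl, rfl, rfl, rfl, z2, z3, z4, l1, fun x hx θ => ?_,
    fun z hz => ⟨(m5 z hz).1, (m5 z hz).2 et⟩⟩
  · have := β.fr x (z4 hx)
    rwa [d2_apply hG.1.contDiffAt] at this
  · exact (mean_mul_left ζ q1 x).trans (by rw [m1, mul_zero])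
  · exact (mean_mul_left ζ q2 x).trans (by rw [m2, mul_zero])
  · exact (mean_congr fun θ => by simp only [z7 x (z3 hx), one_mul]).trans (m3 x)
  · have e : mean (fun z => (ζ z.1 * q2 z) ^ 2) x = mean (fun z => q2 z ^ 2) x :=
      mean_congr fun θ => by simp only [z7 x (z3 hx), one_mul]
    simp only [e, z7 x (z3 hx), one_mul]
    exact inv_mul_cancel₀ (m4 x).ne'
  · simp only [SD.p1, SD.p2, z7 x (z3 hx), one_mul]
    rw [hp (x, θ)]
    exact inv_mul_cancel₀ (hR x).ne'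
  · by_cases hz : z.1 ∈ closedBall c r
    · simp only [SD.hq, z7 _ (z3 hz), one_mul]
      linear_combination hp z
    · simp only [SD.hq, ha0 _ hz, zero_mul]
  · rw [z7 x (z3 hx), one_mul]
    exact h4 x hx
  · by_cases hx : x ∈ closedBall c r
    · simp only [z7 x (z3 hx), one_mul, amp]
    · simp only [ha0 x hx, zero_mul, expNegInvGlue.zero_of_nonpos
        (mul_nonpos_of_nonneg_of_nonpos (z9 x).1 (hy0 x hx))]
  · have c1 := contDiff_prim b1.1
    have c2 := contDiff_prim b2.1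
    refine (Int2_lineθ ((ha.comp contDiff_fst).smul ((c1.smul (β.be0.1.comp contDiff_fst)).add
      (c2.smul (β.bnu.1.comp contDiff_fst)))) x θ).unique ?_
    have := (((Int2_lineθ c1 x θ).smul_const (β.e0 x)).add
      ((Int2_lineθ c2 x θ).smul_const (β.nu x))).const_smul (amp c r b x)
    rw [dθ_prim b1.1, dθ_prim b2.1, mean_mul_left, mean_mul_left, m1, m2] at this
    rw [← l8 (x, θ), ← l9 (x, θ), add_sub_cancel_left]
    refine HasDerivAt.congr_deriv this ?_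
    simp only [z7 x hx, one_mul, mul_zero, sub_zero, smul_add, smul_smul]

end Crest.Agent.R216
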