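import Crest.Agent.R216.Design1

/-! # Row 216, limit jets of a large step in terms of the angle -/

set_option autoImplicit false
open Set Filter Metric
open scoped ContDiff RealInnerProductSpace Topology

noncomputable section
namespace Crest.Agent.R216

namespace Base

variable {G : E2 → E4} {c : E2} {r : ℝ} {es et : E2} (β : Base G c r es et)

/-- limit of `∂_s` at angle `α`, `R` = radius function -/
def vsF (R : E2 → ℝ) (x : E2) (α : ℝ) : E4 :=
  fderiv ℝ G x es + ((R x * Real.cos α - β.rho x) • β.e0 x + (R x * Real.sin α) • β.nu x)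

/-- the unit normal in the plane of the loop -/
def N1 (x : E2) (α : ℝ) : E4 := (-Real.sin α) • β.e0 x + Real.cos α • β.nu x

/-- limit of `∂_t∂_s` without the term containing `α_t` -/
def vtsF (R : E2 → ℝ) (x : E2) (α : ℝ) : E4 :=
  d2 G x et es + ((fderiv ℝ R x et * Real.cos α - fderiv ℝ β.rho x et) • β.e0 x
    + (fderiv ℝ R x et * Real.sin α) • β.nu x
    + (R x * Real.cos α - β.rho x) • fderiv ℝ β.e0 x et + (R x * Real.sin α) • fderiv ℝ β.nu x et)

theorem N1_orth (R : E2 → ℝ) {x : E2} (hx : x ∈ β.O) (α : ℝ) :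
    ⟪β.vsF R x α, β.N1 x α⟫ = 0 ∧ ⟪fderiv ℝ G x et, β.N1 x α⟫ = 0 ∧
      ⟪d2 G x et et, β.N1 x α⟫ = 0 ∧ ‖β.N1 x α‖ = 1 := by
  have h := β.fr x hx
  have h1 : ⟪β.nu x, β.e0 x⟫ = 0 := by rw [real_inner_comm]; exact h.e0_nu
  refine ⟨?_, ?_, ?_, ?_⟩
  · simp only [vsF, N1, inner_add_left, inner_add_right, real_inner_smul_left,
      real_inner_smul_right, h.s_e0, h.s_nu, h.e0_e0, h.nu_nu, h.e0_nu, h1]
    ring
  · simp only [N1, inner_add_right, real_inner_smul_right, h.t_e0, h.t_nu]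
    ring
  · simp only [N1, inner_add_right, real_inner_smul_right, h.tt_e0, h.tt_nu]
    ring
  · have h2 : ‖β.N1 x α‖ ^ 2 = 1 := by
      rw [← real_inner_self_eq_norm_sq]
      simp only [N1, inner_add_left, inner_add_right, real_inner_smul_left,
        real_inner_smul_right, h.e0_e0, h.nu_nu, h.e0_nu, h1]
      linear_combination Real.sin_sq_add_cos_sq α
    exact (pow_eq_one_iff_of_nonneg (norm_nonneg _) two_ne_zero).1 h2

/-- `vsF = (part in span {Gt, Gtt}) + R (cos α e0 + sin α nu)` (`Fr.span`); `Gt, Gtt` are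
independent because of the dual vectors `f1, f2`.  (`g3_eq`: it is enough to show that a vanishing
combination of the three vectors is trivial, or compute `g3 = g2 Gt Gtt * R²`.) -/
theorem g3_vsF_pos {R : E2 → ℝ} {x : E2} (hx : x ∈ β.O) (hR : R x ≠ 0) (α : ℝ) :
    0 < g3 (β.vsF R x α) (fderiv ℝ G x et) (d2 G x et et) := by
  have h := β.fr x hx
  set u := fderiv ℝ G x et
  set v := d2 G x et et
  set w : E4 := (R x * Real.cos α) • β.e0 x + (R x * Real.sin α) • β.nu x with hw
  have hs : β.vsF R x α = w + ⟪fderiv ℝ G x es, β.f1 x⟫ • u + ⟪fderiv ℝ G x es, β.f2 x⟫ • v := by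
    have h1 := h.span
    rw [vsF, hw]
    generalize ⟪fderiv ℝ G x es, β.f1 x⟫ = p at h1 ⊢
    generalize ⟪fderiv ℝ G x es, β.f2 x⟫ = q at h1 ⊢
    rw [h1]
    module
  have h1 : ⟪β.nu x, β.e0 x⟫ = 0 := by rw [real_inner_comm]; exact h.e0_nu
  have hu : ⟪u, w⟫ = 0 := by
    simp only [hw, inner_add_right, real_inner_smul_right, h.t_e0, h.t_nu]; ring
  have hv : ⟪v, w⟫ = 0 := by
    simp only [hw, inner_add_right, real_inner_smul_right, h.tt_e0, h.tt_nu]; ring
  have hu' : ⟪w, u⟫ = 0 := by rw [real_inner_comm]; exact hu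
  have hv' : ⟪w, v⟫ = 0 := by rw [real_inner_comm]; exact hv
  have hww : ⟪w, w⟫ = R x ^ 2 := by
    simp only [hw, inner_add_left, inner_add_right, real_inner_smul_left,
      real_inner_smul_right, h.e0_e0, h.nu_nu, h.e0_nu, h1]
    linear_combination R x ^ 2 * Real.sin_sq_add_cos_sq α
  have hg : g3 (β.vsF R x α) u v = g2 u v * R x ^ 2 := by
    rw [hs]
    simp only [g3, g2, inner_add_left, inner_add_right, real_inner_smul_left,
      real_inner_smul_right, hu, hv, hu', hv', hww, real_inner_comm u v]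
    ring
  have hg2 : g2 u v ≠ 0 := by
    intro h0
    rcases jet1_dep h0 with e | ⟨c, e⟩
    · have := h.t_f1
      rw [e, inner_zero_left] at this
      exact zero_ne_one this
    · have := h.tt_f2
      rw [e, real_inner_smul_left, h.t_f2, mul_zero] at this
      exact zero_ne_one this
  rw [hg]
  exact mul_pos (lt_of_le_of_ne (g2_nonneg u v) hg2.symm) (by positivity)

theorem continuous_vsF (hG : ContDiff ℝ ∞ G) {R : E2 → ℝ} (hR : ContDiff ℝ ∞ R) :
    Continuous (fun z : E2 × ℝ => β.vsF R z.1 z.2) := by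
  have h1 := hG.continuous_fderiv (by simp)
  have h2 := hR.continuous
  have h3 := β.brho.1.continuous
  have h4 := β.be0.1.continuous
  have h5 := β.bnu.1.continuous
  unfold vsF
  fun_prop

theorem continuous_vtsF (hG : ContDiff ℝ ∞ G) {R : E2 → ℝ} (hR : ContDiff ℝ ∞ R) :
    Continuous (fun z : E2 × ℝ => β.vtsF R z.1 z.2) := by
  have h1 := continuous_d2 hG
  have h2 := hR.continuous
  have h3 := β.brho.1.continuous
  have h4 := β.be0.1.continuous
  have h5 := β.bnu.1.continuous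
  have h6 := hR.continuous_fderiv (by simp)
  have h7 := β.brho.1.continuous_fderiv (by simp)
  have h8 := β.be0.1.continuous_fderiv (by simp)
  have h9 := β.bnu.1.continuous_fderiv (by simp)
  unfold vtsF
  fun_prop

theorem vsF_add_int (R : E2 → ℝ) (x : E2) (α : ℝ) (m : ℤ) :
    β.vsF R x (α + m * (2 * Real.pi)) = β.vsF R x α ∧
      β.vtsF R x (α + m * (2 * Real.pi)) = β.vtsF R x α := by
  simp only [vsF, vtsF, Real.cos_add_int_mul_two_pi, Real.sin_add_int_mul_two_pi, and_self]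

/-- on the boundary circle the amplitude vanishes to first order (`amp ≥ 0` has a minimum), so
`bigR = rho` to first order -/
theorem vsF_sphere {b : E2 → ℝ} (hb : ContDiff ℝ ∞ b) (hb0 : ∀ x, 0 < b x) {x : E2}
    (hx : x ∈ sphere c r) :
    β.vsF (bigR β.rho (amp c r b)) x 0 = fderiv ℝ G x es ∧
      β.vtsF (bigR β.rho (amp c r b)) x 0 = d2 G x et es := by
  have ha : ContDiff ℝ ∞ (amp c r b) :=
    (expNegInvGlue.contDiff.comp (contDiff_const.sub
      ((contDiff_norm_sq ℝ).comp (contDiff_id.sub contDiff_const)))).mul hb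
  have h0 : amp c r b x = 0 := by
    rw [amp, mem_sphere_iff_norm.1 hx, sub_self, expNegInvGlue.zero, zero_mul]
  have h1 : bigR β.rho (amp c r b) x = β.rho x := by
    rw [bigR, h0]; simp [Real.sqrt_sq (β.pos x).le]
  have hB := (contDiff_bigR β.brho.1 β.pos ha).differentiable (by simp) x
  have hρ := β.brho.1.differentiable (by simp) x
  have h2 : IsLocalMin (fun y => bigR β.rho (amp c r b) y - β.rho y) x := by
    refine Eventually.of_forall fun y => ?_
    simp only [h1, sub_self, sub_nonneg]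
    exact Real.le_sqrt_of_sq_le (by nlinarith [sq_nonneg (amp c r b y)])
  have h3 : fderiv ℝ (bigR β.rho (amp c r b)) x = fderiv ℝ β.rho x := by
    have := h2.fderiv_eq_zero
    rw [fderiv_fun_sub hB hρ] at this
    exact sub_eq_zero.1 this
  simp [vsF, vtsF, h1, h3]

/-- differentiate the formula for `dθ U0`, valid on the open set `O ×ˢ univ` -/
theorem jets_eq {d : SD} {α : E2 × ℝ → ℝ} {R : E2 → ℝ} {O : Set E2} (hdG : d.G = G)
    (hes : d.es = es) (het : d.et = et) (hO : IsOpen O) (hα : ContDiff ℝ ∞ α)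
    (hR : ContDiff ℝ ∞ R)
    (h : ∀ x ∈ O, ∀ θ, dθ d.U0 (x, θ) = (R x * Real.cos (α (x, θ)) - β.rho x) • β.e0 x
      + (R x * Real.sin (α (x, θ))) • β.nu x) {x : E2} (hx : x ∈ O) (θ : ℝ) :
    d.vs (x, θ) = β.vsF R x (α (x, θ)) ∧
      d.vts (x, θ) = β.vtsF R x (α (x, θ)) + (R x * dx et α (x, θ)) • β.N1 x (α (x, θ)) ∧
      d.vss (x, θ) = (R x * dθ α (x, θ)) • β.N1 x (α (x, θ)) := by
  have he : dθ d.U0 =ᶠ[𝓝 (x, θ)] fun z : E2 × ℝ =>
      (R z.1 * Real.cos (α z) - β.rho z.1) • β.e0 z.1 + (R z.1 * Real.sin (α z)) • β.nu z.1 := by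
    filter_upwards [(hO.prod isOpen_univ).mem_nhds (show (x, θ) ∈ O ×ˢ univ from ⟨hx, trivial⟩)]
      with z hz
    exact h z.1 hz.1 z.2
  have c1 : ∀ {W : Type} [NormedAddCommGroup W] [NormedSpace ℝ W] {f : E2 → W},
      ContDiff ℝ ∞ f → HasFDerivAt (fun z : E2 × ℝ => f z.1)
        ((fderiv ℝ f x).comp (ContinuousLinearMap.fst ℝ E2 ℝ)) (x, θ) := fun hf =>
    (hf.differentiable (by simp) x).hasFDerivAt.comp (x, θ) hasFDerivAt_fst
  have ca := (hα.differentiable (by simp) (x, θ)).hasFDerivAt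
  have hF := (((((c1 hR).mul ca.cos).sub (c1 β.brho.1)).smul (c1 β.be0.1)).add
    (((c1 hR).mul ca.sin).smul (c1 β.bnu.1))).congr_of_eventuallyEq he
  refine ⟨?_, ?_, ?_⟩
  · rw [SD.vs, h x hx θ, SD.Gs, hdG, hes, vsF]
  · rw [SD.vts, hdG, hes, het, dx, hF.fderiv, vtsF, N1, dx]
    simp
    module
  · rw [SD.vss, dθ, hF.fderiv, N1, dθ]
    simp
    module

end Base

end Crest.Agent.R216
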