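import Crest.Agent.R216.Defs

/-! # Row 216, auxiliary lemmas for the turning angle -/

set_option autoImplicit false
open Set Filter Metric
open scoped ContDiff RealInnerProductSpace Topology

noncomputable section
namespace Crest.Agent.R216

open Real in
theorem l49_der (u : ℝ) : HasDerivAt smoothTransition (deriv smoothTransition u) u :=
  ((smoothTransition.contDiff (n := 1)).differentiable (by simp) u).hasDerivAt

open Real in
theorem l49_pos {u : ℝ} (h0 : 0 < u) (h1 : u < 1) : 0 < deriv smoothTransition u := by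
  have hf : ∀ x : ℝ, HasDerivAt expNegInvGlue (x⁻¹ ^ 2 * expNegInvGlue x) x := fun x => by
    simpa using expNegInvGlue.hasDerivAt_polynomial_eval_inv_mul 1 x
  have h2 : HasDerivAt (fun x => expNegInvGlue (1 - x))
      ((1 - u)⁻¹ ^ 2 * expNegInvGlue (1 - u) * (-1)) u :=
    (hf (1 - u)).comp u ((hasDerivAt_id u).const_sub 1)
  have h3 := (hf u).fun_div ((hf u).fun_add h2) (smoothTransition.pos_denom u).ne'
  have h4 : deriv smoothTransition u = _ := h3.deriv
  rw [h4]
  have a1 := expNegInvGlue.pos_of_pos h0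
  have a2 := expNegInvGlue.pos_of_pos (sub_pos.mpr h1)
  have a3 : 0 < u⁻¹ ^ 2 := by positivity
  have a4 : 0 < (1 - u)⁻¹ ^ 2 := pow_pos (inv_pos.mpr (sub_pos.mpr h1)) 2
  refine div_pos ?_ (pow_pos (smoothTransition.pos_denom u) 2)
  nlinarith [mul_pos a3 (mul_pos a1 a2), mul_pos a4 (mul_pos a1 a2)]

open Real in
theorem l49_zero {u : ℝ} (h : u ≤ 0) : deriv smoothTransition u = 0 :=
  IsLocalMin.deriv_eq_zero (Eventually.of_forall fun x => by
    rw [smoothTransition.zero_of_nonpos h]
    exact smoothTransition.nonneg x)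

open Real in
theorem l49_one {u : ℝ} (h : 1 ≤ u) : deriv smoothTransition u = 0 :=
  IsLocalMax.deriv_eq_zero (Eventually.of_forall fun x => by
    rw [smoothTransition.one_of_one_le h]
    exact smoothTransition.le_one x)

open Real in
theorem l49_tri {e : ℝ} (he : 0 < e) : ∃ s₀ : ℝ, 0 < s₀ ∧ ∀ u, smoothTransition u ≤ e ∨
    1 - e ≤ smoothTransition u ∨ s₀ ≤ deriv smoothTransition u := by
  have hc := smoothTransition.continuous
  have hK : IsCompact (Icc (0 : ℝ) 1 ∩ smoothTransition ⁻¹' Icc e (1 - e)) :=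
    isCompact_Icc.inter_right (isClosed_Icc.preimage hc)
  have key : ∀ u, e ≤ smoothTransition u → smoothTransition u ≤ 1 - e → 0 < u ∧ u < 1 := by
    intro u h1 h2
    constructor
    · by_contra h
      rw [smoothTransition.zero_of_nonpos (not_lt.mp h)] at h1
      linarith
    · by_contra h
      rw [smoothTransition.one_of_one_le (not_lt.mp h)] at h2
      linarith
  obtain ⟨s₀, h0, h1⟩ := hK.exists_forall_le' (f := deriv smoothTransition)
    ((smoothTransition.contDiff (n := 1)).continuous_deriv (by simp)).continuousOn (a := 0)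
    fun u hu => l49_pos (key u hu.2.1 hu.2.2).1 (key u hu.2.1 hu.2.2).2
  refine ⟨s₀, h0, fun u => ?_⟩
  rcases le_total (smoothTransition u) e with a1 | a1
  · exact Or.inl a1
  rcases le_total (1 - e) (smoothTransition u) with a2 | a2
  · exact Or.inr (Or.inl a2)
  exact Or.inr (Or.inr (h1 u ⟨⟨(key u a1 a2).1.le, (key u a1 a2).2.le⟩, a1, a2⟩))

open Real in
/-- the profile as a function of `d` and `t` -/
def l49_F (w M L r t₀ a b : ℝ) : ℝ :=
  smoothTransition (a / w - 1) * (M * smoothTransition ((b + t₀) / (2 * t₀))) +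
    smoothTransition (a / w - 3) * (L * (b + r + 1) - M * smoothTransition ((b + t₀) / (2 * t₀)))

open Real in
/-- its derivative along the lines -/
def l49_D (w M L r t₀ a b : ℝ) : ℝ :=
  deriv smoothTransition (a / w - 1) * (-(2 * b) / w) *
      (M * smoothTransition ((b + t₀) / (2 * t₀))) +
    smoothTransition (a / w - 1) *
      (M * (deriv smoothTransition ((b + t₀) / (2 * t₀)) * (1 / (2 * t₀)))) +
  (deriv smoothTransition (a / w - 3) * (-(2 * b) / w) *
      (L * (b + r + 1) - M * smoothTransition ((b + t₀) / (2 * t₀))) +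
    smoothTransition (a / w - 3) *
      (L * 1 - M * (deriv smoothTransition ((b + t₀) / (2 * t₀)) * (1 / (2 * t₀)))))

theorem l49_hasDerivAt (w M L r t₀ a b : ℝ) :
    HasDerivAt (fun s : ℝ => l49_F w M L r t₀ (a - (2 * b * s + s ^ 2)) (b + s))
      (l49_D w M L r t₀ a b) 0 := by
  have h1 : HasDerivAt (fun s : ℝ => (a - (2 * b * s + s ^ 2)) / w) (-(2 * b) / w) 0 := by
    have := ((((hasDerivAt_id (0 : ℝ)).const_mul (2 * b)).fun_add
      (hasDerivAt_pow 2 (0 : ℝ))).const_sub a).div_const w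
    simpa using this
  have h2 : HasDerivAt (fun s : ℝ => b + s) 1 0 := (hasDerivAt_id (0 : ℝ)).const_add b
  have k1 := (l49_der _).comp (0 : ℝ) (h1.sub_const 1)
  have k3 := (l49_der _).comp (0 : ℝ) (h1.sub_const 3)
  have k2 := ((l49_der _).comp (0 : ℝ) ((h2.add_const t₀).div_const (2 * t₀))).const_mul M
  have k4 := ((h2.add_const r).add_const 1).const_mul L
  have := (k1.fun_mul k2).fun_add (k3.fun_mul (k4.fun_sub k2))
  simpa only [l49_F, l49_D, Function.comp_def, mul_zero, add_zero, sub_zero, ne_eq,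
    OfNat.ofNat_ne_zero, not_false_eq_true, zero_pow] using this

open Real in
theorem l49_inner {w M L r t₀ a b : ℝ} (hw : 0 < w) (h : 4 * w ≤ a) :
    l49_D w M L r t₀ a b = L := by
  have h1 : 4 ≤ a / w := (le_div_iff₀ hw).mpr h
  unfold l49_D
  rw [l49_one (u := a / w - 1) (by linarith), l49_one (u := a / w - 3) (by linarith),
    smoothTransition.one_of_one_le (x := a / w - 1) (by linarith),
    smoothTransition.one_of_one_le (x := a / w - 3) (by linarith)]
  ring

open Real in
theorem l49_layer {w M L r t₀ a b e s₀ : ℝ} (hw : 0 < w) (ht : 0 < t₀) (hL : 1 ≤ L)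
    (hM : L * (2 * r + 1) + 1 ≤ M) (he : e ≤ 1 / 2) (hs : L * w ≤ 2 * t₀ * s₀)
    (tri : ∀ u, smoothTransition u ≤ e ∨ 1 - e ≤ smoothTransition u ∨
      s₀ ≤ deriv smoothTransition u) (hb : |b| ≤ r) (hb' : t₀ ≤ |b|) :
    L / 2 ≤ |l49_D w M L r t₀ a b| ∨ |l49_F w M L r t₀ a b| ≤ e * M ∨
      |l49_F w M L r t₀ a b - M| ≤ e * M := by
  obtain ⟨b1, b2⟩ := abs_le.mp hb
  have e1 : 1 ≤ L * (b + r + 1) := by nlinarith
  have e2 : L * (b + r + 1) + 1 ≤ M := by nlinarith
  have hs' : L ≤ s₀ * (2 * t₀ / w) := by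
    rw [← mul_div_assoc, le_div_iff₀ hw]
    linarith
  have big : ∀ {D q N : ℝ}, s₀ ≤ D → t₀ ≤ q → 1 ≤ N → L ≤ D * (2 * q / w) * N := by
    intro D q N h1 h2 h3
    have h0 : 0 ≤ s₀ := by nlinarith [mul_pos (lt_of_lt_of_le one_pos hL) hw]
    have h4 : s₀ * (2 * t₀ / w) ≤ D * (2 * q / w) :=
      mul_le_mul h1 (div_le_div_of_nonneg_right (by linarith) hw.le) (by positivity)
        (h0.trans h1)
    nlinarith
  have ξ0 := smoothTransition.nonneg (a / w - 3)
  have ξ1 : 0 ≤ deriv smoothTransition (a / w - 3) := smoothTransition.monotone.deriv_nonneg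
  rcases le_abs'.mp hb' with hb' | hb'
  · have m0 : (b + t₀) / (2 * t₀) ≤ 0 := div_nonpos_of_nonpos_of_nonneg (by linarith) (by linarith)
    have hF : l49_F w M L r t₀ a b = smoothTransition (a / w - 3) * (L * (b + r + 1)) := by
      unfold l49_F
      rw [smoothTransition.zero_of_nonpos m0]
      ring
    have hD : l49_D w M L r t₀ a b = deriv smoothTransition (a / w - 3) * (2 * (-b) / w) *
        (L * (b + r + 1)) + smoothTransition (a / w - 3) * L := by
      unfold l49_D
      rw [smoothTransition.zero_of_nonpos m0, l49_zero m0]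
      ring
    have p1 : 0 ≤ deriv smoothTransition (a / w - 3) * (2 * (-b) / w) * (L * (b + r + 1)) :=
      mul_nonneg (mul_nonneg ξ1 (div_nonneg (by linarith) hw.le)) (by linarith)
    rw [hF, hD]
    rcases tri (a / w - 3) with h | h | h
    · refine Or.inr (Or.inl ?_)
      rw [abs_of_nonneg (mul_nonneg ξ0 (by linarith))]
      exact mul_le_mul h (by linarith) (by linarith) (ξ0.trans h)
    · exact Or.inl (le_trans (by nlinarith) (le_abs_self _))
    · have := big h (q := -b) (by linarith) e1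
      exact Or.inl (le_trans (by nlinarith) (le_abs_self _))
  · have m0 : 1 ≤ (b + t₀) / (2 * t₀) := (one_le_div (by linarith)).mpr (by linarith)
    rcases le_total (a / w) 2 with ha | ha
    · have hF : l49_F w M L r t₀ a b = smoothTransition (a / w - 1) * M := by
        unfold l49_F
        rw [smoothTransition.one_of_one_le m0,
          smoothTransition.zero_of_nonpos (x := a / w - 3) (by linarith)]
        ring
      have hD : l49_D w M L r t₀ a b =
          -(deriv smoothTransition (a / w - 1) * (2 * b / w) * M) := by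
        unfold l49_D
        rw [smoothTransition.one_of_one_le m0, l49_one m0,
          smoothTransition.zero_of_nonpos (x := a / w - 3) (by linarith),
          l49_zero (u := a / w - 3) (by linarith)]
        ring
      have σ0 := smoothTransition.nonneg (a / w - 1)
      have σ1 := smoothTransition.le_one (a / w - 1)
      rw [hF, hD, abs_neg]
      rcases tri (a / w - 1) with h | h | h
      · refine Or.inr (Or.inl ?_)
        rw [abs_of_nonneg (mul_nonneg σ0 (by linarith))]
        exact mul_le_mul_of_nonneg_right h (by linarith)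
      · refine Or.inr (Or.inr ?_)
        rw [abs_of_nonpos (by nlinarith)]
        nlinarith
      · have := big h hb' (N := M) (by linarith)
        exact Or.inl (le_trans (by linarith) (le_abs_self _))
    · have hF : l49_F w M L r t₀ a b - M =
          -(smoothTransition (a / w - 3) * (M - L * (b + r + 1))) := by
        unfold l49_F
        rw [smoothTransition.one_of_one_le m0,
          smoothTransition.one_of_one_le (x := a / w - 1) (by linarith)]
        ring
      have hD : l49_D w M L r t₀ a b = deriv smoothTransition (a / w - 3) * (2 * b / w) *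
          (M - L * (b + r + 1)) + smoothTransition (a / w - 3) * L := by
        unfold l49_D
        rw [smoothTransition.one_of_one_le m0, l49_one m0,
          l49_one (u := a / w - 1) (by linarith)]
        ring
      have p1 : 0 ≤ deriv smoothTransition (a / w - 3) * (2 * b / w) * (M - L * (b + r + 1)) :=
        mul_nonneg (mul_nonneg ξ1 (div_nonneg (by linarith) hw.le)) (by linarith)
      rw [hF, hD, abs_neg]
      rcases tri (a / w - 3) with h | h | h
      · refine Or.inr (Or.inr ?_)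
        rw [abs_of_nonneg (mul_nonneg ξ0 (by linarith))]
        exact mul_le_mul h (by linarith) (by linarith) (ξ0.trans h)
      · exact Or.inl (le_trans (by nlinarith) (le_abs_self _))
      · have := big h hb' (N := M - L * (b + r + 1)) (by linarith)
        exact Or.inl (le_trans (by nlinarith) (le_abs_self _))

open Real in
theorem l49_F_zero {w M L r t₀ a b : ℝ} (hw : 0 < w) (h : a ≤ w) : l49_F w M L r t₀ a b = 0 := by
  have h1 : a / w ≤ 1 := (div_le_one hw).mpr h
  unfold l49_F
  rw [smoothTransition.zero_of_nonpos (x := a / w - 1) (by linarith),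
    smoothTransition.zero_of_nonpos (x := a / w - 3) (by linarith)]
  ring

open Real in
theorem l49_F_nonneg {w M L r t₀ a b : ℝ} (hM : 0 ≤ M) (hL : 0 ≤ L) (hb : -r ≤ b) :
    0 ≤ l49_F w M L r t₀ a b := by
  have h1 : smoothTransition (a / w - 3) ≤ smoothTransition (a / w - 1) :=
    smoothTransition.monotone (by linarith)
  have h2 := mul_nonneg (sub_nonneg.mpr h1)
    (mul_nonneg hM (smoothTransition.nonneg ((b + t₀) / (2 * t₀))))
  have h3 := mul_nonneg (smoothTransition.nonneg (a / w - 3))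
    (mul_nonneg hL (show 0 ≤ b + r + 1 by linarith))
  unfold l49_F
  linarith

theorem l49_turning {c et : E2} {r : ℝ} (hr : 0 < r) (het : ‖et‖ = 1) {Bs : E2 → ℝ}
    (hB : ContDiff ℝ ∞ Bs) (hB0 : ∀ x ∈ sphere c r, Bs x = 0) {t₀ δ₁ η : ℝ} (ht : 0 < t₀)
    (hδ : 0 < δ₁) (hη : 0 < η) (Λ : ℝ) :
    ∃ E : E2 → ℝ, ContDiff ℝ ∞ E ∧ (∀ x, 0 ≤ E x) ∧ tsupport E ⊆ ball c r ∧
      ∀ x ∈ closedBall c r,
        (δ₁ ≤ r ^ 2 - ‖x - c‖ ^ 2 → Λ ≤ |fderiv ℝ (fun x => Bs x + E x) x et|) ∧
        (t₀ ≤ |⟪x - c, et⟫| → Λ ≤ |fderiv ℝ (fun x => Bs x + E x) x et| ∨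
          ∃ m : ℤ, |Bs x + E x - m * (2 * Real.pi)| ≤ η) := by
  obtain ⟨C, hC⟩ := (isCompact_closedBall c r).exists_bound_of_continuousOn
    (f := fun x => fderiv ℝ Bs x et)
    (((hB.continuous_fderiv (by simp)).clm_apply continuous_const).continuousOn)
  have hC0 : 0 ≤ C := (norm_nonneg _).trans (hC c (mem_closedBall_self hr.le))
  set L : ℝ := 2 * (|Λ| + C) + 1 with hL
  have hL1 : 1 ≤ L := by
    have := abs_nonneg Λ
    linarith
  obtain ⟨m, hm⟩ := exists_nat_ge ((L * (2 * r + 1) + 1) / (2 * Real.pi))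
  rw [div_le_iff₀ (by positivity)] at hm
  set M : ℝ := m * (2 * Real.pi) with hM
  have hM0 : 0 < M := lt_of_lt_of_le (by positivity) hm
  obtain ⟨s₀, hs0, tri⟩ := l49_tri (e := min (1 / 2) (η / 2 / M)) (by positivity)
  have heM : min (1 / 2) (η / 2 / M) * M ≤ η / 2 := (le_div_iff₀ hM0).mp (min_le_right _ _)
  have hK : IsCompact (closedBall c r ∩ {x | η / 2 ≤ |Bs x|}) :=
    (isCompact_closedBall c r).inter_right (isClosed_le continuous_const hB.continuous.abs)
  obtain ⟨δ, hδ0, hδ1⟩ := hK.exists_forall_le' (f := fun x => r ^ 2 - ‖x - c‖ ^ 2) (a := 0)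
    (by fun_prop) fun x hx => by
      have h1 : ‖x - c‖ ≤ r := mem_closedBall_iff_norm.mp hx.1
      have h2 : ‖x - c‖ ≠ r := fun h => by
        have h3 : η / 2 ≤ |Bs x| := hx.2
        rw [hB0 x (mem_sphere_iff_norm.mpr h), abs_zero] at h3
        linarith
      have := pow_lt_pow_left₀ (lt_of_le_of_ne h1 h2) (norm_nonneg _) (n := 2) (by norm_num)
      linarith
  set w : ℝ := min (min δ₁ δ / 4) (2 * t₀ * s₀ / L) with hw
  have hw0 : 0 < w := by positivity
  have hw1 : 4 * w ≤ min δ₁ δ := by linarith [min_le_left (min δ₁ δ / 4) (2 * t₀ * s₀ / L)]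
  have hw2 : L * w ≤ 2 * t₀ * s₀ :=
    (le_div_iff₀' (by linarith)).mp (min_le_right (min δ₁ δ / 4) (2 * t₀ * s₀ / L))
  have hsm : ContDiff ℝ ∞ fun x : E2 =>
      l49_F w M L r t₀ (r ^ 2 - ‖x - c‖ ^ 2) ⟪x - c, et⟫ := by
    have h1 : ContDiff ℝ ∞ fun x : E2 => r ^ 2 - ‖x - c‖ ^ 2 :=
      contDiff_const.sub ((contDiff_id.sub contDiff_const).norm_sq ℝ)
    have h2 : ContDiff ℝ ∞ fun x : E2 => ⟪x - c, et⟫ :=
      (contDiff_id.sub contDiff_const).inner ℝ contDiff_const
    have h3 : ContDiff ℝ ∞ Real.smoothTransition := Real.smoothTransition.contDiff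
    unfold l49_F
    fun_prop
  have habs : ∀ x : E2, ‖x - c‖ ≤ r → |⟪x - c, et⟫| ≤ r := fun x hx => by
    have := abs_real_inner_le_norm (x - c) et
    rw [het, mul_one] at this
    exact this.trans hx
  have hsupp : ∀ x : E2, w ≤ r ^ 2 - ‖x - c‖ ^ 2 → ‖x - c‖ < r := fun x hx =>
    lt_of_pow_lt_pow_left₀ 2 hr.le (by linarith)
  refine ⟨_, hsm, fun x => ?_, ?_, fun x hx => ?_⟩
  · rcases le_total (r ^ 2 - ‖x - c‖ ^ 2) w with h | h
    · exact (l49_F_zero hw0 h).ge
    · exact l49_F_nonneg hM0.le (by linarith) (abs_le.mp (habs x (hsupp x h).le)).1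
  · refine (closure_minimal (t := {x : E2 | w ≤ r ^ 2 - ‖x - c‖ ^ 2}) (fun x hx => ?_)
      (isClosed_le continuous_const (by fun_prop))).trans fun x hx =>
        mem_ball_iff_norm.mpr (hsupp x hx)
    by_contra h
    exact hx (l49_F_zero hw0 (not_le.mp h).le)
  · have hline : HasDerivAt (fun s : ℝ => x + s • et) et 0 := by
      simpa using ((hasDerivAt_id (0 : ℝ)).smul_const et).const_add x
    have hE : fderiv ℝ (fun x : E2 => l49_F w M L r t₀ (r ^ 2 - ‖x - c‖ ^ 2) ⟪x - c, et⟫) x et =
        l49_D w M L r t₀ (r ^ 2 - ‖x - c‖ ^ 2) ⟪x - c, et⟫ := by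
      have h1 := (hsm.differentiable (by simp) (x + (0 : ℝ) • et)).hasFDerivAt.comp_hasDerivAt
        (0 : ℝ) hline
      rw [zero_smul, add_zero] at h1
      refine h1.unique ?_
      refine (l49_hasDerivAt w M L r t₀ _ _).congr_of_eventuallyEq
        (Eventually.of_forall fun s => ?_)
      have e0 : x + s • et - c = (x - c) + s • et := by abel
      simp only [Function.comp_apply, e0]
      rw [norm_add_sq_real, inner_add_left, real_inner_smul_left, real_inner_smul_right,
        real_inner_self_eq_norm_sq, norm_smul, het, Real.norm_eq_abs, mul_one, sq_abs]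
      congr 1 <;> ring
    have hfin : L / 2 ≤ |l49_D w M L r t₀ (r ^ 2 - ‖x - c‖ ^ 2) ⟪x - c, et⟫| →
        Λ ≤ |fderiv ℝ (fun x => Bs x +
          l49_F w M L r t₀ (r ^ 2 - ‖x - c‖ ^ 2) ⟪x - c, et⟫) x et| := by
      intro h
      rw [fderiv_fun_add (hB.differentiable (by simp) x) (hsm.differentiable (by simp) x),
        add_apply, hE]
      have h1 : |fderiv ℝ Bs x et| ≤ C := hC x hx
      have h2 := abs_sub (fderiv ℝ Bs x et + l49_D w M L r t₀ (r ^ 2 - ‖x - c‖ ^ 2) ⟪x - c, et⟫)
        (fderiv ℝ Bs x et)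
      rw [add_sub_cancel_left] at h2
      linarith [le_abs_self Λ]
    have hin : 4 * w ≤ r ^ 2 - ‖x - c‖ ^ 2 → Λ ≤ |fderiv ℝ (fun x => Bs x +
        l49_F w M L r t₀ (r ^ 2 - ‖x - c‖ ^ 2) ⟪x - c, et⟫) x et| := fun h => hfin (by
      rw [l49_inner hw0 h, abs_of_nonneg (by linarith)]
      linarith)
    refine ⟨fun h => hin (hw1.trans ((min_le_left _ _).trans h)), fun h => ?_⟩
    rcases le_or_gt (4 * w) (r ^ 2 - ‖x - c‖ ^ 2) with h1 | h1
    · exact Or.inl (hin h1)
    have hBs : |Bs x| ≤ η / 2 := by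
      by_contra h2
      have := hδ1 x ⟨hx, (not_le.mp h2).le⟩
      linarith [min_le_right δ₁ δ]
    rcases l49_layer (a := r ^ 2 - ‖x - c‖ ^ 2) hw0 ht hL1 hm (min_le_left _ _) hw2 tri
      (habs x (mem_closedBall_iff_norm.mp hx)) h with h2 | h2 | h2
    · exact Or.inl (hfin h2)
    · refine Or.inr ⟨0, ?_⟩
      rw [Int.cast_zero, zero_mul, sub_zero]
      exact (abs_add_le _ _).trans (by linarith)
    · refine Or.inr ⟨m, ?_⟩
      rw [Int.cast_natCast, add_sub_assoc]
      exact (abs_add_le _ _).trans (by linarith)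

end Crest.Agent.R216
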