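import Crest.Agent.R216.Defs
import Crest.Agent.R216.Loop3Aux49

/-! # Row 216, design of the turning angle on a disc -/

set_option autoImplicit false
open Set Filter Metric
open scoped ContDiff RealInnerProductSpace Topology

noncomputable section
namespace Crest.Agent.R216

/-- **Turning angle.**  Let `d x = r² - ‖x - c‖²`, `t x = ⟪x - c, et⟫`, so `∂_t d = -2 t`,
`∂_t t = 1`, `|t| ≤ r`.  Let `C ≥ |∂_t Bs|` on the disc, `L = 2 (Λ + C) + 1`,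
`Ei = L (t + r + 1)`, `m : ℕ` with `2π m ≥ L (2r + 1) + 1`, `μ(t)` smooth with values in `[0,1]`,
`= 1` for `t ≥ t₀`, `= 0` for `t ≤ -t₀`; `0 < δ ≤ min δ₁ ..` so small that `Bs ≤ η/2` on `d ≤ δ`
(uniform continuity, `Bs = 0` on the circle).  With `S = Real.smoothTransition`,
`σ = S (d / w - 1)`, `ξ = S (d / w - 3)`, `4 w ≤ δ`:
`E = σ(d) * 2π m μ(t) + ξ(d) * (Ei - 2π m μ(t))`.
* `d ≥ 4w`: `E = Ei`, `∂_t E = L`.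
* `t ≤ -t₀`: `E = ξ Ei`, `∂_t E = ξ L + 2|t| ξ' Ei ≥ 0`; `t ≥ t₀`, `d ≥ 2w`:
  `E = 2π m - ξ (2π m - Ei)`, `∂_t E = ξ L + 2 t ξ' (2π m - Ei)`; in both cases either `ξ ≥ 1/2`, or
  `ξ ≤ η' ` (then `E` is within `η/2` of `0` resp. `2π m`), or `S' ≥ s₀ > 0` (minimum of `S'` on the
  compact set `η' ≤ S ≤ 1 - η'`; `S' > 0` on `(0,1)`) and `w` small makes `2 t₀ s₀ / w ≥ L`.
* `t ≥ t₀`, `d ≤ 2w`: `E = 2π m σ`, `∂_t E = -4π m t σ'`, same trichotomy. -/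
theorem exists_turning {c et : E2} {r : ℝ} (hr : 0 < r) (het : ‖et‖ = 1) {Bs : E2 → ℝ}
    (hB : ContDiff ℝ ∞ Bs) (hB0 : ∀ x ∈ sphere c r, Bs x = 0) {t₀ δ₁ η : ℝ} (ht : 0 < t₀)
    (hδ : 0 < δ₁) (hη : 0 < η) (Λ : ℝ) :
    ∃ E : E2 → ℝ, ContDiff ℝ ∞ E ∧ (∀ x, 0 ≤ E x) ∧ tsupport E ⊆ ball c r ∧
      ∀ x ∈ closedBall c r,
        (δ₁ ≤ r ^ 2 - ‖x - c‖ ^ 2 → Λ ≤ |fderiv ℝ (fun x => Bs x + E x) x et|) ∧
        (t₀ ≤ |⟪x - c, et⟫| → Λ ≤ |fderiv ℝ (fun x => Bs x + E x) x et| ∨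
          ∃ m : ℤ, |Bs x + E x - m * (2 * Real.pi)| ≤ η) :=
  l49_turning hr het hB hB0 ht hδ hη Λ

end Crest.Agent.R216
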