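import Crest.Agent.R216.Design2
import Crest.Agent.R216.Loop3

/-! # Row 216, choice of the loops of a large step -/

set_option autoImplicit false
open Set Filter Metric
open scoped ContDiff RealInnerProductSpace Topology

noncomputable section
namespace Crest.Agent.R216

section alg
variable {s t k N V : E4}

theorem d3_g2 (h : 0 < g3 s t k) : g2 s t ≠ 0 := by
  intro h0
  have := g3_le s t k
  rw [h0, zero_mul] at this
  linarith

theorem d3_k (h : 0 < g3 s t k) : nproj s t k ≠ 0 := by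
  intro h0
  rw [g3_eq (d3_g2 h), h0] at h
  simp at h

theorem d3_lower (hs : ⟪s, N⟫ = 0) (ht : ⟪t, N⟫ = 0) (hk : ⟪k, N⟫ = 0) (hN : ‖N‖ = 1)
    (x y lam : ℝ) : |x| * (|lam| - ‖V‖) ≤ ‖nproj s t (x • (V + lam • N) + y • k)‖ := by
  have h1 : ⟪nproj s t (x • (V + lam • N) + y • k), N⟫ = x * (⟪V, N⟫ + lam) := by
    rw [inner_nproj_of_orth hs ht, inner_add_left, real_inner_smul_left, real_inner_smul_left,
      inner_add_left, real_inner_smul_left, hk, real_inner_self_eq_norm_sq, hN]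
    ring
  have h2 := abs_real_inner_le_norm (nproj s t (x • (V + lam • N) + y • k)) N
  have h3 := abs_real_inner_le_norm V N
  rw [hN, mul_one] at h2 h3
  rw [h1, abs_mul] at h2
  refine le_trans (mul_le_mul_of_nonneg_left ?_ (abs_nonneg x)) h2
  have := abs_add_le (⟪V, N⟫ + lam) (-⟪V, N⟫)
  rw [abs_neg, add_neg_cancel_comm] at this
  linarith

theorem d3_safe (hs : ⟪s, N⟫ = 0) (ht : ⟪t, N⟫ = 0) (hk : ⟪k, N⟫ = 0) (x y lam κ : ℝ)
    (h : 0 < κ * ‖nproj s t k‖ ^ 2 + ⟪nproj s t (x • V + y • k), nproj s t k⟫ ^ 2) :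
    0 < κ + ‖nproj s t (x • (V + lam • N) + y • k)‖ ^ 2 := by
  have e : x • (V + lam • N) + y • k = (x • V + y • k) + (x * lam) • N := by
    rw [smul_add, smul_smul]; abel
  have h1 : ⟪nproj s t (x • (V + lam • N) + y • k), nproj s t k⟫
      = ⟪nproj s t (x • V + y • k), nproj s t k⟫ := by
    rw [e, nproj_add s t (x • V + y • k), nproj_smul, nproj_of_orth hs ht, inner_add_left,
      real_inner_smul_left, real_inner_comm (nproj s t k) N, inner_nproj_of_orth hs ht, hk]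
    ring
  have h2 := abs_real_inner_le_norm (nproj s t (x • (V + lam • N) + y • k)) (nproj s t k)
  rw [← h1] at h
  set A := ‖nproj s t (x • (V + lam • N) + y • k)‖
  set B := ‖nproj s t k‖
  set I := ⟪nproj s t (x • (V + lam • N) + y • k), nproj s t k⟫
  have h3 : I ^ 2 ≤ (A * B) ^ 2 := by
    rw [← sq_abs I]
    exact pow_le_pow_left₀ (abs_nonneg _) h2 2
  by_contra hc
  have h4 : (κ + A ^ 2) * B ^ 2 ≤ 0 := mul_nonpos_of_nonpos_of_nonneg (not_lt.1 hc) (sq_nonneg _)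
  nlinarith

end alg

theorem d3_det {es et : E2} {l : E2 →L[ℝ] ℝ} (h1 : l es = 1) (h0 : l et = 0) (het : et ≠ 0)
    (v : E2) : det2 et v = -(l v * det2 es et) := by
  have h := decomp_l h1 h0 het v
  generalize det2 es v / det2 es et = y at h
  generalize l v = x at h
  rw [h]
  simp only [det2, PiLp.add_apply, PiLp.smul_apply, smul_eq_mul]
  ring

theorem d3_pos_lower {X : Type*} [TopologicalSpace X] {C : Set X} (hC : IsCompact C) {f : X → ℝ}
    (hf : ContinuousOn f C) (h : ∀ x ∈ C, 0 < f x) : ∃ m > 0, ∀ x ∈ C, m ≤ f x := by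
  rcases C.eq_empty_or_nonempty with rfl | hne
  · exact ⟨1, one_pos, fun x hx => absurd hx (notMem_empty x)⟩
  · obtain ⟨x₀, hx₀, hmin⟩ := hC.exists_isMinOn hne hf
    exact ⟨f x₀, h x₀ hx₀, fun x hx => hmin hx⟩

theorem d3_contDiff_amp (c : E2) (r : ℝ) {b : E2 → ℝ} (hb : ContDiff ℝ ∞ b) :
    ContDiff ℝ ∞ (amp c r b) := by
  unfold amp
  refine ContDiff.mul (expNegInvGlue.contDiff.comp ?_) hb
  exact contDiff_const.sub ((contDiff_norm_sq ℝ).comp (contDiff_id.sub contDiff_const))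

theorem d3_bigR_pos {rho : E2 → ℝ} (hpos : ∀ x, 0 < rho x) (a : E2 → ℝ) (x : E2) :
    0 < bigR rho a x := by
  unfold bigR
  have := hpos x
  exact Real.sqrt_pos.2 (by positivity)

/-- the quantity whose positivity makes the direction `v` non-asymptotic at a slow turning point -/
def d3Xi {G : E2 → E4} {c : E2} {r : ℝ} {es et : E2} (β : Base G c r es et) (R : E2 → ℝ)
    (l : E2 →L[ℝ] ℝ) (κ : ℝ) (v x : E2) (α : ℝ) : ℝ :=
  det2 et v ^ 2 * κ * ‖nproj (β.vsF R x α) (fderiv ℝ G x et) (d2 G x et et)‖ ^ 2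
    + ⟪nproj (β.vsF R x α) (fderiv ℝ G x et)
        (l v • β.vtsF R x α + (det2 es v / det2 es et) • d2 G x et et),
      nproj (β.vsF R x α) (fderiv ℝ G x et) (d2 G x et et)⟫ ^ 2

theorem d3_continuous_det (a : E2) : Continuous fun v => det2 a v := by
  unfold det2
  fun_prop

theorem d3Xi_continuousOn {G : E2 → E4} (hG : ContDiff ℝ ∞ G) {c : E2} {r : ℝ} {es et : E2}
    (β : Base G c r es et) {R : E2 → ℝ} (hR : ContDiff ℝ ∞ R) (hR0 : ∀ x, R x ≠ 0)
    (l : E2 →L[ℝ] ℝ) {K : E2 → ℝ} (hK : Continuous K) {L : Set E2} (hL : L ⊆ β.O) {τ : E2 → E2}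
    (hτ : ContinuousOn τ L) :
    ContinuousOn (fun z : E2 × ℝ => d3Xi β R l (K z.1) (τ z.1) z.1 z.2) (L ×ˢ univ) := by
  intro z hz
  have hτ' : ContinuousWithinAt (fun z : E2 × ℝ => τ z.1) (L ×ˢ univ) z :=
    (hτ.comp continuousOn_fst (fun w hw => hw.1)) z hz
  have h1 : ContinuousWithinAt (fun z : E2 × ℝ => β.vsF R z.1 z.2) (L ×ˢ univ) z :=
    (β.continuous_vsF hG hR).continuousWithinAt
  have h2 : ContinuousWithinAt (fun z : E2 × ℝ => β.vtsF R z.1 z.2) (L ×ˢ univ) z :=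
    (β.continuous_vtsF hG hR).continuousWithinAt
  have h3 : ContinuousWithinAt (fun z : E2 × ℝ => fderiv ℝ G z.1 et) (L ×ˢ univ) z :=
    (((hG.continuous_fderiv (by simp)).comp continuous_fst).clm_apply
      continuous_const).continuousWithinAt
  have h4 : ContinuousWithinAt (fun z : E2 × ℝ => d2 G z.1 et et) (L ×ˢ univ) z :=
    ((((continuous_d2 hG).comp continuous_fst).clm_apply continuous_const).clm_apply
      continuous_const).continuousWithinAt
  have h5 : ContinuousWithinAt (fun z : E2 × ℝ => det2 et (τ z.1)) (L ×ˢ univ) z :=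
    (d3_continuous_det et).continuousAt.comp_continuousWithinAt hτ'
  have h6 : ContinuousWithinAt (fun z : E2 × ℝ => det2 es (τ z.1) / det2 es et) (L ×ˢ univ) z :=
    ((d3_continuous_det es).continuousAt.comp_continuousWithinAt hτ').div_const _
  have h7 : ContinuousWithinAt (fun z : E2 × ℝ => l (τ z.1)) (L ×ˢ univ) z :=
    l.continuous.continuousAt.comp_continuousWithinAt hτ'
  have h8 : ContinuousWithinAt (fun z : E2 × ℝ => K z.1) (L ×ˢ univ) z :=
    (hK.comp continuous_fst).continuousWithinAt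
  have hg : g2 (β.vsF R z.1 z.2) (fderiv ℝ G z.1 et) ≠ 0 :=
    d3_g2 (β.g3_vsF_pos (hL hz.1) (hR0 _) _)
  have n1 : ContinuousWithinAt (fun z : E2 × ℝ =>
      nproj (β.vsF R z.1 z.2) (fderiv ℝ G z.1 et) (d2 G z.1 et et)) (L ×ˢ univ) z :=
    tendsto_nproj h1 h3 h4 hg
  have n2 : ContinuousWithinAt (fun z : E2 × ℝ => nproj (β.vsF R z.1 z.2) (fderiv ℝ G z.1 et)
      (l (τ z.1) • β.vtsF R z.1 z.2 + (det2 es (τ z.1) / det2 es et) • d2 G z.1 et et))
      (L ×ˢ univ) z :=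
    tendsto_nproj h1 h3 ((h7.smul h2).add (h6.smul h4)) hg
  unfold d3Xi
  exact (((h5.pow 2).mul h8).mul (n1.norm.pow 2)).add ((n2.inner (𝕜 := ℝ) n1).pow 2)

theorem d3_bound {G : E2 → E4} (hG : ContDiff ℝ ∞ G) {c : E2} {r : ℝ} {es et : E2}
    (β : Base G c r es et) {R : E2 → ℝ} (hR : ContDiff ℝ ∞ R) :
    ∃ C : ℝ, 0 ≤ C ∧ ∀ x ∈ closedBall c r, ∀ α, ‖β.vtsF R x α‖ ≤ C := by
  obtain ⟨C, hC⟩ := ((isCompact_closedBall c r).prod
    (isCompact_Icc (a := (0 : ℝ)) (b := 2 * Real.pi))).exists_bound_of_continuousOn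
    (β.continuous_vtsF hG hR).continuousOn
  refine ⟨max C 0, le_max_right _ _, fun x hx α => ?_⟩
  have hp : 0 < 2 * Real.pi := by positivity
  have e := (β.vsF_add_int R x (toIcoMod hp 0 α) (toIcoDiv hp 0 α)).2
  have e2 : toIcoMod hp 0 α + (toIcoDiv hp 0 α : ℝ) * (2 * Real.pi) = α := by
    have := toIcoMod_add_toIcoDiv_zsmul hp 0 α
    rwa [zsmul_eq_mul] at this
  rw [e2] at e
  rw [e]
  have hm := toIcoMod_mem_Ico hp 0 α
  rw [zero_add] at hm
  exact (hC (x, toIcoMod hp 0 α) ⟨hx, Ico_subset_Icc_self hm⟩).trans (le_max_left _ _)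

/-- **Design of a large step.**  `L i` = part of the disc where the later step `i` is active, `τ i`
its direction, `K` = curvature expression of the new metric.

Proof.  `β` from `exists_base` (`g3 > 0` by `g3_eq`, `nproj_basis`, `hII`), `R = bigR β.rho a`.
For `z = (x, α)` let `Ξ i z = det2 et τ² K ‖nproj vsF Gt Gtt‖² + ⟪nproj vsF Gt (l τ • vtsF + y • Gtt),
nproj vsF Gt Gtt⟫²` (`y = det2 es τ / det2 es et`), continuous on `L i × ℝ`, positive at `(x, 0)`,
`x ∈ Bad ∩ L i` (`vsF_sphere`, `hstr`, `decomp_l`, `nproj_basis`).  Tube lemma: an open `N ⊇ Bad`,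
`η > 0`, `t₀ > 0` with `Ξ i (x, α) > 0` for `x ∈ N ∩ L i`, `|α| ≤ η`, and `|⟪x - c, et⟫| ≥ t₀` on `N`.
The compact set `closedBall ∖ (N ∪ {K > 0} ∪ (⋃ L i)ᶜ)` misses the circle (`hgood`), so
`r² - ‖x-c‖² ≥ δ₁` on it, with `δ₁ ≤ δ`.  Let `C ≥ ‖vtsF‖` on `disc × ℝ`, `K ≥ -C²`, `R ≥ ρ₀ > 0` on
the disc, `Λ' = (Λ + 2C + 1)/ρ₀`, `E` from `exists_turning`, `d, α` from `exists_large_data`.
`nproj vss = vss = R α_θ N1`.  At a point with `α_θ = 0` and `|α_t| ≥ Λ'`:
`‖nproj (x vts + y Gtt)‖ ≥ |⟪·, N1⟫| ≥ |x| (R |α_t| - C)`; note `det2 et τ = - l τ * det2 es et`, so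
take `C` also `≥ |det2 es et| √(K⁻)`.  If `l τ = 0` the norm is `|y| ‖nproj Gtt‖ > 0`.  If `K > 0`
and `l τ ≠ 0` the first term is positive.  In the safe case use `vsF_add_int`, `Ξ > 0`,
`⟪nproj N1, nproj Gtt⟫ = 0` and Cauchy–Schwarz. -/
theorem exists_design {G : E2 → E4} (hG : Bdd G) {c : E2} {r : ℝ} {es et : E2}
    {l : E2 →L[ℝ] ℝ} (hr : 0 < r) (hsub : closedBall c r ⊆ closedBall 0 2) (het : ‖et‖ = 1)
    (h1 : l es = 1) (h0 : l et = 0) {b : E2 → ℝ} (hb : ContDiff ℝ ∞ b) (hb0 : ∀ x, 0 < b x)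
    (hinj : ∀ x ∈ closedBall c r, Function.Injective (fderiv ℝ G x))
    (hII : ∀ x ∈ closedBall c r, II G x et et ≠ 0)
    {ι : Type} [Fintype ι] {L : ι → Set E2} (hL : ∀ i, IsClosed (L i))
    (hLs : ∀ i, L i ⊆ closedBall c r) {τ : ι → E2 → E2} (hτ : ∀ i, ContinuousOn (τ i) (L i))
    (hτ0 : ∀ i, ∀ x ∈ L i, τ i x ≠ 0) {K : E2 → ℝ} (hK : Continuous K) {Bad : Set E2}
    (hBc : IsClosed Bad) (hBs : Bad ⊆ sphere c r)
    (hgood : ∀ x ∈ sphere c r, x ∉ Bad → (∀ i, x ∉ L i) ∨ 0 < K x)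
    (htr : ∀ x ∈ Bad, ⟪x - c, et⟫ ≠ 0)
    (hstr : ∀ i, ∀ x ∈ Bad ∩ L i, 0 < ⟪II G x et (τ i x), II G x et et⟫ ^ 2
      + det2 et (τ i x) ^ 2 * K x * ‖II G x et et‖ ^ 2)
    {δ : ℝ} (hδ : 0 < δ) (Λ : ℝ) :
    ∃ d : SD, d.Lg ∧ d.G = G ∧ d.a = amp c r b ∧ d.es = es ∧ d.et = et ∧ d.Z = closedBall c r ∧
      (∀ x ∈ closedBall c r, ∀ θ, 0 < g3 (d.vs (x, θ)) (d.Gt x) (d2 G x et et)) ∧
      (∀ i, ∀ x ∈ L i, ∀ θ, (l (τ i x)) ^ 2 • nproj (d.vs (x, θ)) (d.Gt x) (d.vss (x, θ)) = 0 →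
        0 < det2 et (τ i x) ^ 2 * K x + ‖nproj (d.vs (x, θ)) (d.Gt x) (l (τ i x) • d.vts (x, θ)
          + (det2 es (τ i x) / det2 es et) • d2 G x et et)‖ ^ 2) ∧
      ∀ x ∈ closedBall c r, δ ≤ r ^ 2 - ‖x - c‖ ^ 2 → ∀ θ,
        nproj (d.vs (x, θ)) (d.Gt x) (d.vss (x, θ)) = 0 →
          Λ ≤ ‖nproj (d.vs (x, θ)) (d.Gt x) (d.vts (x, θ))‖ := by
  have hG1 : ContDiff ℝ ∞ G := hG.1
  have het0 : et ≠ 0 := by
    intro h; rw [h, norm_zero] at het; exact zero_ne_one het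
  have hD : det2 es et ≠ 0 := det2_ne_zero h1 h0 het0
  have hII' : ∀ x ∈ closedBall c r, ∀ z,
      nproj (fderiv ℝ G x es) (fderiv ℝ G x et) z = nproj (fderiv ℝ G x b0) (fderiv ℝ G x b1) z :=
    fun x hx z => nproj_basis (hinj x hx) hD z
  obtain ⟨β⟩ : Nonempty (Base G c r es et) := by
    refine exists_base hG c r es et fun x hx => ?_
    have hg : 0 < g2 (fderiv ℝ G x es) (fderiv ℝ G x et) := by
      rw [g2_map]
      exact mul_pos (by positivity) ((g2_pos_iff _).2 (hinj x hx))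
    rw [g3_eq hg.ne', hII' x hx]
    have := hII x hx
    exact mul_pos hg (pow_pos (norm_pos_iff.2 this) 2)
  have ha : ContDiff ℝ ∞ (amp c r b) := d3_contDiff_amp c r hb
  set R := bigR β.rho (amp c r b) with hRdef
  have hR : ContDiff ℝ ∞ R := contDiff_bigR β.brho.1 β.pos ha
  have hRpos : ∀ x, 0 < R x := d3_bigR_pos β.pos _
  have hBk : IsCompact Bad := (isCompact_sphere c r).of_isClosed_subset hBc hBs
  -- tube lemma
  obtain ⟨N₀, η, hN₀, hBN₀, hη, hXi⟩ : ∃ (N₀ : Set E2) (η : ℝ), IsOpen N₀ ∧ Bad ⊆ N₀ ∧ 0 < η ∧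
      ∀ i, ∀ x ∈ N₀, x ∈ L i → ∀ α, |α| ≤ η → 0 < d3Xi β R l (K x) (τ i x) x α := by
    have hcl : ∀ i, IsClosed ((L i ×ˢ (univ : Set ℝ)) ∩
        (fun z : E2 × ℝ => d3Xi β R l (K z.1) (τ i z.1) z.1 z.2) ⁻¹' Iic 0) := fun i =>
      (d3Xi_continuousOn hG1 β hR (fun x => (hRpos x).ne') l hK ((hLs i).trans β.sub)
        (hτ i)).preimage_isClosed_of_isClosed ((hL i).prod isClosed_univ) isClosed_Iic
    have hop := (isClosed_iUnion_of_finite hcl).isOpen_compl
    obtain ⟨u, v, hu, hv, hBu, h0v, huv⟩ := generalized_tube_lemma hBk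
      (isCompact_singleton (x := (0 : ℝ))) hop (by
        rintro ⟨x, α⟩ ⟨hx, hα⟩ hz
        obtain ⟨i, hi1, hi2⟩ := mem_iUnion.1 hz
        obtain rfl : α = 0 := hα
        have hxL : x ∈ L i := hi1.1
        have hs := β.vsF_sphere hb hb0 (hBs hx)
        have hi3 : d3Xi β R l (K x) (τ i x) x 0 ≤ 0 := hi2
        have hstr' := hstr i x ⟨hx, hxL⟩
        unfold d3Xi at hi3
        rw [hs.1, hs.2, hII' x (hLs i hxL), hII' x (hLs i hxL)] at hi3
        have e : l (τ i x) • d2 G x et es + (det2 es (τ i x) / det2 es et) • d2 G x et et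
            = d2 G x et (τ i x) := by
          conv_rhs => rw [decomp_l h1 h0 het0 (τ i x)]
          rw [map_add, map_smul, map_smul]
        rw [e] at hi3
        unfold II IIj at hstr'
        linarith)
    obtain ⟨η, hη, hball⟩ := Metric.isOpen_iff.1 hv 0 (h0v rfl)
    refine ⟨u, η / 2, hu, hBu, by linarith, fun i x hx hxL α hα => ?_⟩
    by_contra hc
    refine huv (mk_mem_prod hx (hball (a := α) ?_)) (mem_iUnion.2 ⟨i, ⟨hxL, mem_univ _⟩, ?_⟩)
    · rw [mem_ball_zero_iff, Real.norm_eq_abs]; linarith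
    · exact not_lt.1 hc
  have hcin : Continuous fun x : E2 => |⟪x - c, et⟫| := by fun_prop
  obtain ⟨t₁, ht₁, ht₁'⟩ := d3_pos_lower hBk hcin.continuousOn
    (fun x hx => abs_pos.2 (htr x hx))
  set N : Set E2 := N₀ ∩ {x | t₁ / 2 < |⟪x - c, et⟫|} with hNdef
  have hN : IsOpen N := hN₀.inter (isOpen_lt continuous_const hcin)
  have hBN : Bad ⊆ N := fun x hx => ⟨hBN₀ hx, by
    have := ht₁' x hx
    change t₁ / 2 < _
    linarith⟩
  -- the collar
  obtain ⟨δ₀, hδ₀, hδ₀'⟩ : ∃ δ₀ > 0, ∀ x ∈ closedBall c r ∩ ((Nᶜ ∩ {x | K x ≤ 0}) ∩ ⋃ i, L i),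
      δ₀ ≤ r ^ 2 - ‖x - c‖ ^ 2 := by
    refine d3_pos_lower ((isCompact_closedBall c r).inter_right
      ((hN.isClosed_compl.inter (isClosed_le hK continuous_const)).inter
        (isClosed_iUnion_of_finite hL))) (by fun_prop) ?_
    rintro x ⟨hx, ⟨hxN, hxK⟩, hxL⟩
    have hx' : ‖x - c‖ ≤ r := by rwa [mem_closedBall, dist_eq_norm] at hx
    rcases hx'.lt_or_eq with hlt | heq
    · have := norm_nonneg (x - c)
      nlinarith
    · exfalso
      have hs : x ∈ sphere c r := by rwa [mem_sphere, dist_eq_norm]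
      obtain ⟨i, hi⟩ := mem_iUnion.1 hxL
      rcases hgood x hs (fun hb => hxN (hBN hb)) with h | h
      · exact h i hi
      · exact absurd h (not_lt.2 hxK)
  obtain ⟨C, hC0, hC⟩ := d3_bound hG1 β hR
  obtain ⟨K₀, hK₀⟩ := (isCompact_closedBall c r).exists_bound_of_continuousOn hK.continuousOn
  obtain ⟨ρ₀, hρ₀, hρ₀'⟩ := d3_pos_lower (isCompact_closedBall c r) hR.continuous.continuousOn
    (fun x _ => hRpos x)
  set T : ℝ := C + 1 + det2 es et ^ 2 * |K₀| + |Λ| with hT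
  obtain ⟨E, hE, hE0, hEs, hturn⟩ := exists_turning (c := c) hr het
    (contDiff_Bst β.brho.1 β.pos ha) (Bs := Bst β.rho (amp c r b)) (fun x hx => by
      rw [mem_sphere, dist_eq_norm] at hx
      simp [Bst, amp, hx, expNegInvGlue.zero]) (t₀ := t₁ / 2) (δ₁ := min δ δ₀) (by linarith)
    (lt_min hδ hδ₀) hη (T / ρ₀)
  obtain ⟨d, α, O, hLg, hdG, hda, hes, het', hZ, hO, hOs, hOβ, hα, hU, hcrit⟩ :=
    exists_large_data hG β hr hsub het hb hb0 hE hE0 hEs
  have hGt : ∀ x, d.Gt x = fderiv ℝ G x et := fun x => by rw [SD.Gt, hdG, het']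
  have hjet := fun x (hx : x ∈ closedBall c r) θ =>
    β.jets_eq hdG hes het' hO hα hR hU (hOs hx) θ
  have hN1 := fun x (hx : x ∈ closedBall c r) θ => β.N1_orth R (β.sub hx) (α (x, θ))
  have hg3 := fun x (hx : x ∈ closedBall c r) θ =>
    β.g3_vsF_pos (R := R) (β.sub hx) (hRpos x).ne' (α (x, θ))
  -- at a turning point
  have hzero : ∀ x ∈ closedBall c r, ∀ θ,
      nproj (d.vs (x, θ)) (d.Gt x) (d.vss (x, θ)) = 0 → dθ α (x, θ) = 0 := by
    intro x hx θ h
    rw [(hjet x hx θ).1, (hjet x hx θ).2.2, hGt, nproj_smul,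
      nproj_of_orth (hN1 x hx θ).1 (hN1 x hx θ).2.1, smul_eq_zero] at h
    rcases h with h | h
    · exact (mul_eq_zero.1 h).resolve_left (hRpos x).ne'
    · have := (hN1 x hx θ).2.2.2
      rw [h, norm_zero] at this
      exact absurd this zero_ne_one
  have hfast : ∀ x ∈ closedBall c r, ∀ θ, dθ α (x, θ) = 0 →
      T / ρ₀ ≤ |fderiv ℝ (fun x => Bst β.rho (amp c r b) x + E x) x et| → ∀ s y : ℝ,
      |s| * (1 + det2 es et ^ 2 * |K₀| + |Λ|)
        ≤ ‖nproj (d.vs (x, θ)) (d.Gt x) (s • d.vts (x, θ) + y • d2 G x et et)‖ := by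
    intro x hx θ h hf s y
    rw [(hjet x hx θ).1, (hjet x hx θ).2.1, hGt]
    refine le_trans (mul_le_mul_of_nonneg_left ?_ (abs_nonneg s))
      (d3_lower (hN1 x hx θ).1 (hN1 x hx θ).2.1 (hN1 x hx θ).2.2.1 (hN1 x hx θ).2.2.2 s y _)
    rw [← (hcrit (x, θ) h).2, div_le_iff₀ hρ₀] at hf
    rw [abs_mul, abs_of_pos (hRpos x)]
    have h2 := hC x hx (α (x, θ))
    have h3 := mul_le_mul_of_nonneg_left (hρ₀' x hx) (abs_nonneg (dx et α (x, θ)))
    linarith
  refine ⟨d, hLg, hdG, hda, hes, het', hZ, fun x hx θ => ?_, fun i x hxL θ hprem => ?_,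
    fun x hx hδx θ h => ?_⟩
  · rw [(hjet x hx θ).1, hGt]
    exact hg3 x hx θ
  · have hx := hLs i hxL
    have hdet := d3_det h1 h0 het0 (τ i x)
    by_cases hl : l (τ i x) = 0
    · have hy : det2 es (τ i x) / det2 es et ≠ 0 := by
        intro hy
        have := decomp_l h1 h0 het0 (τ i x)
        rw [hl, hy, zero_smul, zero_smul, add_zero] at this
        exact hτ0 i x hxL this
      rw [hdet, hl, zero_smul, zero_add, nproj_smul, (hjet x hx θ).1, hGt]
      have := norm_pos_iff.2 (smul_ne_zero hy (d3_k (hg3 x hx θ)))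
      simp only [zero_mul, neg_zero, ne_eq, OfNat.ofNat_ne_zero, not_false_eq_true, zero_pow,
        zero_add]
      positivity
    have hcr : dθ α (x, θ) = 0 :=
      hzero x hx θ ((smul_eq_zero.1 hprem).resolve_left (pow_ne_zero 2 hl))
    have hstrong : T / ρ₀ ≤ |fderiv ℝ (fun x => Bst β.rho (amp c r b) x + E x) x et| →
        0 < det2 et (τ i x) ^ 2 * K x + ‖nproj (d.vs (x, θ)) (d.Gt x) (l (τ i x) • d.vts (x, θ)
          + (det2 es (τ i x) / det2 es et) • d2 G x et et)‖ ^ 2 := by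
      intro hf
      have h2 := hfast x hx θ hcr hf (l (τ i x)) (det2 es (τ i x) / det2 es et)
      have h3 := pow_le_pow_left₀ (by positivity) h2 2
      have h4 : -|K₀| ≤ K x := by
        have := hK₀ x hx
        rw [Real.norm_eq_abs] at this
        linarith [neg_abs_le (K x), le_abs_self K₀]
      rw [mul_pow, sq_abs] at h3
      rw [hdet]
      have h5 : 0 < l (τ i x) ^ 2 := by positivity
      set Q := det2 es et ^ 2 * |K₀| with hQ
      have h6 : 0 ≤ Q := by positivity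
      have h7 : Q < (1 + Q + |Λ|) ^ 2 := by nlinarith [abs_nonneg Λ]
      have h8 : -Q ≤ det2 es et ^ 2 * K x := by
        rw [hQ]; nlinarith [sq_nonneg (det2 es et)]
      have h9 := mul_lt_mul_of_pos_left h7 h5
      have h10 := mul_le_mul_of_nonneg_left h8 h5.le
      nlinarith
    by_cases hKx : 0 < K x
    · have : 0 < det2 et (τ i x) ^ 2 * K x := by
        rw [hdet]
        have := neg_ne_zero.2 (mul_ne_zero hl hD)
        exact mul_pos (by positivity) hKx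
      positivity
    by_cases hxN : x ∈ N
    · rcases (hturn x hx).2 (le_of_lt hxN.2) with hf | ⟨m, hm⟩
      · exact hstrong hf
      · obtain ⟨α', m', hα', hαe⟩ : ∃ (α' : ℝ) (m' : ℤ), |α'| ≤ η ∧
            α (x, θ) = α' + m' * (2 * Real.pi) := by
          have hc := (hcrit (x, θ) hcr).1
          simp only at hc
          rw [← hc] at hm
          rcases abs_choice (α (x, θ)) with h | h
          · rw [h] at hm
            exact ⟨_, m, hm, by ring⟩
          · rw [h] at hm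
            refine ⟨-(-α (x, θ) - m * (2 * Real.pi)), -m, by rwa [abs_neg], ?_⟩
            push_cast; ring
        have hpos := hXi i x hxN.1 hxL α' hα'
        unfold d3Xi at hpos
        rw [← (β.vsF_add_int R x α' m').1, ← (β.vsF_add_int R x α' m').2, ← hαe] at hpos
        rw [(hjet x hx θ).1, (hjet x hx θ).2.1, hGt]
        exact d3_safe (hN1 x hx θ).1 (hN1 x hx θ).2.1 (hN1 x hx θ).2.2.1 _ _ _ _ hpos
    · exact hstrong ((hturn x hx).1 ((min_le_right _ _).trans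
        (hδ₀' x ⟨hx, ⟨hxN, not_lt.1 hKx⟩, mem_iUnion.2 ⟨i, hxL⟩⟩)))
  · have h2 := hfast x hx θ (hzero x hx θ h) ((hturn x hx).1 ((min_le_left _ _).trans hδx)) 1 0
    rw [one_smul, zero_smul, add_zero, abs_one, one_mul] at h2
    have : 0 ≤ det2 es et ^ 2 * |K₀| := by positivity
    linarith [le_abs_self Λ]

end Crest.Agent.R216
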