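import Crest.Agent.R216.Step0

/-! # Row 216, evaluation of the two-scale ansatz -/

set_option autoImplicit false
open Set Filter Metric
open scoped ContDiff RealInnerProductSpace Topology

noncomputable section
namespace Crest.Agent.R216

/-- the point `(x, l x / ε)` -/
def ph (l : E2 →L[ℝ] ℝ) (ε : ℝ) (x : E2) : E2 × ℝ := (x, l x / ε)

/-- the two-scale function `ε U (x, l x / ε)` -/
def ev (l : E2 →L[ℝ] ℝ) (ε : ℝ) (U : E2 × ℝ → E4) (x : E2) : E4 := ε • U (ph l ε x)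

section
variable {l : E2 →L[ℝ] ℝ} {ε : ℝ} {U : E2 × ℝ → E4}

/-- `ph` as a continuous linear map -/
def Eval_phL (l : E2 →L[ℝ] ℝ) (ε : ℝ) : E2 →L[ℝ] E2 × ℝ :=
  (ContinuousLinearMap.id ℝ E2).prod (ε⁻¹ • l)

theorem Eval_phL_apply (x : E2) : Eval_phL l ε x = ph l ε x := by
  simp [Eval_phL, ph, div_eq_inv_mul]

theorem Eval_ph_eq : ph l ε = Eval_phL l ε := funext fun x => (Eval_phL_apply x).symm

theorem Eval_fderiv_comp {V : E2 × ℝ → E4} (hV : ContDiff ℝ ∞ V) (x v : E2) :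
    fderiv ℝ (fun y => V (ph l ε y)) x v = (l v / ε) • dθ V (ph l ε x) + dx v V (ph l ε x) := by
  have h := ((hV.differentiable (by simp) (Eval_phL l ε x)).hasFDerivAt.comp x
    (Eval_phL l ε).hasFDerivAt).fderiv
  have e : (fun y => V (ph l ε y)) = V ∘ Eval_phL l ε := by rw [Eval_ph_eq]; rfl
  rw [e, h, ContinuousLinearMap.comp_apply, Eval_phL_apply, Eval_phL_apply, dθ, dx, ← map_smul,
    ← map_add]
  congr 1
  simp [ph]

theorem Eval_contDiff_comp {V : E2 × ℝ → E4} (hV : ContDiff ℝ ∞ V) :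
    ContDiff ℝ ∞ (fun y => V (ph l ε y)) := by
  rw [Eval_ph_eq]
  exact hV.comp (Eval_phL l ε).contDiff

theorem contDiff_ev (hU : ContDiff ℝ ∞ U) : ContDiff ℝ ∞ (ev l ε U) := by
  exact (Eval_contDiff_comp hU).const_smul ε

theorem fderiv_ev (hU : ContDiff ℝ ∞ U) (hε : ε ≠ 0) (x v : E2) :
    fderiv ℝ (ev l ε U) x v = l v • dθ U (ph l ε x) + ε • dx v U (ph l ε x) := by
  have h := fderiv_fun_const_smul
    ((Eval_contDiff_comp (l := l) (ε := ε) hU).differentiable (by simp) x) ε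
  show fderiv ℝ (fun y => ε • U (ph l ε y)) x v = _
  rw [h, smul_apply, Eval_fderiv_comp hU, smul_add, smul_smul,
    mul_div_cancel₀ _ hε]

theorem d2_ev (hU : ContDiff ℝ ∞ U) (hε : ε ≠ 0) (x v w : E2) :
    d2 (ev l ε U) x v w = (l v * l w / ε) • dθ (dθ U) (ph l ε x)
      + l w • dx v (dθ U) (ph l ε x) + l v • dx w (dθ U) (ph l ε x)
      + ε • dx v (dx w U) (ph l ε x) := by
  rw [d2_apply (contDiff_ev hU).contDiffAt]
  simp only [fderiv_ev hU hε]
  have h1 := (Eval_contDiff_comp (l := l) (ε := ε) (contDiff_dθ hU)).differentiable (by simp) x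
  have h2 := (Eval_contDiff_comp (l := l) (ε := ε) (contDiff_dx hU w)).differentiable (by simp) x
  rw [fderiv_fun_add (h1.fun_const_smul _) (h2.fun_const_smul _), fderiv_fun_const_smul h1,
    fderiv_fun_const_smul h2]
  simp only [add_apply, smul_apply]
  rw [Eval_fderiv_comp (contDiff_dθ hU), Eval_fderiv_comp (contDiff_dx hU w), ← dx_dθ hU,
    smul_add, smul_add, smul_smul, smul_smul, mul_div_cancel₀ _ hε]
  have : l w * (l v / ε) = l v * l w / ε := by ring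
  rw [this]
  abel

/-- `ph l ε` is linear of norm `≤ (1 + ‖l‖) / ε` (`ContinuousLinearMap.iteratedFDeriv_comp_right`,
`ContinuousMultilinearMap.norm_compContinuousLinearMap_le`) -/
theorem norm_iteratedFDeriv_ev (hU : ContDiff ℝ ∞ U) (hε : 0 < ε) (hε1 : ε ≤ 1) (j : ℕ) (x : E2) :
    ‖iteratedFDeriv ℝ j (ev l ε U) x‖
      ≤ ε * ‖iteratedFDeriv ℝ j U (ph l ε x)‖ * ((1 + ‖l‖) / ε) ^ j := by
  have hn : ‖Eval_phL l ε‖ ≤ (1 + ‖l‖) / ε := by
    refine ContinuousLinearMap.opNorm_le_bound _ (by positivity) fun v => ?_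
    rw [Eval_phL_apply, ph, Prod.norm_def]
    refine max_le ?_ ?_
    · have : 1 ≤ (1 + ‖l‖) / ε := by
        rw [le_div_iff₀ hε]; linarith [norm_nonneg l]
      exact le_mul_of_one_le_left (norm_nonneg _) this
    · rw [norm_div, Real.norm_of_nonneg hε.le, div_mul_eq_mul_div]
      gcongr
      refine (l.le_opNorm v).trans ?_
      gcongr
      linarith
  have e : ev l ε U = ε • (U ∘ Eval_phL l ε) := by
    funext y; simp [ev, Eval_phL_apply]
  rw [e, iteratedFDeriv_const_smul_apply ((hU.comp (Eval_phL l ε).contDiff).of_le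
    (by exact_mod_cast le_top)).contDiffAt, norm_smul, Real.norm_of_nonneg hε.le,
    (Eval_phL l ε).iteratedFDeriv_comp_right hU x (by exact_mod_cast le_top), mul_assoc,
    Eval_phL_apply]
  gcongr
  refine (ContinuousMultilinearMap.norm_compContinuousLinearMap_le _ _).trans ?_
  rw [Finset.prod_const, Finset.card_univ, Fintype.card_fin]
  gcongr

/-- norms of the directional derivatives are bounded by the norms of the iterated derivatives -/
theorem norm_dirs_le (hU : ContDiff ℝ ∞ U) (z : E2 × ℝ) (v w : E2) :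
    ‖dθ U z‖ ≤ ‖iteratedFDeriv ℝ 1 U z‖ ∧ ‖dx v U z‖ ≤ ‖v‖ * ‖iteratedFDeriv ℝ 1 U z‖ ∧
    ‖dθ (dθ U) z‖ ≤ ‖iteratedFDeriv ℝ 2 U z‖ ∧
    ‖dx v (dθ U) z‖ ≤ ‖v‖ * ‖iteratedFDeriv ℝ 2 U z‖ ∧
    ‖dx v (dx w U) z‖ ≤ ‖v‖ * ‖w‖ * ‖iteratedFDeriv ℝ 2 U z‖ := by
  have h1 : ∀ a : E2 × ℝ, ‖fderiv ℝ U z a‖ ≤ ‖a‖ * ‖iteratedFDeriv ℝ 1 U z‖ := fun a => by
    rw [norm_iteratedFDeriv_one, mul_comm]
    exact (fderiv ℝ U z).le_opNorm a
  have h2 : ∀ a b : E2 × ℝ, ‖fderiv ℝ (fun y => fderiv ℝ U y b) z a‖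
      ≤ ‖a‖ * ‖b‖ * ‖iteratedFDeriv ℝ 2 U z‖ := fun a b => by
    rw [← d2_apply hU.contDiffAt, ← norm_d2_eq, mul_comm]
    rw [← mul_assoc]
    exact (d2 U z).le_opNorm₂ a b
  have n1 : ‖((0, 1) : E2 × ℝ)‖ = 1 := by simp [Prod.norm_def]
  have n2 : ∀ v : E2, ‖((v, 0) : E2 × ℝ)‖ = ‖v‖ := fun v => by simp [Prod.norm_def]
  refine ⟨?_, ?_, ?_, ?_, ?_⟩
  · have := h1 (0, 1)
    rw [n1, one_mul] at this
    exact this
  · have := h1 (v, 0)
    rw [n2] at this
    exact this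
  · have := h2 (0, 1) (0, 1)
    rw [n1, one_mul, one_mul] at this
    exact this
  · have := h2 (v, 0) (0, 1)
    rw [n1, n2, mul_one] at this
    exact this
  · have := h2 (v, 0) (w, 0)
    rw [n2, n2] at this
    exact this

end

theorem Eval_inv_det_le {es et : E2} {l : E2 →L[ℝ] ℝ} (h1 : l es = 1) (h0 : l et = 0)
    (het : ‖et‖ = 1) : 1 ≤ ‖l‖ * |det2 es et| := by
  have e : ∀ v : E2, l v = v 0 * l b0 + v 1 * l b1 := fun v => by
    conv_lhs => rw [E2_decomp v]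
    simp
  have n : et 0 ^ 2 + et 1 ^ 2 = 1 := by
    have := EuclideanSpace.real_norm_sq_eq et
    rw [het, Fin.sum_univ_two] at this
    linarith
  set v : E2 := et 1 • b0 - et 0 • b1 with hv
  have v0 : v 0 = et 1 := by simp [hv, b0, b1]
  have v1 : v 1 = -et 0 := by simp [hv, b0, b1]
  have nv : ‖v‖ = 1 := by
    have := EuclideanSpace.real_norm_sq_eq v
    rw [Fin.sum_univ_two, v0, v1] at this
    exact (pow_eq_one_iff_of_nonneg (norm_nonneg _) two_ne_zero).1 (by rw [this]; linarith)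
  have key : l v * det2 es et = 1 := by
    rw [e] at h1 h0
    rw [e, v0, v1, det2]
    linear_combination (et 0 ^ 2 + et 1 ^ 2) * h1 + n - (es 1 * et 1 + es 0 * et 0) * h0
  have h2 : |l v| ≤ ‖l‖ := by simpa [nv] using l.le_opNorm v
  calc (1 : ℝ) = |l v| * |det2 es et| := by rw [← abs_mul, key, abs_one]
    _ ≤ _ := by gcongr

/-- The metric error of `G + ev U` is given by the residuals: on `(es,es)`, `(es,et)`, `(et,es)`,
`(et,et)` it equals `R3`, `R2`, `R2`, `ε R1`; conclude with `norm_bil_le`. -/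
theorem SD.metric_error (d : SD) (hG : ContDiff ℝ ∞ d.G) {U : E2 × ℝ → E4} (hU : ContDiff ℝ ∞ U)
    {l : E2 →L[ℝ] ℝ} (h1 : l d.es = 1) (h0 : l d.et = 0) (het : ‖d.et‖ = 1) (hε : 0 < d.ε)
    (hε1 : d.ε ≤ 1) (x : E2) {b : ℝ} (b1 : |d.R1 U (ph l d.ε x)| ≤ b)
    (b2 : |d.R2 U (ph l d.ε x)| ≤ b) (b3 : |d.R3 U (ph l d.ε x)| ≤ b) :
    ‖pb (fun y => d.G y + ev l d.ε U y) x - pb d.G x - d.a x ^ 2 • sq2 l‖
      ≤ ((‖d.es‖ + 1) * ‖l‖) ^ 2 * b := by
  have het0 : d.et ≠ 0 := fun h => by simp [h] at het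
  have hdet := det2_ne_zero h1 h0 het0
  have hb : 0 ≤ b := (abs_nonneg _).trans b1
  have hf : ∀ v, fderiv ℝ (fun y => d.G y + ev l d.ε U y) x v
      = fderiv ℝ d.G x v + (l v • dθ U (ph l d.ε x) + d.ε • dx v U (ph l d.ε x)) := fun v => by
    rw [fderiv_fun_add (hG.differentiable (by simp) x) ((contDiff_ev hU).differentiable (by simp) x),
      add_apply, fderiv_ev hU hε.ne']
  have hs : fderiv ℝ (fun y => d.G y + ev l d.ε U y) x d.es
      = d.Gs x + dθ U (ph l d.ε x) + d.ε • dx d.es U (ph l d.ε x) := by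
    rw [hf, h1, one_smul, add_assoc]; rfl
  have ht : fderiv ℝ (fun y => d.G y + ev l d.ε U y) x d.et
      = d.Gt x + d.ε • dx d.et U (ph l d.ε x) := by
    rw [hf, h0, zero_smul, zero_add]; rfl
  have hH : ∀ v w, (pb (fun y => d.G y + ev l d.ε U y) x - pb d.G x - d.a x ^ 2 • sq2 l) v w
      = ⟪fderiv ℝ (fun y => d.G y + ev l d.ε U y) x v, fderiv ℝ (fun y => d.G y + ev l d.ε U y) x w⟫
        - ⟪fderiv ℝ d.G x v, fderiv ℝ d.G x w⟫ - d.a x ^ 2 * (l v * l w) := fun v w => by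
    simp only [sub_apply, smul_apply, pb_apply, sq2_apply,
      smul_eq_mul]
  have hx : (ph l d.ε x).1 = x := rfl
  refine (norm_bil_le hdet _ (b := b) ?_ ?_ ?_ ?_).trans ?_
  · rw [hH, hs, h1]
    simpa only [SD.R3, SD.Gs, hx, mul_one] using b3
  · rw [hH, hs, ht, h0, real_inner_comm, real_inner_comm (fderiv ℝ d.G x d.et)]
    simpa only [SD.R2, SD.Gs, SD.Gt, hx, mul_zero, sub_zero] using b2
  · rw [hH, hs, ht, h0]
    simpa only [SD.R2, SD.Gs, SD.Gt, hx, mul_zero, zero_mul, sub_zero] using b2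
  · rw [hH, ht, h0]
    have : ⟪d.Gt x + d.ε • dx d.et U (ph l d.ε x), d.Gt x + d.ε • dx d.et U (ph l d.ε x)⟫
        - ⟪fderiv ℝ d.G x d.et, fderiv ℝ d.G x d.et⟫ - d.a x ^ 2 * (0 * 0)
        = d.ε * d.R1 U (ph l d.ε x) := by
      simp only [SD.R1, hx, SD.Gt, inner_add_left, inner_add_right, real_inner_smul_left,
        real_inner_smul_right, real_inner_comm (fderiv ℝ d.G x d.et) (dx d.et U (ph l d.ε x))]
      ring
    rw [this, abs_mul, abs_of_pos hε]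
    calc d.ε * |d.R1 U (ph l d.ε x)| ≤ 1 * b := by gcongr
      _ = b := one_mul b
  · rw [het]
    have h3 := Eval_inv_det_le h1 h0 het
    have h4 : (‖d.es‖ + 1) / |det2 d.es d.et| ≤ (‖d.es‖ + 1) * ‖l‖ := by
      rw [div_le_iff₀ (abs_pos.2 hdet), mul_assoc]
      exact le_mul_of_one_le_right (by positivity) h3
    gcongr

end Crest.Agent.R216
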