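import Crest.Agent.R216.StepC
import Crest.Agent.R216.Cls3
import Crest.Agent.R216.Eval

/-! # Row 216, the large step in a chart -/

set_option autoImplicit false
open Set Filter Metric
open scoped ContDiff RealInnerProductSpace Topology

noncomputable section
namespace Crest.Agent.R216

namespace SD

/-- Fixed data of a large step (the fields `κ τ β` are dummies). -/
structure Lg (d : SD) : Prop where
  ok : d.Ok
  hq : ∀ z, d.hq z = 0
  G : Bdd d.G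
  q1 : Bdd d.q1
  q2 : Bdd d.q2
  ip : Bdd d.ip
  f1 : Bdd d.f1
  f2 : Bdd d.f2
  e0 : Bdd d.e0
  nu : Bdd d.nu
  rho : Bdd d.rho
  irho : Bdd d.irho
  im : Bdd d.im
  a : ∃ (y b : E2 → ℝ) (c : ℝ), Bdd y ∧ Bdd b ∧ 0 < c ∧ (∀ x ∈ d.Z, c ≤ b x) ∧
    ∀ x, d.a x = expNegInvGlue (y x) * b x

variable (d : SD)

/-- limit of `∂_s` -/
def vs (z : E2 × ℝ) : E4 := d.Gs z.1 + dθ d.U0 z
/-- limit of `∂_t ∂_s` -/
def vts (z : E2 × ℝ) : E4 := d2 d.G z.1 d.et d.es + dx d.et (dθ d.U0) z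
/-- limit of `ε ∂_s ∂_s` -/
def vss (z : E2 × ℝ) : E4 := dθ (dθ d.U0) z

/-- the 2-jet of `H` at `x` is `η`-close to the limit jet -/
structure Near (l : E2 →L[ℝ] ℝ) (ε η : ℝ) (H : E2 → E4) (x : E2) : Prop where
  s : ‖fderiv ℝ H x d.es - d.vs (ph l ε x)‖ ≤ η
  t : ‖fderiv ℝ H x d.et - d.Gt x‖ ≤ η
  tt : ‖d2 H x d.et d.et - d2 d.G x d.et d.et‖ ≤ η
  ts : ‖d2 H x d.et d.es - d.vts (ph l ε x)‖ ≤ η
  ss : ‖ε • d2 H x d.es d.es - d.vss (ph l ε x)‖ ≤ η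

end SD

/-- The family over `J = {(n, m, τ)}`: outer index `n : ℕ`, `μ = m + M₀` (`m : ℕ`,
`M₀ ≥ 2, sup |a|, ‖es‖`), `0 < τ ≤ 1`, data `{d with κ := (μ^n)⁻¹, τ := τ, β := 0}`, is in `Cl` at a
scale `μ^(K+1)`: fixed functions by `Sx.fixed`, `a` by `Sx.theta`, `Sy.indicator` and
`Θ + κ ≤ (1 + 1/c)(|a| + κ)` on `Z`, `iA` by `Sx.inv_weight`. -/
theorem SD.Lg.cl {d : SD} (h : d.Lg) : ∃ (M₀ K : ℕ), 2 ≤ M₀ ∧
    Cl (fun i : {i : ℕ × ℕ × ℝ // 0 < i.2.2 ∧ i.2.2 ≤ 1} => i.1.1)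
      (fun i => ((i.1.2.1 + M₀ : ℕ) : ℝ) ^ (K + 1))
      (fun i => { d with κ := (((i.1.2.1 + M₀ : ℕ) : ℝ) ^ i.1.1)⁻¹, τ := i.1.2.2, β := 0 }) := by
  obtain ⟨y, b, c, hy, hb, hc, hcb, ha⟩ := h.a
  obtain ⟨Cb, hCb⟩ := hb.2 0
  obtain ⟨M₀, hM₀⟩ := exists_nat_ge (2 + |Cb| + ‖d.es‖)
  have hM2 : (2 : ℝ) ≤ M₀ := by linarith [abs_nonneg Cb, norm_nonneg d.es]
  let J := {i : ℕ × ℕ × ℝ // 0 < i.2.2 ∧ i.2.2 ≤ 1}
  let π : J → ℕ := fun i => i.1.1
  let μ : J → ℝ := fun i => ((i.1.2.1 + M₀ : ℕ) : ℝ)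
  let D : J → SD := fun i => { d with κ := (μ i ^ π i)⁻¹, τ := i.1.2.2, β := 0 }
  have hMμ : ∀ i, (M₀ : ℝ) ≤ μ i := fun i => Nat.cast_le.2 (Nat.le_add_left _ _)
  have hμ : ∀ i, 1 ≤ μ i := fun i => by linarith [hMμ i]
  have hκ0 : ∀ i, 0 < (μ i ^ π i)⁻¹ := fun i => inv_pos.2 (pow_pos (one_pos.trans_le (hμ i)) _)
  have ok : ∀ i, (D i).Ok := fun i =>
    { h.ok with
      κ_pos := hκ0 i
      κ_le := inv_le_one_of_one_le₀ (one_le_pow₀ (hμ i))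
      τ_pos := i.2.1
      τ_le := i.2.2
      β_nonneg := le_rfl
      β_le := pow_nonneg i.2.1.le 4 }
  have haM : ∀ x, |d.a x| ≤ M₀ := by
    intro x
    have h1 := hCb x
    rw [norm_iteratedFDeriv_zero, Real.norm_eq_abs] at h1
    rw [ha, abs_mul, abs_of_nonneg (expNegInvGlue.nonneg _)]
    have h2 := mul_le_of_le_one_left (abs_nonneg (b x)) (expNegInvGlue_le_one (y x))
    linarith [le_abs_self Cb, norm_nonneg d.es]
  have sa : Sx π μ (fun i => (D i).w) (fun i => (D i).a) := by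
    obtain ⟨K, hK⟩ := (Sx.mul hμ (Sx.theta (π := π) hμ (Sx.fixed hμ hy) id) (Sx.fixed hμ hb)).congr
      (u' := fun _ => d.a) (fun i x => (ha x).symm)
    refine ⟨K, (hK.indicator (Z := fun _ => d.Z) (fun _ => h.ok.closed)
      (fun _ => h.ok.a_zero)).of_le (fun i => (ok i).w_nonneg) 0 (fun _ => 1 + c⁻¹) fun i x => ?_⟩
    rw [pow_zero, mul_one]
    change d.Z.indicator _ x ≤ _ * d.Z.indicator (fun x => |d.a x| + (μ i ^ π i)⁻¹) x
    by_cases hx : x ∈ d.Z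
    · rw [indicator_of_mem hx, indicator_of_mem hx, mul_one]
      have h1 : expNegInvGlue (y x) ≤ c⁻¹ * |d.a x| := by
        rw [le_inv_mul_iff₀ hc, mul_comm]
        refine le_trans ?_ (le_abs_self _)
        rw [ha]
        exact mul_le_mul_of_nonneg_left (hcb x hx) (expNegInvGlue.nonneg _)
      have h2 := mul_pos (inv_pos.2 hc) (hκ0 i)
      have h3 := abs_nonneg (d.a x)
      change _ + (μ i ^ π i)⁻¹ ≤ _
      nlinarith
    · rw [indicator_of_notMem hx, indicator_of_notMem hx, mul_zero]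
  have siA : Sx π μ (fun i => (D i).iA) (fun i => (D i).iA) := by
    have hf : ∀ i x, 0 < (D i).a x ^ 2 + (D i).κ ^ 2 := fun i x =>
      add_pos_of_nonneg_of_pos (sq_nonneg _) (pow_pos (ok i).κ_pos 2)
    refine Sx.inv_weight (f := fun i x => (D i).a x ^ 2 + (D i).κ ^ 2) hμ hf (Sx.add hμ ?_ ?_)
    · refine ((Sx.mul hμ sa sa).of_le hμ (fun i x => (hf i x).le) 0 (fun _ => 2)
        fun i x => ?_).congr fun i x => (sq _).symm
      have h1 := (ok i).w_nonneg x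
      have h2 := (ok i).Step0_w_le x
      have h3 := mul_self_le_mul_self h1 h2
      have h4 := sq_abs ((D i).a x)
      rw [pow_zero, mul_one]
      nlinarith [sq_nonneg (|(D i).a x| - (D i).κ)]
    · refine (Sy.const hμ (fun i => (D i).κ ^ 2)).toSx.mono fun i x => ?_
      rw [Real.norm_of_nonneg (sq_nonneg _)]
      exact le_add_of_nonneg_left (sq_nonneg _)
  obtain ⟨K₁, hK₁⟩ := sa.sy_ge hμ
  obtain ⟨K₂, hK₂⟩ := siA.sy_ge hμ
  have hμ' : ∀ i, 1 ≤ μ i ^ (K₁ + K₂ + 1) := fun i => one_le_pow₀ (hμ i)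
  have hle : ∀ i, (M₀ : ℝ) ≤ μ i ^ (K₁ + K₂ + 1) := fun i =>
    (hMμ i).trans (le_self_pow₀ (hμ i) (Nat.succ_ne_zero _))
  refine ⟨M₀, K₁ + K₂, by exact_mod_cast hM2, ?_⟩
  change Cl π (fun i => μ i ^ (K₁ + K₂ + 1)) D
  exact
    { ok := ok
      G := Sy.fixed hμ' h.G
      a := hK₁ _ (Nat.le_add_right _ _)
      a_le := fun i x => (haM x).trans (hle i)
      es_le := fun i => le_trans (by
        change ‖d.es‖ ≤ _
        linarith [abs_nonneg Cb]) (hle i)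
      q1 := Sy.fixed hμ' h.q1
      q2 := Sy.fixed hμ' h.q2
      ip := Sy.fixed hμ' h.ip
      f1 := Sy.fixed hμ' h.f1
      f2 := Sy.fixed hμ' h.f2
      e0 := Sy.fixed hμ' h.e0
      nu := Sy.fixed hμ' h.nu
      rho := Sy.fixed hμ' h.rho
      irho := Sy.fixed hμ' h.irho
      im := Sy.fixed hμ' h.im
      iA := hK₂ _ (Nat.le_add_left _ _)
      hq := (Sy.zero hμ' fun i z => mul_nonneg ((ok i).w_nonneg _) (ok i).β_nonneg).congr
        fun i z => (h.hq z).symm }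

theorem Large_near (d : SD) (hG : ContDiff ℝ ∞ d.G) (het : ‖d.et‖ = 1) {l : E2 →L[ℝ] ℝ}
    (h1 : l d.es = 1) (h0 : l d.et = 0) (hU0 : ContDiff ℝ ∞ d.U0) {U u : E2 × ℝ → E4}
    (hu : ContDiff ℝ ∞ u) (hUu : U = fun z => d.U0 z + u z) {ε t E : ℝ} (hε : 0 < ε) (hεt : ε ≤ t)
    (ht : t ≤ 1) (x : E2) (u1 : ‖iteratedFDeriv ℝ 1 u (ph l ε x)‖ ≤ E * t)
    (u2 : ‖iteratedFDeriv ℝ 2 u (ph l ε x)‖ ≤ E * t)
    (U1 : ‖iteratedFDeriv ℝ 1 U (ph l ε x)‖ ≤ E) (U2 : ‖iteratedFDeriv ℝ 2 U (ph l ε x)‖ ≤ E)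
    (G2 : ‖iteratedFDeriv ℝ 2 d.G x‖ ≤ E) :
    d.Near l ε (t * (2 * E * (1 + ‖d.es‖) ^ 2)) (fun y => d.G y + ev l ε U y) x := by
  have hU : ContDiff ℝ ∞ U := hUu ▸ hU0.add hu
  have hV : ContDiff ℝ ∞ (ev l ε U) := contDiff_ev hU
  have hE : 0 ≤ E := (norm_nonneg _).trans U1
  have ht0 : 0 < t := hε.trans_le hεt
  have e1 : ∀ v, fderiv ℝ (fun y => d.G y + ev l ε U y) x v
      = fderiv ℝ d.G x v + (l v • dθ U (ph l ε x) + ε • dx v U (ph l ε x)) := by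
    intro v
    rw [fderiv_fun_add (hG.differentiable (by simp) x) (hV.differentiable (by simp) x),
      ← fderiv_ev hU hε.ne']
    rfl
  have e2 : ∀ v w, d2 (fun y => d.G y + ev l ε U y) x v w
      = d2 d.G x v w + ((l v * l w / ε) • dθ (dθ U) (ph l ε x)
        + l w • dx v (dθ U) (ph l ε x) + l v • dx w (dθ U) (ph l ε x)
        + ε • dx v (dx w U) (ph l ε x)) := by
    intro v w
    rw [d2_add hG.contDiffAt hV.contDiffAt, ← d2_ev hU hε.ne']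
    rfl
  have e3 : dθ U = fun z => dθ d.U0 z + dθ u z := by
    funext z
    rw [hUu, Step0_dθ_add hU0 hu]
  have e4 : ∀ z, dx d.et (dθ U) z = dx d.et (dθ d.U0) z + dx d.et (dθ u) z := fun z => by
    rw [e3, Step0_dx_add (contDiff_dθ hU0) (contDiff_dθ hu)]
  have e5 : ∀ z, dθ (dθ U) z = dθ (dθ d.U0) z + dθ (dθ u) z := fun z => by
    rw [e3, Step0_dθ_add (contDiff_dθ hU0) (contDiff_dθ hu)]
  obtain ⟨z, hz⟩ : ∃ z, z = ph l ε x := ⟨_, rfl⟩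
  have hz1 : z.1 = x := by rw [hz]; rfl
  obtain ⟨r, hr⟩ : ∃ r, r = ‖d.es‖ := ⟨_, rfl⟩
  have hr0 : 0 ≤ r := hr ▸ norm_nonneg _
  rw [← hz] at u1 u2 U1 U2 e1 e2
  obtain ⟨a1, -, a2, a3, -⟩ := norm_dirs_le hu z d.et d.et
  obtain ⟨-, b1, -, b2, b3⟩ := norm_dirs_le hU z d.es d.es
  obtain ⟨-, c1, -, -, c2⟩ := norm_dirs_le hU z d.et d.et
  obtain ⟨-, -, -, -, c3⟩ := norm_dirs_le hU z d.et d.es
  have g2 : ‖d2 d.G x d.es d.es‖ ≤ E * r * r := by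
    refine ((d2 d.G x).le_opNorm₂ _ _).trans ?_
    rw [norm_d2_eq, ← hr]
    gcongr
  rw [het] at a3 c1 c2 c3
  rw [← hr] at b1 b2 b3 c3
  simp only [one_mul] at a3 c1 c2 c3
  replace a1 := a1.trans u1
  replace a2 := a2.trans u2
  replace a3 := a3.trans u2
  replace b1 := b1.trans (mul_le_mul_of_nonneg_left U1 hr0)
  replace b2 := b2.trans (mul_le_mul_of_nonneg_left U2 hr0)
  replace b3 := b3.trans (mul_le_mul_of_nonneg_left U2 (mul_nonneg hr0 hr0))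
  replace c1 := c1.trans U1
  replace c2 := c2.trans U2
  replace c3 := c3.trans (mul_le_mul_of_nonneg_left U2 hr0)
  have sm : ∀ {v : E4} {c : ℝ}, ‖v‖ ≤ c → ‖ε • v‖ ≤ t * c := fun {v c} hv => by
    rw [norm_smul, Real.norm_of_nonneg hε.le]
    exact mul_le_mul hεt hv (norm_nonneg _) ht0.le
  have p0 : 0 ≤ t * E := by positivity
  have p1 : 0 ≤ t * E * r := by positivity
  have p2 : 0 ≤ t * E * r * r := by positivity
  rw [← hr]
  refine ⟨?_, ?_, ?_, ?_, ?_⟩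
  · have e : fderiv ℝ (fun y => d.G y + ev l ε U y) x d.es - d.vs (ph l ε x)
        = dθ u z + ε • dx d.es U z := by
      rw [e1, h1, one_smul, ← hz, SD.vs, hz1, e3, SD.Gs]
      beta_reduce
      abel
    rw [e]
    refine (norm_add_le_of_le a1 (sm b1)).trans ?_
    nlinarith
  · have e : fderiv ℝ (fun y => d.G y + ev l ε U y) x d.et - d.Gt x = ε • dx d.et U z := by
      rw [e1, h0, zero_smul, SD.Gt]
      abel
    rw [e]
    refine (sm c1).trans ?_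
    nlinarith
  · have e : d2 (fun y => d.G y + ev l ε U y) x d.et d.et - d2 d.G x d.et d.et
        = ε • dx d.et (dx d.et U) z := by
      rw [e2, h0]
      simp
    rw [e]
    refine (sm c2).trans ?_
    nlinarith
  · have e : d2 (fun y => d.G y + ev l ε U y) x d.et d.es - d.vts (ph l ε x)
        = dx d.et (dθ u) z + ε • dx d.et (dx d.es U) z := by
      rw [e2, h0, h1, ← hz, SD.vts, hz1, e4]
      simp only [zero_mul, zero_div, zero_smul, one_smul]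
      abel
    rw [e]
    refine (norm_add_le_of_le a3 (sm c3)).trans ?_
    nlinarith
  · have e : ε • d2 (fun y => d.G y + ev l ε U y) x d.es d.es - d.vss (ph l ε x)
        = ε • d2 d.G x d.es d.es + dθ (dθ u) z + ε • dx d.es (dθ U) z + ε • dx d.es (dθ U) z
          + ε • ε • dx d.es (dx d.es U) z := by
      rw [e2, h1, ← hz, SD.vss, e5]
      simp only [smul_add, one_smul, smul_smul, mul_one, mul_one_div_cancel hε.ne']
      abel
    rw [e]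
    refine (norm_add_le_of_le (norm_add_le_of_le (norm_add_le_of_le (norm_add_le_of_le (sm g2) a2)
      (sm b2)) (sm b2)) (sm (sm b3))).trans ?_
    have p3 : t * (t * (r * r * E)) ≤ t * E * r * r := by
      calc t * (t * (r * r * E)) = t * (t * E * r * r) := by ring
        _ ≤ _ := mul_le_of_le_one_left p2 ht
    nlinarith

theorem SD.Near.Large_mono {d : SD} {l : E2 →L[ℝ] ℝ} {ε η η' : ℝ} {H : E2 → E4} {x : E2}
    (h : d.Near l ε η H x) (hη : η ≤ η') : d.Near l ε η' H x :=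
  ⟨h.s.trans hη, h.t.trans hη, h.tt.trans hη, h.ts.trans hη, h.ss.trans hη⟩

/-- **Large step in a chart.**  Take `k` from `step_core` for the family `Lg.cl`, `μ' = μ^(K+1)`,
`τ m = (μ'^(k+3))⁻¹`, `ε = τ⁴`, outer index `n' = 4 n (K+1)(k+3)` (so `κ² ≤ ε^n`), iteration order
`4 n`; `V m = ev l (ε m) (U m)`.  `U0` does not depend on `κ τ β` and is `Bdd` (`Cl.U0` for a trivial
family, or directly); `‖D^j (U - U0)‖ ≤ B j w τ² μ'^j` with `w ≤ sup |a| + 1`, which tends to zero for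
`j ≤ 2` and is `≤ C ε⁻¹^j` in general.  `fderiv_ev`, `d2_ev`, `norm_dirs_le`, `SD.metric_error`. -/
theorem large_family {d : SD} (h : d.Lg) {l : E2 →L[ℝ] ℝ} (h1 : l d.es = 1) (h0 : l d.et = 0)
    (n : ℕ) : ∃ (ε : ℕ → ℝ) (V : ℕ → E2 → E4), (∀ m, 0 < ε m) ∧ Tendsto ε atTop (𝓝 0) ∧
      (∀ m, ContDiff ℝ ∞ (V m)) ∧ (∀ m x, x ∉ d.Z → V m x = 0) ∧
      (∀ j, ∃ C : ℝ, ∀ m x, ‖iteratedFDeriv ℝ j (V m) x‖ ≤ C * ((ε m)⁻¹) ^ (2 * j)) ∧
      (∃ C : ℝ, ∀ m x, ‖pb (fun y => d.G y + V m y) x - pb d.G x - d.a x ^ 2 • sq2 l‖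
        ≤ C * ε m ^ n) ∧
      ∀ η > (0 : ℝ), ∀ᶠ m in atTop, ∀ x, d.Near l (ε m) η (fun y => d.G y + V m y) x := by
  obtain ⟨M₀, K, hM₀, hcl⟩ := h.cl
  obtain ⟨k, hk⟩ := step_core hcl
  obtain ⟨B, hB⟩ := hk (4 * n)
  -- the leading term and the amplitude are bounded
  obtain ⟨A, hA1, hA⟩ : ∃ A : ℝ, 1 ≤ A ∧ ∀ x, |d.a x| + 1 ≤ A :=
    ⟨_, le_add_of_nonneg_left (zero_le_one.trans (hcl.one_le ⟨(0, 0, 1), one_pos, le_rfl⟩)),
      fun x => add_le_add (hcl.a_le ⟨(0, 0, 1), one_pos, le_rfl⟩ x) le_rfl⟩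
  have hU0 : Bdd d.U0 := by
    obtain ⟨k₀, B₀, h₀⟩ := hcl.U0
    have h₁ := h₀ ⟨(0, 0, 1), one_pos, le_rfl⟩
    refine ⟨h₁.smooth, fun j => ⟨_, fun z => (h₁.bound j z).trans
      (mul_le_mul_of_nonneg_right (mul_le_mul_of_nonneg_left (mul_le_mul_of_nonneg_right
        (hcl.w_le _ _) (pow_nonneg (zero_le_one.trans h₁.one_le) _)) (h₁.B_nonneg j))
        (pow_nonneg (zero_le_one.trans h₁.one_le) _))⟩⟩
  choose C₀ hC₀ using hU0.2
  obtain ⟨CG, hCG⟩ := h.G.2 2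
  -- the parameters
  let μ : ℕ → ℝ := fun m => ((m + M₀ : ℕ) : ℝ)
  let μ' : ℕ → ℝ := fun m => μ m ^ (K + 1)
  let τ : ℕ → ℝ := fun m => (μ' m ^ (k + 3))⁻¹
  let n' : ℕ := (K + 1) * (k + 3) * 4 * n
  have hμ : ∀ m, 1 ≤ μ m := fun m => Nat.one_le_cast.2 (by omega)
  have hμ' : ∀ m, 1 ≤ μ' m := fun m => one_le_pow₀ (hμ m)
  have hτ0 : ∀ m, 0 < τ m := fun m => inv_pos.2 (pow_pos (one_pos.trans_le (hμ' m)) _)
  have hτμ : ∀ m j, j ≤ k + 3 → τ m * μ' m ^ j ≤ 1 := fun m j hj => by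
    rw [inv_mul_le_iff₀ (pow_pos (one_pos.trans_le (hμ' m)) _), mul_one]
    exact pow_le_pow_right₀ (hμ' m) hj
  have hτ1 : ∀ m, τ m ≤ 1 := fun m => by simpa using hτμ m 0 (by omega)
  have hτt : Tendsto τ atTop (𝓝 0) :=
    tendsto_inv_atTop_zero.comp ((tendsto_pow_atTop (Nat.succ_ne_zero _)).comp
      ((tendsto_pow_atTop (Nat.succ_ne_zero _)).comp
        (tendsto_natCast_atTop_atTop.comp (tendsto_add_atTop_nat M₀))))
  let D : ℕ → SD := fun m => { d with κ := (μ m ^ n')⁻¹, τ := τ m, β := 0 }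
  have ok : ∀ m, (D m).Ok := fun m => hcl.ok ⟨(n', m, τ m), hτ0 m, hτ1 m⟩
  have hst : ∀ m, ∃ U Φ2 Φ3, (D m).St (B n') (μ' m) (τ m ^ (4 * n + 3)) U Φ2 Φ3 := fun m =>
    hB ⟨(n', m, τ m), hτ0 m, hτ1 m⟩ (hτμ m k (by omega))
  choose U Φ2 Φ3 st using hst
  have hBn : ∀ j, 0 ≤ B n' j := (st 0).dU.B_nonneg
  have hw : ∀ m x, (D m).w x ≤ A := fun m x =>
    ((ok m).Step0_w_le x).trans ((add_le_add le_rfl (ok m).κ_le).trans (hA x))
  have hε0 : ∀ m, 0 < τ m ^ 4 := fun m => pow_pos (hτ0 m) 4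
  have hετ : ∀ m, τ m ^ 4 ≤ τ m := fun m => pow_le_of_le_one (hτ0 m).le (hτ1 m) (by norm_num)
  have hε1 : ∀ m, τ m ^ 4 ≤ 1 := fun m => (hετ m).trans (hτ1 m)
  have hUu : ∀ m, U m = fun z => d.U0 z + (U m z - d.U0 z) := fun m => by
    funext z
    abel
  have hu : ∀ m, ContDiff ℝ ∞ (fun z => U m z - d.U0 z) := fun m => (st m).dU.smooth
  have hU : ∀ m, ContDiff ℝ ∞ (U m) := fun m => by
    rw [hUu m]
    exact hU0.1.add (hu m)
  have bu : ∀ m j z, ‖iteratedFDeriv ℝ j (fun z => U m z - d.U0 z) z‖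
      ≤ B n' j * A * (τ m ^ 2 * μ' m ^ j) := fun m j z => by
    refine ((st m).dU.bound j z).trans ?_
    have h1 := hBn j
    have h2 := hμ' m
    calc B n' j * ((D m).w z.1 * τ m ^ 2) * μ' m ^ j
        ≤ B n' j * (A * τ m ^ 2) * μ' m ^ j := by gcongr; exact hw m _
      _ = _ := by ring
  have bU : ∀ m j z, ‖iteratedFDeriv ℝ j (U m) z‖
      ≤ C₀ j + B n' j * A * (τ m ^ 2 * μ' m ^ j) := fun m j z => by
    have hj : (j : WithTop ℕ∞) ≤ ∞ := by exact_mod_cast le_top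
    rw [hUu m, fun_iteratedFDeriv_add_apply (hU0.1.of_le hj).contDiffAt
      ((hu m).of_le hj).contDiffAt]
    exact norm_add_le_of_le (hC₀ j z) (bu m j z)
  have hC0 : ∀ j, 0 ≤ C₀ j := fun j => (norm_nonneg _).trans (hC₀ j 0)
  refine ⟨fun m => τ m ^ 4, fun m => ev l (τ m ^ 4) (U m), hε0, ?_, fun m => contDiff_ev (hU m),
    fun m x hx => ?_, fun j => ⟨(C₀ j + B n' j * A) * (1 + ‖l‖) ^ j, fun m x => ?_⟩,
    ⟨((‖d.es‖ + 1) * ‖l‖) ^ 2 * (B n' 0 * (A + 1)), fun m x => ?_⟩, fun η hη => ?_⟩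
  · simpa using hτt.pow 4
  · have h1 := (st m).dU.norm_le (ph l (τ m ^ 4) x)
    have h2 : (D m).w (ph l (τ m ^ 4) x).1 = 0 := (ok m).w_eq_zero hx
    rw [h2, zero_mul, mul_zero, norm_le_zero_iff, sub_eq_zero] at h1
    have h3 : (D m).U0 (ph l (τ m ^ 4) x) = 0 := by
      have h4 : (D m).a (ph l (τ m ^ 4) x).1 = 0 := h.ok.a_zero x hx
      rw [SD.U0, h4, zero_smul]
    change τ m ^ 4 • U m (ph l (τ m ^ 4) x) = 0
    rw [h1, h3, smul_zero]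
  · refine (norm_iteratedFDeriv_ev (hU m) (hε0 m) (hε1 m) j x).trans ?_
    have h1 : 1 ≤ (τ m ^ 4)⁻¹ := one_le_inv_iff₀.2 ⟨hε0 m, hε1 m⟩
    have h2 : μ' m ≤ (τ m ^ 4)⁻¹ := by
      rw [← mul_one (τ m ^ 4)⁻¹, le_inv_mul_iff₀ (hε0 m)]
      refine (mul_le_mul_of_nonneg_right (hετ m) (zero_le_one.trans (hμ' m))).trans ?_
      simpa using hτμ m 1 (by omega)
    have h3 : τ m ^ 2 * μ' m ^ j ≤ (τ m ^ 4)⁻¹ ^ j :=
      (mul_le_of_le_one_left (pow_nonneg (zero_le_one.trans (hμ' m)) _)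
        (pow_le_one₀ (hτ0 m).le (hτ1 m))).trans
        (pow_le_pow_left₀ (zero_le_one.trans (hμ' m)) h2 j)
    have h4 : ‖iteratedFDeriv ℝ j (U m) (ph l (τ m ^ 4) x)‖
        ≤ (C₀ j + B n' j * A) * (τ m ^ 4)⁻¹ ^ j := by
      refine (bU m j _).trans ?_
      rw [add_mul]
      exact add_le_add (le_mul_of_one_le_right (hC0 j) (one_le_pow₀ h1))
        (mul_le_mul_of_nonneg_left h3 (mul_nonneg (hBn j) (zero_le_one.trans hA1)))
    have h5 := hε0 m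
    calc _ ≤ 1 * ((C₀ j + B n' j * A) * (τ m ^ 4)⁻¹ ^ j) * ((1 + ‖l‖) / τ m ^ 4) ^ j := by
          gcongr
          exact hε1 m
      _ = _ := by
          rw [div_eq_mul_inv, mul_pow, two_mul, pow_add]
          ring
  · have hS : τ m ^ (4 * n + 3) ≤ (τ m ^ 4) ^ n := by
      rw [← pow_mul]
      exact pow_le_pow_of_le_one (hτ0 m).le (hτ1 m) (by omega)
    have hκ : (D m).κ ^ 2 ≤ (τ m ^ 4) ^ n := by
      refine (pow_le_of_le_one (ok m).κ_pos.le (ok m).κ_le (by norm_num)).trans (le_of_eq ?_)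
      change (μ m ^ ((K + 1) * (k + 3) * 4 * n))⁻¹ = (((μ m ^ (K + 1)) ^ (k + 3))⁻¹ ^ 4) ^ n
      simp only [inv_pow, pow_mul]
    have hp : 0 ≤ (τ m ^ 4) ^ n := pow_nonneg (hε0 m).le n
    have h0' := hBn 0
    have r : ∀ {R : E2 × ℝ → ℝ},
        Bd (B n') (μ' m) (fun z => (D m).w z.1 * τ m ^ (4 * n + 3)) R →
        ∀ z, |R z| ≤ B n' 0 * A * (τ m ^ 4) ^ n := fun {R} hR z => by
      refine (hR.norm_le z).trans ?_
      rw [mul_assoc]
      exact mul_le_mul_of_nonneg_left (mul_le_mul (hw m _) hS (pow_nonneg (hτ0 m).le _)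
        (zero_le_one.trans hA1)) h0'
    have r' : ∀ {R Φ : E2 × ℝ → ℝ},
        Bd (B n') (μ' m) (fun z => (D m).w z.1 * τ m ^ (4 * n + 3)) (fun z => R z - Φ z) →
        Bd (B n') (μ' m) (fun _ => (D m).κ ^ 2) Φ →
        ∀ z, |R z| ≤ B n' 0 * (A + 1) * (τ m ^ 4) ^ n := fun {R Φ} hR hΦ z => by
      have h1 := r hR z
      have h2 : |Φ z| ≤ B n' 0 * (τ m ^ 4) ^ n :=
        (hΦ.norm_le z).trans (mul_le_mul_of_nonneg_left hκ h0')
      have h3 := abs_add_le (R z - Φ z) (Φ z)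
      rw [sub_add_cancel] at h3
      linarith
    have h1 := (D m).metric_error h.G.1 (hU m) h1 h0 h.ok.norm_et (hε0 m) (hε1 m) x
      (b := B n' 0 * (A + 1) * (τ m ^ 4) ^ n)
      ((r (st m).r1 _).trans (by nlinarith [mul_nonneg h0' hp]))
      (r' (st m).r2 (st m).fl2 _) (r' (st m).r3 (st m).fl3 _)
    rw [mul_assoc]
    exact h1
  · obtain ⟨E, hE⟩ : ∃ E, E = C₀ 1 + C₀ 2 + (B n' 1 + B n' 2) * A + |CG| := ⟨_, rfl⟩
    have h2 := hτt.mul_const (2 * E * (1 + ‖d.es‖) ^ 2)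
    rw [zero_mul] at h2
    filter_upwards [h2.eventually (gt_mem_nhds hη)] with m hm x
    have hA0 : 0 ≤ A := zero_le_one.trans hA1
    have p1 := mul_nonneg (hBn 1) hA0
    have p2 := mul_nonneg (hBn 2) hA0
    have p3 := hC0 1
    have p4 := hC0 2
    have p5 := abs_nonneg CG
    have t1 : ∀ j, j ≤ 2 → τ m ^ 2 * μ' m ^ j ≤ τ m := fun j hj => by
      rw [sq, mul_assoc]
      exact mul_le_of_le_one_right (hτ0 m).le (hτμ m j (by omega))
    refine (Large_near d h.G.1 h.ok.norm_et h1 h0 hU0.1 (hu m) (hUu m) (hε0 m) (hετ m) (hτ1 m) x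
      (E := E) ?_ ?_ ?_ ?_ ?_).Large_mono hm.le
    · exact (bu m 1 _).trans (mul_le_mul (by linarith) (t1 1 (by omega))
        (mul_nonneg (sq_nonneg _) (pow_nonneg (zero_le_one.trans (hμ' m)) _)) (by linarith))
    · exact (bu m 2 _).trans (mul_le_mul (by linarith) (t1 2 (by omega))
        (mul_nonneg (sq_nonneg _) (pow_nonneg (zero_le_one.trans (hμ' m)) _)) (by linarith))
    · have := mul_le_of_le_one_right p1 ((t1 1 (by omega)).trans (hτ1 m))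
      exact (bU m 1 _).trans (by linarith)
    · have := mul_le_of_le_one_right p2 ((t1 2 (by omega)).trans (hτ1 m))
      exact (bU m 2 _).trans (by linarith)
    · exact (hCG x).trans (by linarith [le_abs_self CG])

end Crest.Agent.R216
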