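import Crest.Agent.R216.Perturb
import Crest.Agent.R216.Large

/-! # Row 216, large step on the surface, corrected to an exact isometric map -/

set_option autoImplicit false
set_option maxSynthPendingDepth 3
open Set Filter Metric
open scoped ContDiff RealInnerProductSpace Topology

noncomputable section
namespace Crest.Agent.R216

variable {M : Type*} [TopologicalSpace M] [T2Space M] (A : Atl E2 M)

theorem Exact_cont_g3 : Continuous fun w : E4 × E4 × E4 => g3 w.1 w.2.1 w.2.2 := by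
  unfold g3
  fun_prop

theorem Exact_g2_ne {u v z : E4} (h : 0 < g3 u v z) : g2 u v ≠ 0 := fun h0 =>
  h.ne' (jet1_g3_zero h0 z)

/-- stability of non-degeneracy -/
theorem Exact_key {Φ : E2 × ℝ → E4 × E4 × E4} (hΦ : Continuous Φ) (hper : Per Φ) {x₀ : E2}
    (h : ∀ θ, 0 < g3 (Φ (x₀, θ)).1 (Φ (x₀, θ)).2.1 (Φ (x₀, θ)).2.2) :
    ∃ η > (0 : ℝ), ∃ c > (0 : ℝ), ∀ᶠ x in 𝓝 x₀, ∀ θ, ∀ u v z : E4, ‖u - (Φ (x, θ)).1‖ ≤ η →
      ‖v - (Φ (x, θ)).2.1‖ ≤ η → ‖z - (Φ (x, θ)).2.2‖ ≤ η →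
      g2 u v ≠ 0 ∧ c ≤ ‖nproj u v z‖ := by
  have hS : IsOpen {w : E4 × E4 × E4 | 0 < g3 w.1 w.2.1 w.2.2} :=
    isOpen_lt continuous_const Exact_cont_g3
  have hN : ContinuousOn (fun w : E4 × E4 × E4 => ‖nproj w.1 w.2.1 w.2.2‖)
      {w | 0 < g3 w.1 w.2.1 w.2.2} := fun w hw =>
    (continuousAt_nproj (u := fun w : E4 × E4 × E4 => w.1) (v := fun w => w.2.1)
      (z := fun w => w.2.2) (by fun_prop) (by fun_prop) (by fun_prop)
      (Exact_g2_ne hw)).norm.continuousWithinAt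
  have hK : IsCompact ((fun θ => Φ (x₀, θ)) '' Icc 0 (2 * Real.pi)) :=
    isCompact_Icc.image (by fun_prop)
  have hKS : (fun θ => Φ (x₀, θ)) '' Icc 0 (2 * Real.pi) ⊆ {w | 0 < g3 w.1 w.2.1 w.2.2} := by
    rintro _ ⟨θ, -, rfl⟩
    exact h θ
  obtain ⟨c, hc, hcK⟩ := hK.exists_forall_le' (hN.mono hKS) (a := 0) fun w hw => by
    have h1 : 0 < g3 w.1 w.2.1 w.2.2 := hKS hw
    refine norm_pos_iff.2 fun h0 => ?_
    rw [g3_eq (Exact_g2_ne h1), h0, norm_zero] at h1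
    simp at h1
  have hO := hN.isOpen_inter_preimage hS (isOpen_Ioi (a := c / 2))
  obtain ⟨δ, hδ, hδO⟩ := hK.exists_thickening_subset_open hO fun w hw =>
    ⟨hKS hw, (half_lt_self hc).trans_le (hcK w hw)⟩
  have hev : ∀ᶠ x in 𝓝 x₀, ∀ θ ∈ Icc 0 (2 * Real.pi),
      Φ (x, θ) ∈ thickening (δ / 2) ((fun θ => Φ (x₀, θ)) '' Icc 0 (2 * Real.pi)) :=
    isCompact_Icc.eventually_forall_of_forall_eventually fun θ hθ =>
      hΦ.continuousAt.eventually (isOpen_thickening.mem_nhds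
        (self_subset_thickening (half_pos hδ) _ ⟨θ, hθ, rfl⟩))
  refine ⟨δ / 2, half_pos hδ, c / 2, half_pos hc, hev.mono fun x hx θ u v z h1 h2 h3 => ?_⟩
  have hp : Function.Periodic (fun θ => Φ (x, θ)) (2 * Real.pi) := hper x
  obtain ⟨θ', hθ', e⟩ := hp.exists_mem_Ico₀ Real.two_pi_pos θ
  obtain ⟨w, hw, hd⟩ := mem_thickening_iff.1 (hx θ' (Ico_subset_Icc_self hθ'))
  have hd' : dist ((u, v, z) : E4 × E4 × E4) (Φ (x, θ)) ≤ δ / 2 := by
    rw [Prod.dist_eq, Prod.dist_eq, dist_eq_norm, dist_eq_norm, dist_eq_norm]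
    exact max_le h1 (max_le h2 h3)
  have e' : Φ (x, θ) = Φ (x, θ') := e
  rw [e'] at hd'
  have hm := hδO (mem_thickening_iff.2 ⟨w, hw,
    (dist_triangle ((u, v, z) : E4 × E4 × E4) (Φ (x, θ')) w).trans_lt (by linarith)⟩)
  exact ⟨Exact_g2_ne hm.1, le_of_lt hm.2⟩

theorem Exact_vs {d : SD} (hd : d.Lg) (z : E2 × ℝ) :
    d.vs z = d.Gs z.1 + d.a z.1 • (d.q1 z • d.e0 z.1 + d.q2 z • d.nu z.1) := by
  obtain ⟨M₀, K, -, h⟩ := hd.cl
  exact congrArg (fun w => d.Gs z.1 + w) (h.dθ_U0 ⟨(0, 0, 1), one_pos, le_rfl⟩ z)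

theorem Exact_cont_vs {d : SD} (hd : d.Lg) : Continuous d.vs := by
  obtain ⟨y, b, c, hy, hb, -, -, ha⟩ := hd.a
  have h1 : Continuous d.a := by
    rw [show d.a = fun x => expNegInvGlue (y x) * b x from funext ha]
    exact ((expNegInvGlue.contDiff (n := 0)).continuous.comp hy.1.continuous).mul hb.1.continuous
  have h2 : Continuous d.Gs :=
    (hd.G.1.continuous_fderiv (by simp)).clm_apply continuous_const
  have h3 := hd.q1.1.continuous
  have h4 := hd.q2.1.continuous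
  have h5 := hd.e0.1.continuous
  have h6 := hd.nu.1.continuous
  rw [show d.vs = _ from funext (Exact_vs hd)]
  fun_prop

theorem Exact_per_vs {d : SD} (hd : d.Lg) : Per d.vs := fun x θ => by
  rw [Exact_vs hd, Exact_vs hd, hd.ok.per1, hd.ok.per2]

theorem Exact_compact {d : SD} (hd : d.Lg) : IsCompact d.Z :=
  (isCompact_closedBall 0 2).of_isClosed_subset hd.ok.closed hd.ok.ball

omit [T2Space M] in
theorem Exact_imm {H : ℕ → M → E4} (hH : ∀ m, A.Sm (H m))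
    (h : ∀ y, ∃ b, y ∈ (A.e b).source ∧ ∃ U ∈ 𝓝 (A.e b y), ∀ᶠ m in atTop,
      ∀ x ∈ U, Function.Injective (fderiv ℝ (fun x => H m (A.p b x)) x)) :
    ∀ᶠ m in atTop, A.Imm (H m) := by
  have key : ∀ a, ∀ᶠ m in atTop, ∀ x ∈ closedBall (0 : E2) 1,
      Function.Injective (fderiv ℝ (fun x => H m (A.p a x)) x) := fun a => by
    refine (isCompact_closedBall (0 : E2) 1).induction_on (p := fun s => ∀ᶠ m in atTop, ∀ x ∈ s,
      Function.Injective (fderiv ℝ (fun x => H m (A.p a x)) x))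
      (Eventually.of_forall fun _ _ hx => hx.elim)
      (fun s t hst ht => ht.mono fun m hm x hx => hm x (hst hx))
      (fun s t hs ht => (hs.and ht).mono fun m hm x hx => hx.elim (hm.1 x) (hm.2 x))
      fun x _ => ?_
    obtain ⟨b, hb, U, hU, hev⟩ := h (A.p a x)
    have hx : x ∈ A.O a b := hb
    refine ⟨A.O a b ∩ A.T a b ⁻¹' U, mem_nhdsWithin_of_mem_nhds (inter_mem
      ((A.isOpen_O a b).mem_nhds hx) ((Atl.contDiffAt_T hx).continuousAt hU)),
      hev.mono fun m hm z hz => ?_⟩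
    rw [(hH m).fderiv_chart hz.1]
    exact (hm _ hz.2).comp (Atl.fderiv_T_injective hz.1)
  filter_upwards [eventually_all.2 key] with m hm
  exact Atl.Imm_of_local (hH m) fun a x hx => hm a x (mem_closedBall_zero_iff.2 hx.le)

/-- Uniform non-degeneracy of a family `H m` whose jets are near the limit jets in chart `a` and
near the jets of `F` away from the disc.  First, `H m` is an immersion for large `m` (`Imm_of_local`);
then use `ND_of_local` (after a shift `m ↦ m + m₀`).  Near a point of the disc: the continuous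
periodic function `g3 (vs z) (Gt x) (Gtt x)` is positive on `Z × ℝ`, hence `≥ c` on `U × ℝ` for a
neighbourhood `U ⊆ ball 0 (3/2)`; by `abs_g3_sub_le` and `Near` the Gram determinant of the jet of
`H m` is `≥ c/2`, and `g3 = g2 ‖II et et‖²`, `g2 ≤ C` (`g3_eq`, `g3_le`, `g2_le`, `nproj_basis`).
Near another point `y` (chart `b` with `‖e b y‖ < 1`) use `g3 (DF b0) (DF b1) (d2 F τ τ) > 0`,
continuity and `abs_g3_sub_le` in the same way. -/
theorem ND_large {F : M → E4} (hF : A.Sm F) (hi : A.Imm F)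
    (hII : ∀ a x, ∃ τ, II (fun x => F (A.p a x)) x τ τ ≠ 0) (a : A.ι) {d : SD} (hd : d.Lg)
    (hZ : d.Z ⊆ ball 0 (3 / 2)) {l : E2 →L[ℝ] ℝ} (h1 : l d.es = 1) (h0 : l d.et = 0)
    (h3 : ∀ x ∈ d.Z, ∀ θ, 0 < g3 (d.vs (x, θ)) (d.Gt x) (d2 d.G x d.et d.et))
    {ε : ℕ → ℝ} {H : ℕ → M → E4} (hH : ∀ m, A.Sm (H m))
    (hN : ∀ η > (0 : ℝ), ∀ᶠ m in atTop,
      (∀ x ∈ closedBall (0 : E2) (3 / 2), d.Near l (ε m) η (fun x => H m (A.p a x)) x) ∧
      ∀ b, ∀ x ∈ closedBall (0 : E2) 2, A.p b x ∉ A.p a '' d.Z →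
        ‖fderiv ℝ (fun x => H m (A.p b x)) x - fderiv ℝ (fun x => F (A.p b x)) x‖ ≤ η ∧
        ‖d2 (fun x => H m (A.p b x)) x - d2 (fun x => F (A.p b x)) x‖ ≤ η) :
    ∃ ν > (0 : ℝ), ∀ᶠ m in atTop, A.ND (H m) ν := by
  have hdet : det2 d.es d.et ≠ 0 :=
    det2_ne_zero h1 h0 fun e => by simpa [e] using hd.ok.norm_et
  have loc : ∀ y, ∃ b, y ∈ (A.e b).source ∧ ∃ U ∈ 𝓝 (A.e b y), ∃ c > (0 : ℝ), ∀ᶠ m in atTop,
      ∀ x ∈ U, Function.Injective (fderiv ℝ (fun x => H m (A.p b x)) x) ∧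
        ∃ τ : E2, ‖τ‖ ≤ 1 ∧ c ≤ ‖II (fun x => H m (A.p b x)) x τ τ‖ := by
    intro y
    by_cases hy : y ∈ A.p a '' d.Z
    · obtain ⟨x₀, hx₀, rfl⟩ := hy
      have c1 := Exact_cont_vs hd
      have c2 : Continuous d.Gt :=
        (hd.G.1.continuous_fderiv (by simp)).clm_apply continuous_const
      have c3 : Continuous fun x => d2 d.G x d.et d.et :=
        ((continuous_d2 hd.G.1).clm_apply continuous_const).clm_apply continuous_const
      obtain ⟨η, hη, c, hc, hev⟩ := Exact_key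
        (Φ := fun z => (d.vs z, d.Gt z.1, d2 d.G z.1 d.et d.et)) (x₀ := x₀)
        (c1.prodMk ((c2.comp continuous_fst).prodMk (c3.comp continuous_fst)))
        (fun x θ => by simp only [Exact_per_vs hd x θ]) (h3 x₀ hx₀)
      refine ⟨a, A.p_mem a x₀, _, by
        rw [A.e_p]
        exact inter_mem hev (isOpen_ball.mem_nhds (hZ hx₀)), c, hc,
        (hN η hη).mono fun m hm x hx => ?_⟩
      have hn := hm.1 x (ball_subset_closedBall hx.2)
      obtain ⟨g1, g2'⟩ := hx.1 (l x / ε m) _ _ _ hn.s hn.t hn.tt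
      have hinj : Function.Injective (fderiv ℝ (fun x => H m (A.p a x)) x) := by
        rw [g2_map] at g1
        exact (g2_pos_iff _).1 ((g2_nonneg _ _).lt_of_ne' (right_ne_zero_of_mul g1))
      refine ⟨hinj, d.et, hd.ok.norm_et.le, ?_⟩
      rwa [nproj_basis hinj hdet] at g2'
    · obtain ⟨b, hb, hb1⟩ := A.cover y
      obtain ⟨τ₀, hτ₀⟩ := hII b (A.e b y)
      have hp : 0 < ‖τ₀‖ + 1 := by positivity
      have hτ1 : ‖(‖τ₀‖ + 1)⁻¹ • τ₀‖ ≤ 1 := by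
        rw [norm_smul, norm_inv, Real.norm_of_nonneg hp.le, inv_mul_le_iff₀ hp]
        linarith
      have hτ2 : II (fun x => F (A.p b x)) (A.e b y) ((‖τ₀‖ + 1)⁻¹ • τ₀) ((‖τ₀‖ + 1)⁻¹ • τ₀) ≠ 0 := by
        rw [AtlL3_II_smul]
        exact smul_ne_zero (by positivity) hτ₀
      generalize (‖τ₀‖ + 1)⁻¹ • τ₀ = τ at hτ1 hτ2
      have c1 : Continuous (fderiv ℝ fun x => F (A.p b x)) := (hF b).continuous_fderiv (by simp)
      have c3 : Continuous fun x => d2 (fun x => F (A.p b x)) x τ τ :=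
        ((continuous_d2 (hF b)).clm_apply continuous_const).clm_apply continuous_const
      obtain ⟨η, hη, c, hc, hev⟩ := Exact_key
        (Φ := fun z => (fderiv ℝ (fun x => F (A.p b x)) z.1 b0,
          fderiv ℝ (fun x => F (A.p b x)) z.1 b1, d2 (fun x => F (A.p b x)) z.1 τ τ))
        (x₀ := A.e b y)
        (((c1.comp continuous_fst).clm_apply continuous_const).prodMk
          (((c1.comp continuous_fst).clm_apply continuous_const).prodMk (c3.comp continuous_fst)))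
        (fun x θ => rfl) fun _ => by
          have g := (g2_pos_iff _).2 (hi b (A.e b y))
          rw [g3_eq g.ne']
          exact mul_pos g (pow_pos (norm_pos_iff.2 hτ2) 2)
      have hO : A.p b ⁻¹' (A.p a '' d.Z)ᶜ ∈ 𝓝 (A.e b y) :=
        ((A.isCompact_image_p a (Exact_compact hd)).isClosed.isOpen_compl.preimage
          (A.continuous_p b)).mem_nhds (by rwa [mem_preimage, A.p_e b hb])
      have hB : closedBall (0 : E2) 2 ∈ 𝓝 (A.e b y) :=
        mem_of_superset (isOpen_ball.mem_nhds (mem_ball_zero_iff.2 (by linarith)))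
          ball_subset_closedBall
      refine ⟨b, hb, _, inter_mem hev (inter_mem hO hB), c, hc,
        (hN η hη).mono fun m hm x hx => ?_⟩
      obtain ⟨n1, n2⟩ := hm.2 b x hx.2.2 hx.2.1
      have k1 : ∀ v : E2, ‖v‖ = 1 → ‖fderiv ℝ (fun x => H m (A.p b x)) x v -
          fderiv ℝ (fun x => F (A.p b x)) x v‖ ≤ η := fun v hv => by
        have := (fderiv ℝ (fun x => H m (A.p b x)) x -
          fderiv ℝ (fun x => F (A.p b x)) x).le_of_opNorm_le n1 v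
        rwa [hv, mul_one] at this
      have k2 : ‖d2 (fun x => H m (A.p b x)) x τ τ - d2 (fun x => F (A.p b x)) x τ τ‖ ≤ η := by
        have := (d2 (fun x => H m (A.p b x)) x - d2 (fun x => F (A.p b x)) x).le_opNorm₂ τ τ
        refine this.trans ?_
        calc _ ≤ η * 1 * 1 := by gcongr
          _ = η := by ring
      obtain ⟨g1, g2'⟩ := hx.1 0 _ _ _ (k1 b0 norm_b0) (k1 b1 norm_b1) k2
      exact ⟨(g2_pos_iff _).1 ((g2_nonneg _ _).lt_of_ne' g1), τ, hτ1, g2'⟩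
  have himm := Exact_imm A hH fun y => by
    obtain ⟨b, hb, U, hU, c, -, hev⟩ := loc y
    exact ⟨b, hb, U, hU, hev.mono fun m hm x hx => (hm x hx).1⟩
  classical
  have heq : ∀ᶠ m in atTop, (if A.Imm (H m) then H m else F) = H m :=
    himm.mono fun m hm => if_pos hm
  obtain ⟨ν, hν, hev⟩ := A.ND_of_local (G := fun m => if A.Imm (H m) then H m else F)
    (fun m => by split_ifs; exacts [hH m, hF])
    (fun m => by split_ifs with h; exacts [h, hi]) fun y => by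
      obtain ⟨b, hb, U, hU, c, hc, hev⟩ := loc y
      refine ⟨b, hb, U, hU, c, hc, (hev.and heq).mono fun m hm x hx => ?_⟩
      rw [hm.2]
      exact (hm.1 x hx).2
  exact ⟨ν, hν, (hev.and heq).mono fun m hm => hm.2 ▸ hm.1⟩

theorem Exact_near {d : SD} (het : ‖d.et‖ = 1) {l : E2 →L[ℝ] ℝ} {ε η δ : ℝ} {H H' : E2 → E4}
    {x : E2} (h : d.Near l ε η H x) (h0 : 0 ≤ ε) (h1 : ε ≤ 1)
    (d1 : ‖fderiv ℝ H' x - fderiv ℝ H x‖ ≤ δ) (d2' : ‖d2 H' x - d2 H x‖ ≤ δ) :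
    d.Near l ε (η + δ * (1 + ‖d.es‖) ^ 2) H' x := by
  have hδ : 0 ≤ δ := (norm_nonneg _).trans d1
  have hs := norm_nonneg d.es
  have k1 : ∀ (v : E2) (w : E4), ‖v‖ ≤ 1 + ‖d.es‖ → ‖fderiv ℝ H x v - w‖ ≤ η →
      ‖fderiv ℝ H' x v - w‖ ≤ η + δ * (1 + ‖d.es‖) ^ 2 := fun v w hv hw => by
    have e1 : ‖fderiv ℝ H' x v - fderiv ℝ H x v‖ ≤ δ * ‖v‖ :=
      (fderiv ℝ H' x - fderiv ℝ H x).le_of_opNorm_le d1 v
    have e2 := norm_sub_le_norm_sub_add_norm_sub (fderiv ℝ H' x v) (fderiv ℝ H x v) w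
    have e3 : δ * ‖v‖ ≤ δ * (1 + ‖d.es‖) ^ 2 := mul_le_mul_of_nonneg_left (by nlinarith) hδ
    linarith
  have k2 : ∀ u v : E2, ‖u‖ ≤ 1 + ‖d.es‖ → ‖v‖ ≤ 1 + ‖d.es‖ →
      ‖d2 H' x u v - d2 H x u v‖ ≤ δ * (1 + ‖d.es‖) ^ 2 := fun u v hu hv => by
    refine ((d2 H' x - d2 H x).le_opNorm₂ u v).trans ?_
    calc _ ≤ δ * (1 + ‖d.es‖) * (1 + ‖d.es‖) := by gcongr
      _ = _ := by ring
  have a1 : ‖d.es‖ ≤ 1 + ‖d.es‖ := by linarith
  have a2 : ‖d.et‖ ≤ 1 + ‖d.es‖ := by linarith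
  refine ⟨k1 _ _ a1 h.s, k1 _ _ a2 h.t, ?_, ?_, ?_⟩
  · linarith [norm_sub_le_norm_sub_add_norm_sub (d2 H' x d.et d.et) (d2 H x d.et d.et)
      (d2 d.G x d.et d.et), k2 _ _ a2 a2, h.tt]
  · linarith [norm_sub_le_norm_sub_add_norm_sub (d2 H' x d.et d.es) (d2 H x d.et d.es)
      (d.vts (ph l ε x)), k2 _ _ a2 a1, h.ts]
  · have e1 := norm_sub_le_norm_sub_add_norm_sub (ε • d2 H' x d.es d.es) (ε • d2 H x d.es d.es)
      (d.vss (ph l ε x))
    have e2 : ‖ε • d2 H' x d.es d.es - ε • d2 H x d.es d.es‖ ≤ δ * (1 + ‖d.es‖) ^ 2 := by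
      rw [← smul_sub, norm_smul, Real.norm_of_nonneg h0]
      exact (mul_le_of_le_one_left (norm_nonneg _) h1).trans (k2 _ _ a1 a1)
    linarith [h.ss]

theorem Exact_d2_congr {H H' : E2 → E4} {x : E2} (h : H' =ᶠ[𝓝 x] H) : d2 H' x = d2 H x :=
  h.fderiv.fderiv_eq

theorem Exact_near_congr {d : SD} {l : E2 →L[ℝ] ℝ} {ε η : ℝ} {H H' : E2 → E4}
    {x : E2} (h : d.Near l ε η H x) (e : H' =ᶠ[𝓝 x] H) : d.Near l ε η H' x := by
  refine ⟨?_, ?_, ?_, ?_, ?_⟩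
  · rw [e.fderiv_eq]
    exact h.s
  · rw [e.fderiv_eq]
    exact h.t
  · rw [Exact_d2_congr e]
    exact h.tt
  · rw [Exact_d2_congr e]
    exact h.ts
  · rw [Exact_d2_congr e]
    exact h.ss

omit [T2Space M] in
theorem Exact_CB2 {F G : M → E4} (hF : A.Sm F) (hG : A.Sm G) {δ : ℝ}
    (h : A.CB 2 (fun y => F y - G y) fun _ => δ) (b : A.ι) {x : E2}
    (hx : x ∈ closedBall (0 : E2) 2) :
    ‖fderiv ℝ (fun x => F (A.p b x)) x - fderiv ℝ (fun x => G (A.p b x)) x‖ ≤ δ ∧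
      ‖d2 (fun x => F (A.p b x)) x - d2 (fun x => G (A.p b x)) x‖ ≤ δ := by
  constructor
  · have h1 := h b 1 one_le_two x hx
    rwa [norm_iteratedFDeriv_one, fderiv_fun_sub ((hF b).differentiable (by simp) x)
      ((hG b).differentiable (by simp) x)] at h1
  · have h1 := h b 2 le_rfl x hx
    have e := d2_add ((hF.sub hG) b).contDiffAt (hG b).contDiffAt (x := x)
    simp only [sub_add_cancel] at e
    rw [e, add_sub_cancel_right, norm_d2_eq]
    exact h1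

/-- derivative bounds for `F + push a (V m)` -/
theorem Exact_CB {F : M → E4} (hF : A.Sm F) (a : A.ι) {ε : ℕ → ℝ} {V : ℕ → E2 → E4}
    (hε : ∀ m, 0 < ε m) (hε0 : Tendsto ε atTop (𝓝 0)) (hV : ∀ m, ContDiff ℝ ∞ (V m))
    (hc : ∀ m, HasCompactSupport (V m)) (h2 : ∀ m x, x ∉ closedBall (0 : E2) 2 → V m x = 0)
    (hb : ∀ j, ∃ C : ℝ, ∀ m x, ‖iteratedFDeriv ℝ j (V m) x‖ ≤ C * ((ε m)⁻¹) ^ (2 * j)) (D : ℕ) :
    ∀ᶠ m in atTop, A.CB D (fun y => F y + A.push a (V m) y) fun j => ((ε m)⁻¹ ^ 3) ^ (j + 1) := by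
  obtain ⟨β, hβ0, hβ⟩ := hF.exists_CB
  choose C hC using hb
  have hinv : Tendsto (fun m => (ε m)⁻¹) atTop atTop :=
    tendsto_inv_nhdsGT_zero.comp (tendsto_nhdsWithin_iff.2 ⟨hε0, Eventually.of_forall hε⟩)
  have key : ∀ j, ∀ᶠ m in atTop, ∀ b, ∀ x ∈ closedBall (0 : E2) 2,
      ‖iteratedFDeriv ℝ j (fun x => F (A.p b x) + A.push a (V m) (A.p b x)) x‖ ≤
        ((ε m)⁻¹ ^ 3) ^ (j + 1) := fun j => by
    obtain ⟨C', hC'1, hC'⟩ := A.CB_push (W := E4) j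
    obtain ⟨K, hK1, hK⟩ := AtlL3_max fun i : Fin (j + 1) => C i
    filter_upwards [hinv.eventually_ge_atTop 1, hinv.eventually_ge_atTop (β j + C' * K)]
      with m e1 e2 b x hx
    have h1 := hC' a (V m) (K * (ε m)⁻¹ ^ (2 * j)) (hV m) (h2 m) fun i hi z =>
      (hC i m z).trans (mul_le_mul (hK ⟨i, Nat.lt_succ_of_le hi⟩)
        (pow_le_pow_right₀ e1 (by omega)) (by positivity) (by linarith))
    refine ((Atl.CB.add hF (A.Sm_push a (hV m) (hc m)) (hβ j) h1) b j le_rfl x hx).trans ?_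
    have p1 : 1 ≤ (ε m)⁻¹ ^ (2 * j) := one_le_pow₀ e1
    calc β j + C' * (K * (ε m)⁻¹ ^ (2 * j)) ≤ (β j + C' * K) * (ε m)⁻¹ ^ (2 * j) := by
          nlinarith [hβ0 j]
      _ ≤ (ε m)⁻¹ * (ε m)⁻¹ ^ (2 * j) := mul_le_mul_of_nonneg_right e2 (by positivity)
      _ = (ε m)⁻¹ ^ (2 * j + 1) := by ring
      _ ≤ (ε m)⁻¹ ^ (3 * (j + 1)) := pow_le_pow_right₀ e1 (by omega)
      _ = _ := pow_mul _ _ _
  filter_upwards [(eventually_all_finite (finite_Iic D)).2 fun j _ => key j] with m hm b j hj x hx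
  exact hm j hj b x hx

/-- **Exact large step.**  `D, n, μ₀, C` from `perturb` for `g'`; `large_family` with order
`3 n + 1`; `G m = F + push a (V m)`, `μ = (ε m)⁻¹ ^ 3`: `CB_push`, `Sm.exists_CB`, `ND_large`,
`pull_add_push`, `norm_pushT_le`.  For large `m` `perturb` gives `F' m`; shift the sequence.
On `closedBall 0 (3/2)`, `G m ∘ p a = d.G + V m` near the point; at points `x` of a chart `b` with
`p b x ∉ p a '' Z`, `G m ∘ p b = F ∘ p b` near `x` (`push_eventually_zero`).  `ND_large` applies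
both to `G m` and to `F' m`. -/
theorem exact_family {g' : A.ι → E2 → Bil} (hg' : A.Met g') {F : M → E4} (hF : A.Sm F)
    (hi : A.Imm F) (hII : ∀ a x, ∃ τ, II (fun x => F (A.p a x)) x τ τ ≠ 0) (a : A.ι) {d : SD}
    (hd : d.Lg) (hZ : d.Z ⊆ ball 0 (3 / 2)) (hG : d.G = fun x => zeta x • F (A.p a x))
    {l : E2 →L[ℝ] ℝ} (h1 : l d.es = 1) (h0 : l d.et = 0)
    (h3 : ∀ x ∈ d.Z, ∀ θ, 0 < g3 (d.vs (x, θ)) (d.Gt x) (d2 d.G x d.et d.et))
    (hsum : ∀ b x, g' b x = A.pull F b x + A.pushT a (fun z => d.a z ^ 2 • sq2 l) b x) :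
    ∃ (ε : ℕ → ℝ) (F' : ℕ → M → E4), (∀ m, 0 < ε m) ∧ Tendsto ε atTop (𝓝 0) ∧
      (∀ m, A.Sm (F' m)) ∧ (∀ m, A.pull (F' m) = g') ∧
      (∃ ν > (0 : ℝ), ∀ᶠ m in atTop, A.ND (F' m) ν) ∧
      ∀ η > (0 : ℝ), ∀ᶠ m in atTop,
        (∀ x ∈ closedBall (0 : E2) (3 / 2), d.Near l (ε m) η (fun x => F' m (A.p a x)) x) ∧
        ∀ b, ∀ x ∈ closedBall (0 : E2) 2, A.p b x ∉ A.p a '' d.Z →
          ‖fderiv ℝ (fun x => F' m (A.p b x)) x - fderiv ℝ (fun x => F (A.p b x)) x‖ ≤ η ∧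
          ‖d2 (fun x => F' m (A.p b x)) x - d2 (fun x => F (A.p b x)) x‖ ≤ η := by
  obtain ⟨D, n, μ₀, C, hP⟩ := perturb A hg'
  obtain ⟨ε, V, hε, hε0, hV, hVZ, hVb, ⟨C₁, herr⟩, hnear⟩ := large_family hd h1 h0 (3 * n + 1)
  have hZc := Exact_compact hd
  have hc : ∀ m, HasCompactSupport (V m) := fun m => HasCompactSupport.intro hZc (hVZ m)
  have hsm : ∀ m, A.Sm fun y => F y + A.push a (V m) y := fun m =>
    hF.add (A.Sm_push a (hV m) (hc m))
  have e0 : ∀ x ∈ closedBall (0 : E2) (3 / 2), (fun x => F (A.p a x)) =ᶠ[𝓝 x] d.G := fun x hx => by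
    rw [hG]
    exact (zeta_smul_eventuallyEq _ hx).symm
  have e1 : ∀ m, ∀ x ∈ closedBall (0 : E2) (3 / 2),
      (fun x => F (A.p a x) + V m x) =ᶠ[𝓝 x] fun y => d.G y + V m y := fun m x hx =>
    (e0 x hx).add (EventuallyEq.refl _ (V m))
  have e2 : ∀ m b x, A.p b x ∉ A.p a '' d.Z →
      (fun x => F (A.p b x) + A.push a (V m) (A.p b x)) =ᶠ[𝓝 x] fun x => F (A.p b x) :=
    fun m b x hx => (A.push_eventually_zero a b hZc (hVZ m) hx).mono fun z hz => by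
      simp only at hz ⊢
      rw [hz, add_zero]
  have hNG : ∀ η > (0 : ℝ), ∀ᶠ m in atTop, ∀ x ∈ closedBall (0 : E2) (3 / 2),
      d.Near l (ε m) η (fun x => F (A.p a x) + A.push a (V m) (A.p a x)) x := fun η hη =>
    (hnear η hη).mono fun m hm x hx => Exact_near_congr (hm x) (by
      simp only [A.push_p]
      exact e1 m x hx)
  obtain ⟨ν, hν, hND⟩ := ND_large A hF hi hII a hd hZ h1 h0 h3 hsm fun η hη =>
    (hNG η hη).mono fun m hm => ⟨hm, fun b x _ hx => by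
      rw [(e2 m b x hx).fderiv_eq, Exact_d2_congr (e2 m b x hx), sub_self, sub_self, norm_zero,
        norm_zero]
      exact ⟨hη.le, hη.le⟩⟩
  have hinv : Tendsto (fun m => (ε m)⁻¹ ^ 3) atTop atTop :=
    (tendsto_pow_atTop three_ne_zero).comp (tendsto_inv_nhdsGT_zero.comp
      (tendsto_nhdsWithin_iff.2 ⟨hε0, Eventually.of_forall hε⟩))
  have hinv' : Tendsto (fun m => ((ε m)⁻¹ ^ 3)⁻¹) atTop (𝓝 0) := hinv.inv_tendsto_atTop
  obtain ⟨C₂, hC₂, hpT⟩ := A.norm_pushT_le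
  have hsmall : ∀ᶠ m in atTop, C₂ * C₁ * ε m ≤ 1 := by
    have := hε0.const_mul (C₂ * C₁)
    rw [mul_zero] at this
    exact this.eventually_le_const one_pos
  have hex : ∀ᶠ m in atTop, ∃ F' : M → E4, A.Sm F' ∧ A.pull F' = g' ∧
      A.CB 2 (fun y => F' y - (F y + A.push a (V m) y)) fun _ => C * ((ε m)⁻¹ ^ 3)⁻¹ := by
    filter_upwards [hinv.eventually_ge_atTop μ₀, Exact_CB A hF a hε hε0 hV hc
      (fun m x hx => hVZ m x fun h => hx (hd.ok.ball h)) hVb D, hND,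
      hinv'.eventually_le_const hν, hsmall] with m k1 k2 k3 k4 k5
    refine hP _ _ k1 (hsm m) k2 (fun b x hx => ?_) fun b x hx => ?_
    · obtain ⟨τ, t1, t2⟩ := k3 b x hx
      exact ⟨τ, t1, k4.trans t2⟩
    · have hz : ∀ z, z ∉ closedBall (0 : E2) (3 / 2) → pb (fun z => F (A.p a z) + V m z) z -
          pb (fun z => F (A.p a z)) z - d.a z ^ 2 • sq2 l = 0 := fun z hz => by
        have z1 : z ∉ d.Z := fun h => hz (ball_subset_closedBall (hZ h))
        have z2 : (fun z => F (A.p a z) + V m z) =ᶠ[𝓝 z] fun z => F (A.p a z) := by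
          filter_upwards [hd.ok.closed.isOpen_compl.mem_nhds z1] with w hw
          rw [hVZ m w hw, add_zero]
        rw [(pb_congr z2).eq_of_nhds, sub_self, hd.ok.a_zero z z1]
        simp
      have hb := hpT a (fun z => pb (fun z => F (A.p a z) + V m z) z -
          pb (fun z => F (A.p a z)) z - d.a z ^ 2 • sq2 l) (C₁ * ε m ^ (3 * n + 1))
        (fun z h => hz z fun h' => h (closedBall_subset_closedBall (by norm_num) h'))
        (fun z => by
          by_cases h : z ∈ closedBall (0 : E2) (3 / 2)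
          · rw [(pb_congr (e1 m z h)).eq_of_nhds, (pb_congr (e0 z h)).eq_of_nhds]
            exact herr m z
          · rw [hz z h, norm_zero]
            exact (norm_nonneg _).trans (herr m z)) b x hx
      have ea := Atl.pushT_add a (fun z => pb (fun z => F (A.p a z) + V m z) z -
          pb (fun z => F (A.p a z)) z - d.a z ^ 2 • sq2 l) (fun z => d.a z ^ 2 • sq2 l) b x
      simp only [sub_add_cancel] at ea
      rw [hsum, Atl.pull_add_push hF a (hV m) (hc m), ea, add_sub_add_left_eq_sub, sub_add_cancel_right,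
        norm_neg]
      refine hb.trans ?_
      have ep : (((ε m)⁻¹ ^ 3) ^ n)⁻¹ = ε m ^ (3 * n) := by
        rw [← pow_mul, inv_pow, inv_inv]
      rw [ep]
      have := mul_le_mul_of_nonneg_right k5 (pow_pos (hε m) (3 * n)).le
      calc _ = C₂ * C₁ * ε m * ε m ^ (3 * n) := by ring
        _ ≤ _ := by rwa [one_mul] at this
  obtain ⟨m₀, hm₀⟩ := eventually_atTop.1 hex
  choose F' hF1 hF2 hF3 using fun m => hm₀ (m + m₀) (Nat.le_add_left _ _)
  have hsh := tendsto_add_atTop_nat m₀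
  have hδ : Tendsto (fun m => C * ((ε m)⁻¹ ^ 3)⁻¹) atTop (𝓝 0) := by
    simpa using hinv'.const_mul C
  have hδ' : Tendsto (fun m => C * ((ε m)⁻¹ ^ 3)⁻¹ * (1 + ‖d.es‖) ^ 2) atTop (𝓝 0) := by
    simpa using hδ.mul_const ((1 + ‖d.es‖) ^ 2)
  have hN' : ∀ η > (0 : ℝ), ∀ᶠ m in atTop,
      (∀ x ∈ closedBall (0 : E2) (3 / 2), d.Near l (ε (m + m₀)) η (fun x => F' m (A.p a x)) x) ∧
      ∀ b, ∀ x ∈ closedBall (0 : E2) 2, A.p b x ∉ A.p a '' d.Z →
        ‖fderiv ℝ (fun x => F' m (A.p b x)) x - fderiv ℝ (fun x => F (A.p b x)) x‖ ≤ η ∧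
        ‖d2 (fun x => F' m (A.p b x)) x - d2 (fun x => F (A.p b x)) x‖ ≤ η := fun η hη => by
    filter_upwards [hsh.eventually (hNG _ (half_pos hη)), hsh.eventually (hδ.eventually_le_const hη),
      hsh.eventually (hδ'.eventually_le_const (half_pos hη)),
      hsh.eventually (hε0.eventually_le_const one_pos)] with m k1 k2 k3 k4
    refine ⟨fun x hx => ?_, fun b x hx hx' => ?_⟩
    · obtain ⟨a1, a2⟩ := Exact_CB2 A (hF1 m) (hsm _) (hF3 m) a
        (closedBall_subset_closedBall (by norm_num) hx)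
      have hn := Exact_near hd.ok.norm_et (k1 x hx) (hε _).le k4 a1 a2
      have hle : η / 2 + C * ((ε (m + m₀))⁻¹ ^ 3)⁻¹ * (1 + ‖d.es‖) ^ 2 ≤ η := by linarith
      exact ⟨hn.s.trans hle, hn.t.trans hle, hn.tt.trans hle, hn.ts.trans hle, hn.ss.trans hle⟩
    · obtain ⟨a1, a2⟩ := Exact_CB2 A (hF1 m) (hsm _) (hF3 m) b hx
      rw [(e2 _ b x hx').fderiv_eq] at a1
      rw [Exact_d2_congr (e2 _ b x hx')] at a2
      exact ⟨a1.trans k2, a2.trans k2⟩
  exact ⟨fun m => ε (m + m₀), F', fun m => hε _, hε0.comp hsh, hF1, hF2,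
    ND_large A hF hi hII a hd hZ h1 h0 h3 hF1 hN', hN'⟩

end Crest.Agent.R216
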