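import Crest.Agent.R216.GeoF2

/-! # Row 216, patch geometry: a ridge function along finitely many circles -/

set_option autoImplicit false
open Set Filter Metric Function
open scoped ContDiff RealInnerProductSpace Topology

noncomputable section
namespace Crest.Agent.R216

theorem GeoF4_d2_sum {κ : Type} (s : Finset κ) {G : κ → E2 → ℝ} (hG : ∀ i, ContDiff ℝ ∞ (G i))
    (x : E2) : d2 (fun y => ∑ i ∈ s, G i y) x = ∑ i ∈ s, d2 (G i) x := by
  classical
  induction s using Finset.induction_on with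
  | empty => simp [d2]
  | insert i s hi ih =>
    simp only [Finset.sum_insert hi]
    rw [d2_add (hG i).contDiffAt (ContDiff.sum (fun j _ => hG j)).contDiffAt, ih]

theorem GeoF4_inner_sq (y : E2) : ⟪y, b0⟫ * ⟪y, b0⟫ + ⟪y, b1⟫ * ⟪y, b1⟫ = ‖y‖ ^ 2 := by
  rw [EuclideanSpace.real_norm_sq_eq]
  simp [b0, b1, EuclideanSpace.inner_single_right, Fin.sum_univ_two, sq]

theorem GeoF4_bound {κ : Type} [Fintype κ] {G : κ → E2 → ℝ} (hG : ∀ i, ContDiff ℝ ∞ (G i)) :
    ∃ B : ℝ, 0 < B ∧ ∀ i, ∀ x ∈ closedBall (0 : E2) 2,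
      |G i x| ≤ B ∧ ‖fderiv ℝ (G i) x‖ ≤ B ∧ ‖d2 (G i) x‖ ≤ B := by
  have h : ∀ i, ∃ B : ℝ, ∀ x ∈ closedBall (0 : E2) 2,
      |G i x| + ‖fderiv ℝ (G i) x‖ + ‖d2 (G i) x‖ ≤ B := by
    intro i
    have c0 : Continuous (G i) := (hG i).continuous
    have c1 : Continuous (fderiv ℝ (G i)) := (hG i).continuous_fderiv (by simp)
    have c2 : Continuous (d2 (G i)) := continuous_d2 (hG i)
    have hc : Continuous (fun x => |G i x| + ‖fderiv ℝ (G i) x‖ + ‖d2 (G i) x‖) :=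
      (c0.abs.add c1.norm).add (Continuous.norm (E := Bil) c2)
    obtain ⟨B, hB⟩ := (isCompact_closedBall (0 : E2) 2).bddAbove_image hc.continuousOn
    exact ⟨B, fun x hx => hB (mem_image_of_mem _ hx)⟩
  choose B hB using h
  refine ⟨1 + ∑ i, |B i|, by positivity, fun i x hx => ?_⟩
  have h1 := hB i x hx
  have h2 : |B i| ≤ ∑ i, |B i| :=
    Finset.single_le_sum (f := fun i => |B i|) (fun _ _ => abs_nonneg _) (Finset.mem_univ i)
  have h3 := le_abs_self (B i)
  have h4 := abs_nonneg (G i x)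
  have h5 := norm_nonneg (fderiv ℝ (G i) x)
  have h6 := norm_nonneg (d2 (G i) x)
  refine ⟨by linarith, by linarith, by linarith⟩

namespace Atl

variable {M : Type*} [TopologicalSpace M] [T2Space M] (A : Atl E2 M)

/-- `D = push a (β * (‖x - c‖² - r²))` with a bump `β` equal to one on `closedBall c (r + 1)` -/
theorem exists_circle_fun (a : A.ι) (c : E2) {r : ℝ} (hr : 0 < r) :
    ∃ D : M → ℝ, A.Sm D ∧ ∀ x ∈ sphere c r, D (A.p a x) = 0 ∧
      ∀ v, fderiv ℝ (fun x => D (A.p a x)) x v = 2 * ⟪x - c, v⟫ := by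
  let β : ContDiffBump c := ⟨r + 1, r + 2, by linarith, by linarith⟩
  have hq : ContDiff ℝ ∞ (fun x : E2 => ‖x - c‖ ^ 2 - r ^ 2) :=
    ((contDiff_id.sub contDiff_const).norm_sq ℝ).sub contDiff_const
  refine ⟨A.push a (fun x => β x * (‖x - c‖ ^ 2 - r ^ 2)), ?_, ?_⟩
  · exact A.Sm_push a (β.contDiff.mul hq) (β.hasCompactSupport.mul_right)
  · intro x hx
    have hx' : ‖x - c‖ = r := by simpa [dist_eq_norm] using hx
    simp only [push_p]
    refine ⟨by rw [hx']; simp, fun v => ?_⟩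
    have hb : x ∈ ball c β.rIn := by
      show x ∈ ball c (r + 1)
      rw [mem_ball, dist_eq_norm, hx']
      linarith
    have he : (fun x => β x * (‖x - c‖ ^ 2 - r ^ 2)) =ᶠ[𝓝 x] fun x => ‖x - c‖ ^ 2 - r ^ 2 := by
      filter_upwards [β.eventuallyEq_one_of_mem_ball hb] with y hy
      rw [hy]
      simp
    rw [he.fderiv_eq]
    have hd := (((hasFDerivAt_id x).sub_const c).norm_sq).sub_const (r ^ 2)
    have hd' : HasFDerivAt (fun x : E2 => ‖x - c‖ ^ 2 - r ^ 2) _ x := hd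
    rw [hd'.fderiv]
    simp [inner_sub_left]

/-- `u = Σ_i √(σ² + η² (D i)²)` (`ridge_jet`), `P = Σ ρ_i • sq2 (dD_i)`, `E = Σ τ_i • d2 D_i`.  Let `B`
bound `|D i|, ‖dD_i‖, ‖d2 D_i‖` on the balls of radius two of all charts; choose `η` small, then `σ`
small; on circle `i`, `P b0 b0 + P b1 b1 ≥ (η² / σ) * 4 * (r i)²`. -/
theorem exists_ridge_fun {κ : Type} [Fintype κ] (ch : κ → A.ι) (c : κ → E2) {r : κ → ℝ}
    (hr : ∀ i, 0 < r i) {δ : ℝ} (hδ : 0 < δ) (Λ : ℝ) :
    ∃ u : M → ℝ, A.Sm u ∧ ∀ a, ∀ x ∈ closedBall (0 : E2) 2,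
      |u (A.p a x)| ≤ δ ∧ ‖fderiv ℝ (fun x => u (A.p a x)) x‖ ≤ δ ∧
      ∃ P E : Bil, d2 (fun x => u (A.p a x)) x = P + E ∧ (∀ v w, P v w = P w v) ∧
        (∀ v, 0 ≤ P v v) ∧ ‖E‖ ≤ δ ∧
        ∀ i, ch i = a → x ∈ sphere (c i) (r i) → Λ ≤ P b0 b0 + P b1 b1 := by
  classical
  choose D hD hDc using fun i => A.exists_circle_fun (ch i) (c i) (hr i)
  obtain ⟨B, hB0, hB⟩ := GeoF4_bound (κ := κ × A.ι) (G := fun q x => D q.1 (A.p q.2 x))
    (fun q => hD q.1 q.2)
  obtain ⟨m, hm0, hm⟩ : ∃ m : ℝ, 0 < m ∧ ∀ i, m ≤ r i := by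
    by_cases hne : Nonempty κ
    · obtain ⟨i, -, hi⟩ := Finset.exists_min_image Finset.univ r Finset.univ_nonempty
      exact ⟨r i, hr i, fun j => hi j (Finset.mem_univ j)⟩
    · exact ⟨1, one_pos, fun i => absurd ⟨i⟩ hne⟩
  set N : ℝ := (Fintype.card κ : ℝ) with hN
  have hN0 : 0 ≤ N := Nat.cast_nonneg _
  obtain ⟨η, hη0, hη⟩ : ∃ η : ℝ, 0 < η ∧ N * (η * B) ≤ δ / 2 := by
    refine ⟨δ / (2 * (N + 1) * B), by positivity, ?_⟩
    have : δ / (2 * (N + 1) * B) * B = δ / (2 * (N + 1)) := by field_simp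
    rw [this, ← mul_div_assoc, div_le_div_iff₀ (by positivity) (by positivity)]
    nlinarith
  obtain ⟨σ, hσ0, hσ1, hσ2⟩ : ∃ σ : ℝ, 0 < σ ∧ N * σ ≤ δ / 2 ∧ Λ ≤ η ^ 2 / σ * m ^ 2 := by
    refine ⟨min (δ / (2 * (N + 1))) (η ^ 2 * m ^ 2 / (|Λ| + 1)), by positivity, ?_, ?_⟩
    · refine le_trans (mul_le_mul_of_nonneg_left (min_le_left _ _) hN0) ?_
      rw [← mul_div_assoc, div_le_div_iff₀ (by positivity) (by positivity)]
      nlinarith
    · rw [div_mul_eq_mul_div, le_div_iff₀ (by positivity)]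
      have h1 : min (δ / (2 * (N + 1))) (η ^ 2 * m ^ 2 / (|Λ| + 1)) ≤ η ^ 2 * m ^ 2 / (|Λ| + 1) :=
        min_le_right _ _
      have h2 : 0 < min (δ / (2 * (N + 1))) (η ^ 2 * m ^ 2 / (|Λ| + 1)) := by positivity
      rw [le_div_iff₀ (by positivity)] at h1
      have h3 := le_abs_self Λ
      nlinarith
  have hs : ∀ i a, ContDiff ℝ ∞ (fun x => √(σ ^ 2 + η ^ 2 * D i (A.p a x) ^ 2)) := by
    intro i a
    refine ContDiff.sqrt (contDiff_const.add (contDiff_const.mul ((hD i a).pow 2))) (fun x => ?_)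
    positivity
  refine ⟨fun y => ∑ i, √(σ ^ 2 + η ^ 2 * D i y ^ 2), fun a => ContDiff.sum (fun i _ => hs i a),
    fun a x hx => ?_⟩
  have hj := fun i => ridge_jet (hD i a) hσ0 hη0.le x
  refine ⟨?_, ?_, ?_⟩
  · refine le_trans (Finset.abs_sum_le_sum_abs _ _) ?_
    have h1 : ∀ i ∈ (Finset.univ : Finset κ), |√(σ ^ 2 + η ^ 2 * D i (A.p a x) ^ 2)| ≤ σ + η * B := by
      intro i _
      refine le_trans (hj i).1 ?_
      have := (hB (i, a) x hx).1
      have := mul_le_mul_of_nonneg_left this hη0.le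
      linarith
    refine le_trans (Finset.sum_le_sum h1) ?_
    rw [Finset.sum_const, Finset.card_univ, nsmul_eq_mul, ← hN]
    linarith
  · rw [fderiv_fun_sum (fun i _ => ((hs i a).differentiable (by simp)).differentiableAt)]
    refine le_trans (norm_sum_le _ _) ?_
    have h1 : ∀ i ∈ (Finset.univ : Finset κ),
        ‖fderiv ℝ (fun x => √(σ ^ 2 + η ^ 2 * D i (A.p a x) ^ 2)) x‖ ≤ η * B := by
      intro i _
      refine le_trans (hj i).2.1 ?_
      exact mul_le_mul_of_nonneg_left (hB (i, a) x hx).2.1 hη0.le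
    refine le_trans (Finset.sum_le_sum h1) ?_
    rw [Finset.sum_const, Finset.card_univ, nsmul_eq_mul, ← hN]
    linarith
  · choose ρ τ hρ hτ hρ0 hd using fun i => (hj i).2.2
    have hP : ∀ v w, (∑ i, ρ i • sq2 (fderiv ℝ (fun x => D i (A.p a x)) x)) v w
        = ∑ i, ρ i * (fderiv ℝ (fun x => D i (A.p a x)) x v
          * fderiv ℝ (fun x => D i (A.p a x)) x w) := by
      intro v w
      simp only [ContinuousLinearMap.sum_apply, ContinuousLinearMap.smul_apply, sq2_apply,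
        smul_eq_mul]
    refine ⟨∑ i, ρ i • sq2 (fderiv ℝ (fun x => D i (A.p a x)) x),
      ∑ i, τ i • d2 (fun x => D i (A.p a x)) x, ?_, ?_, ?_, ?_, ?_⟩
    · rw [GeoF4_d2_sum Finset.univ (fun i => hs i a) x, ← Finset.sum_add_distrib]
      exact Finset.sum_congr rfl (fun i _ => hd i)
    · intro v w
      rw [hP, hP]
      exact Finset.sum_congr rfl (fun i _ => by ring)
    · intro v
      rw [hP]
      exact Finset.sum_nonneg (fun i _ => mul_nonneg (hρ i) (mul_self_nonneg _))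
    · refine le_trans (norm_sum_le (E := Bil) _ _) ?_
      have h1 : ∀ i ∈ (Finset.univ : Finset κ),
          ‖τ i • d2 (fun x => D i (A.p a x)) x‖ ≤ η * B := by
        intro i _
        refine le_trans (ContinuousLinearMap.opNorm_smul_le _ _) ?_
        rw [Real.norm_eq_abs]
        exact mul_le_mul (hτ i) (hB (i, a) x hx).2.2 (ContinuousLinearMap.opNorm_nonneg _) hη0.le
      refine le_trans (Finset.sum_le_sum h1) ?_
      rw [Finset.sum_const, Finset.card_univ, nsmul_eq_mul, ← hN]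
      linarith
    · intro i hi hxi
      subst hi
      rw [hP, hP, ← Finset.sum_add_distrib]
      refine le_trans ?_ (Finset.single_le_sum (fun j _ => add_nonneg
        (mul_nonneg (hρ j) (mul_self_nonneg _)) (mul_nonneg (hρ j) (mul_self_nonneg _)))
        (Finset.mem_univ i))
      obtain ⟨h0, h1⟩ := hDc i x hxi
      rw [h1, h1, hρ0 i h0]
      have hx' : ‖x - c i‖ = r i := by simpa [dist_eq_norm] using hxi
      have h2 := GeoF4_inner_sq (x - c i)
      rw [hx'] at h2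
      have h3 : m ^ 2 ≤ r i ^ 2 := pow_le_pow_left₀ hm0.le (hm i) 2
      have h4 : 0 ≤ η ^ 2 / σ := by positivity
      have h5 : η ^ 2 / σ * m ^ 2 ≤ η ^ 2 / σ * (4 * r i ^ 2) :=
        mul_le_mul_of_nonneg_left (by nlinarith [sq_nonneg (r i)]) h4
      calc Λ ≤ η ^ 2 / σ * (4 * r i ^ 2) := le_trans hσ2 h5
        _ = _ := by rw [← h2]; ring

end Atl

end Crest.Agent.R216
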