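import Crest.Agent.R216.GeoF3
import Crest.Agent.R216.GeoF4

/-! # Row 216, patch geometry: positive curvature along finitely many circles -/

set_option autoImplicit false
open Set Filter Metric Function
open scoped ContDiff RealInnerProductSpace Topology

noncomputable section
namespace Crest.Agent.R216

theorem geoF5_max {κ : Type*} [Finite κ] (C : κ → ℝ) : ∃ C₀ : ℝ, 0 ≤ C₀ ∧ ∀ k, C k ≤ C₀ := by
  obtain ⟨B, hB⟩ := (Set.finite_range C).bddAbove
  exact ⟨max B 0, le_max_right _ _, fun k => (hB ⟨k, rfl⟩).trans (le_max_left _ _)⟩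

theorem geoF5_min {κ : Type*} [Finite κ] {δ : κ → ℝ} (hδ : ∀ k, 0 < δ k) :
    ∃ δ₀ : ℝ, 0 < δ₀ ∧ ∀ k, δ₀ ≤ δ k := by
  obtain ⟨B, hB0, hB⟩ := geoF5_max (fun k => (δ k)⁻¹)
  refine ⟨(B + 1)⁻¹, by positivity, fun k => ?_⟩
  rw [inv_le_comm₀ (by positivity) (hδ k)]
  linarith [hB k]

theorem geoF5_jQ (F n : E2 → E4) (x : E2) (u₀ : ℝ) (u₁ : E2 →L[ℝ] ℝ) (P E : Bil) (v w : E2) :
    jQ F n x u₀ u₁ (P + E) v w - P v w • n x = jQ F n x u₀ u₁ E v w := by
  simp only [jQ, _root_.add_apply, add_smul]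
  abel

namespace Atl

variable {M : Type*} [TopologicalSpace M] [T2Space M] (A : Atl E2 M)

/-- `F' = F + u • n`.  `jet_tube` for every chart with `K = closedBall 0 2` (common `δ, κ, C` for the
finitely many charts), `exists_ridge_fun` with `κ Λ > 2 C²`.  `fderiv_add_smul`, `d2_add_smul`
(`jQ (P + E) v w = jQ E v w + P v w • n`), `Imm_of_local`, `IIj_ne_zero` and `II_chart`,
`gauss_pos` and `gauss` (`det2_b0_b1`, `d2_symm`).  Last part: `norm_pb_sub_le`, `‖dF‖ ≤ B` on the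
balls; apply `jet_tube` with `ε' ≤ 1`, `(2 B + 1) ε' ≤ ε`. -/
theorem exists_ridge {F n : M → E4} (hF : A.Sm F) (hi : A.Imm F) (hn : A.Sm n)
    (ho : ∀ a x v, ⟪A.dF F a x v, n (A.p a x)⟫ = 0)
    (hq : ∀ a x v, v ≠ 0 → 0 < ⟪d2 (fun x => F (A.p a x)) x v v, n (A.p a x)⟫)
    {κ : Type} [Fintype κ] (ch : κ → A.ι) (c : κ → E2) {r : κ → ℝ} (hr : ∀ i, 0 < r i)
    (hsub : ∀ i, closedBall (c i) (r i) ⊆ ball 0 (3 / 2)) {ε : ℝ} (hε : 0 < ε) :
    ∃ F' : M → E4, A.Sm F' ∧ A.Imm F' ∧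
      (∀ a x (τ : E2), τ ≠ 0 → II (fun x => F' (A.p a x)) x τ τ ≠ 0) ∧
      (∀ i, ∀ x ∈ sphere (c i) (r i), 0 < kap (A.pull F' (ch i)) x) ∧
      ∀ a, ∀ x ∈ closedBall (0 : E2) 2, ‖A.pull F' a x - A.pull F a x‖ ≤ ε := by
  have hB : ∀ a, ∃ B : ℝ, ∀ x ∈ closedBall (0 : E2) 2,
      ‖fderiv ℝ (fun x => F (A.p a x)) x‖ ≤ B := fun a =>
    (isCompact_closedBall (0 : E2) 2).exists_bound_of_continuousOn
      ((hF a).continuous_fderiv (by simp)).continuousOn
  choose B' hB' using hB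
  obtain ⟨B, hB0, hB⟩ := geoF5_max B'
  set ε' : ℝ := min 1 (ε / (2 * B + 1)) with hε'def
  have hε' : 0 < ε' := lt_min one_pos (by positivity)
  have hε'1 : ε' ≤ 1 := min_le_left _ _
  have hε'2 : (2 * B + 1) * ε' ≤ ε := by
    have : ε' ≤ ε / (2 * B + 1) := min_le_right _ _
    rwa [le_div_iff₀' (by positivity)] at this
  choose δ hδ k hk C h using fun a => jet_tube (F := fun x => F (A.p a x))
    (n := fun x => n (A.p a x)) (hF a) (hn a) (isCompact_closedBall (0 : E2) 2) (hi a) (ho a)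
    (hq a) hε'
  obtain ⟨δ₀, hδ₀, hδle⟩ := geoF5_min hδ
  obtain ⟨Λ, -, hΛ⟩ := geoF5_max (fun a => 2 * C a ^ 2 / k a + 1)
  have hΛ' : ∀ a, 2 * C a ^ 2 < k a * Λ := fun a => by
    have h1 := hΛ a
    have h2 : 2 * C a ^ 2 / k a < Λ := by linarith
    rwa [div_lt_iff₀' (hk a)] at h2
  obtain ⟨u, hu, hj⟩ := A.exists_ridge_fun ch c hr hδ₀ Λ
  have hF' : A.Sm (fun y => F y + u y • n y) := hF.add (hu.smul hn)
  have key : ∀ a, ∀ x ∈ closedBall (0 : E2) 2,
      Injective (fderiv ℝ (fun x => F (A.p a x) + u (A.p a x) • n (A.p a x)) x) ∧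
      ‖fderiv ℝ (fun x => F (A.p a x) + u (A.p a x) • n (A.p a x)) x
        - fderiv ℝ (fun x => F (A.p a x)) x‖ ≤ ε' ∧
      (∀ v, v ≠ 0 → II (fun x => F (A.p a x) + u (A.p a x) • n (A.p a x)) x v v ≠ 0) ∧
      ∀ i, ch i = a → x ∈ sphere (c i) (r i) →
        0 < kap (pb (fun x => F (A.p a x) + u (A.p a x) • n (A.p a x))) x := by
    intro a x hx
    obtain ⟨h0, h1, P, E, hPE, hPs, hP, hE, hPΛ⟩ := hj a x hx
    obtain ⟨g1, g2, g3, g4⟩ := h a x hx _ _ E (h0.trans (hδle a)) (h1.trans (hδle a))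
      (hE.trans (hδle a))
    have e1 := fderiv_add_smul (hF a) (hn a) (hu a) x
    have e2 : ∀ v w, d2 (fun x => F (A.p a x) + u (A.p a x) • n (A.p a x)) x v w
        - P v w • n (A.p a x) = jQ (fun x => F (A.p a x)) (fun x => n (A.p a x)) x (u (A.p a x))
          (fderiv ℝ (fun x => u (A.p a x)) x) E v w := fun v w => by
      rw [d2_add_smul (hF a) (hn a) (hu a) x v w, hPE]
      exact geoF5_jQ _ _ _ _ _ _ _ _ _
    rw [← e1] at g1 g2 g4
    simp only [← e2] at g2 g3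
    refine ⟨g1, g4, fun v hv => IIj_ne_zero g1 hP (hk a) g2 hv, fun i hia hxi => ?_⟩
    have hpos := gauss_pos g1 (d2_symm (hF' a).contDiffAt) hPs hP (hk a) g2 g3
      ((hΛ' a).trans_le (mul_le_mul_of_nonneg_left (hPΛ i hia hxi) (hk a).le))
    have hg := gauss (hF' a) g1 b0 b1
    rw [det2_b0_b1, one_pow, one_mul] at hg
    rw [← hg]
    exact hpos
  have hball : ∀ x : E2, ‖x‖ < 1 → x ∈ closedBall (0 : E2) 2 := fun x hx => by
    rw [mem_closedBall_zero_iff]; linarith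
  have hi' : A.Imm (fun y => F y + u y • n y) :=
    Imm_of_local hF' (fun a x hx => (key a x (hball x hx)).1)
  refine ⟨fun y => F y + u y • n y, hF', hi', fun a x τ hτ => ?_, fun i x hx => ?_,
    fun a x hx => ?_⟩
  · obtain ⟨b, hb, hb1⟩ := A.cover (A.p a x)
    have hx : x ∈ A.O a b := hb
    rw [Atl.II_chart hF' hi' hx τ τ]
    refine (key b _ (hball _ hb1)).2.2.1 _ fun h0 => hτ ?_
    exact A.fderiv_T_injective hx (h0.trans (map_zero _).symm)
  · refine (key (ch i) x ?_).2.2.2 i rfl hx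
    have := hsub i (sphere_subset_closedBall hx)
    rw [mem_ball_zero_iff] at this
    rw [mem_closedBall_zero_iff]; linarith
  · have h1 := (key a x hx).2.1
    have h2 := (hB' a x hx).trans (hB a)
    have h3 := norm_pb_sub_le (fun x => F (A.p a x) + u (A.p a x) • n (A.p a x))
      (fun x => F (A.p a x)) x
    have h4 : ‖fderiv ℝ (fun x => F (A.p a x) + u (A.p a x) • n (A.p a x)) x‖ ≤ B + 1 := by
      have := norm_sub_norm_le (fderiv ℝ (fun x => F (A.p a x) + u (A.p a x) • n (A.p a x)) x)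
        (fderiv ℝ (fun x => F (A.p a x)) x)
      linarith
    refine h3.trans (le_trans ?_ hε'2)
    exact mul_le_mul (by linarith) h1 (norm_nonneg _) (by positivity)

end Atl

end Crest.Agent.R216
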