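import Crest.Agent.R216.TopDefs

/-! # Row 216, topology: vector algebra in dimensions three and four -/

set_option autoImplicit false
open Set Filter Metric Function
open scoped ContDiff RealInnerProductSpace Topology

noncomputable section
namespace Crest.Agent.R216

/-! All identities are polynomial in the coordinates: unfold, `ext i; fin_cases i`,
`simp [EuclideanSpace.inner_eq_star_dotProduct / real_inner_eq.., Fin.sum_univ_succ]`, `ring`. -/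

theorem topA_ext3 {u v : E3} (h0 : u 0 = v 0) (h1 : u 1 = v 1) (h2 : u 2 = v 2) : u = v := by
  ext i; fin_cases i
  exacts [h0, h1, h2]

theorem topA_ext4 {u v : E4} (h0 : u 0 = v 0) (h1 : u 1 = v 1) (h2 : u 2 = v 2) (h3 : u 3 = v 3) :
    u = v := by
  ext i; fin_cases i
  exacts [h0, h1, h2, h3]

theorem topA_cr3_0 (u v : E3) : cr3 u v 0 = u 1 * v 2 - u 2 * v 1 := rfl
theorem topA_cr3_1 (u v : E3) : cr3 u v 1 = u 2 * v 0 - u 0 * v 2 := rfl
theorem topA_cr3_2 (u v : E3) : cr3 u v 2 = u 0 * v 1 - u 1 * v 0 := rfl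
theorem topA_snoc3_0 (v : E3) (t : ℝ) : snoc3 v t 0 = v 0 := rfl
theorem topA_snoc3_1 (v : E3) (t : ℝ) : snoc3 v t 1 = v 1 := rfl
theorem topA_snoc3_2 (v : E3) (t : ℝ) : snoc3 v t 2 = v 2 := rfl
theorem topA_snoc3_3 (v : E3) (t : ℝ) : snoc3 v t 3 = t := rfl
theorem topA_init4_0 (w : E4) : init4 w 0 = w 0 := by simp [init4]
theorem topA_init4_1 (w : E4) : init4 w 1 = w 1 := by simp [init4]
theorem topA_init4_2 (w : E4) : init4 w 2 = w 2 := by simp [init4]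

theorem inner_E3 (u v : E3) : ⟪u, v⟫ = u 0 * v 0 + u 1 * v 1 + u 2 * v 2 := by
  simp only [PiLp.inner_apply, Fin.sum_univ_three, RCLike.inner_apply, conj_trivial]
  ring

theorem inner_E4 (u v : E4) : ⟪u, v⟫ = u 0 * v 0 + u 1 * v 1 + u 2 * v 2 + u 3 * v 3 := by
  simp only [PiLp.inner_apply, Fin.sum_univ_four, RCLike.inner_apply, conj_trivial]
  ring

theorem topA_det3_eq (u v w : E3) : det3 u v w = u 0 * (v 1 * w 2 - v 2 * w 1)
    + u 1 * (v 2 * w 0 - v 0 * w 2) + u 2 * (v 0 * w 1 - v 1 * w 0) := by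
  rw [det3, inner_E3, topA_cr3_0, topA_cr3_1, topA_cr3_2]

theorem topA_det4_eq (u v w z : E4) : det4 u v w z =
    - u 3 * (v 0 * (w 1 * z 2 - w 2 * z 1) + v 1 * (w 2 * z 0 - w 0 * z 2)
      + v 2 * (w 0 * z 1 - w 1 * z 0))
    + v 3 * (u 0 * (w 1 * z 2 - w 2 * z 1) + u 1 * (w 2 * z 0 - w 0 * z 2)
      + u 2 * (w 0 * z 1 - w 1 * z 0))
    - w 3 * (u 0 * (v 1 * z 2 - v 2 * z 1) + u 1 * (v 2 * z 0 - v 0 * z 2)
      + u 2 * (v 0 * z 1 - v 1 * z 0))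
    + z 3 * (u 0 * (v 1 * w 2 - v 2 * w 1) + u 1 * (v 2 * w 0 - v 0 * w 2)
      + u 2 * (v 0 * w 1 - v 1 * w 0)) := by
  simp only [det4, topA_det3_eq, topA_init4_0, topA_init4_1, topA_init4_2]

theorem topA_cr4_0 (u v w : E4) : cr4 u v w 0 = - u 3 * (v 1 * w 2 - v 2 * w 1)
    + v 3 * (u 1 * w 2 - u 2 * w 1) - w 3 * (u 1 * v 2 - u 2 * v 1) := by
  change det4 u v w (EuclideanSpace.single 0 1) = _
  rw [topA_det4_eq]; simp; ring

theorem topA_cr4_1 (u v w : E4) : cr4 u v w 1 = - u 3 * (v 2 * w 0 - v 0 * w 2)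
    + v 3 * (u 2 * w 0 - u 0 * w 2) - w 3 * (u 2 * v 0 - u 0 * v 2) := by
  change det4 u v w (EuclideanSpace.single 1 1) = _
  rw [topA_det4_eq]; simp; ring

theorem topA_cr4_2 (u v w : E4) : cr4 u v w 2 = - u 3 * (v 0 * w 1 - v 1 * w 0)
    + v 3 * (u 0 * w 1 - u 1 * w 0) - w 3 * (u 0 * v 1 - u 1 * v 0) := by
  change det4 u v w (EuclideanSpace.single 2 1) = _
  rw [topA_det4_eq]; simp; ring

theorem topA_cr4_3 (u v w : E4) : cr4 u v w 3 = u 0 * (v 1 * w 2 - v 2 * w 1)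
    + u 1 * (v 2 * w 0 - v 0 * w 2) + u 2 * (v 0 * w 1 - v 1 * w 0) := by
  change det4 u v w (EuclideanSpace.single 3 1) = _
  rw [topA_det4_eq]; simp

theorem topA_q4_0 (n w : E4) : q4 n w 0 = n 3 * w 0 - w 3 * n 0 - (n 1 * w 2 - n 2 * w 1) := by
  simp only [q4, PiLp.sub_apply, PiLp.smul_apply, smul_eq_mul, topA_cr3_0, topA_init4_0, topA_init4_1, topA_init4_2]

theorem topA_q4_1 (n w : E4) : q4 n w 1 = n 3 * w 1 - w 3 * n 1 - (n 2 * w 0 - n 0 * w 2) := by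
  simp only [q4, PiLp.sub_apply, PiLp.smul_apply, smul_eq_mul, topA_cr3_1, topA_init4_0, topA_init4_1, topA_init4_2]

theorem topA_q4_2 (n w : E4) : q4 n w 2 = n 3 * w 2 - w 3 * n 2 - (n 0 * w 1 - n 1 * w 0) := by
  simp only [q4, PiLp.sub_apply, PiLp.smul_apply, smul_eq_mul, topA_cr3_2, topA_init4_0, topA_init4_1, topA_init4_2]

theorem topA_lin {E G : Type} [NormedAddCommGroup E] [NormedSpace ℝ E] [FiniteDimensional ℝ E]
    [NormedAddCommGroup G] [NormedSpace ℝ G] (f : E → G) (h1 : ∀ u v, f (u + v) = f u + f v)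
    (h2 : ∀ (c : ℝ) u, f (c • u) = c • f u) : ∃ L : E →L[ℝ] G, ∀ u, L u = f u :=
  ⟨LinearMap.toContinuousLinearMap ⟨⟨f, h1⟩, h2⟩, fun _ => rfl⟩

theorem topA_bil {E F G : Type} [NormedAddCommGroup E] [NormedSpace ℝ E] [FiniteDimensional ℝ E]
    [NormedAddCommGroup F] [NormedSpace ℝ F] [FiniteDimensional ℝ F]
    [NormedAddCommGroup G] [NormedSpace ℝ G] (f : E → F → G)
    (h1 : ∀ u u' v, f (u + u') v = f u v + f u' v) (h2 : ∀ (c : ℝ) u v, f (c • u) v = c • f u v)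
    (h3 : ∀ u v v', f u (v + v') = f u v + f u v') (h4 : ∀ (c : ℝ) u v, f u (c • v) = c • f u v) :
    ∃ L : E →L[ℝ] F →L[ℝ] G, ∀ u v, L u v = f u v := by
  choose T hT using fun u => topA_lin (f u) (h3 u) fun c v => h4 c u v
  obtain ⟨L, hL⟩ := topA_lin T
    (fun u u' => ContinuousLinearMap.ext fun v => by
      rw [ContinuousLinearMap.add_apply, hT, hT, hT, h1])
    (fun c u => ContinuousLinearMap.ext fun v => by
      rw [ContinuousLinearMap.smul_apply, hT, hT, h2])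
  exact ⟨L, fun u v => by rw [hL, hT]⟩

theorem topA_five (a b c d e x : E4) :
    det4 b c d e * ⟪a, x⟫ - det4 a c d e * ⟪b, x⟫ + det4 a b d e * ⟪c, x⟫
      - det4 a b c e * ⟪d, x⟫ + det4 a b c d * ⟪e, x⟫ = 0 := by
  simp only [topA_det4_eq, inner_E4]
  ring

@[simp] theorem init4_apply (w : E4) (i : Fin 3) : init4 w i = w i.castSucc := by
  fin_cases i
  exacts [topA_init4_0 w, topA_init4_1 w, topA_init4_2 w]

@[simp] theorem init4_snoc3 (v : E3) (t : ℝ) : init4 (snoc3 v t) = v := by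
  exact topA_ext3 (topA_init4_0 _) (topA_init4_1 _) (topA_init4_2 _)

@[simp] theorem snoc3_last (v : E3) (t : ℝ) : snoc3 v t 3 = t := by
  rfl

theorem snoc3_init4 (w : E4) : snoc3 (init4 w) (w 3) = w := by
  exact topA_ext4 (topA_init4_0 _) (topA_init4_1 _) (topA_init4_2 _) rfl

theorem init4_eq_zero {w : E4} (h : init4 w = 0) : w = w 3 • e3 := by
  have h0 := topA_init4_0 w
  have h1 := topA_init4_1 w
  have h2 := topA_init4_2 w
  rw [h] at h0 h1 h2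
  refine topA_ext4 ?_ ?_ ?_ ?_
  · rw [← h0]; simp [e3]
  · rw [← h1]; simp [e3]
  · rw [← h2]; simp [e3]
  · simp [e3]

theorem init4_e3 : init4 e3 = 0 := by
  refine topA_ext3 ?_ ?_ ?_
  · rw [topA_init4_0]; simp [e3]
  · rw [topA_init4_1]; simp [e3]
  · rw [topA_init4_2]; simp [e3]

theorem e3_ne_zero : e3 ≠ 0 := by
  intro h
  have : e3 3 = (0 : E4) 3 := by rw [h]
  simp [e3] at this

theorem inner_snoc3 (u v : E3) (s t : ℝ) : ⟪snoc3 u s, snoc3 v t⟫ = ⟪u, v⟫ + s * t := by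
  simp only [inner_E3, inner_E4, topA_snoc3_0, topA_snoc3_1, topA_snoc3_2, topA_snoc3_3]

/-- `snoc3` as a continuous linear map -/
theorem exists_snocL : ∃ L : (E3 × ℝ) →L[ℝ] E4, ∀ v t, L (v, t) = snoc3 v t := by
  obtain ⟨L, hL⟩ := topA_lin (fun p : E3 × ℝ => snoc3 p.1 p.2)
    (fun _ _ => topA_ext4 rfl rfl rfl rfl) (fun _ _ => topA_ext4 rfl rfl rfl rfl)
  exact ⟨L, fun v t => hL (v, t)⟩

/-- `cr3` as a continuous bilinear map -/
theorem exists_crL : ∃ L : E3 →L[ℝ] E3 →L[ℝ] E3, ∀ u v, L u v = cr3 u v := by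
  refine topA_bil cr3 ?_ ?_ ?_ ?_ <;> intros <;> refine topA_ext3 ?_ ?_ ?_ <;>
    simp only [topA_cr3_0, topA_cr3_1, topA_cr3_2, PiLp.add_apply, PiLp.smul_apply, smul_eq_mul] <;> ring

/-- `q4` as a continuous bilinear map -/
theorem exists_q4L : ∃ L : E4 →L[ℝ] E4 →L[ℝ] E3, ∀ n w, L n w = q4 n w := by
  refine topA_bil q4 ?_ ?_ ?_ ?_ <;> intros <;> refine topA_ext3 ?_ ?_ ?_ <;>
    simp only [topA_q4_0, topA_q4_1, topA_q4_2, PiLp.add_apply, PiLp.smul_apply, smul_eq_mul] <;> ring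

/-- `cr4` as a continuous trilinear map -/
theorem exists_cr4L : ∃ L : E4 →L[ℝ] E4 →L[ℝ] E4 →L[ℝ] E4, ∀ u v w, L u v w = cr4 u v w := by
  have h : ∀ u, ∃ L : E4 →L[ℝ] E4 →L[ℝ] E4, ∀ v w, L v w = cr4 u v w := fun u => by
    refine topA_bil (cr4 u) ?_ ?_ ?_ ?_ <;> intros <;> refine topA_ext4 ?_ ?_ ?_ ?_ <;>
      simp only [topA_cr4_0, topA_cr4_1, topA_cr4_2, topA_cr4_3, PiLp.add_apply, PiLp.smul_apply, smul_eq_mul] <;> ring
  choose T hT using h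
  obtain ⟨L, hL⟩ := topA_lin T
    (fun u u' => ContinuousLinearMap.ext fun v => ContinuousLinearMap.ext fun w => by
      rw [ContinuousLinearMap.add_apply, ContinuousLinearMap.add_apply, hT, hT, hT]
      refine topA_ext4 ?_ ?_ ?_ ?_ <;>
        simp only [topA_cr4_0, topA_cr4_1, topA_cr4_2, topA_cr4_3, PiLp.add_apply] <;> ring)
    (fun c u => ContinuousLinearMap.ext fun v => ContinuousLinearMap.ext fun w => by
      rw [ContinuousLinearMap.smul_apply, ContinuousLinearMap.smul_apply, hT, hT]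
      refine topA_ext4 ?_ ?_ ?_ ?_ <;>
        simp only [topA_cr4_0, topA_cr4_1, topA_cr4_2, topA_cr4_3, PiLp.smul_apply, smul_eq_mul] <;> ring)
  exact ⟨L, fun u v w => by rw [hL, hT]⟩

theorem cr3_comm (u v : E3) : cr3 u v = - cr3 v u := by
  refine topA_ext3 ?_ ?_ ?_ <;> simp only [topA_cr3_0, topA_cr3_1, topA_cr3_2, PiLp.neg_apply] <;> ring

theorem cr3_self (u : E3) : cr3 u u = 0 := by
  refine topA_ext3 ?_ ?_ ?_ <;> simp only [topA_cr3_0, topA_cr3_1, topA_cr3_2, PiLp.zero_apply] <;> ring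

theorem inner_cr3_left (u v : E3) : ⟪u, cr3 u v⟫ = 0 := by
  simp only [inner_E3, topA_cr3_0, topA_cr3_1, topA_cr3_2]
  ring

theorem inner_cr3_right (u v : E3) : ⟪v, cr3 u v⟫ = 0 := by
  simp only [inner_E3, topA_cr3_0, topA_cr3_1, topA_cr3_2]
  ring

theorem cr3_cr3 (u v w : E3) : cr3 u (cr3 v w) = ⟪u, w⟫ • v - ⟪u, v⟫ • w := by
  refine topA_ext3 ?_ ?_ ?_ <;>
    simp only [inner_E3, topA_cr3_0, topA_cr3_1, topA_cr3_2, PiLp.sub_apply, PiLp.smul_apply, smul_eq_mul] <;> ring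

theorem norm_sq_cr3 (u v : E3) : ‖cr3 u v‖ ^ 2 = g2 u v := by
  rw [← real_inner_self_eq_norm_sq]
  simp only [g2, inner_E3, topA_cr3_0, topA_cr3_1, topA_cr3_2]
  ring

theorem norm_cr3_le (u v : E3) : ‖cr3 u v‖ ≤ ‖u‖ * ‖v‖ := by
  refine le_of_pow_le_pow_left₀ two_ne_zero (by positivity) ?_
  rw [norm_sq_cr3, mul_pow]
  exact g2_le u v

/-- parallel vectors (`cr3_cr3` with `cr3 a (cr3 a w)`) -/
theorem exists_smul_of_cr3_eq_zero {a w : E3} (ha : a ≠ 0) (h : cr3 a w = 0) :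
    ∃ t : ℝ, w = t • a := by
  have h1 : g2 a w = 0 := by rw [← norm_sq_cr3, h]; simp
  exact (jet1_dep h1).resolve_left ha

/-- `norm_sq_cr3`, `g2_pos_iff`, `g2_nonneg` -/
theorem injective_iff_cr3 (L : E2 →L[ℝ] E3) : Injective L ↔ cr3 (L b0) (L b1) ≠ 0 := by
  rw [← g2_pos_iff, ← norm_sq_cr3, sq_pos_iff, norm_ne_zero_iff]

theorem det3_sq (u v w : E3) : det3 u v w ^ 2 = g3 u v w := by
  simp only [topA_det3_eq, g3, inner_E3]
  ring

theorem inner_cr4 (u v w z : E4) : ⟪cr4 u v w, z⟫ = det4 u v w z := by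
  simp only [inner_E4, topA_det4_eq, topA_cr4_0, topA_cr4_1, topA_cr4_2, topA_cr4_3]
  ring

theorem det4_self1 (u v w : E4) : det4 u v w u = 0 := by
  rw [topA_det4_eq]
  ring

theorem det4_self2 (u v w : E4) : det4 u v w v = 0 := by
  rw [topA_det4_eq]
  ring

theorem det4_self3 (u v w : E4) : det4 u v w w = 0 := by
  rw [topA_det4_eq]
  ring

/-- Cauchy–Binet; `‖x‖ ^ 2 = ⟪x, x⟫`, expand everything in coordinates, `ring` -/
theorem norm_sq_cr4 (u v w : E4) : ‖cr4 u v w‖ ^ 2 = g3 u v w := by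
  rw [← real_inner_self_eq_norm_sq]
  simp only [g3, inner_E4, topA_cr4_0, topA_cr4_1, topA_cr4_2, topA_cr4_3]
  ring

/-- `norm_sq_cr4`, `g3_eq`, `nproj_of_orth` -/
theorem cr4_ne_zero {s t ν : E4} (hg : g2 s t ≠ 0) (hν : ν ≠ 0) (h1 : ⟪s, ν⟫ = 0)
    (h2 : ⟪t, ν⟫ = 0) : cr4 s t ν ≠ 0 := by
  intro h
  have h3 := norm_sq_cr4 s t ν
  rw [h, g3_eq hg, nproj_of_orth h1 h2, norm_zero, zero_pow two_ne_zero] at h3
  exact mul_ne_zero hg (pow_ne_zero 2 (norm_ne_zero_iff.2 hν)) h3.symm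

/-- Five vectors in `ℝ⁴` are dependent:
`det4 s t A B • ν = det4 s t ν B • A - det4 s t ν A • B + c₀ • s + c₁ • t` with
`c₀, c₁ = ± det4 t ν A B, ± det4 s ν A B`; take the inner product with `ν`
(`linear_combination` in coordinates). -/
theorem jac_frame {s t ν : E4} (A B : E4) (h1 : ⟪s, ν⟫ = 0) (h2 : ⟪t, ν⟫ = 0) :
    ⟪A, ν⟫ * ⟪B, cr4 s t ν⟫ - ⟪A, cr4 s t ν⟫ * ⟪B, ν⟫ = ‖ν‖ ^ 2 * det4 s t A B := by
  have h := topA_five s t ν A B ν
  rw [h1, h2, real_inner_self_eq_norm_sq] at h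
  rw [real_inner_comm (cr4 s t ν) B, real_inner_comm (cr4 s t ν) A, inner_cr4, inner_cr4]
  linear_combination -h

/-- `ν` and `μ = cr4 s t ν` are an orthogonal basis of the orthogonal complement of `s, t`.
Let `r` be the difference of the two sides; it is orthogonal to `s, t, ν, μ`.  The relation between
five vectors in `ℝ⁴` gives `det4 s t ν μ • r ∈ span {s, t, ν, μ}`, so
`det4 s t ν μ * ‖r‖² = 0`, and `det4 s t ν μ = ‖μ‖² ≠ 0`. -/
theorem normal_expand {s t ν n : E4} (hg : g2 s t ≠ 0) (hν : ν ≠ 0) (h1 : ⟪s, ν⟫ = 0)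
    (h2 : ⟪t, ν⟫ = 0) (h3 : ⟪s, n⟫ = 0) (h4 : ⟪t, n⟫ = 0) :
    n = (⟪n, ν⟫ / ‖ν‖ ^ 2) • ν + (⟪n, cr4 s t ν⟫ / ‖cr4 s t ν‖ ^ 2) • cr4 s t ν := by
  have hμ := cr4_ne_zero hg hν h1 h2
  have a1 : ⟪s, cr4 s t ν⟫ = 0 := by rw [real_inner_comm, inner_cr4, det4_self1]
  have a2 : ⟪t, cr4 s t ν⟫ = 0 := by rw [real_inner_comm, inner_cr4, det4_self2]
  have a3 : ⟪cr4 s t ν, ν⟫ = 0 := by rw [inner_cr4, det4_self3]
  have a3' : ⟪ν, cr4 s t ν⟫ = 0 := by rw [real_inner_comm, a3]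
  have a4 : det4 s t ν (cr4 s t ν) = ‖cr4 s t ν‖ ^ 2 := by
    rw [← inner_cr4, real_inner_self_eq_norm_sq]
  have n1 : ‖ν‖ ^ 2 ≠ 0 := pow_ne_zero 2 (norm_ne_zero_iff.2 hν)
  have n2 : ‖cr4 s t ν‖ ^ 2 ≠ 0 := pow_ne_zero 2 (norm_ne_zero_iff.2 hμ)
  generalize cr4 s t ν = μ at *
  set r := n - ((⟪n, ν⟫ / ‖ν‖ ^ 2) • ν + (⟪n, μ⟫ / ‖μ‖ ^ 2) • μ) with hr
  have b1 : ⟪s, r⟫ = 0 := by
    rw [hr, inner_sub_right, inner_add_right, real_inner_smul_right, real_inner_smul_right, h1, h3, a1]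
    ring
  have b2 : ⟪t, r⟫ = 0 := by
    rw [hr, inner_sub_right, inner_add_right, real_inner_smul_right, real_inner_smul_right, h2, h4, a2]
    ring
  have b3 : ⟪ν, r⟫ = 0 := by
    rw [hr, inner_sub_right, inner_add_right, real_inner_smul_right, real_inner_smul_right, a3',
      real_inner_self_eq_norm_sq, div_mul_cancel₀ _ n1, real_inner_comm]
    ring
  have b4 : ⟪μ, r⟫ = 0 := by
    rw [hr, inner_sub_right, inner_add_right, real_inner_smul_right, real_inner_smul_right, a3,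
      real_inner_self_eq_norm_sq, div_mul_cancel₀ _ n2, real_inner_comm]
    ring
  have h := topA_five s t ν μ r r
  rw [b1, b2, b3, b4, a4] at h
  have h' : ‖μ‖ ^ 2 * ⟪r, r⟫ = 0 := by linear_combination h
  exact sub_eq_zero.1 ((inner_self_eq_zero (𝕜 := ℝ)).1 ((mul_eq_zero.1 h').resolve_left n2))

theorem q4_snoc3 (s : ℝ) (v : E3) : q4 (snoc3 0 s) (snoc3 v 0) = s • v := by
  refine topA_ext3 ?_ ?_ ?_ <;>
    simp only [topA_q4_0, topA_q4_1, topA_q4_2, topA_snoc3_0, topA_snoc3_1, topA_snoc3_2, topA_snoc3_3, PiLp.smul_apply, smul_eq_mul,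
      PiLp.zero_apply] <;> ring

/-- `‖q4 n w‖² + ⟪n, w⟫² = ‖n‖² ‖w‖²` (multiplicativity of the quaternion norm) -/
theorem q4_eq_zero {n w : E4} (hn : n ≠ 0) (hw : ⟪n, w⟫ = 0) (h : q4 n w = 0) : w = 0 := by
  have key : ⟪q4 n w, q4 n w⟫ + ⟪n, w⟫ ^ 2 = ⟪n, n⟫ * ⟪w, w⟫ := by
    simp only [inner_E3, inner_E4, topA_q4_0, topA_q4_1, topA_q4_2]
    ring
  rw [h, hw, inner_zero_left, zero_pow two_ne_zero, add_zero] at key
  exact (inner_self_eq_zero (𝕜 := ℝ)).1 ((mul_eq_zero.1 key.symm).resolve_left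
    fun h => hn ((inner_self_eq_zero (𝕜 := ℝ)).1 h))

/-- the explicit normal vector `(d × c, |c|²)` of the plane spanned by `(p, α)`, `(q, β)`, where
`c = p × q`, `d = β p - α q` -/
theorem inner_nB (p q : E3) (α β : ℝ) :
    ⟪snoc3 p α, snoc3 (cr3 (β • p - α • q) (cr3 p q)) (‖cr3 p q‖ ^ 2)⟫ = 0 ∧
    ⟪snoc3 q β, snoc3 (cr3 (β • p - α • q) (cr3 p q)) (‖cr3 p q‖ ^ 2)⟫ = 0 := by
  rw [← real_inner_self_eq_norm_sq]
  constructor <;>
    simp only [inner_snoc3, inner_E3, topA_cr3_0, topA_cr3_1, topA_cr3_2, PiLp.sub_apply, PiLp.smul_apply,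
      smul_eq_mul] <;> ring

/-- expansion along the last coordinate, then `det3 d (d × X) (d × Y) = |d|² det3 d X Y` -/
theorem det4_nB (p q X Y : E3) (α β : ℝ) :
    det4 (snoc3 p α) (snoc3 q β) (snoc3 (cr3 (β • p - α • q) X) 0)
        (snoc3 (cr3 (β • p - α • q) Y) 0)
      = ‖β • p - α • q‖ ^ 2 * det3 (β • p - α • q) X Y := by
  have h1 : ∀ A B : E3, det4 (snoc3 p α) (snoc3 q β) (snoc3 A 0) (snoc3 B 0) =
      det3 (β • p - α • q) A B := fun A B => by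
    simp only [topA_det4_eq, topA_det3_eq, topA_snoc3_0, topA_snoc3_1, topA_snoc3_2, topA_snoc3_3, PiLp.sub_apply,
      PiLp.smul_apply, smul_eq_mul]
    ring
  rw [h1, ← real_inner_self_eq_norm_sq]
  generalize β • p - α • q = d
  simp only [topA_det3_eq, inner_E3, topA_cr3_0, topA_cr3_1, topA_cr3_2]
  ring

end Crest.Agent.R216
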