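import Crest.Agent.R216.GeoDefs
import Crest.Agent.R216.TopA

/-! # Row 216, patch geometry: the short immersion into a paraboloid -/

set_option autoImplicit false
set_option maxSynthPendingDepth 3
open Set Filter Metric Function
open scoped ContDiff RealInnerProductSpace Topology

noncomputable section
namespace Crest.Agent.R216

theorem f1_smul {X Y : Type*} [NormedAddCommGroup X] [NormedSpace ℝ X] [NormedAddCommGroup Y]
    [NormedSpace ℝ Y] (s : ℝ) (G : X → Y) : fderiv ℝ (fun x => s • G x) = s • fderiv ℝ G :=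
  fderiv_const_smul_field s

theorem f1_snoc {U : E2 → E3} {t : E2 → ℝ} (hU : ContDiff ℝ ∞ U) (ht : ContDiff ℝ ∞ t) :
    ContDiff ℝ ∞ (fun y => snoc3 (U y) (t y)) ∧ ∀ x v, fderiv ℝ (fun y => snoc3 (U y) (t y)) x v =
      snoc3 (fderiv ℝ U x v) (fderiv ℝ t x v) := by
  obtain ⟨L, hL⟩ := exists_snocL
  simp only [← hL]
  refine ⟨L.contDiff.comp (hU.prodMk ht), fun x v => ?_⟩
  exact congrArg (fun T : E2 →L[ℝ] E4 => T v) (L.hasFDerivAt.comp x
    ((hU.differentiable (by simp) x).hasFDerivAt.prodMk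
      (ht.differentiable (by simp) x).hasFDerivAt)).fderiv

/-- a continuous family of functions, positive on a compact set at the parameter `0` -/
theorem f1_ev {X : Type*} [TopologicalSpace X] {K : Set X} (hK : IsCompact K) {φ : ℝ × X → ℝ}
    (hφ : Continuous φ) (h : ∀ x ∈ K, 0 < φ (0, x)) :
    ∀ᶠ s in 𝓝[>] (0 : ℝ), ∀ x ∈ K, 0 < φ (s, x) :=
  (hK.eventually_forall_of_forall_eventually (P := fun s x => 0 < φ (s, x)) fun x hx =>
    hφ.continuousAt.eventually (lt_mem_nhds (h x hx))).filter_mono nhdsWithin_le_nhds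

namespace Atl

variable {M : Type*} [TopologicalSpace M] {A : Atl E2 M}

/-- positivity can be checked on the unit balls (`compat`, `cover`, `fderiv_T_injective`) -/
theorem Met_of_local {H : A.ι → E2 → Bil} (h : A.Ten H)
    (hp : ∀ a x, ‖x‖ < 1 → ∀ v, v ≠ 0 → 0 < H a x v v) : A.Met H := by
  refine ⟨h, fun a x v hv => ?_⟩
  obtain ⟨b, hb, hb1⟩ := A.cover (A.p a x)
  rw [h.compat a b x hb]
  exact hp b _ hb1 _ fun h0 => hv (fderiv_T_injective hb (h0.trans (map_zero _).symm))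

/-- compactness of `closedBall 0 1 ×ˢ sphere 0 1`, finitely many charts -/
theorem exists_short {g H : A.ι → E2 → Bil} (hg : A.Met g) (hH : A.Ten H) :
    ∃ s : ℝ, 0 < s ∧ A.Met (fun a x => g a x - s ^ 2 • H a x) := by
  have h1 : ∀ a, ∀ᶠ s in 𝓝[>] (0 : ℝ), ∀ z ∈ closedBall (0 : E2) 1 ×ˢ sphere (0 : E2) 1,
      0 < g a z.1 z.2 z.2 - s ^ 2 * H a z.1 z.2 z.2 := fun a => by
    have c1 := (hg.smooth a).continuous
    have c2 := (hH.smooth a).continuous
    refine f1_ev ((isCompact_closedBall _ _).prod (isCompact_sphere _ _))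
      (φ := fun w => g a w.2.1 w.2.2 w.2.2 - w.1 ^ 2 * H a w.2.1 w.2.2 w.2.2) (by fun_prop)
      fun z hz => ?_
    simpa using hg.pos a z.1 z.2 (ne_zero_of_mem_unit_sphere ⟨z.2, hz.2⟩)
  obtain ⟨s, hs, hs0⟩ := ((eventually_all.2 h1).and self_mem_nhdsWithin).exists
  refine ⟨s, hs0, Met_of_local (hg.toTen.sub (hH.const_smul _)) fun a x hx v hv => ?_⟩
  have hn : ‖v‖ ≠ 0 := norm_ne_zero_iff.2 hv
  have h2 := hs a (x, ‖v‖⁻¹ • v) ⟨mem_closedBall_zero_iff.2 hx.le, by
    rw [mem_sphere_zero_iff_norm, norm_smul, norm_inv, norm_norm, inv_mul_cancel₀ hn]⟩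
  simp only [map_smul, smul_apply, smul_eq_mul] at h2
  simp only [sub_apply, smul_apply, smul_eq_mul]
  have h3 : 0 < ‖v‖⁻¹ * ‖v‖⁻¹ := mul_self_pos.2 (inv_ne_zero hn)
  exact (mul_pos_iff_of_pos_left h3).1 (by linarith)

theorem pull_smul {W : Type*} [NormedAddCommGroup W] [InnerProductSpace ℝ W] {F : M → W}
    (hF : A.Sm F) (s : ℝ) (a : A.ι) (x : E2) :
    A.pull (fun y => s • F y) a x = s ^ 2 • A.pull F a x := by
  refine ContinuousLinearMap.ext fun v => ContinuousLinearMap.ext fun w => ?_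
  simp only [pull, smul_apply, pb_apply, f1_smul, Pi.smul_apply, real_inner_smul_left,
    real_inner_smul_right, smul_eq_mul]
  ring

/-- `F = snoc3 f (‖f‖² / 2)`, `n = snoc3 (- f) 1` (`exists_snocL`): `dF v = snoc3 (df v) ⟪f, df v⟫`,
`d2 F v v = snoc3 (d2 f v v) (‖df v‖² + ⟪f, d2 f v v⟫)` (`d2_apply`), `⟪d2 F v v, n⟫ = ‖df v‖²`. -/
theorem exists_parab {f : M → E3} (hf : A.Sm f) (hi : A.Imm f) :
    ∃ F n : M → E4, A.Sm F ∧ A.Imm F ∧ A.Sm n ∧
      (∀ a x v, ⟪A.dF F a x v, n (A.p a x)⟫ = 0) ∧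
      ∀ a x v, v ≠ 0 → 0 < ⟪d2 (fun x => F (A.p a x)) x v v, n (A.p a x)⟫ := by
  have hF := fun a => f1_snoc (hf a) ((hf a).inner ℝ (hf a))
  have hn := fun a => f1_snoc (hf a).neg (contDiff_const (c := (1 / 2 : ℝ)))
  have h0 : ∀ a x v, ⟪jet3D v (fun x => snoc3 (f (A.p a x)) ⟪f (A.p a x), f (A.p a x)⟫) x,
      snoc3 (-f (A.p a x)) (1 / 2)⟫ = 0 := fun a x v => by
    rw [jet3D, (hF a).2, jet3_inner (hf a) (hf a), inner_snoc3, inner_neg_right, jet3D,
      real_inner_comm (fderiv ℝ _ x v)]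
    ring
  refine ⟨fun y => snoc3 (f y) ⟪f y, f y⟫, fun y => snoc3 (-f y) (1 / 2), fun a => (hF a).1,
    fun a x v w hvw => hi a x ?_, fun a => (hn a).1, h0, fun a x v hv => ?_⟩
  · have := congrArg init4 hvw
    rwa [(hF a).2, (hF a).2, init4_snoc3, init4_snoc3] at this
  · have h1 := jet3_inner (jet3_cd (hF a).1 v) (hn a).1 x v
    simp only [h0, fderiv_fun_const, Pi.zero_apply, zero_apply] at h1
    rw [jet3_d2 (hF a).1, eq_neg_of_add_eq_zero_right h1.symm, jet3D, jet3D, (hF a).2, (hn a).2,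
      inner_snoc3, fderiv_fun_neg, neg_apply, inner_neg_right, fderiv_fun_const, Pi.zero_apply,
      zero_apply, mul_zero, add_zero, neg_neg]
    exact real_inner_self_pos.2 fun h => hv (hi a x (h.trans (map_zero _).symm))

/-- scale `exists_parab` with `exists_short` -/
theorem exists_F00 {g : A.ι → E2 → Bil} (hg : A.Met g) {f : M → E3} (hf : A.Sm f) (hi : A.Imm f) :
    ∃ F n : M → E4, A.Sm F ∧ A.Imm F ∧ A.Sm n ∧
      (∀ a x v, ⟪A.dF F a x v, n (A.p a x)⟫ = 0) ∧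
      (∀ a x v, v ≠ 0 → 0 < ⟪d2 (fun x => F (A.p a x)) x v v, n (A.p a x)⟫) ∧
      A.Met (fun a x => g a x - A.pull F a x) := by
  obtain ⟨F, n, hF, hi, hn, h0, h1⟩ := exists_parab hf hi
  obtain ⟨s, hs, hm⟩ := exists_short hg (Ten_pull hF)
  refine ⟨fun y => s • F y, n, (Sm.const s).smul hF, fun a x v w hvw => hi a x ?_, hn,
    fun a x v => ?_, fun a x v hv => ?_, by simpa only [pull_smul hF] using hm⟩
  · rw [f1_smul] at hvw
    exact smul_right_injective _ hs.ne' hvw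
  · rw [dF, f1_smul, Pi.smul_apply, smul_apply, real_inner_smul_left]
    exact mul_eq_zero_of_right _ (h0 a x v)
  · rw [d2, f1_smul, fderiv_const_smul_field, Pi.smul_apply, smul_apply, smul_apply,
      real_inner_smul_left]
    exact mul_pos hs (h1 a x v hv)

end Atl

/-- positivity of the coefficients is stable (`exists_coefL`, compactness, finitely many discs) -/
theorem GPat.Pos.robust {M : Type*} [TopologicalSpace M] {A : Atl E2 M} {P : GPat A}
    {h : A.ι → E2 → Bil} (hc : ∀ a, Continuous (h a)) (hp : P.Pos h) :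
    ∃ ε > (0 : ℝ), ∀ h' : A.ι → E2 → Bil,
      (∀ m, ∀ x ∈ closedBall (P.c m) (P.R m), ‖h' (P.ch m) x - h (P.ch m) x‖ ≤ ε) → P.Pos h' := by
  have hL : ∀ (u v : E2) (k : Fin 3), ∃ L : Bil →L[ℝ] ℝ, ∀ H, L H = coef u v k H := fun u v k => by
    refine topA_lin (coef u v k) (fun _ _ => ?_) (fun _ _ => ?_) <;> fin_cases k <;>
      simp [coef] <;> ring
  choose L hL using hL
  have h1 : ∀ m k, ∀ᶠ s in 𝓝[>] (0 : ℝ), ∀ x ∈ closedBall (P.c m) (P.R m),
      0 < L (P.u m) (P.v m) k (h (P.ch m) x) - ‖L (P.u m) (P.v m) k‖ * s := fun m k => by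
    have c1 := hc (P.ch m)
    refine f1_ev (isCompact_closedBall _ _)
      (φ := fun w => L (P.u m) (P.v m) k (h (P.ch m) w.2) - ‖L (P.u m) (P.v m) k‖ * w.1)
      (by fun_prop) fun x hx => ?_
    simpa only [mul_zero, sub_zero, hL] using hp m k x hx
  obtain ⟨s, hs, hs0⟩ := ((eventually_all.2 fun m => eventually_all.2 (h1 m)).and
    self_mem_nhdsWithin).exists
  refine ⟨s, hs0, fun h' hh' m k x hx => ?_⟩
  have h2 := (L (P.u m) (P.v m) k).le_opNorm_of_le (hh' m x hx)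
  rw [map_sub, Real.norm_eq_abs] at h2
  rw [← hL]
  linarith [hs m k x hx, (abs_le.1 h2).1]

end Crest.Agent.R216
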