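import Crest.Agent.R216.GeoA

/-! # Row 216, patch geometry: partition of unity, amplitudes, tails -/

set_option autoImplicit false
set_option maxSynthPendingDepth 3
open Set Filter Metric Function
open scoped ContDiff RealInnerProductSpace Topology

noncomputable section
namespace Crest.Agent.R216

private theorem GeoT_det {g : Bil} (hs : ∀ v w, g v w = g w v) (hp : ∀ v, v ≠ 0 → 0 < g v v) :
    g b0 b0 * g b1 b1 - g b0 b1 ^ 2 ≠ 0 := by
  have h0 : (b0 : E2) ≠ 0 := fun h => by simpa [b0] using congrArg (fun v : E2 => v 0) h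
  have h1 := hp b0 h0
  have h2 := hp (g b0 b0 • b1 - g b0 b1 • b0) fun h => h1.ne' (by
    simpa [b0, b1] using congrArg (fun v : E2 => v 1) h)
  simp only [map_sub, map_smul, ContinuousLinearMap.sub_apply, ContinuousLinearMap.smul_apply,
    smul_eq_mul, hs b1 b0] at h2
  intro h
  have : g b0 b0 * (g b0 b0 * g b1 b1 - g b0 b1 ^ 2) = 0 := by rw [h, mul_zero]
  nlinarith

/-- `b = √(δ² + θ f / Θ²)`.  Near points of the open ball `Θ ≠ 0`; near the other points `θ = 0`. -/
theorem geo_amp (c : E2) (r : ℝ) {θ f : E2 → ℝ} (hθ : ContDiff ℝ ∞ θ) (hf : ContDiff ℝ ∞ f)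
    (hr : 0 < r) (hs : tsupport θ ⊆ ball c r) (h0 : ∀ x, 0 ≤ θ x * f x) {δ : ℝ} (hδ : 0 < δ) :
    ∃ b : E2 → ℝ, ContDiff ℝ ∞ b ∧ (∀ x, 0 < b x) ∧ ∀ x,
      (expNegInvGlue (r ^ 2 - ‖x - c‖ ^ 2) * b x) ^ 2
        = δ ^ 2 * (expNegInvGlue (r ^ 2 - ‖x - c‖ ^ 2) * 1) ^ 2 + θ x * f x := by
  set Θ : E2 → ℝ := fun x => expNegInvGlue (r ^ 2 - ‖x - c‖ ^ 2) with hΘ
  have hΘs : ContDiff ℝ ∞ Θ := expNegInvGlue.contDiff.comp
    (contDiff_const.sub ((contDiff_id.sub contDiff_const).norm_sq ℝ))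
  have hΘp : ∀ x ∈ ball c r, Θ x ≠ 0 := fun x hx => by
    rw [mem_ball_iff_norm] at hx
    refine (expNegInvGlue.pos_of_pos ?_).ne'
    have := norm_nonneg (x - c)
    nlinarith
  have hq : ContDiff ℝ ∞ fun x => θ x * f x / Θ x ^ 2 := by
    refine contDiff_iff_contDiffAt.2 fun x => ?_
    by_cases hx : x ∈ ball c r
    · exact (hθ.mul hf).contDiffAt.div (hΘs.pow 2).contDiffAt (pow_ne_zero 2 (hΘp x hx))
    · refine (contDiffAt_const (c := (0 : ℝ))).congr_of_eventuallyEq ?_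
      filter_upwards [notMem_tsupport_iff_eventuallyEq.1 fun h => hx (hs h)] with y hy
      rw [hy, Pi.zero_apply, zero_mul, zero_div]
  have hp : ∀ x, 0 < δ ^ 2 + θ x * f x / Θ x ^ 2 := fun x =>
    add_pos_of_pos_of_nonneg (by positivity) (div_nonneg (h0 x) (sq_nonneg _))
  refine ⟨fun x => Real.sqrt (δ ^ 2 + θ x * f x / Θ x ^ 2),
    (contDiff_const.add hq).sqrt fun x => (hp x).ne', fun x => Real.sqrt_pos.2 (hp x), fun x => ?_⟩
  change (Θ x * _) ^ 2 = δ ^ 2 * (Θ x * 1) ^ 2 + _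
  rw [mul_pow, Real.sq_sqrt (hp x).le, mul_one]
  by_cases hx : x ∈ ball c r
  · have := hΘp x hx
    field_simp
  · rw [image_eq_zero_of_notMem_tsupport fun h => hx (hs h)]
    ring

namespace GPat

variable {M : Type*} [TopologicalSpace M] [T2Space M] {A : Atl E2 M} {P : GPat A} {w : ℝ}

/-- Bumps `φ m` (`= 1` on `closedBall (c m) (R m - w)`, supported in
`closedBall (c m) (R m - 3 w / 4)`), `θ m x = φ m x * ∏_{p > m} (1 - push (ch p) (φ p) (p (ch m) x))`.
The sum telescopes: `Σ_m a m ∏_{p > m} (1 - a p) = 1 - ∏_m (1 - a m)` (induction on `N`, or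
`Finset.prod_one_sub_ordered` for the dual order). -/
theorem Ok.exists_theta (h : P.Ok w) :
    ∃ θ : Fin P.N → E2 → ℝ, (∀ m, ContDiff ℝ ∞ (θ m)) ∧ (∀ m x, 0 ≤ θ m x) ∧
      (∀ m, tsupport (θ m) ⊆ ball (P.c m) (P.R m - w / 2)) ∧
      (∀ y, ∑ m, A.push (P.ch m) (θ m) y = 1) ∧
      ∀ m p, m < p → ∀ y ∈ P.Core w p, A.push (P.ch m) (θ m) y = 0 := by
  have hw := h.w_pos
  let φ : ∀ m, ContDiffBump (P.c m) := fun m =>
    ⟨P.R m - w, P.R m - 3 * w / 4, sub_pos.2 (h.w_lt m), by linarith⟩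
  let a : Fin P.N → M → ℝ := fun m => A.push (P.ch m) (φ m)
  have ha : ∀ m, A.Sm (a m) := fun m => A.Sm_push _ (φ m).contDiff (φ m).hasCompactSupport
  have ha1 : ∀ m y, a m y ≤ 1 := fun m y => by
    simp only [a, Atl.push]
    split_ifs
    · exact (φ m).le_one
    · exact zero_le_one
  have hc : ∀ m, ∀ y ∈ P.Core w m, a m y = 1 := by
    rintro m _ ⟨x, hx, rfl⟩
    simp only [a, Atl.push_p]
    exact (φ m).one_of_mem_closedBall (ball_subset_closedBall hx)
  have he : ∀ m y, A.push (P.ch m)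
      (fun x => φ m x * ∏ p with m < p, (1 - a p (A.p (P.ch m) x))) y =
      a m y * ∏ p with m < p, (1 - a p y) := fun m y => by
    by_cases hy : y ∈ (A.e (P.ch m)).source
    · obtain ⟨x, rfl⟩ : ∃ x, A.p (P.ch m) x = y := ⟨_, A.p_e _ hy⟩
      simp only [a, Atl.push_p]
    · have : a m y = 0 := if_neg hy
      rw [this, zero_mul]
      exact if_neg hy
  refine ⟨fun m x => φ m x * ∏ p with m < p, (1 - a p (A.p (P.ch m) x)), fun m => ?_,
    fun m x => ?_, fun m => ?_, fun y => ?_, fun m p hmp y hy => ?_⟩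
  · exact (φ m).contDiff.mul (contDiff_prod fun p _ => contDiff_const.sub (ha p _))
  · exact mul_nonneg (φ m).nonneg (Finset.prod_nonneg fun p _ => sub_nonneg.2 (ha1 p _))
  · refine (tsupport_mul_subset_left (f := φ m)).trans ?_
    rw [(φ m).tsupport_eq]
    exact closedBall_subset_ball (by simp only [φ]; linarith)
  · simp only [he]
    obtain ⟨m, hm⟩ := h.cover y
    have h1 := Finset.prod_add_ordered Finset.univ (fun m => 1 - a m y) fun m => a m y
    rw [Finset.prod_eq_zero (f := fun m => 1 - a m y) (Finset.mem_univ m)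
      (by rw [hc m y hm, sub_self])] at h1
    simpa using h1.symm
  · rw [he, Finset.prod_eq_zero (i := p) (by simpa using hmp) (by rw [hc p y hy, sub_self]),
      mul_zero]

end GPat

namespace Steps

variable {M : Type*} [TopologicalSpace M] [T2Space M] {A : Atl E2 M} (S : Steps A)

/-- `continuousAt_kap_param` with the parameter `t = δ²`,
`IsCompact.eventually_forall_of_forall_eventually`; only the values `n ≤ J` matter. -/
theorem eventually_kap_pos {g₀ : A.ι → E2 → Bil} (hg : A.Met g₀)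
    (hk : ∀ j, ∀ x ∈ sphere (S.c j) (S.r j), 0 < kap (g₀ (S.ch j)) x) :
    ∀ᶠ δ in 𝓝 (0 : ℝ), ∀ j, ∀ x ∈ sphere (S.c j) (S.r j),
      0 < kap (fun y => g₀ (S.ch j) y
        + δ ^ 2 • ∑ i : Fin S.J with i.val < j.val + 1, S.inc i (S.ch j) y) x := by
  refine eventually_all.2 fun j => (isCompact_sphere _ _).eventually_forall_of_forall_eventually
    (P := fun δ x => 0 < kap (fun y => g₀ (S.ch j) y
        + δ ^ 2 • ∑ i : Fin S.J with i.val < j.val + 1, S.inc i (S.ch j) y) x) fun x hx => ?_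
  have h1 : ContDiff ℝ ∞ fun z : ℝ × E2 => g₀ (S.ch j) z.2
      + z.1 ^ 2 • ∑ i : Fin S.J with i.val < j.val + 1, S.inc i (S.ch j) z.2 :=
    ((hg.smooth _).comp contDiff_snd).add ((contDiff_fst.pow 2).smul
      (ContDiff.sum fun i _ => ((S.Ten_inc i).smooth _).comp contDiff_snd))
  have h2 := continuousAt_kap_param h1 (z := (0, x)) (by
    simpa using GeoT_det (hg.symm (S.ch j) x) (hg.pos (S.ch j) x))
  refine h2.eventually (lt_mem_nhds ?_)
  simpa using hk j x hx

/-- two families of steps with the same discs and directions -/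
theorem inc_eq {S' : Steps A} {j : Fin S.J} {j' : Fin S'.J} (hch : S.ch j = S'.ch j')
    (hl : S.l j = S'.l j') {t : ℝ} {f : E2 → ℝ}
    (h : ∀ x, S.am j x ^ 2 = t * S'.am j' x ^ 2 + f x) (a : A.ι) (x : E2) :
    S.inc j a x = t • S'.inc j' a x + A.pushT (S.ch j) (fun z => f z • sq2 (S.l j)) a x := by
  unfold inc
  rw [← hch, ← hl]
  unfold Atl.pushT
  split_ifs
  · ext v w
    simp only [h, ContinuousLinearMap.bilinearComp_apply, ContinuousLinearMap.add_apply,
      ContinuousLinearMap.smul_apply, smul_eq_mul]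
    ring
  · simp

end Steps

end Crest.Agent.R216
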