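import Crest.Agent.R216.GeoB
import Crest.Agent.R216.GeoT
import Crest.Agent.R216.GeoF1

/-! # Row 216, patch geometry: assembling the steps -/

set_option autoImplicit false
set_option maxSynthPendingDepth 3
open Set Filter Metric Function
open scoped ContDiff RealInnerProductSpace Topology

noncomputable section
namespace Crest.Agent.R216

namespace GPat

variable {M : Type*} [TopologicalSpace M] [T2Space M] {A : Atl E2 M} {P : GPat A} {w : ℝ}

omit [T2Space M] in
theorem GeoT2_pushT_zero (a b : A.ι) (θ f : E2 → ℝ) (B : Bil) (y : E2)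
    (h0 : A.push a θ (A.p b y) = 0) : A.pushT a (fun z => (θ z * f z) • B) b y = 0 := by
  unfold Atl.pushT
  split_ifs with hm
  · rw [A.push_p_of_mem θ hm] at h0
    ext v w
    simp [h0]
  · rfl

omit [T2Space M] in
theorem GeoT2_bound {H : A.ι → E2 → Bil} (hc : ∀ a, Continuous (H a)) :
    ∃ B : ℝ, ∀ m, ∀ x ∈ closedBall (P.c m) (P.R m), ‖H (P.ch m) x‖ ≤ B := by
  have h1 : ∀ m, ∃ B : ℝ, ∀ x ∈ closedBall (P.c m) (P.R m), ‖H (P.ch m) x‖ ≤ B := fun m =>
    (isCompact_closedBall _ _).exists_bound_of_continuousOn (hc _).continuousOn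
  choose B hB using h1
  refine ⟨∑ m, |B m|, fun m x hx => (hB m x hx).trans ((le_abs_self _).trans ?_)⟩
  exact Finset.single_le_sum (f := fun m => |B m|) (fun m _ => abs_nonneg _) (Finset.mem_univ m)

/-- Choice of the amplitudes.  Take `θ` from `exists_theta`, `δ > 0` small (`eventually_kap_pos` for
`h.tails`; `Pos.robust` for `h₂ = g - g₀ - δ² • Σ_i tails.inc i`, the tails being bounded on the
compact discs), `b j` from `geo_amp` with `f = coef .. (h₂ (ch m) ·)` (`exists_coefL`).  By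
`inc_eq`, `inc j = δ² • tails.inc j + pushT (ch m) ((θ m * coef k h₂) • sq2 (cov k))`.
Sum: `sum_eq`, `pushT_sum`, `coef_decomp`, `Ten.pushT_smul`, `Σ push θ = 1`.
Curvature: if `p (ch j) x` is in the core of a later patch then for `y` near `x` and all `i ≤ j` the
`pushT` term vanishes (unfold `pushT`; `θ (ix i) (T y) = push .. (θ ..) (p y) = 0`,
`push_p_of_mem`), so `kap_congr` applies. -/
theorem Ok.exists_b (h : P.Ok w) {g g₀ : A.ι → E2 → Bil} (hg : A.Ten g) (hg₀ : A.Met g₀)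
    (hp : P.Pos fun a x => g a x - g₀ a x)
    (hk : ∀ j, ∀ x ∈ sphere (P.c (P.ix j)) (P.rad w j), 0 < kap (g₀ (P.ch (P.ix j))) x) :
    ∃ (b : Fin (P.N * 3) → E2 → ℝ) (hb : ∀ j, ContDiff ℝ ∞ (b j)) (hb' : ∀ j x, 0 < b j x),
      (h.steps b hb hb').gs g₀ (P.N * 3) = g ∧
      ∀ j, ∀ x ∈ sphere (P.c (P.ix j)) (P.rad w j),
        (∃ p, P.ix j < p ∧ A.p (P.ch (P.ix j)) x ∈ P.Core w p) →
        0 < kap ((h.steps b hb hb').gs g₀ (j.val + 1) (P.ch (P.ix j))) x := by
  obtain ⟨θ, hθ, hθ0, hθs, hθ1, hθc⟩ := h.exists_theta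
  have hT : A.Ten fun a x => ∑ i : Fin (P.N * 3), h.tails.inc i a x :=
    Atl.Ten.sum _ fun i _ => h.tails.Ten_inc i
  have hH : A.Ten fun a x => g a x - g₀ a x := hg.sub hg₀.toTen
  obtain ⟨ε, hε, hrob⟩ := GPat.Pos.robust (fun a => (hH.smooth a).continuous) hp
  obtain ⟨B, hB⟩ := GeoT2_bound (P := P) fun a => (hT.smooth a).continuous
  have ev1 := h.tails.eventually_kap_pos hg₀ hk
  have ev2 : ∀ᶠ δ in 𝓝 (0 : ℝ), δ ^ 2 * B < ε := by
    have hc : ContinuousAt (fun δ : ℝ => δ ^ 2 * B) 0 := by fun_prop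
    exact hc.eventually_lt continuousAt_const (by simpa using hε)
  obtain ⟨δ, ⟨hδ1, hδ2⟩, hδ⟩ :=
    (((ev1.and ev2).filter_mono (nhdsWithin_le_nhds (s := Ioi 0))).and self_mem_nhdsWithin).exists
  replace hδ : 0 < δ := hδ
  set H : A.ι → E2 → Bil := fun a x =>
    (g a x - g₀ a x) - δ ^ 2 • ∑ i : Fin (P.N * 3), h.tails.inc i a x with hHd
  have hH2 : A.Ten H := hH.sub (hT.const_smul (δ ^ 2))
  have hp2 : P.Pos H := by
    refine hrob H fun m x hx => ?_
    rw [hHd]
    simp only [sub_sub_cancel_left, norm_neg, norm_smul, Real.norm_eq_abs, abs_pow, sq_abs]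
    exact (mul_le_mul_of_nonneg_left (hB m x hx) (sq_nonneg δ)).trans hδ2.le
  have hamp : ∀ j : Fin (P.N * 3), ∃ b : E2 → ℝ, ContDiff ℝ ∞ b ∧ (∀ x, 0 < b x) ∧ ∀ x,
      (expNegInvGlue (P.rad w j ^ 2 - ‖x - P.c (P.ix j)‖ ^ 2) * b x) ^ 2
        = δ ^ 2 * (expNegInvGlue (P.rad w j ^ 2 - ‖x - P.c (P.ix j)‖ ^ 2) * 1) ^ 2 +
          θ (P.ix j) x * coef (P.u (P.ix j)) (P.v (P.ix j)) (P.kx j) (H (P.ch (P.ix j)) x) := by
    intro j
    obtain ⟨L, hL⟩ := exists_coefL (P.u (P.ix j)) (P.v (P.ix j)) (P.kx j)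
    have hw := h.w_pos
    refine geo_amp _ _ (hθ _) ?_ (h.tails.r_pos j)
      ((hθs _).trans (ball_subset_ball (P.le_rad hw j))) (fun x => ?_) hδ
    · simp only [← hL]
      exact L.contDiff.comp (hH2.smooth _)
    · by_cases hx : x ∈ closedBall (P.c (P.ix j)) (P.R (P.ix j))
      · exact mul_nonneg (hθ0 _ _) (hp2 _ _ x hx).le
      · rw [image_eq_zero_of_notMem_tsupport fun h' => hx
          (ball_subset_closedBall (ball_subset_ball (by linarith) (hθs _ h'))), zero_mul]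
  choose b hb hb' hbe using hamp
  have hinc : ∀ (j : Fin (P.N * 3)) a x, (h.steps b hb hb').inc j a x = δ ^ 2 • h.tails.inc j a x +
      A.pushT (P.ch (P.ix j)) (fun z => (θ (P.ix j) z * coef (P.u (P.ix j)) (P.v (P.ix j)) (P.kx j)
        (H (P.ch (P.ix j)) z)) • sq2 (cov (P.u (P.ix j)) (P.v (P.ix j)) (P.kx j))) a x :=
    fun j a x => (h.steps b hb hb').inc_eq (S' := h.tails) (j := j) (j' := j) rfl rfl (hbe j) a x
  refine ⟨b, hb, hb', ?_, fun j x hx ⟨p, hjp, hxp⟩ => ?_⟩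
  · funext a x
    have e1 : (h.steps b hb hb').gs g₀ (P.N * 3) a x =
        g₀ a x + ∑ i : Fin (P.N * 3), (h.steps b hb hb').inc i a x := by
      unfold Steps.gs
      rw [Finset.filter_true_of_mem fun i _ => i.isLt]
      rfl
    have e2 : ∀ m, ∑ k, A.pushT (P.ch m) (fun z => (θ m z * coef (P.u m) (P.v m) k
        (H (P.ch m) z)) • sq2 (cov (P.u m) (P.v m) k)) a x =
        A.push (P.ch m) (θ m) (A.p a x) • H a x := by
      intro m
      rw [← Atl.pushT_sum, ← hH2.pushT_smul]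
      congr 1
      funext z
      simp only [mul_smul, ← Finset.smul_sum]
      rw [coef_decomp (h.det m) _ (hH2.symm _ z)]
    rw [e1]
    simp only [hinc]
    rw [Finset.sum_add_distrib, ← Finset.smul_sum, P.sum_eq fun m k => A.pushT (P.ch m)
      (fun z => (θ m z * coef (P.u m) (P.v m) k (H (P.ch m) z)) • sq2 (cov (P.u m) (P.v m) k)) a x]
    simp only [e2]
    rw [← Finset.sum_smul, hθ1, one_smul, hHd]
    simp only
    abel
  · have ho : IsOpen (A.p (P.ch (P.ix j)) ⁻¹' P.Core w p) :=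
      (A.isOpenMap_p _ _ isOpen_ball).preimage (A.continuous_p _)
    refine (hδ1 j x hx).trans_eq (kap_congr ?_)
    filter_upwards [ho.mem_nhds hxp] with y hy
    unfold Steps.gs
    rw [Finset.smul_sum]
    congr 1
    refine Finset.sum_congr rfl fun i hi => ?_
    have hij : (i : Fin (P.N * 3)) ≤ j := Nat.lt_succ_iff.1 (Finset.mem_filter.1 hi).2
    have h1 : P.ix i ≤ P.ix j := by
      rcases hij.eq_or_lt with h2 | h2
      · rw [h2]
      · rcases (P.lt_iff _ _).1 h2 with h3 | h3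
        · exact h3.le
        · exact h3.1.le
    rw [hinc, GeoT2_pushT_zero _ _ _ _ _ _ (hθc _ p (h1.trans_lt hjp) _ hy), add_zero]
    rfl

end GPat

end Crest.Agent.R216
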