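import Crest.Agent.R216.GeoP3
import Crest.Agent.R216.GeoF5
import Crest.Agent.R216.GeoT2

/-! # Row 216, the geometric data exist -/

set_option autoImplicit false
open Set Filter Metric Function
open scoped ContDiff RealInnerProductSpace Topology

noncomputable section
namespace Crest.Agent.R216

theorem exists_geo {M : Type*} [TopologicalSpace M] [T2Space M] [CompactSpace M] (A : Atl E2 M)
    (g : A.ι → E2 → Bil) (hg : A.Met g) (f : M → E3) (hf : A.Sm f) (hi : A.Imm f) :
    Nonempty (Geo A g) := by
  obtain ⟨F, n, hF, hFi, hn, ho, hq, hM⟩ := Atl.exists_F00 hg hf hi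
  obtain ⟨P, w, hO, hG, hP⟩ := A.exists_pat hM
  obtain ⟨ε, hε, hrob⟩ := hP.robust (fun a => (hM.smooth a).continuous)
  obtain ⟨F', hF', hFi', hII, hk, hcl⟩ := A.exists_ridge hF hFi hn ho hq
    (fun j => P.ch (P.ix j)) (fun j => P.c (P.ix j)) (r := P.rad w) hO.tails.r_pos hO.tails.sub hε
  have hP' : P.Pos fun a x => g a x - A.pull F' a x := by
    refine hrob _ fun m x hx => ?_
    have h2 : x ∈ closedBall (0 : E2) 2 :=
      (ball_subset_closedBall.trans (closedBall_subset_closedBall (by norm_num))) (hO.sub m hx)
    have := hcl (P.ch m) x h2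
    have e : g (P.ch m) x - A.pull F' (P.ch m) x - (g (P.ch m) x - A.pull F (P.ch m) x)
        = -(A.pull F' (P.ch m) x - A.pull F (P.ch m) x) := by abel
    rw [e]
    exact (norm_neg (A.pull F' (P.ch m) x - A.pull F (P.ch m) x)).le.trans this
  obtain ⟨b, hb, hb', hsum, hkap⟩ := hO.exists_b hg.toTen (Atl.Met_pull hF' hFi') hP' hk
  refine ⟨{ S := hO.steps b hb hb'
            F0 := F'
            Bad := P.Bad w
            F0_sm := hF'
            F0_imm := hFi'
            F0_II := hII
            sum := hsum
            bad_closed := GPat.isClosed_Bad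
            bad_sub := fun j x hx => hx.1
            good := fun j x hx hn => ?_
            bad_tr := hO.bad_tr b hb hb' hG
            bad_ex := hO.bad_ex b hb hb'
            bad_gen := hO.bad_gen b hb hb' hG }⟩
  exact (hO.good b hb hb' j x hx hn).imp id (hkap j x hx)

end Crest.Agent.R216
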