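import Crest.Agent.R216.GeoDefs

/-! # Row 216, patch geometry: linear algebra, the steps of a family of patches -/

set_option autoImplicit false
open Set Filter Metric Function
open scoped ContDiff RealInnerProductSpace Topology

noncomputable section
namespace Crest.Agent.R216

theorem cv_apply (u v w : E2) : cv u v w = det2 w v / det2 u v := by
  simp only [cv, det2, smul_apply, sub_apply,
    PiLp.proj_apply, smul_eq_mul]
  ring

theorem h29_det2_comm (a b : E2) : det2 a b = -det2 b a := by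
  simp only [det2]; ring

theorem h29_cov_apply (u v : E2) (k : Fin 3) (w : E2) :
    cov u v k w = (![1, -1, -1] : Fin 3 → ℝ) k * det2 w (dir u v k) / det2 u v := by
  fin_cases k
  · simp [cov, dir, cv_apply]
  · simp only [cov, dir, Fin.mk_one, Matrix.cons_val_one, Matrix.cons_val_zero, cv_apply]
    rw [h29_det2_comm v u]; ring
  · simp only [cov, dir, Fin.reduceFinMk, Matrix.cons_val, add_apply,
      cv_apply]
    rw [h29_det2_comm v u]
    generalize det2 u v = D
    simp only [det2, PiLp.sub_apply]; ring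

theorem h29_sgn_ne (k : Fin 3) : (![1, -1, -1] : Fin 3 → ℝ) k ≠ 0 := by
  fin_cases k <;> simp

theorem cov_esv {u v : E2} (h : det2 u v ≠ 0) (k : Fin 3) : cov u v k (esv u v k) = 1 := by
  rw [h29_cov_apply]
  rw [div_eq_one_iff_eq h]
  fin_cases k <;> simp [esv, dir, det2] <;> ring

theorem cov_dir (u v : E2) (k : Fin 3) : cov u v k (dir u v k) = 0 := by
  rw [h29_cov_apply]
  have : det2 (dir u v k) (dir u v k) = 0 := by simp only [det2]; ring
  rw [this]; simp

theorem cov_dir_ne {u v : E2} (h : det2 u v ≠ 0) {k k' : Fin 3} (hk : k ≠ k') :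
    cov u v k (dir u v k') ≠ 0 := by
  rw [h29_cov_apply]
  refine div_ne_zero (mul_ne_zero (h29_sgn_ne k) ?_) h
  have h' : u 0 * v 1 - u 1 * v 0 ≠ 0 := h
  intro h0
  apply h'
  fin_cases k <;> fin_cases k' <;> simp [dir, det2] at hk h0 <;> linarith

theorem dir_ne_zero {u v : E2} (h : det2 u v ≠ 0) (k : Fin 3) : dir u v k ≠ 0 := by
  intro h0
  obtain ⟨k', hk'⟩ := exists_ne k
  exact cov_dir_ne h hk' (by rw [h0, map_zero])

theorem cov_eq_zero_iff {u v : E2} (h : det2 u v ≠ 0) (k : Fin 3) (w : E2) :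
    cov u v k w = 0 ↔ det2 w (dir u v k) = 0 := by
  rw [h29_cov_apply, div_eq_zero_iff, mul_eq_zero]
  simp [h, h29_sgn_ne k]

/-- `basis_decomp` -/
theorem coef_decomp {u v : E2} (h : det2 u v ≠ 0) (H : Bil) (hs : ∀ a b, H a b = H b a) :
    ∑ k, coef u v k H • sq2 (cov u v k) = H := by
  refine ContinuousLinearMap.ext fun a => ContinuousLinearMap.ext fun b => ?_
  have key : ∀ w : E2, w = cv u v w • u + cv v u w • v := by
    intro w
    have := basis_decomp h w
    rw [cv_apply, cv_apply, h29_det2_comm v u, h29_det2_comm w u, neg_div_neg_eq]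
    exact this
  have e : H a b = H (cv u v a • u + cv v u a • v) (cv u v b • u + cv v u b • v) := by
    rw [← key a, ← key b]
  rw [e]
  simp only [Fin.sum_univ_three, add_apply, smul_apply,
    sq2_apply, coef, cov, Matrix.cons_val, smul_eq_mul, map_add, map_smul, hs v u]
  ring

theorem exists_coefL (u v : E2) (k : Fin 3) : ∃ L : Bil →L[ℝ] ℝ, ∀ H, L H = coef u v k H := by
  let ev : E2 → E2 → (Bil →L[ℝ] ℝ) := fun a b =>
    (ContinuousLinearMap.apply ℝ ℝ b).comp (ContinuousLinearMap.apply ℝ (E2 →L[ℝ] ℝ) a)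
  refine ⟨![ev u (u - v), ev (v - u) v, ev u v] k, fun H => ?_⟩
  have e : ∀ a b, ev a b H = H a b := fun a b => rfl
  fin_cases k
  · exact (e _ _).trans (by simp [coef])
  · exact (e _ _).trans (by simp [coef])
  · exact (e _ _).trans (by simp [coef])

theorem continuous_coef (k : Fin 3) :
    Continuous fun z : E2 × E2 × Bil => coef z.1 z.2.1 k z.2.2 := by
  have h1 : Continuous fun z : E2 × E2 × Bil => z.1 := continuous_fst
  have h2 : Continuous fun z : E2 × E2 × Bil => z.2.1 := continuous_snd.fst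
  have h3 : Continuous fun z : E2 × E2 × Bil => z.2.2 := continuous_snd.snd
  fin_cases k
  · exact ((h3.clm_apply h1).clm_apply h1).sub ((h3.clm_apply h1).clm_apply h2)
  · exact ((h3.clm_apply h2).clm_apply h2).sub ((h3.clm_apply h1).clm_apply h2)
  · exact (h3.clm_apply h1).clm_apply h2

/-- `e₁ = b0`, `e₂ = b1 - (H b0 b1 / H b0 b0) • b0` rescaled to `H e₂ e₂ = H e₁ e₁`;
`u = 2 e₁ + e₂`, `v = e₁ + 2 e₂` (coefficients `1, 1, 4` times `H e₁ e₁`). -/
theorem exists_basis {H : Bil} (hs : ∀ a b, H a b = H b a) (hp : ∀ a, a ≠ 0 → 0 < H a a) :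
    ∃ u v : E2, det2 u v ≠ 0 ∧ ∀ k, 0 < coef u v k H := by
  have hb0 : b0 ≠ 0 := by
    intro h0; have := norm_b0; rw [h0, norm_zero] at this; exact zero_ne_one this
  have ha : 0 < H b0 b0 := hp _ hb0
  obtain ⟨e, he⟩ : ∃ e : E2, e = b1 - (H b0 b1 / H b0 b0) • b0 := ⟨_, rfl⟩
  have hde : det2 b0 e = 1 := by
    rw [← det2_b0_b1, he]; simp only [det2, PiLp.sub_apply, PiLp.smul_apply, smul_eq_mul]; ring
  have he0 : e ≠ 0 := by
    intro h0; rw [h0] at hde; simp [det2] at hde
  have hd : 0 < H e e := hp _ he0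
  have ho : H b0 e = 0 := by
    rw [he, map_sub, map_smul, smul_eq_mul]; field_simp; ring
  obtain ⟨t, ht0, ht⟩ : ∃ t : ℝ, 0 < t ∧ t ^ 2 * H e e = H b0 b0 := by
    refine ⟨Real.sqrt (H b0 b0 / H e e), Real.sqrt_pos.2 (div_pos ha hd), ?_⟩
    rw [Real.sq_sqrt (div_pos ha hd).le]; field_simp
  refine ⟨(2 : ℝ) • b0 + t • e, b0 + (2 * t) • e, ?_, fun k => ?_⟩
  · have : det2 ((2 : ℝ) • b0 + t • e) (b0 + (2 * t) • e) = 3 * t * det2 b0 e := by
      simp only [det2, PiLp.add_apply, PiLp.smul_apply, smul_eq_mul]; ring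
    rw [this, hde]; positivity
  · fin_cases k <;>
    simp only [coef, Fin.zero_eta, Fin.mk_one, Fin.reduceFinMk, Matrix.cons_val, map_add, map_smul,
      add_apply, smul_apply, smul_eq_mul, hs e b0, ho] <;>
    nlinarith

theorem h29_affine {w p q : E2} (hw : w ≠ 0) (hd : det2 p q ≠ 0) :
    ∀ᶠ s in 𝓝[≠] (0 : ℝ), det2 w (p + s • q) ≠ 0 := by
  have e : ∀ s : ℝ, det2 w (p + s • q) = det2 w p + s * det2 w q := by
    intro s; simp only [det2, PiLp.add_apply, PiLp.smul_apply, smul_eq_mul]; ring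
  simp only [e]
  by_cases hp : det2 w p = 0
  · have hq : det2 w q ≠ 0 := by
      intro hq
      apply hw
      have := basis_decomp hd w
      rw [hq, h29_det2_comm p w, hp] at this
      simpa using this
    filter_upwards [self_mem_nhdsWithin] with s hs
    rw [hp, zero_add]
    exact mul_ne_zero hs hq
  · have hc : Continuous fun s : ℝ => det2 w p + s * det2 w q := by fun_prop
    exact (hc.continuousAt.eventually_ne (by simpa using hp)).filter_mono nhdsWithin_le_nhds

/-- `u' = u + s • v`, `v' = v - s • u`: `det2 u' v' = (1 + s²) det2 u v`; positivity persists for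
small `s` (`IsCompact.eventually_forall_of_forall_eventually`, `continuous_coef`); each
`det2 w (dir u' v' k)` is a non-zero affine function of `s`, so only finitely many `s` are bad. -/
theorem exists_perturb {h : E2 → Bil} (hh : Continuous h) {K : Set E2} (hK : IsCompact K)
    {u v : E2} (hd : det2 u v ≠ 0) (hp : ∀ k, ∀ x ∈ K, 0 < coef u v k (h x)) {T : Set E2}
    (hT : T.Finite) (h0 : (0 : E2) ∉ T) :
    ∃ u' v' : E2, det2 u' v' ≠ 0 ∧ (∀ k, ∀ x ∈ K, 0 < coef u' v' k (h x)) ∧
      ∀ w ∈ T, ∀ k, det2 w (dir u' v' k) ≠ 0 := by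
  have h1 : ∀ k, ∀ᶠ s in 𝓝 (0 : ℝ), ∀ x ∈ K, 0 < coef (u + s • v) (v - s • u) k (h x) := by
    intro k
    refine hK.eventually_forall_of_forall_eventually
      (P := fun (s : ℝ) x => 0 < coef (u + s • v) (v - s • u) k (h x)) fun x hx => ?_
    have hc : Continuous fun z : ℝ × E2 => coef (u + z.1 • v) (v - z.1 • u) k (h z.2) :=
      (continuous_coef k).comp (f := fun z : ℝ × E2 => (u + z.1 • v, v - z.1 • u, h z.2))
        (by fun_prop)
    exact hc.continuousAt.eventually (lt_mem_nhds (by simpa using hp k x hx))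
  have h2 : ∀ w ∈ T, ∀ k, ∀ᶠ s in 𝓝[≠] (0 : ℝ),
      det2 w (dir (u + s • v) (v - s • u) k) ≠ 0 := by
    intro w hw k
    have hw0 : w ≠ 0 := fun e => h0 (e ▸ hw)
    have hd' : u 0 * v 1 - u 1 * v 0 ≠ 0 := hd
    fin_cases k
    · refine (h29_affine hw0 (p := v) (q := -u) ?_).mono fun s hs => ?_
      · intro e; apply hd'; simp [det2] at e; linarith
      · simpa [dir, sub_eq_add_neg] using hs
    · refine (h29_affine hw0 (p := u) (q := v) hd).mono fun s hs => ?_
      simpa [dir] using hs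
    · refine (h29_affine hw0 (p := u - v) (q := u + v) ?_).mono fun s hs => ?_
      · intro e; apply hd'; simp [det2] at e; linarith
      · have : u + s • v - (v - s • u) = u - v + s • (u + v) := by module
        simpa [dir, this] using hs
  have h3 : ∀ᶠ s in 𝓝[≠] (0 : ℝ), ∀ w ∈ T, ∀ k,
      det2 w (dir (u + s • v) (v - s • u) k) ≠ 0 :=
    (eventually_all_finite hT).2 fun w hw => eventually_all.2 (h2 w hw)
  obtain ⟨s, hs1, hs2⟩ :=
    (((eventually_all.2 h1).filter_mono nhdsWithin_le_nhds).and h3).exists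
  refine ⟨u + s • v, v - s • u, ?_, hs1, hs2⟩
  have : det2 (u + s • v) (v - s • u) = (1 + s ^ 2) * det2 u v := by
    simp only [det2, PiLp.add_apply, PiLp.sub_apply, PiLp.smul_apply, smul_eq_mul]; ring
  rw [this]
  exact mul_ne_zero (by positivity) hd

/-- an injective linear map of the plane preserves independence -/
theorem det2_map_ne_zero {L : E2 →L[ℝ] E2} (hL : Injective L) {a b : E2} :
    det2 (L a) (L b) ≠ 0 ↔ det2 a b ≠ 0 := by
  have h1 := g2_map L a b
  have h2 := g2_map (ContinuousLinearMap.id ℝ E2) (L a) (L b)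
  have h3 := (g2_pos_iff L).2 hL
  have h4 := (g2_pos_iff (ContinuousLinearMap.id ℝ E2)).2 injective_id
  simp only [ContinuousLinearMap.id_apply] at h2 h4
  rw [h1] at h2
  constructor
  · intro h h0
    rw [h0] at h2
    have : 0 < det2 (L a) (L b) ^ 2 * g2 b0 b1 := by positivity
    linarith
  · intro h h0
    rw [h0] at h2
    have : 0 < det2 a b ^ 2 * g2 (L b0) (L b1) := by positivity
    linarith

namespace GPat

variable {M : Type*} [TopologicalSpace M] {A : Atl E2 M} (P : GPat A)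

theorem val_eq (j : Fin (P.N * 3)) : j.val = (P.kx j).val + 3 * (P.ix j).val := by
  have := finProdFinEquiv_apply_val (finProdFinEquiv.symm j)
  rw [Equiv.apply_symm_apply] at this
  exact this

theorem lt_iff (i j : Fin (P.N * 3)) :
    i < j ↔ P.ix i < P.ix j ∨ (P.ix i = P.ix j ∧ P.kx i < P.kx j) := by
  have h1 := P.val_eq i
  have h2 := P.val_eq j
  have h3 := (P.kx i).isLt
  have h4 := (P.kx j).isLt
  simp only [Fin.lt_def, Fin.ext_iff]
  omega

theorem exists_ix (m : Fin P.N) (k : Fin 3) : ∃ j, P.ix j = m ∧ P.kx j = k := by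
  exact ⟨finProdFinEquiv (m, k), by simp only [ix, Equiv.symm_apply_apply],
    by simp only [kx, Equiv.symm_apply_apply]⟩

theorem sum_eq {Y : Type*} [AddCommMonoid Y] (f : Fin P.N → Fin 3 → Y) :
    ∑ j, f (P.ix j) (P.kx j) = ∑ m, ∑ k, f m k := by
  rw [← Fintype.sum_prod_type']
  exact Equiv.sum_comp finProdFinEquiv.symm (fun z : Fin P.N × Fin 3 => f z.1 z.2)

theorem rad_le {w : ℝ} (hw : 0 < w) (j : Fin (P.N * 3)) : P.rad w j ≤ P.R (P.ix j) := by
  have : (0 : ℝ) ≤ ((P.kx j : ℕ) : ℝ) * (w / 4) := by positivity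
  simp only [rad]; linarith

theorem le_rad {w : ℝ} (hw : 0 < w) (j : Fin (P.N * 3)) : P.R (P.ix j) - w / 2 ≤ P.rad w j := by
  have h1 : (P.kx j : ℕ) ≤ 2 := Nat.le_of_lt_succ (P.kx j).isLt
  have h2 : ((P.kx j : ℕ) : ℝ) ≤ 2 := by exact_mod_cast h1
  simp only [rad]; nlinarith

variable {P}

/-- the steps of a family of patches, for amplitude factors `b` -/
def Ok.steps {w : ℝ} (h : P.Ok w) (b : Fin (P.N * 3) → E2 → ℝ) (hb : ∀ j, ContDiff ℝ ∞ (b j))
    (hb' : ∀ j x, 0 < b j x) : Steps A where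
  J := P.N * 3
  ch := fun j => P.ch (P.ix j)
  c := fun j => P.c (P.ix j)
  r := P.rad w
  es := fun j => esv (P.u (P.ix j)) (P.v (P.ix j)) (P.kx j)
  et := fun j => ‖dir (P.u (P.ix j)) (P.v (P.ix j)) (P.kx j)‖⁻¹ •
    dir (P.u (P.ix j)) (P.v (P.ix j)) (P.kx j)
  l := fun j => cov (P.u (P.ix j)) (P.v (P.ix j)) (P.kx j)
  b := b
  r_pos := fun j => by
    have h1 := P.le_rad h.w_pos j
    have h2 := h.w_lt (P.ix j)
    have h3 := h.w_pos
    linarith
  sub := fun j => (closedBall_subset_closedBall (P.rad_le h.w_pos j)).trans (h.sub _)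
  l_es := fun j => cov_esv (h.det _) _
  l_et := fun j => by rw [map_smul, cov_dir, smul_zero]
  norm_et := fun j => by
    rw [norm_smul, norm_inv, norm_norm]
    exact inv_mul_cancel₀ (norm_ne_zero_iff.2 (dir_ne_zero (h.det _) _))
  b_smooth := hb
  b_pos := hb'

/-- the steps with amplitude factor one -/
def Ok.tails {w : ℝ} (h : P.Ok w) : Steps A :=
  h.steps (fun _ _ => 1) (fun _ => contDiff_const) (fun _ _ => one_pos)

end GPat

end Crest.Agent.R216
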