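import Crest.Agent.R216.GeoA

/-! # Row 216, patch geometry: the combinatorial properties of the steps -/

set_option autoImplicit false
open Set Filter Metric Function
open scoped ContDiff RealInnerProductSpace Topology

noncomputable section
namespace Crest.Agent.R216

namespace GPat

variable {M : Type*} [TopologicalSpace M] [T2Space M] {A : Atl E2 M} {P : GPat A} {w : ℝ}

omit [T2Space M] in
private theorem rad_lt (hw : 0 < w) {i j : Fin (P.N * 3)} (h1 : P.ix i = P.ix j)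
    (h2 : P.kx i < P.kx j) : P.rad w j < P.rad w i := by
  unfold rad
  rw [h1]
  have : ((P.kx i : ℕ) : ℝ) < (P.kx j : ℕ) := by exact_mod_cast h2
  nlinarith

theorem isClosed_Bad (j : Fin (P.N * 3)) : IsClosed (P.Bad w j) := by
  have h1 : IsClosed {x : E2 | ∃ i, j < i ∧ A.p (P.ch (P.ix j)) x ∈
      A.p (P.ch (P.ix i)) '' closedBall (P.c (P.ix i)) (P.rad w i)} := by
    have : {x : E2 | ∃ i, j < i ∧ A.p (P.ch (P.ix j)) x ∈
        A.p (P.ch (P.ix i)) '' closedBall (P.c (P.ix i)) (P.rad w i)} =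
        ⋃ i ∈ {i | j < i}, A.p (P.ch (P.ix j)) ⁻¹'
          (A.p (P.ch (P.ix i)) '' closedBall (P.c (P.ix i)) (P.rad w i)) := by
      ext x; simp
    rw [this]
    exact (toFinite _).isClosed_biUnion fun i _ =>
      (A.isCompact_image_p _ (isCompact_closedBall _ _)).isClosed.preimage (A.continuous_p _)
  have h2 : IsClosed {x : E2 | ∀ p, P.ix j < p → A.p (P.ch (P.ix j)) x ∉ P.Core w p} := by
    have : {x : E2 | ∀ p, P.ix j < p → A.p (P.ch (P.ix j)) x ∉ P.Core w p} =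
        ⋂ p ∈ {p | P.ix j < p}, A.p (P.ch (P.ix j)) ⁻¹' (P.Core w p)ᶜ := by
      ext x; simp
    rw [this]
    exact isClosed_biInter fun p _ =>
      (A.isOpenMap_p _ _ isOpen_ball).isClosed_compl.preimage (A.continuous_p _)
  exact isClosed_sphere.inter (h1.inter h2)

/-- A later active step belongs to a later patch (in the same patch the radii decrease, `p` is
injective); the point is not in its core, so it is in its collar. -/
theorem Ok.bad_col (h : P.Ok w) {j : Fin (P.N * 3)} {x : E2} (hx : x ∈ P.Bad w j) :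
    A.p (P.ch (P.ix j)) x ∈ P.Col w (P.ix j) ∧
      ∃ p, P.ix j < p ∧ A.p (P.ch (P.ix j)) x ∈ P.Col w p := by
  obtain ⟨h1, ⟨i, hi, z, hz, hzx⟩, h3⟩ := hx
  have hw := h.w_pos
  rw [mem_sphere] at h1
  refine ⟨⟨x, ⟨?_, ?_⟩, rfl⟩, ?_⟩
  · rw [mem_closedBall, h1]; exact P.rad_le hw j
  · rw [mem_ball, h1]; have := P.le_rad hw j; linarith
  rcases (P.lt_iff j i).1 hi with h4 | ⟨h4, h5⟩
  · refine ⟨P.ix i, h4, z, ⟨closedBall_subset_closedBall (P.rad_le hw i) hz, fun hb => ?_⟩, hzx⟩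
    exact h3 _ h4 ⟨z, hb, hzx⟩
  · exfalso
    have h6 := rad_lt hw h4 h5
    rw [← h4] at hzx hz
    have := A.injective_p _ hzx
    subst this
    rw [mem_closedBall, h1] at hz
    linarith

variable (h : P.Ok w) (b : Fin (P.N * 3) → E2 → ℝ) (hb : ∀ j, ContDiff ℝ ∞ (b j))
  (hb' : ∀ j x, 0 < b j x)

theorem Ok.good (j : Fin (P.N * 3)) (x : E2) (hx : x ∈ sphere (P.c (P.ix j)) (P.rad w j))
    (hn : x ∉ P.Bad w j) :
    (∀ i, j < i → A.p (P.ch (P.ix j)) x ∉ (h.steps b hb hb').D i) ∨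
      ∃ p, P.ix j < p ∧ A.p (P.ch (P.ix j)) x ∈ P.Core w p := by
  by_contra hc
  push Not at hc
  obtain ⟨⟨i, hi, hD⟩, h2⟩ := hc
  exact hn ⟨hx, ⟨i, hi, hD⟩, h2⟩

theorem Ok.bad_tr (hG : P.Gen w) (j : Fin (P.N * 3)) (x : E2) (hx : x ∈ P.Bad w j) :
    ⟪x - (h.steps b hb hb').c j, (h.steps b hb hb').et j⟫ ≠ 0 := by
  obtain ⟨h1, p, hp, h2⟩ := h.bad_col hx
  have h3 := hG.tr _ _ hp.ne x h1 h2 (P.kx j)
  have h4 := norm_ne_zero_iff.2 (dir_ne_zero (h.det (P.ix j)) (P.kx j))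
  change ⟪x - P.c (P.ix j), ‖dir (P.u (P.ix j)) (P.v (P.ix j)) (P.kx j)‖⁻¹ •
    dir (P.u (P.ix j)) (P.v (P.ix j)) (P.kx j)⟫ ≠ 0
  rw [real_inner_smul_right]
  exact mul_ne_zero (inv_ne_zero h4) h3

/-- the point is in the core of some patch `q`; `q` is neither `ix j` nor later; take `i = (q, 0)` -/
theorem Ok.bad_ex (j : Fin (P.N * 3)) (x : E2) (hx : x ∈ P.Bad w j) :
    ∃ i : Fin (h.steps b hb hb').J, i < j ∧
      A.p ((h.steps b hb hb').ch j) x ∈ (h.steps b hb hb').D i := by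
  obtain ⟨h1, -, h3⟩ := hx
  have hw := h.w_pos
  rw [mem_sphere] at h1
  obtain ⟨q, z, hz, hzx⟩ := h.cover (A.p (P.ch (P.ix j)) x)
  obtain ⟨i, hi, -⟩ := P.exists_ix q 0
  subst hi
  have h4 : P.ix i < P.ix j := by
    rcases lt_trichotomy (P.ix i) (P.ix j) with h4 | h4 | h4
    · exact h4
    · exfalso
      rw [h4] at hzx hz
      have := A.injective_p _ hzx
      subst this
      rw [mem_ball, h1] at hz
      have := P.le_rad hw j
      linarith
    · exact absurd ⟨z, hz, hzx⟩ (h3 _ h4)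
  refine ⟨i, (P.lt_iff i j).2 (Or.inl h4), z, ?_, hzx⟩
  change z ∈ closedBall (P.c (P.ix i)) (P.rad w i)
  have := P.le_rad hw i
  rw [mem_ball] at hz
  rw [mem_closedBall]
  linarith

/-- Interior: in the same patch the earlier radius is larger; in an earlier patch `q` the point is
not in `Col w q` (`triple`, `bad_col`), hence in the core.  Transversality: in the same patch
`vec_self`, `cov_dir_ne` (use `T_T`/`mem_O_of_eq`); in different patches `Gen.gen` at the point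
`T (ch j) (ch i) x`; `vec` is linear in the vector. -/
theorem Ok.bad_gen (hG : P.Gen w) (j : Fin (h.steps b hb hb').J) (x : E2) (hx : x ∈ P.Bad w j)
    (i : Fin (h.steps b hb hb').J) (hij : i < j)
    (hi : A.p ((h.steps b hb hb').ch j) x ∈ (h.steps b hb hb').D i) :
    A.p ((h.steps b hb hb').ch j) x ∈ (h.steps b hb hb').Do i ∧
    ∀ k, j ≤ k → A.p ((h.steps b hb hb').ch j) x ∈ (h.steps b hb hb').D k →
      (h.steps b hb hb').l i ((h.steps b hb hb').tau k ((h.steps b hb hb').ch i)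
        (A.T ((h.steps b hb hb').ch j) ((h.steps b hb hb').ch i) x)) ≠ 0 := by
  obtain ⟨h1, p, hp, h2⟩ := h.bad_col hx
  have hw := h.w_pos
  obtain ⟨z, hz, hzx⟩ := hi
  change z ∈ closedBall (P.c (P.ix i)) (P.rad w i) at hz
  change A.p (P.ch (P.ix i)) z = A.p (P.ch (P.ix j)) x at hzx
  have hs : dist x (P.c (P.ix j)) = P.rad w j := hx.1
  refine ⟨⟨z, ?_, hzx⟩, fun k hk hD => ?_⟩
  · change z ∈ ball (P.c (P.ix i)) (P.rad w i)
    rcases (P.lt_iff i j).1 hij with h4 | ⟨h4, h5⟩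
    · have h6 := hG.triple _ _ (P.ix i) hp.ne h4.ne' (h4.trans hp).ne' _ h1 h2
      have h7 : z ∈ ball (P.c (P.ix i)) (P.R (P.ix i) - w) := by
        by_contra hb
        exact h6 ⟨z, ⟨closedBall_subset_closedBall (P.rad_le hw i) hz, hb⟩, hzx⟩
      have := P.le_rad hw i
      exact ball_subset_ball (by linarith) h7
    · have h6 := rad_lt hw h4 h5
      rw [← h4] at hzx hs
      have := A.injective_p _ hzx
      subst this
      rw [mem_ball, hs]
      exact h6
  · have hT := (Atl.mem_O_of_eq hzx.symm).2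
    have h4 := norm_ne_zero_iff.2 (dir_ne_zero (h.det (P.ix k)) (P.kx k))
    change cov (P.u (P.ix i)) (P.v (P.ix i)) (P.kx i) (A.vec (P.ch (P.ix k))
      (‖dir (P.u (P.ix k)) (P.v (P.ix k)) (P.kx k)‖⁻¹ • dir (P.u (P.ix k)) (P.v (P.ix k)) (P.kx k))
      (P.ch (P.ix i)) (A.T (P.ch (P.ix j)) (P.ch (P.ix i)) x)) ≠ 0
    rw [hT]
    have h5 : cov (P.u (P.ix i)) (P.v (P.ix i)) (P.kx i) (A.vec (P.ch (P.ix k))
        (dir (P.u (P.ix k)) (P.v (P.ix k)) (P.kx k)) (P.ch (P.ix i)) z) ≠ 0 := by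
      by_cases hik : P.ix i = P.ix k
      · have hk' : P.kx i ≠ P.kx k := fun he => by
          have h7 := P.val_eq i
          have h8 := P.val_eq k
          have h9 : i.val < k.val := lt_of_lt_of_le hij hk
          rw [he, hik] at h7
          omega
        rw [← hik, A.vec_self]
        exact cov_dir_ne (h.det _) hk'
      · refine hG.gen _ _ hp.ne _ _ hik z (closedBall_subset_closedBall (P.rad_le hw i) hz)
          (hzx ▸ h1) (hzx ▸ h2) ?_ _ _
        obtain ⟨y, hy, hyx⟩ := hD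
        exact ⟨y, closedBall_subset_closedBall (P.rad_le hw k) hy, hyx.trans hzx.symm⟩
    unfold Atl.vec at h5 ⊢
    rw [map_smul, map_smul, smul_eq_mul]
    exact mul_ne_zero (inv_ne_zero h4) h5

end GPat

end Crest.Agent.R216
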