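import Crest.Agent.R216.Jet2

/-! # Row 216, Theorema egregium, continuity of the curvature expression -/

set_option autoImplicit false
open Set Filter Metric
open scoped ContDiff RealInnerProductSpace Topology

noncomputable section
namespace Crest.Agent.R216

section
variable {W : Type*} [NormedAddCommGroup W] [InnerProductSpace ℝ W]

/-- directional derivative -/
def jet3D (v : E2) (F : E2 → W) (y : E2) : W := fderiv ℝ F y v

theorem jet3_cd {F : E2 → W} (hF : ContDiff ℝ ∞ F) (v : E2) : ContDiff ℝ ∞ (jet3D v F) :=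
  (hF.fderiv_right (m := ∞) (by simp)).clm_apply contDiff_const

theorem jet3_d2 {F : E2 → W} (hF : ContDiff ℝ ∞ F) (x a b : E2) :
    d2 F x a b = jet3D a (jet3D b F) x := d2_apply hF.contDiffAt a b

theorem jet3_symm {F : E2 → W} (hF : ContDiff ℝ ∞ F) (a b : E2) :
    jet3D a (jet3D b F) = jet3D b (jet3D a F) := by
  funext x
  rw [← jet3_d2 hF, ← jet3_d2 hF, d2_symm hF.contDiffAt]

theorem jet3_inner {U V : E2 → W} (hU : ContDiff ℝ ∞ U) (hV : ContDiff ℝ ∞ V) (x k : E2) :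
    fderiv ℝ (fun y => ⟪U y, V y⟫) x k = ⟪U x, jet3D k V x⟫ + ⟪jet3D k U x, V x⟫ :=
  fderiv_inner_apply ℝ (hU.differentiable (by simp) x) (hV.differentiable (by simp) x) k

theorem jet3_h1 {G : E2 → W} (hG : ContDiff ℝ ∞ G) (x k i j : E2) :
    fderiv ℝ (fun y => pb G y i j) x k = ⟪jet3D i G x, jet3D k (jet3D j G) x⟫ +
      ⟪jet3D k (jet3D i G) x, jet3D j G x⟫ := by
  simp only [pb_apply]
  exact jet3_inner (jet3_cd hG i) (jet3_cd hG j) x k

theorem jet3_h2 {G : E2 → W} (hG : ContDiff ℝ ∞ G) (x k l i j : E2) :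
    fderiv ℝ (fun y => fderiv ℝ (fun z => pb G z i j) y l) x k =
      (⟪jet3D i G x, jet3D k (jet3D l (jet3D j G)) x⟫ +
        ⟪jet3D k (jet3D i G) x, jet3D l (jet3D j G) x⟫) +
      (⟪jet3D l (jet3D i G) x, jet3D k (jet3D j G) x⟫ +
        ⟪jet3D k (jet3D l (jet3D i G)) x, jet3D j G x⟫) := by
  simp only [jet3_h1 hG]
  have hi := jet3_cd hG i
  have hj := jet3_cd hG j
  rw [fderiv_fun_add ((hi.inner ℝ (jet3_cd hj l)).differentiable (by simp) x)
    (((jet3_cd hi l).inner ℝ hj).differentiable (by simp) x), add_apply,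
    jet3_inner hi (jet3_cd hj l), jet3_inner (jet3_cd hi l) hj]

/-- Theorema egregium.  With `G_i = ∂_i G`: `∂_k g_ij = ⟪G_ik, G_j⟫ + ⟪G_i, G_jk⟫`, so
`Γ i j k = ⟪G_ij, G_k⟫`; `∂_k∂_l g_ij = ⟪G_ilk, G_j⟫ + ⟪G_il, G_jk⟫ + ⟪G_ik, G_jl⟫ + ⟪G_i, G_jlk⟫`,
and the third derivatives cancel in `-g_00,11/2 + g_01,01 - g_11,00/2 = ⟪G_00,G_11⟫ - ‖G_01‖²`
(symmetry of second derivatives of `G` and of `G_i`).  Then `inner_nproj_nproj`, `IIj_gauss_alg`. -/
theorem gauss {G : E2 → W} (hG : ContDiff ℝ ∞ G) {x : E2}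
    (hi : Function.Injective (fderiv ℝ G x)) (a b : E2) :
    ⟪II G x a a, II G x b b⟫ - ‖II G x a b‖ ^ 2 = det2 a b ^ 2 * kap (pb G) x := by
  have h2 : g2 (jet3D b0 G x) (jet3D b1 G x) ≠ 0 := ((g2_pos_iff _).2 hi).ne'
  unfold II
  rw [IIj_gauss_alg _ _ (d2_symm hG.contDiffAt)]
  congr 1
  have e1 := jet3_symm hG b1 b0
  have e2 := jet3_symm (jet3_cd hG b1) b1 b0
  have e3 : ∀ i j, pb G x i j = ⟪jet3D i G x, jet3D j G x⟫ := fun i j => pb_apply G x i j
  have e4 : ∀ i j, IIj (fderiv ℝ G x) (d2 G x) i j =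
      nproj (jet3D b0 G x) (jet3D b1 G x) (jet3D i (jet3D j G) x) := fun i j => by
    rw [← jet3_d2 hG]; rfl
  rw [← real_inner_self_eq_norm_sq, e4, e4, e4, inner_nproj_nproj h2, inner_nproj_nproj h2]
  unfold kap kapJ g2
  simp only [jet3_h2 hG]
  simp only [jet3_h1 hG, e1, e2, e3]
  generalize jet3D b0 (jet3D b1 (jet3D b1 G)) x = t011
  generalize jet3D b0 (jet3D b0 (jet3D b1 G)) x = t001
  generalize jet3D b0 (jet3D b0 G) x = q00
  generalize jet3D b0 (jet3D b1 G) x = q01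
  generalize jet3D b1 (jet3D b1 G) x = q11
  generalize jet3D b0 G x = u
  generalize jet3D b1 G x = v
  simp only [real_inner_comm u t011, real_inner_comm v t001, real_inner_comm u q00,
    real_inner_comm u q01, real_inner_comm u q11, real_inner_comm v q00, real_inner_comm v q01,
    real_inner_comm v q11]
  ring

theorem jet3_kapJ {X : Type*} [TopologicalSpace X] {h : X → E2 → E2 → ℝ}
    {h₁ : X → E2 → E2 → E2 → ℝ} {h₂ : X → E2 → E2 → E2 → E2 → ℝ} {z : X}
    (c0 : ∀ i j, ContinuousAt (fun w => h w i j) z)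
    (c1 : ∀ k i j, ContinuousAt (fun w => h₁ w k i j) z)
    (c2 : ∀ k l i j, ContinuousAt (fun w => h₂ w k l i j) z)
    (hne : h z b0 b0 * h z b1 b1 - h z b0 b1 ^ 2 ≠ 0) :
    ContinuousAt (fun w => kapJ (h w) (h₁ w) (h₂ w)) z := by
  unfold kapJ
  dsimp only
  fun_prop (disch := first | exact hne | norm_num)

theorem jet3_par {P : Type*} [NormedAddCommGroup P] [NormedSpace ℝ P] {f : P × E2 → ℝ}
    (hf : ContDiff ℝ ∞ f) (k : E2) :
    ContDiff ℝ ∞ fun w : P × E2 => fderiv ℝ (fun y => f (w.1, y)) w.2 k :=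
  (ContDiff.fderiv (f := fun (w : P × E2) (y : E2) => f (w.1, y)) (m := ∞)
    (hf.comp (contDiff_fst.fst.prodMk contDiff_snd)) contDiff_snd (by simp)).clm_apply contDiff_const

/-- joint continuity of `kap` in the point and a parameter -/
theorem continuousAt_kap_param {P : Type*} [NormedAddCommGroup P] [NormedSpace ℝ P]
    {g : P × E2 → Bil} (hg : ContDiff ℝ ∞ g) {z : P × E2}
    (h : g z b0 b0 * g z b1 b1 - g z b0 b1 ^ 2 ≠ 0) :
    ContinuousAt (fun w : P × E2 => kap (fun y => g (w.1, y)) w.2) z := by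
  have c0 : ∀ i j : E2, ContDiff ℝ ∞ fun w => g w i j := fun i j =>
    (hg.clm_apply contDiff_const).clm_apply contDiff_const
  exact jet3_kapJ (h := fun w i j => g w i j) (fun i j => (c0 i j).continuous.continuousAt)
    (fun k i j => (jet3_par (c0 i j) k).continuous.continuousAt)
    (fun k l i j => (jet3_par (jet3_par (c0 i j) l) k).continuous.continuousAt) h

theorem continuous_kap {g : E2 → Bil} (hg : ContDiff ℝ ∞ g) (hs : ∀ x v w, g x v w = g x w v)
    (hp : ∀ x v, v ≠ 0 → 0 < g x v v) : Continuous (kap g) := by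
  refine continuous_iff_continuousAt.2 fun x => ?_
  have h0 : b0 ≠ 0 := fun h => by simpa [h] using norm_b0
  have h1 := hp x b0 h0
  have h2 := hp x (g x b0 b1 • b0 - g x b0 b0 • b1) (fun h => by
    have := congrArg (fun v : E2 => v 1) h
    simp [b0, b1] at this
    exact h1.ne' this)
  simp only [map_sub, map_smul, sub_apply, smul_apply,
    smul_eq_mul, hs x b1 b0] at h2
  have h3 : g x b0 b0 * g x b1 b1 - g x b0 b1 ^ 2 ≠ 0 := by
    intro h
    have : g x b0 b0 * (g x b0 b0 * g x b1 b1 - g x b0 b1 ^ 2) = 0 := by rw [h, mul_zero]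
    nlinarith
  exact (continuousAt_kap_param (P := ℝ) (g := fun w => g w.2) (hg.comp contDiff_snd)
    (z := (0, x)) h3).comp (f := fun y : E2 => ((0 : ℝ), y)) (by fun_prop)

end

end Crest.Agent.R216
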