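import Crest.Agent.R216.TopDefs
import Crest.Agent.R216.Jet3

/-! # Row 216, patch geometry: definitions

Goal (`Geo.lean`): `exists_geo`.  A patch is a disc in a chart with a basis `(u, v)` of the plane;
a symmetric form is `Σ_k coef u v k h • sq2 (cov u v k)`.  Each patch gives three steps on nested
discs whose boundary circles lie in a thin collar `Col w m`. -/

set_option autoImplicit false
open Set Filter Metric Function
open scoped ContDiff RealInnerProductSpace Topology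

noncomputable section
namespace Crest.Agent.R216

/-- the covector `w ↦ det2 w v / det2 u v` -/
def cv (u v : E2) : E2 →L[ℝ] ℝ :=
  (det2 u v)⁻¹ • (v 1 • (EuclideanSpace.proj (0 : Fin 2) : E2 →L[ℝ] ℝ)
    - v 0 • (EuclideanSpace.proj (1 : Fin 2) : E2 →L[ℝ] ℝ))

/-- the three covectors of a basis -/
def cov (u v : E2) : Fin 3 → (E2 →L[ℝ] ℝ) := ![cv u v, cv v u, cv u v + cv v u]

/-- their kernels -/
def dir (u v : E2) : Fin 3 → E2 := ![v, u, u - v]

/-- vectors on which they take the value one -/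
def esv (u v : E2) : Fin 3 → E2 := ![u, v, u]

/-- the coefficients of a symmetric form -/
def coef (u v : E2) (k : Fin 3) (h : Bil) : ℝ := ![h u u - h u v, h v v - h u v, h u v] k

/-- first derivative of `F + u • n` in terms of the jet of `u` -/
def jL (F n : E2 → E4) (x : E2) (u₀ : ℝ) (u₁ : E2 →L[ℝ] ℝ) : E2 →L[ℝ] E4 :=
  fderiv ℝ F x + u₁.smulRight (n x) + u₀ • fderiv ℝ n x

/-- second derivative of `F + u • n` in terms of the jet of `u` -/
def jQ (F n : E2 → E4) (x : E2) (u₀ : ℝ) (u₁ : E2 →L[ℝ] ℝ) (u₂ : Bil) (v w : E2) : E4 :=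
  d2 F x v w + u₁ v • fderiv ℝ n x w + u₁ w • fderiv ℝ n x v + u₀ • d2 n x v w + u₂ v w • n x

/-- patches -/
structure GPat {M : Type*} [TopologicalSpace M] (A : Atl E2 M) where
  N : ℕ
  ch : Fin N → A.ι
  c : Fin N → E2
  R : Fin N → ℝ
  u : Fin N → E2
  v : Fin N → E2

namespace GPat

variable {M : Type*} [TopologicalSpace M] {A : Atl E2 M} (P : GPat A)

/-- closed disc -/
def Dsc (m : Fin P.N) : Set M := A.p (P.ch m) '' closedBall (P.c m) (P.R m)

/-- open core -/
def Core (w : ℝ) (m : Fin P.N) : Set M := A.p (P.ch m) '' ball (P.c m) (P.R m - w)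

/-- collar of width `w` (the boundary circle for `w = 0`) -/
def Col (w : ℝ) (m : Fin P.N) : Set M :=
  A.p (P.ch m) '' (closedBall (P.c m) (P.R m) \ ball (P.c m) (P.R m - w))

/-- the coefficients of `h` are positive on the discs -/
def Pos (h : A.ι → E2 → Bil) : Prop :=
  ∀ m k, ∀ x ∈ closedBall (P.c m) (P.R m), 0 < coef (P.u m) (P.v m) k (h (P.ch m) x)

/-- basic requirements -/
structure Ok (w : ℝ) : Prop where
  w_pos : 0 < w
  w_lt : ∀ m, w < P.R m
  sub : ∀ m, closedBall (P.c m) (P.R m) ⊆ ball 0 (3 / 2)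
  det : ∀ m, det2 (P.u m) (P.v m) ≠ 0
  cover : ∀ y, ∃ m, y ∈ P.Core w m

/-- general position on the intersections of two collars -/
structure Gen (w : ℝ) : Prop where
  triple : ∀ m p q, m ≠ p → m ≠ q → p ≠ q → ∀ y ∈ P.Col w m, y ∈ P.Col w p → y ∉ P.Col w q
  tr : ∀ m p, m ≠ p → ∀ x, A.p (P.ch m) x ∈ P.Col w m → A.p (P.ch m) x ∈ P.Col w p →
    ∀ k, ⟪x - P.c m, dir (P.u m) (P.v m) k⟫ ≠ 0
  gen : ∀ m p, m ≠ p → ∀ q q', q ≠ q' → ∀ x ∈ closedBall (P.c q) (P.R q),
    A.p (P.ch q) x ∈ P.Col w m → A.p (P.ch q) x ∈ P.Col w p → A.p (P.ch q) x ∈ P.Dsc q' →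
    ∀ k k', cov (P.u q) (P.v q) k
      (A.vec (P.ch q') (dir (P.u q') (P.v q') k') (P.ch q) x) ≠ 0

/-- patch of step `j` (`j = kx j + 3 * ix j`) -/
def ix (j : Fin (P.N * 3)) : Fin P.N := (finProdFinEquiv.symm j).1

/-- direction of step `j` -/
def kx (j : Fin (P.N * 3)) : Fin 3 := (finProdFinEquiv.symm j).2

/-- radius of step `j` -/
def rad (w : ℝ) (j : Fin (P.N * 3)) : ℝ := P.R (P.ix j) - (P.kx j : ℕ) * (w / 4)

/-- the part of circle `j` on which a later step is active, outside the cores of later patches -/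
def Bad (w : ℝ) (j : Fin (P.N * 3)) : Set E2 :=
  {x | x ∈ sphere (P.c (P.ix j)) (P.rad w j) ∧
    (∃ i, j < i ∧ A.p (P.ch (P.ix j)) x ∈
      A.p (P.ch (P.ix i)) '' closedBall (P.c (P.ix i)) (P.rad w i)) ∧
    ∀ p, P.ix j < p → A.p (P.ch (P.ix j)) x ∉ P.Core w p}

end GPat

end Crest.Agent.R216
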