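import Crest.Agent.R216.GeoDefs

/-! # Row 216, patch geometry: jets of normal perturbations -/

set_option autoImplicit false
open Set Filter Metric Function
open scoped ContDiff RealInnerProductSpace Topology

noncomputable section
namespace Crest.Agent.R216

theorem geof2_disc {a b c : ℝ} (h : ∀ s t : ℝ, 0 ≤ a * s ^ 2 + 2 * b * s * t + c * t ^ 2) :
    0 ≤ a ∧ 0 ≤ c ∧ b ^ 2 ≤ a * c := by
  refine ⟨by simpa using h 1 0, by simpa using h 0 1, ?_⟩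
  have h1 := discrim_le_zero (a := a) (b := 2 * b) (c := c) (fun x => by
    have := h x 1
    nlinarith)
  rw [discrim] at h1
  nlinarith

theorem geof2_mid {a b c a' b' c' : ℝ} (ha : 0 ≤ a) (hc : 0 ≤ c) (h : b ^ 2 ≤ a * c)
    (ha' : 0 ≤ a') (hc' : 0 ≤ c') (h' : b' ^ 2 ≤ a' * c') : 2 * b * b' ≤ a * c' + c * a' := by
  apply le_trans (le_abs_self _)
  apply abs_le_of_sq_le_sq' _ (by positivity) |> abs_le.2
  have h1 : b ^ 2 * b' ^ 2 ≤ (a * c) * (a' * c') :=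
    mul_le_mul h h' (sq_nonneg _) (by positivity)
  nlinarith [sq_nonneg (a * c' - c * a')]

theorem geof2_norm_sq (s t : ℝ) : ‖s • b0 + t • b1‖ ^ 2 = s ^ 2 + t ^ 2 := by
  rw [EuclideanSpace.norm_sq_eq]
  simp [b0, b1, Fin.sum_univ_two]

theorem geof2_split (L : E2 →L[ℝ] E4) (Q : E2 →L[ℝ] E2 →L[ℝ] E4) (P : Bil) (n : E4) (v w : E2) :
    IIj L Q v w = nproj (L b0) (L b1) (Q v w - P v w • n) + P v w • nproj (L b0) (L b1) n := by
  rw [← nproj_smul, ← nproj_add, IIj]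
  simp

/-- With `n' = nproj (L b0) (L b1) n`: `⟪IIj L Q v v, n'⟫ = ⟪Q v v, n'⟫ =
⟪Q v v - P v v • n, n'⟫ + P v v * ‖n'‖²` (`inner_nproj_of_orth`, `⟪n, n'⟫ = ‖n'‖²`). -/
theorem IIj_ne_zero {L : E2 →L[ℝ] E4} (hL : Injective L) {Q : E2 →L[ℝ] E2 →L[ℝ] E4} {P : Bil}
    (hP : ∀ v, 0 ≤ P v v) {n : E4} {κ : ℝ} (hκ : 0 < κ)
    (h : ∀ v, κ * ‖v‖ ^ 2 ≤ ⟪Q v v - P v v • n, nproj (L b0) (L b1) n⟫) {v : E2} (hv : v ≠ 0) :
    IIj L Q v v ≠ 0 := by
  have hg : g2 (L b0) (L b1) ≠ 0 := ((g2_pos_iff L).2 hL).ne'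
  have h1 := inner_nproj_left hg n
  have h2 := inner_nproj_right hg n
  intro h0
  have e : ⟪IIj L Q v v, nproj (L b0) (L b1) n⟫ = 0 := by rw [h0, inner_zero_left]
  rw [geof2_split L Q P n, inner_add_left, inner_nproj_of_orth h1 h2, real_inner_smul_left,
    real_inner_self_eq_norm_sq] at e
  have h3 := h v
  have h4 : 0 < κ * ‖v‖ ^ 2 := by
    have := norm_pos_iff.2 hv
    positivity
  have h5 : 0 ≤ P v v * ‖nproj (L b0) (L b1) n‖ ^ 2 := mul_nonneg (hP v) (sq_nonneg _)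
  linarith

/-- Write `II v w = B v w + P v w • n'` with `B v w = nproj (Q v w - P v w • n)`, `‖B‖ ≤ C` on the
basis vectors (`norm_nproj_le`), `q v w = ⟪B v w, n'⟫`.  The Gauss expression is
`(⟪B₀₀, B₁₁⟫ - ‖B₀₁‖²) + (P₀₀ q₁₁ + P₁₁ q₀₀ - 2 P₀₁ q₀₁) + ‖n'‖² (P₀₀ P₁₁ - P₀₁²)`.  The first
bracket is `≥ - 2 C²`, the last `≥ 0`, and with `q = κ I + q'`, `q'` positive semidefinite
(discriminant, test with `v = s • b0 + t • b1`), the middle one is `≥ κ (P₀₀ + P₁₁)`. -/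
theorem gauss_pos {L : E2 →L[ℝ] E4} (hL : Injective L) {Q : E2 →L[ℝ] E2 →L[ℝ] E4}
    (hQ : ∀ v w, Q v w = Q w v) {P : Bil} (hPs : ∀ v w, P v w = P w v) (hP : ∀ v, 0 ≤ P v v)
    {n : E4} {κ C : ℝ} (hκ : 0 < κ)
    (h : ∀ v, κ * ‖v‖ ^ 2 ≤ ⟪Q v v - P v v • n, nproj (L b0) (L b1) n⟫)
    (hC : ∀ v w, ‖Q v w - P v w • n‖ ≤ C * ‖v‖ * ‖w‖) (hΛ : 2 * C ^ 2 < κ * (P b0 b0 + P b1 b1)) :
    0 < ⟪IIj L Q b0 b0, IIj L Q b1 b1⟫ - ‖IIj L Q b0 b1‖ ^ 2 := by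
  have hg : g2 (L b0) (L b1) ≠ 0 := ((g2_pos_iff L).2 hL).ne'
  have h1 := inner_nproj_left hg n
  have h2 := inner_nproj_right hg n
  rw [geof2_split L Q P n b0 b0, geof2_split L Q P n b1 b1, geof2_split L Q P n b0 b1]
  set n' := nproj (L b0) (L b1) n with hn'
  have hB : ∀ v w : E2, ‖v‖ = 1 → ‖w‖ = 1 → ‖nproj (L b0) (L b1) (Q v w - P v w • n)‖ ≤ C := by
    intro v w hv hw
    have := (norm_nproj_le hg _).trans (hC v w)
    rwa [hv, hw, mul_one, mul_one] at this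
  have hq : ∀ v w : E2, ⟪nproj (L b0) (L b1) (Q v w - P v w • n), n'⟫ =
      ⟪Q v w - P v w • n, n'⟫ := fun v w => inner_nproj_of_orth h1 h2 _
  have hB00 := hB b0 b0 norm_b0 norm_b0
  have hB11 := hB b1 b1 norm_b1 norm_b1
  have hB01 := hB b0 b1 norm_b0 norm_b1
  have hq00 := hq b0 b0
  have hq11 := hq b1 b1
  have hq01 := hq b0 b1
  obtain ⟨hP0, hP1, hP2⟩ := geof2_disc (a := P b0 b0) (b := P b0 b1) (c := P b1 b1) (fun s t => by
    have := hP (s • b0 + t • b1)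
    simp only [map_add, map_smul, _root_.add_apply, _root_.smul_apply, smul_eq_mul,
      hPs b1 b0] at this
    nlinarith)
  obtain ⟨hq0, hq1, hq2⟩ := geof2_disc (a := ⟪Q b0 b0 - P b0 b0 • n, n'⟫ - κ)
    (b := ⟪Q b0 b1 - P b0 b1 • n, n'⟫) (c := ⟪Q b1 b1 - P b1 b1 • n, n'⟫ - κ) (fun s t => by
    have := h (s • b0 + t • b1)
    rw [geof2_norm_sq] at this
    simp only [map_add, map_smul, _root_.add_apply, _root_.smul_apply, smul_eq_mul,
      hPs b1 b0, hQ b1 b0, inner_sub_left, inner_add_left, real_inner_smul_left] at this ⊢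
    nlinarith)
  have hm := geof2_mid hP0 hP1 hP2 hq0 hq1 hq2
  rw [← hq00, ← hq11, ← hq01] at hm
  generalize nproj (L b0) (L b1) (Q b0 b0 - P b0 b0 • n) = B00 at *
  generalize nproj (L b0) (L b1) (Q b1 b1 - P b1 b1 • n) = B11 at *
  generalize nproj (L b0) (L b1) (Q b0 b1 - P b0 b1 • n) = B01 at *
  have hC0 : 0 ≤ C := (norm_nonneg _).trans hB00
  have e1 : -(C ^ 2) ≤ ⟪B00, B11⟫ := by
    have := abs_real_inner_le_norm B00 B11
    have h3 : ‖B00‖ * ‖B11‖ ≤ C * C := mul_le_mul hB00 hB11 (norm_nonneg _) hC0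
    have := neg_abs_le ⟪B00, B11⟫
    nlinarith
  have e2 : ‖B01‖ ^ 2 ≤ C ^ 2 := pow_le_pow_left₀ (norm_nonneg _) hB01 2
  have e3 : 0 ≤ ‖n'‖ ^ 2 * (P b0 b0 * P b1 b1 - P b0 b1 ^ 2) :=
    mul_nonneg (sq_nonneg _) (sub_nonneg.2 hP2)
  rw [norm_add_sq_real, norm_smul, mul_pow, Real.norm_eq_abs, sq_abs]
  simp only [inner_add_left, inner_add_right, real_inner_smul_left, real_inner_smul_right,
    real_inner_self_eq_norm_sq]
  rw [real_inner_comm B11 n']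
  nlinarith

theorem fderiv_add_smul {F n : E2 → E4} {u : E2 → ℝ} (hF : ContDiff ℝ ∞ F) (hn : ContDiff ℝ ∞ n)
    (hu : ContDiff ℝ ∞ u) (x : E2) :
    fderiv ℝ (fun y => F y + u y • n y) x = jL F n x (u x) (fderiv ℝ u x) := by
  have h1 : HasFDerivAt F (fderiv ℝ F x) x := (hF.differentiable (by simp) x).hasFDerivAt
  have h2 : HasFDerivAt n (fderiv ℝ n x) x := (hn.differentiable (by simp) x).hasFDerivAt
  have h3 : HasFDerivAt u (fderiv ℝ u x) x := (hu.differentiable (by simp) x).hasFDerivAt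
  rw [(h1.fun_add (h3.fun_smul h2)).fderiv, jL]
  abel

/-- `d2_apply`, `fderiv_add_smul`, product rule -/
theorem d2_add_smul {F n : E2 → E4} {u : E2 → ℝ} (hF : ContDiff ℝ ∞ F) (hn : ContDiff ℝ ∞ n)
    (hu : ContDiff ℝ ∞ u) (x v w : E2) :
    d2 (fun y => F y + u y • n y) x v w = jQ F n x (u x) (fderiv ℝ u x) (d2 u x) v w := by
  have hG : ContDiff ℝ ∞ (fun y => F y + u y • n y) := hF.add (hu.smul hn)
  rw [d2_apply hG.contDiffAt]
  have e : (fun y => fderiv ℝ (fun y => F y + u y • n y) y w) =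
      fun y => fderiv ℝ F y w + fderiv ℝ u y w • n y + u y • fderiv ℝ n y w := by
    funext y
    rw [fderiv_add_smul hF hn hu, jL]
    simp
  have c1 : ContDiff ℝ ∞ (fun y => fderiv ℝ F y w) :=
    (hF.fderiv_right (m := ∞) (by simp)).clm_apply contDiff_const
  have c2 : ContDiff ℝ ∞ (fun y => fderiv ℝ n y w) :=
    (hn.fderiv_right (m := ∞) (by simp)).clm_apply contDiff_const
  have c3 : ContDiff ℝ ∞ (fun y => fderiv ℝ u y w) :=
    (hu.fderiv_right (m := ∞) (by simp)).clm_apply contDiff_const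
  have h1 := (c1.differentiable (by simp) x).hasFDerivAt
  have h2 := (c2.differentiable (by simp) x).hasFDerivAt
  have h3 := (c3.differentiable (by simp) x).hasFDerivAt
  have h4 : HasFDerivAt n (fderiv ℝ n x) x := (hn.differentiable (by simp) x).hasFDerivAt
  have h5 : HasFDerivAt u (fderiv ℝ u x) x := (hu.differentiable (by simp) x).hasFDerivAt
  rw [e, ((h1.fun_add (h3.fun_smul h4)).fun_add (h5.fun_smul h2)).fderiv, jQ,
    d2_apply hF.contDiffAt, d2_apply hn.contDiffAt, d2_apply hu.contDiffAt]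
  simp only [_root_.add_apply, _root_.smul_apply, ContinuousLinearMap.smulRight_apply]
  abel

/-- The ridge function `s = √(σ² + η² D²)`: `ds = (η² D / s) • dD`,
`d2 s = (η² σ² / s³) • dD ⊗ dD + (η² D / s) • d2 D`, and `η |D| ≤ s`. -/
theorem ridge_jet {D : E2 → ℝ} (hD : ContDiff ℝ ∞ D) {σ η : ℝ} (hσ : 0 < σ) (hη : 0 ≤ η) (x : E2) :
    |√(σ ^ 2 + η ^ 2 * D x ^ 2)| ≤ σ + η * |D x| ∧
    ‖fderiv ℝ (fun y => √(σ ^ 2 + η ^ 2 * D y ^ 2)) x‖ ≤ η * ‖fderiv ℝ D x‖ ∧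
    ∃ ρ τ : ℝ, 0 ≤ ρ ∧ |τ| ≤ η ∧ (D x = 0 → ρ = η ^ 2 / σ) ∧
      d2 (fun y => √(σ ^ 2 + η ^ 2 * D y ^ 2)) x = ρ • sq2 (fderiv ℝ D x) + τ • d2 D x := by
  have hpos : ∀ y, 0 < σ ^ 2 + η ^ 2 * D y ^ 2 := fun y => by positivity
  have hs : ∀ y, 0 < √(σ ^ 2 + η ^ 2 * D y ^ 2) := fun y => Real.sqrt_pos.2 (hpos y)
  have hd : ∀ y, HasFDerivAt D (fderiv ℝ D y) y := fun y =>
    (hD.differentiable (by simp) y).hasFDerivAt
  have hsd : ∀ y, HasFDerivAt (fun y => √(σ ^ 2 + η ^ 2 * D y ^ 2))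
      ((η ^ 2 * D y / √(σ ^ 2 + η ^ 2 * D y ^ 2)) • fderiv ℝ D y) y := by
    intro y
    have h1 := ((((hd y).pow 2).const_mul (η ^ 2)).const_add (σ ^ 2)).sqrt (hpos y).ne'
    refine h1.congr_fderiv ?_
    ext v
    have := (hs y).ne'
    simp only [_root_.smul_apply, smul_eq_mul, nsmul_eq_mul]
    field_simp
    push_cast
    ring
  have hle : ∀ y, η * |D y| ≤ √(σ ^ 2 + η ^ 2 * D y ^ 2) := by
    intro y
    apply Real.le_sqrt_of_sq_le
    rw [mul_pow, sq_abs]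
    nlinarith [sq_nonneg σ]
  have hτ : |η ^ 2 * D x / √(σ ^ 2 + η ^ 2 * D x ^ 2)| ≤ η := by
    rw [abs_div, abs_of_pos (hs x), div_le_iff₀ (hs x), abs_mul, abs_of_nonneg (sq_nonneg η)]
    have := mul_le_mul_of_nonneg_left (hle x) hη
    nlinarith
  refine ⟨?_, ?_, η ^ 2 * σ ^ 2 / √(σ ^ 2 + η ^ 2 * D x ^ 2) ^ 3,
    η ^ 2 * D x / √(σ ^ 2 + η ^ 2 * D x ^ 2), by positivity, hτ, ?_, ?_⟩
  · rw [abs_of_pos (hs x)]
    apply Real.sqrt_le_iff.2 ⟨by positivity, ?_⟩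
    have : 0 ≤ σ * (η * |D x|) := by positivity
    have h2 : (η * |D x|) ^ 2 = η ^ 2 * D x ^ 2 := by rw [mul_pow, sq_abs]
    nlinarith
  · rw [(hsd x).fderiv, norm_smul, Real.norm_eq_abs]
    exact mul_le_mul_of_nonneg_right hτ (norm_nonneg _)
  · intro h0
    rw [h0]
    simp only [ne_eq, OfNat.ofNat_ne_zero, not_false_eq_true, zero_pow, mul_zero, add_zero]
    rw [Real.sqrt_sq hσ.le]
    field_simp
  · have e : fderiv ℝ (fun y => √(σ ^ 2 + η ^ 2 * D y ^ 2)) =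
        fun y => (η ^ 2 * D y * (√(σ ^ 2 + η ^ 2 * D y ^ 2))⁻¹) • fderiv ℝ D y := by
      funext y
      rw [(hsd y).fderiv, div_eq_mul_inv]
    have h1 : HasFDerivAt (fderiv ℝ D) (d2 D x) x :=
      ((hD.fderiv_right (m := ∞) (by simp)).differentiable (by simp) x).hasFDerivAt
    have h2 := ((hd x).const_mul (η ^ 2)).fun_mul
      ((hasDerivAt_inv (hs x).ne').comp_hasFDerivAt x (hsd x))
    have h3 := h2.fun_smul h1
    have h4 : d2 (fun y => √(σ ^ 2 + η ^ 2 * D y ^ 2)) x = _ :=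
      (congrArg (fun f => fderiv ℝ f x) e).trans h3.fderiv
    rw [h4]
    ext v w
    have hsq : √(σ ^ 2 + η ^ 2 * D x ^ 2) ^ 2 = σ ^ 2 + η ^ 2 * D x ^ 2 :=
      Real.sq_sqrt (hpos x).le
    have hne := (hs x).ne'
    simp only [_root_.add_apply, _root_.smul_apply, ContinuousLinearMap.smulRight_apply,
      smul_eq_mul, sq2_apply, Function.comp_apply]
    generalize √(σ ^ 2 + η ^ 2 * D x ^ 2) = s at *
    have e2 : σ ^ 2 = s ^ 2 - η ^ 2 * D x ^ 2 := by linarith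
    rw [e2]
    field_simp
    ring

end Crest.Agent.R216
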