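import Crest.Agent.R216.GeoDefs

/-! # Row 216, patch geometry: uniformity for small normal perturbations -/

set_option autoImplicit false
open Set Filter Metric Function
open scoped ContDiff RealInnerProductSpace Topology

noncomputable section
namespace Crest.Agent.R216

theorem GeoF3_smul (F n : E2 → E4) (x : E2) (u₀ : ℝ) (u₁ : E2 →L[ℝ] ℝ) (E : Bil) (c : ℝ)
    (v : E2) : jQ F n x u₀ u₁ E (c • v) (c • v) = c ^ 2 • jQ F n x u₀ u₁ E v v := by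
  simp only [jQ, map_smul, smul_apply, smul_eq_mul]
  module

theorem GeoF3_bound (F n : E2 → E4) (x : E2) {u₀ : ℝ} {u₁ : E2 →L[ℝ] ℝ} {E : Bil} (h0 : |u₀| ≤ 1)
    (h1 : ‖u₁‖ ≤ 1) (h2 : ‖E‖ ≤ 1) (v w : E2) : ‖jQ F n x u₀ u₁ E v w‖ ≤
      (‖d2 F x‖ + 2 * ‖fderiv ℝ n x‖ + ‖d2 n x‖ + ‖n x‖) * ‖v‖ * ‖w‖ := by
  have a1 := (d2 F x).le_opNorm₂ v w
  have b : ∀ v w : E2, ‖u₁ v • fderiv ℝ n x w‖ ≤ ‖fderiv ℝ n x‖ * ‖v‖ * ‖w‖ := fun v w => by
    rw [norm_smul]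
    calc _ ≤ 1 * ‖v‖ * (‖fderiv ℝ n x‖ * ‖w‖) :=
          mul_le_mul (u₁.le_of_opNorm_le h1 v) ((fderiv ℝ n x).le_opNorm w) (norm_nonneg _)
            (by positivity)
      _ = _ := by ring
  have a2 := b v w
  have a3 := b w v
  have a4 : ‖u₀ • d2 n x v w‖ ≤ ‖d2 n x‖ * ‖v‖ * ‖w‖ := by
    rw [norm_smul]
    calc _ ≤ 1 * (‖d2 n x‖ * ‖v‖ * ‖w‖) :=
          mul_le_mul h0 ((d2 n x).le_opNorm₂ v w) (norm_nonneg _) zero_le_one
      _ = _ := one_mul _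
  have a5 : ‖E v w • n x‖ ≤ ‖n x‖ * ‖v‖ * ‖w‖ := by
    rw [norm_smul]
    calc _ ≤ 1 * ‖v‖ * ‖w‖ * ‖n x‖ := by
          gcongr
          exact (E.le_opNorm₂ v w).trans (by gcongr)
      _ = _ := by ring
  unfold jQ
  have c1 := norm_add_le (d2 F x v w + u₁ v • fderiv ℝ n x w + u₁ w • fderiv ℝ n x v +
    u₀ • d2 n x v w) (E v w • n x)
  have c2 := norm_add_le (d2 F x v w + u₁ v • fderiv ℝ n x w + u₁ w • fderiv ℝ n x v)
    (u₀ • d2 n x v w)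
  have c3 := norm_add_le (d2 F x v w + u₁ v • fderiv ℝ n x w) (u₁ w • fderiv ℝ n x v)
  have c4 := norm_add_le (d2 F x v w) (u₁ v • fderiv ℝ n x w)
  nlinarith

/-- Tube lemma (`IsCompact.eventually_forall_of_forall_eventually`) in the parameter
`z = (u₀, u₁, E) → 0`, on the compact sets `K` and `K ×ˢ sphere 0 1`.  At `z = 0`, `jL = dF`,
`nproj .. n = n` (`nproj_of_orth`), `⟪d2 F v v, n⟫ ≥ 2 κ` on `K ×ˢ sphere 0 1`
(`continuousAt_nproj`, `g2_pos_iff`; `jQ` is homogeneous of degree two in `v`).  The bound `C` is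
elementary for `δ ≤ 1`. -/
theorem jet_tube {F n : E2 → E4} (hF : ContDiff ℝ ∞ F) (hn : ContDiff ℝ ∞ n) {K : Set E2}
    (hK : IsCompact K) (hi : ∀ x, Injective (fderiv ℝ F x))
    (ho : ∀ x v, ⟪fderiv ℝ F x v, n x⟫ = 0) (hq : ∀ x v, v ≠ 0 → 0 < ⟪d2 F x v v, n x⟫) {ε : ℝ}
    (hε : 0 < ε) :
    ∃ δ > (0 : ℝ), ∃ κ > (0 : ℝ), ∃ C : ℝ, ∀ x ∈ K, ∀ (u₀ : ℝ) (u₁ : E2 →L[ℝ] ℝ) (E : Bil),
      |u₀| ≤ δ → ‖u₁‖ ≤ δ → ‖E‖ ≤ δ →
      Injective (jL F n x u₀ u₁) ∧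
      (∀ v, κ * ‖v‖ ^ 2 ≤
        ⟪jQ F n x u₀ u₁ E v v, nproj (jL F n x u₀ u₁ b0) (jL F n x u₀ u₁ b1) (n x)⟫) ∧
      (∀ v w, ‖jQ F n x u₀ u₁ E v w‖ ≤ C * ‖v‖ * ‖w‖) ∧
      ‖jL F n x u₀ u₁ - fderiv ℝ F x‖ ≤ ε := by
  have cF1 : Continuous (fderiv ℝ F) := hF.continuous_fderiv (by simp)
  have cn1 : Continuous (fderiv ℝ n) := hn.continuous_fderiv (by simp)
  have cF2 := continuous_d2 hF
  have cn2 := continuous_d2 hn
  have cn := hn.continuous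
  have hK' : IsCompact (K ×ˢ sphere (0 : E2) 1) := hK.prod (isCompact_sphere 0 1)
  obtain ⟨κ, hκ, hκ'⟩ := hK'.exists_forall_le'
    (f := fun p : E2 × E2 => ⟪d2 F p.1 p.2 p.2, n p.1⟫) (a := 0)
    (Continuous.continuousOn (by fun_prop)) fun p hp => hq _ _ (ne_zero_of_mem_sphere one_ne_zero
      ⟨p.2, hp.2⟩)
  obtain ⟨C, hC⟩ := hK.bddAbove_image
    (f := fun x => ‖d2 F x‖ + 2 * ‖fderiv ℝ n x‖ + ‖d2 n x‖ + ‖n x‖)
    (Continuous.continuousOn (by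
      have n1 : Continuous fun x => ‖d2 F x‖ :=
        (continuous_norm (E := E2 →L[ℝ] E2 →L[ℝ] E4)).comp cF2
      have n2 : Continuous fun x => ‖d2 n x‖ :=
        (continuous_norm (E := E2 →L[ℝ] E2 →L[ℝ] E4)).comp cn2
      fun_prop))
  have cL : Continuous fun q : (ℝ × (E2 →L[ℝ] ℝ) × Bil) × E2 × E2 =>
      jL F n q.2.1 q.1.1 q.1.2.1 := by
    have : Continuous fun q : (ℝ × (E2 →L[ℝ] ℝ) × Bil) × E2 × E2 =>
        ContinuousLinearMap.smulRightL ℝ E2 E4 q.1.2.1 (n q.2.1) := by fun_prop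
    unfold jL
    exact ((cF1.comp (by fun_prop)).add this).add (by fun_prop)
  have cQ : Continuous fun q : (ℝ × (E2 →L[ℝ] ℝ) × Bil) × E2 × E2 =>
      jQ F n q.2.1 q.1.1 q.1.2.1 q.1.2.2 q.2.2 q.2.2 := by
    unfold jQ
    fun_prop
  have c0 := cL.clm_apply (continuous_const (y := b0))
  have c1 := cL.clm_apply (continuous_const (y := b1))
  have e0 : ∀ x, jL F n x 0 0 = fderiv ℝ F x := fun x => by
    ext v
    simp [jL]
  have key := hK'.eventually_forall_of_forall_eventually (x₀ := (0 : ℝ × (E2 →L[ℝ] ℝ) × Bil))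
    (P := fun z p => 0 < g2 (jL F n p.1 z.1 z.2.1 b0) (jL F n p.1 z.1 z.2.1 b1) ∧
      κ / 2 < ⟪jQ F n p.1 z.1 z.2.1 z.2.2 p.2 p.2,
        nproj (jL F n p.1 z.1 z.2.1 b0) (jL F n p.1 z.1 z.2.1 b1) (n p.1)⟫ ∧
      ‖jL F n p.1 z.1 z.2.1 - fderiv ℝ F p.1‖ < ε) fun p hp => by
      have g0 : 0 < g2 (jL F n p.1 0 0 b0) (jL F n p.1 0 0 b1) := by
        rw [e0]
        exact (g2_pos_iff _).2 (hi _)
      refine Eventually.and ?_ (Eventually.and ?_ ?_)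
      · refine ContinuousAt.eventually_lt continuousAt_const (Continuous.continuousAt ?_) g0
        unfold g2
        exact ((c0.inner c0).mul (c1.inner c1)).sub ((c0.inner c1).pow 2)
      · refine ContinuousAt.eventually_lt continuousAt_const (cQ.continuousAt.inner
          (continuousAt_nproj c0.continuousAt c1.continuousAt
            (Continuous.continuousAt (by fun_prop)) g0.ne')) ?_
        have := hκ' p hp
        simp only [Prod.fst_zero, Prod.snd_zero, e0]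
        rw [nproj_of_orth (ho _ _) (ho _ _)]
        simp only [jQ, zero_apply, zero_smul, add_zero]
        linarith
      · refine ContinuousAt.eventually_lt
          (Continuous.continuousAt (cL.sub (cF1.comp (by fun_prop))).norm) continuousAt_const ?_
        simpa [e0] using hε
  obtain ⟨δ, hδ, hb⟩ := (Metric.eventually_nhds_iff (α := ℝ × (E2 →L[ℝ] ℝ) × Bil)).1 key
  refine ⟨min (δ / 2) 1, by positivity, κ / 2, by positivity, C,
    fun x hx u₀ u₁ E h0 h1 h2 => ?_⟩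
  have hz : dist (u₀, u₁, E) 0 < δ := by
    have : min (δ / 2) 1 < δ := (min_le_left _ _).trans_lt (half_lt_self hδ)
    have d0 : dist u₀ 0 = |u₀| := dist_zero_right u₀
    have d1 : dist u₁ 0 = ‖u₁‖ := dist_zero_right u₁
    have d2 : dist E 0 = ‖E‖ := dist_zero_right (E := Bil) E
    exact max_lt ((d0.trans_le h0).trans_lt this)
      (max_lt ((d1.trans_le h1).trans_lt this) ((d2.trans_le h2).trans_lt this))
  have hb0 := hb hz (x, b0) ⟨hx, by simp [norm_b0]⟩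
  refine ⟨(g2_pos_iff _).1 hb0.1, fun v => ?_, fun v w => ?_, hb0.2.2.le⟩
  · by_cases hv : v = 0
    · subst hv
      simp [jQ]
    · have hn0 : ‖v‖ ≠ 0 := norm_ne_zero_iff.2 hv
      have h3 := (hb hz (x, ‖v‖⁻¹ • v) ⟨hx, by simp [norm_smul, hn0]⟩).2.1
      have e : v = ‖v‖ • ‖v‖⁻¹ • v := by rw [smul_inv_smul₀ hn0]
      have e2 := GeoF3_smul F n x u₀ u₁ E ‖v‖ (‖v‖⁻¹ • v)
      rw [← e] at e2
      rw [e2, real_inner_smul_left, mul_comm]
      exact mul_le_mul_of_nonneg_left h3.le (sq_nonneg _)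
  · refine (GeoF3_bound F n x (h0.trans (min_le_right _ _)) (h1.trans (min_le_right _ _))
      (h2.trans (min_le_right _ _)) v w).trans ?_
    gcongr
    exact hC ⟨x, hx, rfl⟩

end Crest.Agent.R216
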