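import Crest.Agent.R216.TopDefs

/-! # Row 216, topology: the easy Sard theorem -/

set_option autoImplicit false
open Set Filter Metric Function
open scoped ContDiff RealInnerProductSpace Topology

noncomputable section
namespace Crest.Agent.R216

open MeasureTheory in
/-- Easy Sard theorem.  Choose a surjective continuous linear map `π : F →L E` (exists as
`finrank E ≤ finrank F`), and apply `addHaar_image_eq_zero_of_det_fderivWithin_eq_zero` to `f ∘ π`
on `π ⁻¹' s`: the derivative `f' ∘ π` is not surjective, so its determinant vanishes. -/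
theorem sard_easy {E F : Type*} [NormedAddCommGroup E] [NormedSpace ℝ E] [FiniteDimensional ℝ E]
    [NormedAddCommGroup F] [NormedSpace ℝ F] [FiniteDimensional ℝ F] [MeasurableSpace F]
    [BorelSpace F] (μ : Measure F) [μ.IsAddHaarMeasure]
    (hd : Module.finrank ℝ E ≤ Module.finrank ℝ F) {f : E → F} {s : Set E}
    (hf : ∀ x ∈ s, DifferentiableAt ℝ f x) (hs : ∀ x ∈ s, ¬ Surjective (fderiv ℝ f x)) :
    μ (f '' s) = 0 := by
  obtain ⟨g, hg⟩ := finrank_le_iff_exists_linearMap.1 hd
  obtain ⟨q, hq⟩ := g.exists_leftInverse_of_injective (LinearMap.ker_eq_bot.2 hg)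
  have hsurj : Surjective q := fun x => ⟨g x, LinearMap.congr_fun hq x⟩
  let Q : F →L[ℝ] E := LinearMap.toContinuousLinearMap q
  have e : f '' s = (f ∘ Q) '' (Q ⁻¹' s) := by
    rw [image_comp, image_preimage_eq s (f := Q) hsurj]
  rw [e]
  refine addHaar_image_eq_zero_of_det_fderivWithin_eq_zero μ
    (f' := fun y => (fderiv ℝ f (Q y)).comp Q)
    (fun y hy => ((hf _ hy).hasFDerivAt.comp y Q.hasFDerivAt).hasFDerivWithinAt) fun y hy => ?_
  refine LinearMap.det_eq_zero_iff_ker_ne_bot.2 fun h => hs _ hy ?_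
  exact Surjective.of_comp (g := Q)
    (LinearMap.injective_iff_surjective.1 (LinearMap.ker_eq_bot.1 h))

open MeasureTheory in
/-- in smaller dimension the derivative is never surjective -/
theorem null_image {E F : Type*} [NormedAddCommGroup E] [NormedSpace ℝ E] [FiniteDimensional ℝ E]
    [NormedAddCommGroup F] [NormedSpace ℝ F] [FiniteDimensional ℝ F] [MeasurableSpace F]
    [BorelSpace F] (μ : Measure F) [μ.IsAddHaarMeasure]
    (hd : Module.finrank ℝ E < Module.finrank ℝ F) {f : E → F} {s : Set E}
    (hf : ∀ x ∈ s, DifferentiableAt ℝ f x) : μ (f '' s) = 0 := by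
  exact sard_easy μ hd.le hf fun x _ h => hd.not_ge
    (LinearMap.finrank_le_finrank_of_surjective (f := (fderiv ℝ f x : E →ₗ[ℝ] F)) h)

/-- A zero with injective derivative is isolated
(`HasFDerivAt.eventually_ne`, an injective linear map on a finite-dimensional space is
antilipschitz). -/
theorem isolated_zero {E F : Type*} [NormedAddCommGroup E] [NormedSpace ℝ E]
    [FiniteDimensional ℝ E] [NormedAddCommGroup F] [NormedSpace ℝ F] {f : E → F} {x : E}
    (hf : DifferentiableAt ℝ f x) (hi : Injective (fderiv ℝ f x)) :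
    ∀ᶠ y in 𝓝[≠] x, f y ≠ f x := by
  obtain ⟨K, -, hK⟩ := (fderiv ℝ f x : E →ₗ[ℝ] F).exists_antilipschitzWith
    (LinearMap.ker_eq_bot.2 hi)
  exact hf.hasFDerivAt.eventually_ne ⟨K, hK⟩

namespace Atl

variable {V : Type} [NormedAddCommGroup V] [NormedSpace ℝ V] {X : Type*} [TopologicalSpace X]

/-- A set whose trace in every chart is closed and discrete is finite: the open sets
`p a '' U` (`U` a neighbourhood of `x` containing at most the point `x` of the trace) cover `X`. -/
theorem finite_of_isolated [CompactSpace X] (A : Atl V X) {S : Set X}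
    (h : ∀ a x, ∀ᶠ z in 𝓝[≠] x, A.p a z ∉ S) : S.Finite := by
  by_contra hS
  obtain ⟨y, hy⟩ := Set.Infinite.exists_accPt_principal hS
  obtain ⟨a, ha, -⟩ := A.cover y
  rw [accPt_iff_frequently, ← A.p_e a ha,
    ← (A.isOpenMap_p a).map_nhds_eq (A.continuous_p a).continuousAt, frequently_map] at hy
  obtain ⟨z, ⟨h1, h2⟩, h3⟩ := (hy.and_eventually (eventually_nhdsWithin_iff.1 (h a _))).exists
  exact h3 (fun e => h1 (congrArg (A.p a) e)) h2

theorem isPreconnected_source (A : Atl V X) (a : A.ι) : IsPreconnected (A.e a).source := by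
  have e : (A.e a).source = range (A.p a) :=
    Subset.antisymm (fun y hy => ⟨_, A.p_e a hy⟩) (range_subset_iff.2 (A.p_mem a))
  rw [e]
  exact isPreconnected_range (A.continuous_p a)

theorem source_eq_range (A : Atl V X) (a : A.ι) : (A.e a).source = range (A.p a) := by
  exact Subset.antisymm (fun y hy => ⟨_, A.p_e a hy⟩) (range_subset_iff.2 (A.p_mem a))

/-- chart domains are connected -/
theorem source_subset_or_disjoint (A : Atl V X) (a : A.ι) {C : Set X} (hC : IsClopen C) :
    (A.e a).source ⊆ C ∨ Disjoint (A.e a).source C := by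
  exact (disjoint_or_subset_of_isClopen (A.isPreconnected_source a) hC).symm

/-- components are open: every point has a connected open neighbourhood -/
theorem isClopen_connectedComponent (A : Atl V X) (y : X) : IsClopen (connectedComponent y) := by
  refine ⟨isClosed_connectedComponent, isOpen_iff_mem_nhds.2 fun z hz => ?_⟩
  obtain ⟨a, ha, -⟩ := A.cover z
  rw [connectedComponent_eq hz]
  exact mem_of_superset ((A.e a).open_source.mem_nhds ha)
    ((A.isPreconnected_source a).subset_connectedComponent ha)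

/-- Smooth Urysohn lemma.  With the partition of unity `χ a` of `exists_pou` put
`θ = Σ push a (χ a * κ a)`; choose an open `U'` with `K ⊆ U' ⊆ closure U' ⊆ U` (compact Hausdorff
spaces are normal) and `κ a : V → ℝ` smooth, `= 1` on the compact set
`tsupport (χ a) ∩ (p a)⁻¹' closure U'`, with `tsupport (κ a) ⊆ (p a)⁻¹' U`
(`exists_contDiff_tsupport_subset` pointwise plus compactness, or
`exists_contMDiff_one_nhds_of_subset_interior` / `exists_smooth_zero_one_of_isClosed`). -/
theorem exists_cutoff [T2Space X] [CompactSpace X] [FiniteDimensional ℝ V] (A : Atl V X)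
    {K U : Set X} (hK : IsClosed K) (hU : IsOpen U) (hKU : K ⊆ U) :
    ∃ θ : X → ℝ, A.Sm θ ∧ (∀ y ∈ K, θ =ᶠ[𝓝 y] fun _ => 1) ∧ tsupport θ ⊆ U := by
  obtain ⟨χ, h1, h2, -, h4⟩ := A.exists_pou
  obtain ⟨U₁, o1, k1, c1⟩ := normal_exists_closure_subset hK hU hKU
  obtain ⟨U₂, o2, k2, c2⟩ := normal_exists_closure_subset isClosed_closure hU c1
  have hκ : ∀ a, ∃ κ : V → ℝ, ContDiff ℝ ∞ κ ∧ EqOn κ 0 (A.p a ⁻¹' U₂ᶜ) ∧
      EqOn κ 1 (A.p a ⁻¹' closure U₁) := fun a => by
    obtain ⟨κ, a1, a2, -⟩ := exists_contMDiffMap_zero_one_of_isClosed (n := ⊤)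
      (modelWithCornersSelf ℝ V) (o2.isClosed_compl.preimage (A.continuous_p a))
      ((isClosed_closure (s := U₁)).preimage (A.continuous_p a))
      (Disjoint.preimage _ (disjoint_compl_left_iff_subset.2 k2))
    exact ⟨κ, κ.contMDiff.contDiff, a1, a2⟩
  choose κ a0 a1 a2 using hκ
  have hc : ∀ a, HasCompactSupport (χ a) := fun a =>
    (isCompact_closedBall (0 : V) (3 / 2)).of_isClosed_subset (isClosed_tsupport _)
      ((h2 a).trans ball_subset_closedBall)
  refine ⟨fun y => ∑ a, A.push a (fun x => χ a x * κ a x) y,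
    Sm.sum _ fun a _ => A.Sm_push a ((h1 a).mul (a0 a)) (hc a).mul_right, fun y hy => ?_,
    (closure_mono fun y hy => ?_).trans c2⟩
  · filter_upwards [o1.mem_nhds (k1 hy)] with z hz
    rw [← h4 z]
    refine Finset.sum_congr rfl fun a _ => ?_
    unfold push
    split_ifs with h
    · have : κ a (A.e a z) = 1 := a2 a (by
        rw [mem_preimage, A.p_e a h]
        exact subset_closure hz)
      simp only [this, mul_one]
    · rfl
  · by_contra hy'
    refine hy (Finset.sum_eq_zero fun a _ => ?_)
    unfold push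
    split_ifs with h
    · have : κ a (A.e a y) = 0 := a1 a (by
        rw [mem_preimage, A.p_e a h]
        exact hy')
      simp only [this, mul_zero]
    · rfl

end Atl

end Crest.Agent.R216
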