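import Crest.Agent.R216.GeoA
import Crest.Agent.R216.TopS

/-! # Row 216, patch geometry: discs and generic radii -/

set_option autoImplicit false
open Set Filter Metric Function
open scoped ContDiff RealInnerProductSpace Topology

noncomputable section
namespace Crest.Agent.R216

theorem geoP1_circle (c : E2) {R : ℝ} (hR : 0 < R) :
    ∃ γ : ℝ → E2, Differentiable ℝ γ ∧ sphere c R ⊆ γ '' Icc (-Real.pi) Real.pi := by
  refine ⟨fun t => c + (R * Real.cos t) • b0 + (R * Real.sin t) • b1, by fun_prop, fun x hx => ?_⟩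
  set z : ℂ := ⟨x 0 - c 0, x 1 - c 1⟩ with hz
  have hn : ‖z‖ = R := by
    have h1 : ‖x - c‖ = R := mem_sphere_iff_norm.1 hx
    rw [EuclideanSpace.norm_eq, Fin.sum_univ_two] at h1
    rw [Complex.norm_eq_sqrt_sq_add_sq, ← h1]
    simp [hz]
  have hz0 : z ≠ 0 := fun h => by rw [h, norm_zero] at hn; linarith
  have h1 := Complex.cos_arg hz0
  have h2 := Complex.sin_arg z
  rw [hn] at h1 h2
  refine ⟨z.arg, ⟨(Complex.neg_pi_lt_arg z).le, Complex.arg_le_pi z⟩, ?_⟩
  have e1 : R * Real.cos z.arg = x 0 - c 0 := by rw [h1]; field_simp; rfl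
  have e2 : R * Real.sin z.arg = x 1 - c 1 := by rw [h2]; field_simp; rfl
  beta_reduce
  rw [e1, e2]
  ext i
  fin_cases i <;> simp [b0, b1]

namespace Atl

variable {M : Type*} [TopologicalSpace M] [T2Space M] (A : Atl E2 M)

/-- For `y` in the unit ball of chart `a`, `c = e a y`, take the basis of `exists_basis` for `h a c`
and `ρ ≤ 1/4` with positivity on `closedBall c ρ` (continuity); the open sets
`p a '' ball c (ρ / 2)` cover `M`; enumerate a finite subcover by `Fin N`. -/
theorem exists_prepat [CompactSpace M] {h : A.ι → E2 → Bil} (hh : A.Met h) :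
    ∃ P : GPat A, (∀ m, 0 < P.R m) ∧ (∀ m, closedBall (P.c m) (P.R m) ⊆ ball 0 (3 / 2)) ∧
      (∀ m, det2 (P.u m) (P.v m) ≠ 0) ∧ P.Pos h ∧
      ∀ y, ∃ m, y ∈ A.p (P.ch m) '' ball (P.c m) (P.R m / 2) := by
  have key : ∀ y : M, ∃ (a : A.ι) (c : E2) (ρ : ℝ) (u v : E2), A.p a c = y ∧ 0 < ρ ∧
      closedBall c ρ ⊆ ball 0 (3 / 2) ∧ det2 u v ≠ 0 ∧
      ∀ k, ∀ x ∈ closedBall c ρ, 0 < coef u v k (h a x) := fun y => by
    obtain ⟨a, ha, ha'⟩ := A.cover y
    obtain ⟨u, v, hd, hp⟩ := exists_basis (hh.symm a (A.e a y)) (hh.pos a (A.e a y))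
    have e1 : ∀ᶠ x in 𝓝 (A.e a y), ∀ k, 0 < coef u v k (h a x) := eventually_all.2 fun k =>
      ((continuous_coef k).comp (continuous_const.prodMk
        (continuous_const.prodMk (hh.smooth a).continuous))).continuousAt.eventually
        (lt_mem_nhds (hp k))
    have e2 : ∀ᶠ x in 𝓝 (A.e a y), x ∈ ball (0 : E2) (3 / 2) :=
      isOpen_ball.mem_nhds (mem_ball_zero_iff.2 (by linarith))
    obtain ⟨ρ, hρ, h3⟩ := nhds_basis_closedBall.eventually_iff.1 (e1.and e2)
    exact ⟨a, _, ρ, u, v, A.p_e a ha, hρ, fun x hx => (h3 hx).2, hd, fun k x hx => (h3 hx).1 k⟩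
  choose a c ρ u v h1 h2 h3 h4 h5 using key
  obtain ⟨t, ht⟩ := isCompact_univ.elim_finite_subcover
    (fun y => A.p (a y) '' ball (c y) (ρ y / 2)) (fun y => A.isOpenMap_p _ _ isOpen_ball)
    fun y _ => mem_iUnion.2 ⟨y, c y, mem_ball_self (half_pos (h2 y)), h1 y⟩
  let g : Fin t.card → M := fun m => t.equivFin.symm m
  refine ⟨⟨t.card, fun m => a (g m), fun m => c (g m), fun m => ρ (g m), fun m => u (g m),
    fun m => v (g m)⟩, fun m => h2 _, fun m => h3 _, fun m => h4 _, fun m => h5 _, fun y => ?_⟩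
  obtain ⟨y', hy', hy⟩ := mem_iUnion₂.1 (ht (mem_univ y))
  refine ⟨t.equivFin ⟨y', hy'⟩, ?_⟩
  have e : g (t.equivFin ⟨y', hy'⟩) = y' := by simp [g]
  change y ∈ A.p (a (g _)) '' ball (c (g _)) (ρ (g _) / 2)
  rwa [e]

open MeasureTheory in
/-- One-dimensional Sard.  `γ t = c + R • (cos t, sin t)`, `f t = ‖T a b (γ t) - c'‖ ^ 2` is smooth on
the open set `{γ t ∈ O a b}`.  The critical values of `f` are a null set (`sard_easy`), and so is the
set of `R' > 0` with `R' ^ 2` critical (`null` image under `sqrt`, differentiable on `(0, ∞)`; or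
apply `sard_easy` directly to `‖T a b (γ t) - c'‖` on the set where it is `≠ 0`).  For a regular
`R' > 0` the set `{t ∈ [0, 2π] | p a (γ t) ∈ p b '' sphere c' R'}` is compact (the image of the
sphere is compact, hence closed) and discrete (`isolated_zero`), hence finite. -/
theorem circle_sard (a b : A.ι) (c c' : E2) {R : ℝ} (hR : 0 < R) :
    volume {R' : ℝ | 0 < R' ∧
      ¬ (A.p a '' sphere c R ∩ A.p b '' sphere c' R').Finite} = 0 := by
  obtain ⟨γ, hγ, hs⟩ := geoP1_circle c hR
  let f : ℝ → ℝ := fun t => ‖A.T a b (γ t) - c'‖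
  have hf : ∀ t, γ t ∈ A.O a b → A.T a b (γ t) ≠ c' → DifferentiableAt ℝ f t := fun t h1 h2 =>
    ((((A.contDiffAt_T h1).differentiableAt (by simp)).comp t (hγ t)).sub_const c').norm ℝ
      (sub_ne_zero.2 h2)
  refine measure_mono_null (fun r hr => ?_) (sard_easy volume le_rfl (f := f)
    (s := {t | γ t ∈ A.O a b ∧ A.T a b (γ t) ≠ c' ∧ ¬ Surjective (fderiv ℝ f t)})
    (fun t ht => hf t ht.1 ht.2.1) fun t ht => ht.2.2)
  obtain ⟨hr0, hr⟩ := hr
  by_contra hcon
  apply hr
  have hcl : IsClosed {t | A.p a (γ t) ∈ A.p b '' sphere c' r} :=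
    (A.isCompact_image_p b (isCompact_sphere c' r)).isClosed.preimage
      ((A.continuous_p a).comp hγ.continuous)
  have hK := isCompact_Icc.inter_right (s := Icc (-Real.pi) Real.pi) hcl
  have hval : ∀ t, A.p a (γ t) ∈ A.p b '' sphere c' r → γ t ∈ A.O a b ∧ f t = r := by
    rintro t ⟨z, hz, e⟩
    obtain ⟨k1, k2⟩ := A.mem_O_of_eq e.symm
    exact ⟨k1, by simp only [f, k2]; exact mem_sphere_iff_norm.1 hz⟩
  have hfin : (Icc (-Real.pi) Real.pi ∩ {t | A.p a (γ t) ∈ A.p b '' sphere c' r}).Finite := by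
    by_contra hinf
    obtain ⟨t, ht, hacc⟩ := Set.Infinite.exists_accPt_of_subset_isCompact hinf hK Subset.rfl
    obtain ⟨k1, k2⟩ := hval t ht.2
    have k3 : A.T a b (γ t) ≠ c' := fun e => by
      simp only [f, e, sub_self, norm_zero] at k2
      linarith
    have k4 : Surjective (fderiv ℝ f t) := by
      by_contra k4
      exact hcon ⟨t, ⟨k1, k3, k4⟩, k2⟩
    have k5 := isolated_zero (hf t k1 k3)
      ((LinearMap.injective_iff_surjective (f := (fderiv ℝ f t : ℝ →ₗ[ℝ] ℝ))).2 k4)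
    rw [accPt_iff_frequently] at hacc
    obtain ⟨t', ⟨q1, q2⟩, q3⟩ := (hacc.and_eventually (eventually_nhdsWithin_iff.1 k5)).exists
    exact q3 q1 ((hval t' q2.2).2.trans k2.symm)
  refine (hfin.image fun t => A.p a (γ t)).subset ?_
  rintro y ⟨⟨x, hx, rfl⟩, hy⟩
  obtain ⟨t, ht, rfl⟩ := hs hx
  exact ⟨t, ⟨ht, hy⟩, rfl⟩

/-- Induction on `n ≤ N`: radii such that the two properties hold for indices `< n`.  The new radius
avoids the null sets of `circle_sard` and the finitely many distances `‖e (ch n) y - c n‖` of the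
points `y` of the pairwise intersections of earlier circles. -/
theorem exists_radii {N : ℕ} (ch : Fin N → A.ι) (c : Fin N → E2) {ρ : Fin N → ℝ}
    (hρ : ∀ m, 0 < ρ m) :
    ∃ R : Fin N → ℝ, (∀ m, R m ∈ Ioo (ρ m / 2) (ρ m)) ∧
      (∀ m p, m ≠ p →
        (A.p (ch m) '' sphere (c m) (R m) ∩ A.p (ch p) '' sphere (c p) (R p)).Finite) ∧
      ∀ m p q, m ≠ p → m ≠ q → p ≠ q → ∀ y ∈ A.p (ch m) '' sphere (c m) (R m),
        y ∈ A.p (ch p) '' sphere (c p) (R p) → y ∉ A.p (ch q) '' sphere (c q) (R q) := by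
  classical
  have key : ∀ s : Finset (Fin N), ∃ R : Fin N → ℝ, (∀ m, R m ∈ Ioo (ρ m / 2) (ρ m)) ∧
      (∀ m ∈ s, ∀ p ∈ s, m ≠ p →
        (A.p (ch m) '' sphere (c m) (R m) ∩ A.p (ch p) '' sphere (c p) (R p)).Finite) ∧
      ∀ m ∈ s, ∀ p ∈ s, ∀ q ∈ s, m ≠ p → m ≠ q → p ≠ q → ∀ y ∈ A.p (ch m) '' sphere (c m) (R m),
        y ∈ A.p (ch p) '' sphere (c p) (R p) → y ∉ A.p (ch q) '' sphere (c q) (R q) := by
    intro s
    induction s using Finset.induction_on with
    | empty =>
      exact ⟨fun m => 3 / 4 * ρ m, fun m => ⟨by linarith [hρ m], by linarith [hρ m]⟩,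
        by simp, by simp⟩
    | insert i s hi ih =>
      obtain ⟨R, h1, h2, h3⟩ := ih
      have hR : ∀ m, 0 < R m := fun m => (half_pos (hρ m)).trans (h1 m).1
      have n1 : ∀ᵐ r : ℝ, ∀ m, ¬ (0 < r ∧ ¬ (A.p (ch m) '' sphere (c m) (R m) ∩
          A.p (ch i) '' sphere (c i) r).Finite) :=
        MeasureTheory.ae_all_iff.2 fun m => MeasureTheory.measure_eq_zero_iff_ae_notMem.1
          (A.circle_sard (ch m) (ch i) (c m) (c i) (hR m))
      have n2 : ∀ᵐ r : ℝ, ∀ m p, m ∈ s → p ∈ s → m ≠ p → r ∉ (fun y => ‖A.e (ch i) y - c i‖) ''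
          (A.p (ch m) '' sphere (c m) (R m) ∩ A.p (ch p) '' sphere (c p) (R p)) :=
        MeasureTheory.ae_all_iff.2 fun m => MeasureTheory.ae_all_iff.2 fun p => by
          by_cases hmp : m ∈ s ∧ p ∈ s ∧ m ≠ p
          · filter_upwards [MeasureTheory.measure_eq_zero_iff_ae_notMem.1
              (((h2 m hmp.1 p hmp.2.1 hmp.2.2).image
                fun y => ‖A.e (ch i) y - c i‖).measure_zero MeasureTheory.volume)]
              with r hr _ _ _ using hr
          · exact Eventually.of_forall fun r a1 a2 a3 => absurd ⟨a1, a2, a3⟩ hmp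
      have hpos : MeasureTheory.volume (Ioo (ρ i / 2) (ρ i)) ≠ 0 := by
        rw [Real.volume_Ioo]
        exact (ENNReal.ofReal_pos.2 (by linarith [hρ i])).ne'
      obtain ⟨r, hr, r1, r2⟩ := MeasureTheory.Measure.exists_mem_of_measure_ne_zero_of_ae hpos
        (MeasureTheory.ae_restrict_of_ae (n1.and n2))
      have hr0 : 0 < r := (half_pos (hρ i)).trans hr.1
      have hs : ∀ m ∈ s, update R i r m = R m := fun m hm =>
        update_of_ne (fun e : m = i => hi (e ▸ hm)) _ _
      have f1 : ∀ m, (A.p (ch m) '' sphere (c m) (R m) ∩ A.p (ch i) '' sphere (c i) r).Finite :=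
        fun m => by
          by_contra k
          exact r1 m ⟨hr0, k⟩
      have f2 : ∀ m ∈ s, ∀ p ∈ s, m ≠ p → ∀ y ∈ A.p (ch m) '' sphere (c m) (R m),
          y ∈ A.p (ch p) '' sphere (c p) (R p) → y ∉ A.p (ch i) '' sphere (c i) r := by
        rintro m hm p hp hmp y k1 k2 ⟨x, hx, rfl⟩
        exact r2 m p hm hp hmp ⟨_, ⟨k1, k2⟩, by
          beta_reduce
          rw [A.e_p]
          exact mem_sphere_iff_norm.1 hx⟩
      refine ⟨update R i r, fun m => ?_, fun m hm p hp hmp => ?_,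
        fun m hm p hp q hq hmp hmq hpq y k1 k2 k3 => ?_⟩
      · by_cases e : m = i
        · subst e; rwa [update_self]
        · rw [update_of_ne e]; exact h1 m
      · rcases Finset.mem_insert.1 hm with rfl | hm' <;>
          rcases Finset.mem_insert.1 hp with rfl | hp'
        · exact absurd rfl hmp
        · rw [update_self, hs p hp', inter_comm]; exact f1 p
        · rw [update_self, hs m hm']; exact f1 m
        · rw [hs m hm', hs p hp']; exact h2 m hm' p hp' hmp
      · rcases Finset.mem_insert.1 hm with rfl | hm'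
        · have hp' := (Finset.mem_insert.1 hp).resolve_left hmp.symm
          have hq' := (Finset.mem_insert.1 hq).resolve_left hmq.symm
          rw [update_self] at k1
          rw [hs p hp'] at k2
          rw [hs q hq'] at k3
          exact f2 p hp' q hq' hpq y k2 k3 k1
        rcases Finset.mem_insert.1 hp with rfl | hp'
        · have hq' := (Finset.mem_insert.1 hq).resolve_left hpq.symm
          rw [update_self] at k2
          rw [hs m hm'] at k1
          rw [hs q hq'] at k3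
          exact f2 m hm' q hq' hmq y k1 k3 k2
        rw [hs m hm'] at k1
        rw [hs p hp'] at k2
        rcases Finset.mem_insert.1 hq with rfl | hq'
        · rw [update_self] at k3
          exact f2 m hm' p hp' hmp y k1 k2 k3
        · rw [hs q hq'] at k3
          exact h3 m hm' p hp' q hq' hmp hmq hpq y k1 k2 k3
  obtain ⟨R, h1, h2, h3⟩ := key Finset.univ
  exact ⟨R, h1, fun m p => h2 m (Finset.mem_univ _) p (Finset.mem_univ _),
    fun m p q => h3 m (Finset.mem_univ _) p (Finset.mem_univ _) q (Finset.mem_univ _)⟩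

end Atl

end Crest.Agent.R216
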