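import Crest.Agent.R216.GeoA

/-! # Row 216, patch geometry: generic directions -/

set_option autoImplicit false
open Set Filter Metric Function
open scoped ContDiff RealInnerProductSpace Topology

noncomputable section
namespace Crest.Agent.R216

theorem GeoP2_rot (z d : E2) : det2 !₂[z 1, -z 0] d = ⟪z, d⟫ := by
  simp [det2, PiLp.inner_apply, Fin.sum_univ_two]
  ring

theorem GeoP2_rot_ne {z : E2} (hz : z ≠ 0) : (!₂[z 1, -z 0] : E2) ≠ 0 := by
  intro h
  refine hz (inner_self_eq_zero (𝕜 := ℝ).1 ?_)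
  rw [← GeoP2_rot, h]
  simp [det2]

namespace Atl

variable {M : Type*} [TopologicalSpace M] (A : Atl E2 M)

/-- independence of two directions does not depend on the chart (`vec_trans`, `vec_self`,
`det2_map_ne_zero`, `fderiv_T_injective`) -/
theorem indep_symm {a b : A.ι} {x : E2} (hx : x ∈ A.O a b) (d d' : E2) :
    det2 (A.vec b d' a x) d ≠ 0 ↔ det2 (A.vec a d b (A.T a b x)) d' ≠ 0 := by
  have h1 : fderiv ℝ (A.T a b) x (A.vec b d' a x) = d' := by rw [vec_trans d' hx hx, vec_self]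
  have h2 : fderiv ℝ (A.T a b) x d = A.vec a d b (A.T a b x) := by rw [vec, T_T hx]
  rw [← det2_map_ne_zero (fderiv_T_injective hx), h1, h2]
  have : ∀ y z : E2, det2 y z = -det2 z y := fun y z => by simp only [det2]; ring
  rw [this, neg_ne_zero]

/-- Induction on `n ≤ N`: bases such that positivity holds for all indices and the last two
properties hold for indices `< n`.  For the index `n` use `exists_perturb` with the finite set `T` of
the non-zero vectors `vec (ch q) (dir (u q) (v q) k) (ch n) x` (`q < n`, `p (ch n) x ∈ X`,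
`x ∈ O (ch n) (ch q)`; `vec_ne_zero`) and `!₂[(x - c n) 1, - (x - c n) 0]` (`p (ch n) x ∈ X`,
`x ≠ c n`); then `cov_eq_zero_iff`, `indep_symm`. -/
theorem exists_dirs {N : ℕ} (ch : Fin N → A.ι) (c : Fin N → E2) {K : Fin N → Set E2}
    (hK : ∀ m, IsCompact (K m)) {h : A.ι → E2 → Bil} (hh : ∀ a, Continuous (h a))
    {u₀ v₀ : Fin N → E2} (hd : ∀ m, det2 (u₀ m) (v₀ m) ≠ 0)
    (hp : ∀ m k, ∀ x ∈ K m, 0 < coef (u₀ m) (v₀ m) k (h (ch m) x)) {X : Set M} (hX : X.Finite) :
    ∃ u v : Fin N → E2, (∀ m, det2 (u m) (v m) ≠ 0) ∧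
      (∀ m k, ∀ x ∈ K m, 0 < coef (u m) (v m) k (h (ch m) x)) ∧
      (∀ m x, A.p (ch m) x ∈ X → x ≠ c m → ∀ k, ⟪x - c m, dir (u m) (v m) k⟫ ≠ 0) ∧
      ∀ q q', q ≠ q' → ∀ x ∈ A.O (ch q) (ch q'), A.p (ch q) x ∈ X →
        ∀ k k', cov (u q) (v q) k (A.vec (ch q') (dir (u q') (v q') k') (ch q) x) ≠ 0 := by
  classical
  have key : ∀ n : ℕ, n ≤ N → ∃ u v : Fin N → E2, (∀ m, det2 (u m) (v m) ≠ 0) ∧
      (∀ m k, ∀ x ∈ K m, 0 < coef (u m) (v m) k (h (ch m) x)) ∧
      (∀ m : Fin N, m.val < n → ∀ x, A.p (ch m) x ∈ X → x ≠ c m →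
        ∀ k, ⟪x - c m, dir (u m) (v m) k⟫ ≠ 0) ∧
      ∀ q q' : Fin N, q.val < n → q'.val < n → q ≠ q' → ∀ x ∈ A.O (ch q) (ch q'),
        A.p (ch q) x ∈ X → ∀ k k',
          det2 (A.vec (ch q') (dir (u q') (v q') k') (ch q) x) (dir (u q) (v q) k) ≠ 0 := by
    intro n
    induction n with
    | zero =>
      exact fun _ => ⟨u₀, v₀, hd, hp, fun m hm => absurd hm (Nat.not_lt_zero _),
        fun q q' hq => absurd hq (Nat.not_lt_zero _)⟩
    | succ n ih =>
      intro hn
      obtain ⟨u, v, h1, h2, h3, h4⟩ := ih (Nat.le_of_succ_le hn)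
      set m₀ : Fin N := ⟨n, hn⟩ with hm₀
      have hY : (A.p (ch m₀) ⁻¹' X).Finite := hX.preimage (A.injective_p _).injOn
      set T : Set E2 := (⋃ q : Fin N, ⋃ k : Fin 3, A.vec (ch q) (dir (u q) (v q) k) (ch m₀) ''
          (A.p (ch m₀) ⁻¹' X ∩ A.O (ch m₀) (ch q))) ∪
        (fun x : E2 => (!₂[(x - c m₀) 1, -(x - c m₀) 0] : E2)) '' (A.p (ch m₀) ⁻¹' X \ {c m₀})
        with hT
      have hTf : T.Finite :=
        (finite_iUnion fun q => finite_iUnion fun k => (hY.inter_of_left _).image _).union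
          (hY.sdiff.image _)
      have hT0 : (0 : E2) ∉ T := by
        rintro (h0 | ⟨x, hx, h0⟩)
        · obtain ⟨q, k, x, hx, h0⟩ : ∃ q k, ∃ x ∈ A.p (ch m₀) ⁻¹' X ∩ A.O (ch m₀) (ch q),
              A.vec (ch q) (dir (u q) (v q) k) (ch m₀) x = 0 := by
            simpa only [mem_iUnion, mem_image] using h0
          exact vec_ne_zero (dir_ne_zero (h1 q) k) hx.2 h0
        · exact GeoP2_rot_ne (sub_ne_zero.2 hx.2) h0
      obtain ⟨u', v', g1, g2, g3⟩ := exists_perturb (hh (ch m₀)) (hK m₀) (h1 m₀) (h2 m₀) hTf hT0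
      have g4 : ∀ q k, ∀ x ∈ A.O (ch m₀) (ch q), A.p (ch m₀) x ∈ X → ∀ k',
          det2 (A.vec (ch q) (dir (u q) (v q) k) (ch m₀) x) (dir u' v' k') ≠ 0 :=
        fun q k x hx hx' => g3 _ (Or.inl (mem_iUnion₂.2 ⟨q, k, x, ⟨hx', hx⟩, rfl⟩))
      have hlt : ∀ m : Fin N, m.val < n + 1 → m ≠ m₀ → m.val < n := fun m hm hne =>
        lt_of_le_of_ne (Nat.lt_succ_iff.1 hm) fun e => hne (Fin.ext e)
      refine ⟨update u m₀ u', update v m₀ v', fun m => ?_, fun m => ?_, fun m hm => ?_,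
        fun q q' hq hq' hne x hx hx' k k' => ?_⟩
      · by_cases e : m = m₀
        · subst e; simpa only [update_self] using g1
        · simpa only [update_of_ne e] using h1 m
      · by_cases e : m = m₀
        · subst e; simpa only [update_self] using g2
        · simpa only [update_of_ne e] using h2 m
      · by_cases e : m = m₀
        · subst e
          intro x hx hx' k
          rw [update_self, update_self, ← GeoP2_rot]
          exact g3 _ (Or.inr ⟨x, ⟨hx, hx'⟩, rfl⟩) k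
        · simpa only [update_of_ne e] using h3 m (hlt m hm e)
      · by_cases e : q = m₀
        · subst e
          simpa only [update_self, update_of_ne hne.symm] using g4 q' k' x hx hx' k
        · by_cases e' : q' = m₀
          · subst e'
            rw [A.indep_symm hx]
            simpa only [update_self, update_of_ne hne] using
              g4 q k _ (T_mem_O hx) (by rw [p_T hx]; exact hx') k'
          · simpa only [update_of_ne e, update_of_ne e'] using
              h4 q q' (hlt q hq e) (hlt q' hq' e') hne x hx hx' k k'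
  obtain ⟨u, v, h1, h2, h3, h4⟩ := key N le_rfl
  exact ⟨u, v, h1, h2, fun m => h3 m m.2, fun q q' hne x hx hx' k k' h0 =>
    h4 q q' q.2 q'.2 hne x hx hx' k k' ((cov_eq_zero_iff (h1 q) k _).1 h0)⟩

end Atl

end Crest.Agent.R216
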