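import Crest.Agent.R216.GeoP1
import Crest.Agent.R216.GeoP2

/-! # Row 216, patch geometry: thin collars -/

set_option autoImplicit false
open Set Filter Metric Function
open scoped ContDiff RealInnerProductSpace Topology

noncomputable section
namespace Crest.Agent.R216

namespace GPat

variable {M : Type*} [TopologicalSpace M] [T2Space M] {A : Atl E2 M} (P : GPat A)

theorem isCompact_Col (w : ℝ) (m : Fin P.N) : IsCompact (P.Col w m) :=
  A.isCompact_image_p _ ((isCompact_closedBall _ _).diff isOpen_ball)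

theorem Col_mono {w w' : ℝ} (h : w ≤ w') (m : Fin P.N) : P.Col w m ⊆ P.Col w' m :=
  image_mono (diff_subset_diff_right (ball_subset_ball (by linarith)))

theorem Col_zero (m : Fin P.N) : P.Col 0 m = A.p (P.ch m) '' sphere (P.c m) (P.R m) := by
  rw [Col, sub_zero, closedBall_diff_ball]

theorem mem_Col_zero {m : Fin P.N} {y : M} (h : ∀ w, 0 < w → y ∈ P.Col w m) : y ∈ P.Col 0 m := by
  obtain ⟨x, hx, rfl⟩ := h 1 one_pos
  refine ⟨x, ⟨hx.1, fun h1 => ?_⟩, rfl⟩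
  rw [mem_ball, sub_zero] at h1
  obtain ⟨x', hx', he⟩ := h ((P.R m - dist x (P.c m)) / 2) (by linarith)
  rw [A.injective_p _ he] at hx'
  exact hx'.2 (mem_ball.2 (by linarith))

/-- The compact sets `(Col w m ∩ Col w p ∩ Col w q) \ U` decrease with `w > 0` and have empty
intersection (`⋂_{w > 0} Col w m = Col 0 m` by injectivity of `p`). -/
theorem col_shrink (m p q : Fin P.N) {U : Set M} (hU : IsOpen U)
    (h : P.Col 0 m ∩ P.Col 0 p ∩ P.Col 0 q ⊆ U) :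
    ∀ᶠ w in 𝓝[>] (0 : ℝ), P.Col w m ∩ P.Col w p ∩ P.Col w q ⊆ U := by
  have hmono : ∀ {w w' : ℝ}, w ≤ w' →
      P.Col w m ∩ P.Col w p ∩ P.Col w q ⊆ P.Col w' m ∩ P.Col w' p ∩ P.Col w' q := fun hw =>
    inter_subset_inter (inter_subset_inter (P.Col_mono hw m) (P.Col_mono hw p)) (P.Col_mono hw q)
  haveI : Nonempty {w : ℝ // 0 < w} := ⟨⟨1, one_pos⟩⟩
  obtain ⟨w₀, hw₀⟩ := ((P.isCompact_Col 1 m).diff hU).elim_directed_family_closed
    (fun w : {w : ℝ // 0 < w} => P.Col w.1 m ∩ P.Col w.1 p ∩ P.Col w.1 q)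
    (fun w => ((P.isCompact_Col _ m).isClosed.inter (P.isCompact_Col _ p).isClosed).inter
      (P.isCompact_Col _ q).isClosed)
    (by
      refine eq_empty_of_forall_notMem fun y hy => hy.1.2 (h ?_)
      have h1 := mem_iInter.1 hy.2
      exact ⟨⟨P.mem_Col_zero fun w hw => (h1 ⟨w, hw⟩).1.1,
        P.mem_Col_zero fun w hw => (h1 ⟨w, hw⟩).1.2⟩, P.mem_Col_zero fun w hw => (h1 ⟨w, hw⟩).2⟩)
    (fun w w' => ⟨⟨min w.1 w'.1, lt_min w.2 w'.2⟩, hmono (min_le_left _ _), hmono (min_le_right _ _)⟩)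
  filter_upwards [Ioo_mem_nhdsGT (lt_min w₀.2 one_pos)] with w hw y hy
  by_contra hyU
  have h1 : y ∈ (P.Col 1 m \ U) ∩ (P.Col w₀.1 m ∩ P.Col w₀.1 p ∩ P.Col w₀.1 q) :=
    ⟨⟨P.Col_mono (hw.2.le.trans (min_le_right _ _)) m hy.1.1, hyU⟩,
      hmono (hw.2.le.trans (min_le_left _ _)) hy⟩
  rw [hw₀] at h1
  exact h1

/-- `col_shrink` (with `q = p` for pairs).  For `tr` take
`U = p (ch m) '' {x | ∀ k, ⟪x - c m, dir k⟫ ≠ 0}`; for `gen` take
`U = (Dsc q ∩ Dsc q')ᶜ ∪ p (ch q) '' {x ∈ O (ch q) (ch q') | ∀ k k', cov k (vec ..) ≠ 0}`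
(`continuousAt_vec`, `isOpenMap_p`). -/
theorem Gen.eventually {P : GPat A} (h : P.Gen 0) : ∀ᶠ w in 𝓝[>] (0 : ℝ), P.Gen w := by
  have h1 : ∀ᶠ w in 𝓝[>] (0 : ℝ), ∀ m p q, m ≠ p → m ≠ q → p ≠ q →
      ∀ y ∈ P.Col w m, y ∈ P.Col w p → y ∉ P.Col w q := by
    simp only [eventually_all]
    intro m p q hmp hmq hpq
    have := P.col_shrink m p q isOpen_empty fun y hy => h.triple m p q hmp hmq hpq y hy.1.1 hy.1.2 hy.2
    exact this.mono fun w hw y h1 h2 h3 => hw ⟨⟨h1, h2⟩, h3⟩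
  have h2 : ∀ᶠ w in 𝓝[>] (0 : ℝ), ∀ m p, m ≠ p → ∀ x, A.p (P.ch m) x ∈ P.Col w m →
      A.p (P.ch m) x ∈ P.Col w p → ∀ k, ⟪x - P.c m, dir (P.u m) (P.v m) k⟫ ≠ 0 := by
    refine eventually_all.2 fun m => eventually_all.2 fun p => eventually_all.2 fun hmp => ?_
    have hU : IsOpen {x : E2 | ∀ k, ⟪x - P.c m, dir (P.u m) (P.v m) k⟫ ≠ 0} := by
      rw [setOf_forall]
      exact isOpen_iInter_of_finite fun k => isOpen_ne_fun (by fun_prop) continuous_const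
    have := P.col_shrink m p p (A.isOpenMap_p (P.ch m) _ hU) fun y hy => by
      obtain ⟨x, hx, rfl⟩ := hy.1.1
      exact ⟨x, h.tr m p hmp x hy.1.1 hy.1.2, rfl⟩
    refine this.mono fun w hw x h1 h2 => ?_
    obtain ⟨x', hx', he⟩ := hw ⟨⟨h1, h2⟩, h2⟩
    rwa [A.injective_p _ he] at hx'
  have h3 : ∀ᶠ w in 𝓝[>] (0 : ℝ), ∀ m p, m ≠ p → ∀ q q', q ≠ q' →
      ∀ x ∈ closedBall (P.c q) (P.R q), A.p (P.ch q) x ∈ P.Col w m → A.p (P.ch q) x ∈ P.Col w p →
        A.p (P.ch q) x ∈ P.Dsc q' → ∀ k k', cov (P.u q) (P.v q) k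
          (A.vec (P.ch q') (dir (P.u q') (P.v q') k') (P.ch q) x) ≠ 0 := by
    refine eventually_all.2 fun m => eventually_all.2 fun p => eventually_all.2 fun hmp =>
      eventually_all.2 fun q => eventually_all.2 fun q' => eventually_all.2 fun hq => ?_
    have hU : IsOpen {x : E2 | x ∈ A.O (P.ch q) (P.ch q') ∧ ∀ k k', cov (P.u q) (P.v q) k
        (A.vec (P.ch q') (dir (P.u q') (P.v q') k') (P.ch q) x) ≠ 0} := by
      refine isOpen_iff_mem_nhds.2 fun x hx => ?_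
      refine Filter.Eventually.and ((A.isOpen_O _ _).mem_nhds hx.1)
        (eventually_all.2 fun k => eventually_all.2 fun k' => ?_)
      exact ((cov (P.u q) (P.v q) k).continuous.continuousAt.comp
        (Atl.continuousAt_vec _ hx.1)).eventually_ne (hx.2 k k')
    have hD : ∀ r, IsClosed (P.Dsc r) := fun r =>
      (A.isCompact_image_p _ (isCompact_closedBall _ _)).isClosed
    have := P.col_shrink m p p (((hD q).inter (hD q')).isOpen_compl.union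
      (A.isOpenMap_p (P.ch q) _ hU)) fun y hy => by
        by_cases hy' : y ∈ P.Dsc q ∩ P.Dsc q'
        · obtain ⟨x, hx, rfl⟩ := hy'.1
          obtain ⟨z, -, hz⟩ := id hy'.2
          exact Or.inr ⟨x, ⟨(Atl.mem_O_of_eq hz.symm).1,
            h.gen m p hmp q q' hq x hx hy.1.1 hy.1.2 hy'.2⟩, rfl⟩
        · exact Or.inl hy'
    refine this.mono fun w hw x hx h1 h2 h3 => ?_
    rcases hw ⟨⟨h1, h2⟩, h2⟩ with h4 | ⟨x', hx', he⟩
    · exact absurd ⟨⟨x, hx, rfl⟩, h3⟩ h4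
    · rw [A.injective_p _ he] at hx'
      exact hx'.2
  filter_upwards [h1, h2, h3] with w h1 h2 h3 using ⟨h1, h2, h3⟩

end GPat

/-- `exists_prepat`, `exists_radii`, `exists_dirs` (`X` the union of the pairwise intersections of
the circles), `Gen.eventually`, and `w < min (R m - ρ m / 2)`. -/
theorem Atl.exists_pat {M : Type*} [TopologicalSpace M] [T2Space M] [CompactSpace M]
    (A : Atl E2 M) {h : A.ι → E2 → Bil} (hh : A.Met h) :
    ∃ (P : GPat A) (w : ℝ), P.Ok w ∧ P.Gen w ∧ P.Pos h := by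
  obtain ⟨Q, hρ, hsub, hdet, hpos, hcov⟩ := A.exists_prepat hh
  obtain ⟨R, hR, hfin, htri⟩ := A.exists_radii Q.ch Q.c hρ
  have hX : (⋃ m, ⋃ p, ⋃ _ : m ≠ p, A.p (Q.ch m) '' sphere (Q.c m) (R m) ∩
      A.p (Q.ch p) '' sphere (Q.c p) (R p)).Finite :=
    finite_iUnion fun m => finite_iUnion fun p => finite_iUnion fun hmp => hfin m p hmp
  obtain ⟨u, v, hd, hp, htr, hgen⟩ := A.exists_dirs Q.ch Q.c
    (K := fun m => closedBall (Q.c m) (Q.R m)) (fun m => isCompact_closedBall _ _)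
    (fun a => (hh.smooth a).continuous) hdet hpos hX
  let P : GPat A := ⟨Q.N, Q.ch, Q.c, R, u, v⟩
  have hmem : ∀ m p, m ≠ p → ∀ y, y ∈ P.Col 0 m → y ∈ P.Col 0 p → y ∈ ⋃ m, ⋃ p, ⋃ _ : m ≠ p,
      A.p (Q.ch m) '' sphere (Q.c m) (R m) ∩ A.p (Q.ch p) '' sphere (Q.c p) (R p) := by
    intro m p hmp y h1 h2
    rw [P.Col_zero] at h1 h2
    exact mem_iUnion.2 ⟨m, mem_iUnion.2 ⟨p, mem_iUnion.2 ⟨hmp, h1, h2⟩⟩⟩
  have hG : P.Gen 0 := by
    refine ⟨fun m p q hmp hmq hpq y h1 h2 => ?_, fun m p hmp x h1 h2 => ?_,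
      fun m p hmp q q' hq x _ h1 h2 h3 => ?_⟩
    · rw [P.Col_zero] at h1 h2 ⊢
      exact htri m p q hmp hmq hpq y h1 h2
    · refine htr m x (hmem m p hmp _ h1 h2) fun hx => ?_
      rw [P.Col_zero] at h1
      obtain ⟨x', hx', he⟩ := h1
      rw [A.injective_p _ he, hx] at hx'
      have h4 : dist (Q.c m) (Q.c m) = R m := hx'
      rw [dist_self] at h4
      linarith [(hR m).1, hρ m]
    · obtain ⟨z, -, hz⟩ := h3
      exact hgen q q' hq x (Atl.mem_O_of_eq hz.symm).1 (hmem m p hmp _ h1 h2)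
  have hw : ∀ᶠ w in 𝓝[>] (0 : ℝ), ∀ m, w < R m - Q.R m / 2 :=
    eventually_all.2 fun m =>
      (eventually_lt_nhds (sub_pos.2 (hR m).1)).filter_mono nhdsWithin_le_nhds
  obtain ⟨w, hw1, hw2, hw3⟩ := (hG.eventually.and (hw.and self_mem_nhdsWithin)).exists
  refine ⟨P, w, ⟨hw3, fun m => ?_, fun m => ?_, hd, fun y => ?_⟩, hw1, fun m k x hx => ?_⟩
  · show w < R m
    linarith [hw2 m, hρ m]
  · exact (closedBall_subset_closedBall (hR m).2.le).trans (hsub m)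
  · obtain ⟨m, hm⟩ := hcov y
    refine ⟨m, image_mono (ball_subset_ball ?_) hm⟩
    show Q.R m / 2 ≤ R m - w
    linarith [hw2 m]
  · exact hp m k x (closedBall_subset_closedBall (hR m).2.le hx)

end Crest.Agent.R216
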