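import Crest.Agent.R216.AtlL2

/-! # Row 216, from a manifold to an atlas -/

set_option autoImplicit false
open Set Filter Metric Function
open scoped ContDiff Manifold Topology

noncomputable section
namespace Crest.Agent.R216

variable {M : Type*} [TopologicalSpace M] [ChartedSpace E2 M] [IsManifold (𝓡 2) ∞ M]

/-- an atlas compatible with the smooth structure -/
structure Atl.Cpt (A : Atl E2 M) : Prop where
  p_smooth : ∀ a, ContMDiff (𝓡 2) (𝓡 2) ∞ (A.p a)
  e_smooth : ∀ a, ContMDiffOn (𝓡 2) (𝓡 2) ∞ (A.e a) (A.e a).source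

/-- `e = (chartAt E2 y).trans (univBall c r).symm` with `c = chartAt E2 y y` and
`ball c r ⊆ (chartAt E2 y).target` (`univBall_source`, `univBall_target`,
`univBall_symm_apply_center`, `contDiff_univBall`, `contDiffOn_univBall_symm`, `contMDiffOn_chart`,
`contMDiffOn_chart_symm`). -/
theorem exists_chart (y : M) : ∃ e : OpenPartialHomeomorph M E2, e.target = univ ∧ y ∈ e.source ∧
    e y = 0 ∧ ContMDiff (𝓡 2) (𝓡 2) ∞ e.symm ∧ ContMDiffOn (𝓡 2) (𝓡 2) ∞ e e.source := by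
  obtain ⟨r, hr, hsub⟩ := Metric.isOpen_iff.1 (chartAt E2 y).open_target _
    ((chartAt E2 y).map_source (mem_chart_source E2 y))
  obtain ⟨u, hut, hus, hu0, hu1, hu2⟩ : ∃ u : OpenPartialHomeomorph E2 E2,
      u.target = ball (chartAt E2 y y) r ∧ u.source = univ ∧ u.symm (chartAt E2 y y) = 0 ∧
      ContDiff ℝ ∞ u ∧ ContDiffOn ℝ ∞ u.symm (ball (chartAt E2 y y) r) :=
    ⟨OpenPartialHomeomorph.univBall (chartAt E2 y y) r, OpenPartialHomeomorph.univBall_target _ hr,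
      OpenPartialHomeomorph.univBall_source _ _,
      OpenPartialHomeomorph.univBall_symm_apply_center _ _,
      OpenPartialHomeomorph.contDiff_univBall, OpenPartialHomeomorph.contDiffOn_univBall_symm⟩
  have hx : ∀ x, x ∈ u.source := fun x => hus ▸ mem_univ x
  have hmap : ∀ x, u x ∈ (chartAt E2 y).target := fun x => hsub (hut ▸ u.map_source (hx x))
  refine ⟨(chartAt E2 y).trans u.symm, eq_univ_of_forall fun x => ⟨hx x, hmap x⟩,
    ⟨mem_chart_source E2 y, ?_⟩, hu0, ?_, ?_⟩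
  · show chartAt E2 y y ∈ u.target
    rw [hut]
    exact mem_ball_self hr
  · exact (contMDiffOn_chart_symm (I := 𝓡 2) (x := y)).comp_contMDiff hu1.contMDiff hmap
  · refine hu2.contMDiffOn.comp
      ((contMDiffOn_chart (I := 𝓡 2) (x := y)).mono inter_subset_left) fun x hx => ?_
    rw [← hut]
    exact hx.2

/-- The open sets `source ∩ e ⁻¹' ball 0 1` cover `M`; enumerate a finite subcover by `Fin n` (the
index type has to live in `Type`).  Transitions: `contMDiffOn_iff_contDiffOn`. -/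
theorem exists_atl [CompactSpace M] : ∃ A : Atl E2 M, A.Cpt := by
  choose e ht hs h0 hp he using exists_chart (M := M)
  obtain ⟨t, htc⟩ := isCompact_univ.elim_finite_subcover
    (fun y : M => (e y).source ∩ e y ⁻¹' ball 0 1)
    (fun y => (e y).isOpen_inter_preimage isOpen_ball)
    (fun y _ => mem_iUnion.2 ⟨y, hs y, by simp [h0 y]⟩)
  refine ⟨⟨Fin t.card, inferInstance, fun i => e (t.equivFin.symm i), fun _ => ht _,
    fun a b => ?_, fun y => ?_⟩, fun a => hp _, fun a => he _⟩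
  · exact contMDiffOn_iff_contDiffOn.1 ((he _).comp (hp _).contMDiffOn fun x hx => hx)
  · obtain ⟨z, hz, hy⟩ := mem_iUnion₂.1 (htc (mem_univ y))
    refine ⟨t.equivFin ⟨z, hz⟩, ?_⟩
    rw [Equiv.symm_apply_apply]
    exact ⟨hy.1, mem_ball_zero_iff.1 hy.2⟩

/-- near `y ∈ source`, `F = (F ∘ p a) ∘ e a` -/
theorem Atl.Cpt.contMDiff {A : Atl E2 M} (hA : A.Cpt) {F : M → E4} (hF : A.Sm F) :
    ContMDiff (𝓡 2) 𝓘(ℝ, E4) ∞ F := by
  intro y
  obtain ⟨a, ha, -⟩ := A.cover y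
  have hn := (A.e a).open_source.mem_nhds ha
  refine ((hF a).contMDiff.contMDiffAt.comp y
    ((hA.e_smooth a).contMDiffAt hn)).congr_of_eventuallyEq ?_
  filter_upwards [hn] with z hz
  simp only [Function.comp_apply, A.p_e a hz]

/-- `mfderiv_comp`, `mfderiv_eq_fderiv` -/
theorem Atl.Cpt.fderiv_eq {A : Atl E2 M} (hA : A.Cpt) {F : M → E4}
    (hF : ContMDiff (𝓡 2) 𝓘(ℝ, E4) ∞ F) (a : A.ι) (x v : E2) :
    fderiv ℝ (fun x => F (A.p a x)) x v
      = mfderiv (𝓡 2) 𝓘(ℝ, E4) F (A.p a x) (mfderiv (𝓡 2) (𝓡 2) (A.p a) x v) := by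
  rw [← mfderiv_eq_fderiv]
  exact mfderiv_comp_apply x (hF.mdifferentiableAt (by simp))
    ((hA.p_smooth a).mdifferentiableAt (by simp)) v

/-- `p a ∘ e a = id` near `p a x` -/
theorem Atl.Cpt.surjective_mfderiv {A : Atl E2 M} (hA : A.Cpt) (a : A.ι) (x : E2) :
    Surjective (mfderiv (𝓡 2) (𝓡 2) (A.p a) x) := by
  intro w
  have hn := (A.e a).open_source.mem_nhds (A.p_mem a x)
  have h1 : A.p a ∘ A.e a =ᶠ[𝓝 (A.p a x)] id := by
    filter_upwards [hn] with z hz using A.p_e a hz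
  refine ⟨mfderiv (𝓡 2) (𝓡 2) (A.e a) (A.p a x) w, ?_⟩
  have h2 := mfderiv_comp_apply_of_eq (I := 𝓡 2) (I' := 𝓡 2) (I'' := 𝓡 2) (A.p a x)
    ((hA.p_smooth a).mdifferentiableAt (x := x) (by simp))
    (((hA.e_smooth a).contMDiffAt hn).mdifferentiableAt (by simp)) (A.e_p a x) w
  rw [h1.mfderiv_eq, mfderiv_id] at h2
  exact h2.symm

/-- `e a ∘ p a = id` -/
theorem Atl.Cpt.injective_mfderiv {A : Atl E2 M} (hA : A.Cpt) (a : A.ι) (x : E2) :
    Injective (mfderiv (𝓡 2) (𝓡 2) (A.p a) x) := by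
  have hn := (A.e a).open_source.mem_nhds (A.p_mem a x)
  have h1 : A.e a ∘ A.p a = id := funext (A.e_p a)
  refine Function.LeftInverse.injective (g := mfderiv (𝓡 2) (𝓡 2) (A.e a) (A.p a x)) fun v => ?_
  have h2 := mfderiv_comp_apply (I := 𝓡 2) (I' := 𝓡 2) (I'' := 𝓡 2) x
    (((hA.e_smooth a).contMDiffAt hn).mdifferentiableAt (by simp))
    ((hA.p_smooth a).mdifferentiableAt (x := x) (by simp)) v
  rw [h1, mfderiv_id] at h2
  exact h2.symm

/-- `p a = p b ∘ T a b` near `x` -/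
theorem Atl.Cpt.mfderiv_chart {A : Atl E2 M} (hA : A.Cpt) {a b : A.ι} {x : E2} (hx : x ∈ A.O a b)
    (v : E2) : (mfderiv (𝓡 2) (𝓡 2) (A.p a) x v : E2)
      = mfderiv (𝓡 2) (𝓡 2) (A.p b) (A.T a b x) (fderiv ℝ (A.T a b) x v) := by
  have h1 : A.p a =ᶠ[𝓝 x] A.p b ∘ A.T a b := Atl.comp_p_eventuallyEq id hx
  rw [h1.mfderiv_eq, ← mfderiv_eq_fderiv]
  exact mfderiv_comp_apply x ((hA.p_smooth b).mdifferentiableAt (by simp))
    ((Atl.contDiffAt_T hx).contMDiffAt.mdifferentiableAt (by simp)) v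

end Crest.Agent.R216
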