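import Crest.Agent.R216.Glue1

/-! # Row 216, the metric in the charts of the atlas -/

set_option autoImplicit false
open Set Filter Metric Function
open scoped ContDiff Manifold Topology

noncomputable section
namespace Crest.Agent.R216

variable {M : Type*} [TopologicalSpace M] [ChartedSpace E2 M] [IsManifold (𝓡 2) ∞ M]

theorem glue2_field {p : E2 → M} (hp : ContMDiff (𝓡 2) (𝓡 2) ∞ p) (v : E2) :
    ContMDiff (𝓡 2) ((𝓡 2).prod 𝓘(ℝ, E2)) ∞
      (fun x => Bundle.TotalSpace.mk' E2 (E := fun y : M => TangentSpace (𝓡 2) y)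
        (p x) (mfderiv (𝓡 2) (𝓡 2) p x v)) := by
  have h1 := hp.contMDiff_tangentMap (m := ∞) (by simp)
  have h2 : ContMDiff (𝓡 2) (𝓡 2).tangent ∞
      (fun y : E2 => Bundle.TotalSpace.mk' E2 (E := fun x : E2 => TangentSpace (𝓡 2) x) y v) :=
    (contMDiff_vectorSpace_iff_contDiff (V := fun _ => v)).2 contDiff_const
  exact h1.comp h2

theorem glue2_congr
    (g : Bundle.ContMDiffRiemannianMetric (𝓡 2) ∞ E2 (TangentSpace (𝓡 2) : M → Type))
    {x y : M} (h : x = y) (u v : E2) : g.inner x u v = g.inner y u v := by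
  subst h; rfl

/-- See `R244/Bridge3.lean` (`b3_field`, `b3_contDiffOn`; copy the proofs, there `M : Type`): the map
`x ↦ (p x, mfderiv p x v)` into the tangent bundle is smooth (`ContMDiff.contMDiff_tangentMap`
composed with `x ↦ (x, v)`), then `ContMDiff.clm_bundle_apply₂` with `g.contMDiff`. -/
theorem contDiff_inner
    (g : Bundle.ContMDiffRiemannianMetric (𝓡 2) ∞ E2 (TangentSpace (𝓡 2) : M → Type))
    {p : E2 → M} (hp : ContMDiff (𝓡 2) (𝓡 2) ∞ p) (v w : E2) :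
    ContDiff ℝ ∞ fun x => g.inner (p x) (mfderiv (𝓡 2) (𝓡 2) p x v) (mfderiv (𝓡 2) (𝓡 2) p x w) := by
  rw [← contMDiff_iff_contDiff]
  intro y
  have h := ContMDiffAt.clm_bundle_apply₂ (F₁ := E2) (F₂ := E2) (F₃ := ℝ)
    (E₃ := Bundle.Trivial M ℝ) (g.contMDiff.contMDiffAt.comp y (hp y))
    (glue2_field hp v y) (glue2_field hp w y)
  simp only [Bundle.contMDiffAt_totalSpace] at h
  exact h.2

/-- `H a x = (g.inner (p a x)).bilinearComp (mfderiv (p a) x) (mfderiv (p a) x)`; smoothness by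
`contDiff_clm_apply_iff` twice; compatibility by `mfderiv_chart` and `p_T`
(cf. `R244.b3_inner_congr`). -/
theorem Atl.Cpt.exists_met {A : Atl E2 M} (hA : A.Cpt)
    (g : Bundle.ContMDiffRiemannianMetric (𝓡 2) ∞ E2 (TangentSpace (𝓡 2) : M → Type)) :
    ∃ H : A.ι → E2 → Bil, A.Met H ∧ ∀ a x v w, H a x v w =
      g.inner (A.p a x) (mfderiv (𝓡 2) (𝓡 2) (A.p a) x v) (mfderiv (𝓡 2) (𝓡 2) (A.p a) x w) := by
  refine ⟨fun a x => ContinuousLinearMap.bilinearComp (E := E2) (F := E2) (G := ℝ)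
      (g.inner (A.p a x)) (mfderiv (𝓡 2) (𝓡 2) (A.p a) x) (mfderiv (𝓡 2) (𝓡 2) (A.p a) x),
    ⟨⟨fun a => ?_, fun a x v w => g.symm _ _ _, fun a b x hx v w => ?_⟩, fun a x v hv => ?_⟩,
    fun a x v w => rfl⟩
  · rw [contDiff_clm_apply_iff]
    intro v
    rw [contDiff_clm_apply_iff]
    intro w
    exact contDiff_inner g (hA.p_smooth a) v w
  · have h1 := hA.mfderiv_chart hx v
    have h2 := hA.mfderiv_chart hx w
    exact (congrArg₂ (fun u u' : E2 => g.inner (A.p a x) u u') h1 h2).trans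
      (glue2_congr g (Atl.p_T hx).symm _ _)
  · refine g.pos _ _ fun h => hv (hA.injective_mfderiv a x ?_)
    exact h.trans (map_zero (mfderiv (𝓡 2) (𝓡 2) (A.p a) x)).symm

/-- The reduction of the theorem to its atlas version: write `y = p a x` (`cover`, `p_e`),
`v = mfderiv (p a) x v'` (`surjective_mfderiv`), and use `pb_apply`, `fderiv_eq`. -/
theorem glue [CompactSpace M]
    (main : ∀ (A : Atl E2 M) (H : A.ι → E2 → Bil), A.Met H → ∃ F : M → E4, A.Sm F ∧ A.pull F = H)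
    (g : Bundle.ContMDiffRiemannianMetric (𝓡 2) ∞ E2 (TangentSpace (𝓡 2) : M → Type)) :
    ∃ F : M → E4, ContMDiff (𝓡 2) 𝓘(ℝ, E4) ∞ F ∧
      ∀ (p : M) (v w : TangentSpace (𝓡 2) p),
        @inner ℝ E4 _ (mfderiv (𝓡 2) 𝓘(ℝ, E4) F p v) (mfderiv (𝓡 2) 𝓘(ℝ, E4) F p w)
          = g.inner p v w := by
  obtain ⟨A, hA⟩ := exists_atl (M := M)
  obtain ⟨H, hH, hg⟩ := hA.exists_met g
  obtain ⟨F, hF, hp⟩ := main A H hH
  have hF' := hA.contMDiff hF
  refine ⟨F, hF', fun y v w => ?_⟩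
  obtain ⟨a, ha, -⟩ := A.cover y
  obtain ⟨x, rfl⟩ : ∃ x, A.p a x = y := ⟨_, A.p_e a ha⟩
  obtain ⟨v, rfl⟩ := hA.surjective_mfderiv a x v
  obtain ⟨w, rfl⟩ := hA.surjective_mfderiv a x w
  rw [← hg, ← hp, ← hA.fderiv_eq hF', ← hA.fderiv_eq hF']
  exact (pb_apply _ _ _ _).symm

end Crest.Agent.R216
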