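import Crest.Agent.R216.Cls1

/-! # Row 216, parametric integrals -/

set_option autoImplicit false
open Set Filter Metric
open scoped ContDiff RealInnerProductSpace Topology

noncomputable section
namespace Crest.Agent.R216

section
variable {X W : Type*} [NormedAddCommGroup X] [NormedSpace ℝ X] [FiniteDimensional ℝ X]
  [NormedAddCommGroup W] [NormedSpace ℝ W] [CompleteSpace W]

/-- differentiation under the integral sign
(`intervalIntegral.hasFDerivAt_integral_of_dominated_of_fderiv_le`; the derivative is bounded on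
`closedBall x 1 ×ˢ uIcc a b`) -/
theorem hasFDerivAt_param_integral {f : X × ℝ → W} (hf : ContDiff ℝ 1 f) (a b : ℝ) (x : X) :
    HasFDerivAt (fun x => ∫ σ in a..b, f (x, σ))
      (∫ σ in a..b, (fderiv ℝ f (x, σ)).comp (ContinuousLinearMap.inl ℝ X ℝ)) x := by
  have hc : Continuous fun p : X × ℝ => (fderiv ℝ f p).comp (ContinuousLinearMap.inl ℝ X ℝ) :=
    (hf.continuous_fderiv one_ne_zero).clm_comp continuous_const
  obtain ⟨C, hC⟩ := ((isCompact_closedBall x 1).prod
    (isCompact_uIcc (a := a) (b := b))).exists_bound_of_continuousOn hc.continuousOn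
  refine intervalIntegral.hasFDerivAt_integral_of_dominated_of_fderiv_le
    (F := fun x σ => f (x, σ))
    (F' := fun x σ => (fderiv ℝ f (x, σ)).comp (ContinuousLinearMap.inl ℝ X ℝ))
    (bound := fun _ => C) (closedBall_mem_nhds x one_pos)
    (Eventually.of_forall fun y =>
      (hf.continuous.comp (Continuous.prodMk_right y)).aestronglyMeasurable)
    ((hf.continuous.comp (Continuous.prodMk_right x)).intervalIntegrable _ _)
    (hc.comp (Continuous.prodMk_right x)).aestronglyMeasurable
    (Eventually.of_forall fun t ht y hy => hC (y, t) ⟨hy, uIoc_subset_uIcc ht⟩)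
    intervalIntegrable_const (Eventually.of_forall fun t _ y _ => ?_)
  exact (hf.differentiable one_ne_zero (y, t)).hasFDerivAt.comp y (f := fun y => (y, t))
    (hasFDerivAt_prodMk_left y t)

theorem fderiv_param_integral {f : X × ℝ → W} (hf : ContDiff ℝ 1 f) (a b : ℝ) (x v : X) :
    fderiv ℝ (fun x => ∫ σ in a..b, f (x, σ)) x v = ∫ σ in a..b, fderiv ℝ f (x, σ) (v, 0) := by
  have hc : Continuous fun σ : ℝ => (fderiv ℝ f (x, σ)).comp (ContinuousLinearMap.inl ℝ X ℝ) :=
    ((hf.continuous_fderiv one_ne_zero).comp (Continuous.prodMk_right x)).clm_comp continuous_const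
  rw [(hasFDerivAt_param_integral hf a b x).fderiv,
    ContinuousLinearMap.intervalIntegral_apply (hc.intervalIntegrable _ _)]
  rfl

/-- Induction on `n` generalising the target space (put `W` in the universe of `X` if needed by
first proving it for `W : Type (max u v)` or via `contDiff_succ_iff_fderiv_apply`, `X` being finite
dimensional). -/
theorem contDiff_param_integral {f : X × ℝ → W} (hf : ContDiff ℝ ∞ f) (a b : ℝ) :
    ContDiff ℝ ∞ (fun x => ∫ σ in a..b, f (x, σ)) := by
  have key : ∀ (n : ℕ) {f : X × ℝ → W}, ContDiff ℝ ∞ f →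
      ContDiff ℝ n (fun x => ∫ σ in a..b, f (x, σ)) := by
    intro n
    induction n with
    | zero =>
      intro f hf
      exact contDiff_zero.2 (continuous_iff_continuousAt.2 fun x =>
        (hasFDerivAt_param_integral (hf.of_le (by simp)) a b x).continuousAt)
    | succ n ih =>
      intro f hf
      have h1 : ContDiff ℝ 1 f := hf.of_le (by simp)
      rw [Nat.cast_succ, contDiff_succ_iff_fderiv_apply]
      refine ⟨fun x => (hasFDerivAt_param_integral h1 a b x).differentiableAt, by simp,
        fun v => ?_⟩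
      simp only [fderiv_param_integral h1]
      exact ih (f := fun p => fderiv ℝ f p (v, 0))
        ((hf.fderiv_right (m := ∞) le_rfl).clm_apply contDiff_const)
  exact contDiff_infty.2 fun n => key n hf

theorem Int1_succ {g : X → W} (hg : ContDiff ℝ ∞ g) (j : ℕ) (x : X) (m : Fin (j + 1) → X) :
    iteratedFDeriv ℝ (j + 1) g x m =
      iteratedFDeriv ℝ j (fun y => fderiv ℝ g y (m (Fin.last j))) x (Fin.init m) := by
  rw [iteratedFDeriv_succ_apply_right, iteratedFDeriv_clm_apply_const_apply
    (hg.fderiv_right (m := ∞) le_rfl) (by exact_mod_cast le_top)]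

theorem Int1_apply (a b : ℝ) (x : X) (j : ℕ) : ∀ {f : X × ℝ → W}, ContDiff ℝ ∞ f →
    ∀ m : Fin j → X, iteratedFDeriv ℝ j (fun x => ∫ σ in a..b, f (x, σ)) x m =
      ∫ σ in a..b, iteratedFDeriv ℝ j (fun x => f (x, σ)) x m := by
  induction j with
  | zero => intro f _ m; simp
  | succ j ih =>
    intro f hf m
    have h1 : ContDiff ℝ 1 f := hf.of_le (by simp)
    rw [Int1_succ (contDiff_param_integral hf a b)]
    simp only [fderiv_param_integral h1]
    rw [ih (f := fun p => fderiv ℝ f p (m (Fin.last j), 0))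
      ((hf.fderiv_right (m := ∞) le_rfl).clm_apply contDiff_const)]
    refine intervalIntegral.integral_congr fun σ _ => ?_
    rw [Int1_succ (g := fun x => f (x, σ)) (hf.comp (contDiff_id.prodMk contDiff_const))]
    congr 2
    funext y
    have h2 : HasFDerivAt (fun x => f (x, σ)) _ y :=
      (h1.differentiable one_ne_zero (y, σ)).hasFDerivAt.comp y (f := fun y => (y, σ))
        (hasFDerivAt_prodMk_left y σ)
    rw [h2.fderiv]
    rfl

/-- `iteratedFDeriv j (∫ f) x m = ∫ iteratedFDeriv j f (x,σ) (fun k => (m k, 0))`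
(induction on `j` with `iteratedFDeriv_succ_apply_left`), the integrand being
`iteratedFDeriv j (fun x => f (x, σ)) x m`; then `ContinuousMultilinearMap.opNorm_le_bound`. -/
theorem norm_iteratedFDeriv_param_integral {f : X × ℝ → W} (hf : ContDiff ℝ ∞ f) (a b : ℝ)
    (j : ℕ) (x : X) {C : ℝ}
    (hC : ∀ σ ∈ uIcc a b, ‖iteratedFDeriv ℝ j (fun x => f (x, σ)) x‖ ≤ C) :
    ‖iteratedFDeriv ℝ j (fun x => ∫ σ in a..b, f (x, σ)) x‖ ≤ |b - a| * C := by
  have h0 : 0 ≤ C := (norm_nonneg _).trans (hC a left_mem_uIcc)
  refine ContinuousMultilinearMap.opNorm_le_bound (by positivity) fun m => ?_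
  rw [Int1_apply a b x j hf]
  refine (intervalIntegral.norm_integral_le_of_norm_le_const (C := C * ∏ i, ‖m i‖)
    fun σ hσ => ContinuousMultilinearMap.le_of_opNorm_le (hC σ (uIoc_subset_uIcc hσ)) m).trans
    (le_of_eq (by ring))

end

end Crest.Agent.R216
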