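import Crest.Agent.R216.Int1

/-! # Row 216, mean, primitive and line integral: identities -/

set_option autoImplicit false
set_option linter.unusedSectionVars false
open Set Filter Metric
open scoped ContDiff RealInnerProductSpace Topology

noncomputable section
namespace Crest.Agent.R216

section
variable {X W : Type*} [NormedAddCommGroup X] [NormedSpace ℝ X] [FiniteDimensional ℝ X]
  [NormedAddCommGroup W] [NormedSpace ℝ W] [CompleteSpace W]

omit [FiniteDimensional ℝ X] [CompleteSpace W] in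
theorem Int2_lineθ {u : X × ℝ → W} (hu : ContDiff ℝ ∞ u) (x : X) (θ : ℝ) :
    HasDerivAt (fun θ => u (x, θ)) (dθ u (x, θ)) θ :=
  (hu.differentiable (by simp) (x, θ)).hasFDerivAt.comp_hasDerivAt θ
    ((hasDerivAt_const θ x).prodMk (hasDerivAt_id θ))

omit [FiniteDimensional ℝ X] [CompleteSpace W] in
theorem Int2_line {q : X → W} (hq : ContDiff ℝ ∞ q) (x e : X) (σ : ℝ) :
    HasDerivAt (fun σ : ℝ => q (x + σ • e)) (fderiv ℝ q (x + σ • e) e) σ := by
  have h1 : HasDerivAt (fun s : ℝ => x + s • e) e σ := by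
    simpa using ((hasDerivAt_id σ).smul_const e).const_add x
  exact (hq.differentiable (by simp) _).hasFDerivAt.comp_hasDerivAt σ h1

omit [FiniteDimensional ℝ X] [CompleteSpace W] in
theorem Int2_linex {u : X × ℝ → W} (hu : ContDiff ℝ ∞ u) (v x : X) (θ : ℝ) :
    HasDerivAt (fun σ : ℝ => u (x + σ • v, θ)) (dx v u (x, θ)) 0 := by
  simpa [dx] using Int2_line hu (x, θ) (v, 0) 0

omit [FiniteDimensional ℝ X] [CompleteSpace W] in
theorem Int2_contDiff_fderiv {q : X → W} (hq : ContDiff ℝ ∞ q) (e : X) :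
    ContDiff ℝ ∞ fun x => fderiv ℝ q x e :=
  (hq.fderiv_right (m := ∞) (by simp)).clm_apply contDiff_const

omit [NormedSpace ℝ X] [FiniteDimensional ℝ X] [NormedSpace ℝ W] [CompleteSpace W] in
theorem Int2_ii {u : X × ℝ → W} (hu : Continuous u) (x : X) (a b : ℝ) :
    IntervalIntegrable (fun θ => u (x, θ)) MeasureTheory.volume a b :=
  (hu.comp (Continuous.prodMk_right x)).intervalIntegrable a b

omit [NormedSpace ℝ X] [FiniteDimensional ℝ X] in
theorem Int2_shift {Y : Type*} {u : X × ℝ → Y} (hp : Per u) :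
    (fun z => u (z + (0, 2 * Real.pi))) = u := by
  funext ⟨x, θ⟩
  rw [Prod.mk_add_mk, add_zero, hp]

theorem contDiff_mean {u : X × ℝ → W} (hu : ContDiff ℝ ∞ u) : ContDiff ℝ ∞ (mean u) := by
  exact (contDiff_param_integral hu 0 (2 * Real.pi)).const_smul (2 * Real.pi)⁻¹

/-- `prim0 u (x,θ) = θ • ∫ σ in 0..1, (u (x, σ θ) - mean u x)` -/
theorem contDiff_prim0 {u : X × ℝ → W} (hu : ContDiff ℝ ∞ u) : ContDiff ℝ ∞ (prim0 u) := by
  have e : prim0 u = fun z : X × ℝ =>
      z.2 • ∫ σ in (0 : ℝ)..1, (u (z.1, σ * z.2) - mean u z.1) := by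
    funext z
    rw [intervalIntegral.smul_integral_comp_mul_right (fun θ => u (z.1, θ) - mean u z.1),
      zero_mul, one_mul, prim0]
  rw [e]
  refine contDiff_snd.smul (contDiff_param_integral
    (f := fun w : (X × ℝ) × ℝ => u (w.1.1, w.2 * w.1.2) - mean u w.1.1) ?_ 0 1)
  exact (hu.comp (contDiff_fst.fst.prodMk (contDiff_snd.mul contDiff_fst.snd))).sub
    ((contDiff_mean hu).comp contDiff_fst.fst)

theorem contDiff_prim {u : X × ℝ → W} (hu : ContDiff ℝ ∞ u) : ContDiff ℝ ∞ (prim u) := by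
  exact (contDiff_prim0 hu).sub ((contDiff_mean (contDiff_prim0 hu)).comp contDiff_fst)

theorem contDiff_tint {q : X → W} (hq : ContDiff ℝ ∞ q) (e : X) : ContDiff ℝ ∞ (tint e q) := by
  exact contDiff_param_integral (f := fun w : X × ℝ => q (w.1 + w.2 • e))
    (hq.comp (contDiff_fst.add (contDiff_snd.smul contDiff_const))) (-5) 0

theorem contDiff_dθ {u : X × ℝ → W} (hu : ContDiff ℝ ∞ u) : ContDiff ℝ ∞ (dθ u) := by
  exact Int2_contDiff_fderiv hu _

theorem contDiff_dx {u : X × ℝ → W} (hu : ContDiff ℝ ∞ u) (v : X) : ContDiff ℝ ∞ (dx v u) := by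
  exact Int2_contDiff_fderiv hu _

theorem mean_congr {u v : X × ℝ → W} {x : X} (h : ∀ θ, u (x, θ) = v (x, θ)) :
    mean u x = mean v x := by
  simp only [mean, h]

theorem mean_add {u v : X × ℝ → W} (hu : Continuous u) (hv : Continuous v) (x : X) :
    mean (fun z => u z + v z) x = mean u x + mean v x := by
  simp only [mean]
  rw [intervalIntegral.integral_add (Int2_ii hu x _ _) (Int2_ii hv x _ _), smul_add]

theorem mean_sub {u v : X × ℝ → W} (hu : Continuous u) (hv : Continuous v) (x : X) :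
    mean (fun z => u z - v z) x = mean u x - mean v x := by
  simp only [mean]
  rw [intervalIntegral.integral_sub (Int2_ii hu x _ _) (Int2_ii hv x _ _), smul_sub]

theorem mean_neg (u : X × ℝ → W) (x : X) : mean (fun z => -u z) x = -mean u x := by
  simp only [mean]
  rw [intervalIntegral.integral_neg, smul_neg]

theorem mean_fst (c : X → W) (x : X) : mean (fun z : X × ℝ => c z.1) x = c x := by
  simp only [mean]
  rw [intervalIntegral.integral_const, sub_zero, inv_smul_smul₀ Real.two_pi_pos.ne']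

theorem mean_smul_left (c : X → ℝ) (u : X × ℝ → W) (x : X) :
    mean (fun z => c z.1 • u z) x = c x • mean u x := by
  simp only [mean]
  rw [intervalIntegral.integral_smul, smul_comm]

theorem mean_mul_left (c : X → ℝ) (u : X × ℝ → ℝ) (x : X) :
    mean (fun z => c z.1 * u z) x = c x * mean u x := by
  exact mean_smul_left c u x

theorem mean_smul_right (u : X × ℝ → ℝ) (c : X → W) (x : X) :
    mean (fun z => u z • c z.1) x = mean u x • c x := by
  simp only [mean]
  rw [intervalIntegral.integral_smul_const, smul_assoc]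

theorem mean_inner_left {H : Type*} [NormedAddCommGroup H] [InnerProductSpace ℝ H]
    [CompleteSpace H] (c : X → H) {u : X × ℝ → H} (hu : Continuous u) (x : X) :
    mean (fun z => ⟪c z.1, u z⟫) x = ⟪c x, mean u x⟫ := by
  simp only [mean]
  rw [inner_smul_right, smul_eq_mul]
  exact congrArg _ ((innerSL ℝ (c x)).intervalIntegral_comp_comm (Int2_ii hu x _ _))

theorem norm_mean_le {u : X × ℝ → W} {x : X} {C : ℝ} (h : ∀ θ, ‖u (x, θ)‖ ≤ C) :
    ‖mean u x‖ ≤ C := by
  have h1 := intervalIntegral.norm_integral_le_of_norm_le_const (a := 0) (b := 2 * Real.pi)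
    (f := fun θ => u (x, θ)) fun θ _ => h θ
  rw [sub_zero, abs_of_pos Real.two_pi_pos] at h1
  rw [mean, norm_smul, norm_inv, Real.norm_of_nonneg Real.two_pi_pos.le,
    inv_mul_le_iff₀' Real.two_pi_pos]
  exact h1

theorem mean_pos {u : X × ℝ → ℝ} (hu : Continuous u) (hp : Per u) {x : X}
    (h : ∀ θ, 0 ≤ u (x, θ)) {θ₀ : ℝ} (h0 : 0 < u (x, θ₀)) : 0 < mean u x := by
  have h1 := Function.Periodic.intervalIntegral_add_eq (f := fun θ => u (x, θ)) (hp x) 0 θ₀
  rw [zero_add] at h1
  rw [mean, h1]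
  have h2 : θ₀ < θ₀ + 2 * Real.pi := lt_add_of_pos_right _ Real.two_pi_pos
  exact smul_pos (inv_pos.2 Real.two_pi_pos) (intervalIntegral.integral_pos h2
    (hu.comp (Continuous.prodMk_right x)).continuousOn (fun θ _ => h θ) ⟨θ₀, ⟨le_rfl, h2.le⟩, h0⟩)

theorem mean_dθ {u : X × ℝ → W} (hu : ContDiff ℝ ∞ u) (hp : Per u) (x : X) :
    mean (dθ u) x = 0 := by
  have h1 := hp x 0
  rw [zero_add] at h1
  rw [mean, intervalIntegral.integral_eq_sub_of_hasDerivAt (fun θ _ => Int2_lineθ hu x θ)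
    (Int2_ii (contDiff_dθ hu).continuous x _ _), h1, sub_self, smul_zero]

theorem mean_dx {u : X × ℝ → W} (hu : ContDiff ℝ ∞ u) (v x : X) :
    mean (dx v u) x = fderiv ℝ (mean u) x v := by
  have h1 : ContDiff ℝ 1 u := hu.of_le (by simp)
  have h2 := fderiv_fun_const_smul
    (hasFDerivAt_param_integral h1 0 (2 * Real.pi) x).differentiableAt (2 * Real.pi)⁻¹
  have h3 : fderiv ℝ (mean u) x = _ := h2
  rw [h3, smul_apply, fderiv_param_integral h1]
  rfl

theorem mean_odd {u : X × ℝ → W} (hp : Per u) {x : X} (h : ∀ θ, u (x, -θ) = -u (x, θ)) :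
    mean u x = 0 := by
  have h1 := Function.Periodic.intervalIntegral_add_eq (f := fun θ => u (x, θ)) (hp x) 0
    (-(2 * Real.pi))
  have h2 := intervalIntegral.integral_comp_neg (a := 0) (b := 2 * Real.pi) fun θ => u (x, θ)
  simp only [h, intervalIntegral.integral_neg] at h2
  rw [zero_add, neg_add_cancel] at h1
  rw [neg_zero, ← h1, neg_eq_iff_add_eq_zero, ← two_smul ℝ, smul_eq_zero] at h2
  rw [mean, h2.resolve_left two_ne_zero, smul_zero]

theorem Per.dθ {u : X × ℝ → W} (hp : Per u) : Per (dθ u) := by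
  intro x θ
  have h := fderiv_comp_add_right (𝕜 := ℝ) (f := u) (x := (x, θ)) (0, 2 * Real.pi)
  rw [Int2_shift hp, Prod.mk_add_mk, add_zero] at h
  rw [R216.dθ, R216.dθ, h]

theorem Per.dx {u : X × ℝ → W} (hp : Per u) (v : X) : Per (dx v u) := by
  intro x θ
  have h := fderiv_comp_add_right (𝕜 := ℝ) (f := u) (x := (x, θ)) (0, 2 * Real.pi)
  rw [Int2_shift hp, Prod.mk_add_mk, add_zero] at h
  rw [R216.dx, R216.dx, h]

theorem Per.iteratedFDeriv {u : X × ℝ → W} (hp : Per u) (j : ℕ) :
    Per (iteratedFDeriv ℝ j u) := by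
  intro x θ
  have h := iteratedFDeriv_comp_add_right (𝕜 := ℝ) (f := u) j (0, 2 * Real.pi) (x, θ)
  rw [Int2_shift hp, Prod.mk_add_mk, add_zero] at h
  exact h.symm

theorem Per.int {Y : Type*} {u : X × ℝ → Y} (hp : Per u) (x : X) (θ : ℝ) (n : ℤ) :
    u (x, θ + n * (2 * Real.pi)) = u (x, θ) := by
  exact Function.Periodic.int_mul (f := fun θ => u (x, θ)) (hp x) n θ

theorem Per.prim0 {u : X × ℝ → W} (hu : Continuous u) (hp : Per u) : Per (prim0 u) := by
  intro x θ
  have h1 := Function.Periodic.intervalIntegral_add_eq_add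
    (f := fun θ => u (x, θ) - mean u x) (T := 2 * Real.pi) (fun θ => by simp only [hp x θ]) 0 θ
    fun a b => (Int2_ii hu x a b).sub intervalIntegrable_const
  rw [zero_add, intervalIntegral.integral_sub (Int2_ii hu x 0 (2 * Real.pi))
    intervalIntegrable_const, intervalIntegral.integral_const, sub_zero] at h1
  refine h1.trans ?_
  conv_lhs => enter [2, 2]; rw [mean, smul_inv_smul₀ Real.two_pi_pos.ne']
  rw [sub_self, add_zero]
  rfl

theorem Per.prim {u : X × ℝ → W} (hu : Continuous u) (hp : Per u) : Per (prim u) := by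
  intro x θ
  rw [R216.prim, R216.prim, hp.prim0 hu]

theorem dθ_prim {u : X × ℝ → W} (hu : ContDiff ℝ ∞ u) (z : X × ℝ) :
    dθ (prim u) z = u z - mean u z.1 := by
  obtain ⟨x, θ⟩ := z
  have h1 : Continuous fun θ => u (x, θ) - mean u x :=
    (hu.continuous.comp (Continuous.prodMk_right x)).sub continuous_const
  exact (Int2_lineθ (contDiff_prim hu) x θ).unique
    ((h1.integral_hasStrictDerivAt 0 θ).hasDerivAt.sub_const (mean (prim0 u) x))

theorem mean_prim {u : X × ℝ → W} (hu : ContDiff ℝ ∞ u) (x : X) : mean (prim u) x = 0 := by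
  have h1 := mean_sub (contDiff_prim0 hu).continuous
    ((contDiff_mean (contDiff_prim0 hu)).continuous.comp continuous_fst) x
  have h2 := mean_fst (mean (prim0 u)) x
  exact h1.trans (sub_eq_zero.2 h2.symm)

/-- the primitive of an even function is odd -/
theorem prim_odd {u : X × ℝ → W} (hu : ContDiff ℝ ∞ u) (hp : Per u)
    (h : ∀ x θ, u (x, -θ) = u (x, θ)) (x : X) (θ : ℝ) : prim u (x, -θ) = -prim u (x, θ) := by
  have h1 : ∀ θ, prim0 u (x, -θ) = -prim0 u (x, θ) := fun θ => by
    have h2 := intervalIntegral.integral_comp_neg (a := 0) (b := θ) fun θ => u (x, θ) - mean u x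
    simp only [h] at h2
    rw [neg_zero, intervalIntegral.integral_symm 0 (-θ)] at h2
    exact (neg_eq_iff_eq_neg.2 h2).symm
  rw [prim, prim, mean_odd (hp.prim0 hu.continuous) h1, h1, sub_zero, sub_zero]

theorem dx_odd {u : X × ℝ → W} (hu : ContDiff ℝ ∞ u) (h : ∀ x θ, u (x, -θ) = -u (x, θ)) (v x : X)
    (θ : ℝ) : dx v u (x, -θ) = -dx v u (x, θ) := by
  have h1 := Int2_linex hu v x (-θ)
  simp only [h] at h1
  exact h1.unique (Int2_linex hu v x θ).fun_neg

theorem dx_dθ {u : X × ℝ → W} (hu : ContDiff ℝ ∞ u) (v : X) (z : X × ℝ) :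
    dx v (dθ u) z = dθ (dx v u) z := by
  have h1 : ∀ a b : X × ℝ, fderiv ℝ (fun z => fderiv ℝ u z a) z b =
      fderiv ℝ (fderiv ℝ u) z b a := fun a b => by
    rw [fderiv_clm_apply ((hu.fderiv_right (m := ∞) (by simp)).differentiable (by simp) z)
      (differentiableAt_const a)]
    simp
  exact (h1 _ _).trans ((hu.contDiffAt.isSymmSndFDerivAt (by simp; norm_cast) _ _).trans
    (h1 _ _).symm)

theorem dθ_fst (c : X → W) (hc : ContDiff ℝ ∞ c) (z : X × ℝ) :
    dθ (fun z : X × ℝ => c z.1) z = 0 := by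
  have h1 := ((hc.differentiable (by simp) z.1).hasFDerivAt.comp z hasFDerivAt_fst).fderiv
  exact (congrArg (fun L : X × ℝ →L[ℝ] W => L (0, 1)) h1).trans (map_zero (fderiv ℝ c z.1))

theorem dx_fst (c : X → W) (hc : ContDiff ℝ ∞ c) (v : X) (z : X × ℝ) :
    dx v (fun z : X × ℝ => c z.1) z = fderiv ℝ c z.1 v := by
  have h1 := ((hc.differentiable (by simp) z.1).hasFDerivAt.comp z hasFDerivAt_fst).fderiv
  exact congrArg (fun L : X × ℝ →L[ℝ] W => L (v, 0)) h1

theorem fderiv_tint {q : X → W} (hq : ContDiff ℝ ∞ q) (e x : X) :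
    fderiv ℝ (tint e q) x e = q x - q (x - (5 : ℝ) • e) := by
  have hf : ContDiff ℝ ∞ fun w : X × ℝ => q (w.1 + w.2 • e) :=
    hq.comp (contDiff_fst.add (contDiff_snd.smul contDiff_const))
  have h1 : ∀ σ : ℝ, fderiv ℝ (fun w : X × ℝ => q (w.1 + w.2 • e)) (x, σ) (e, 0) =
      fderiv ℝ q (x + σ • e) e := fun σ => by
    have h2 := Int2_line hq (x + σ • e) e 0
    rw [zero_smul, add_zero] at h2
    refine (Int2_linex hf e x σ).unique ?_
    simpa only [add_right_comm x _ (σ • e)] using h2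
  refine (fderiv_param_integral (hf.of_le (by simp)) (-5) 0 x e).trans ?_
  simp only [h1]
  rw [intervalIntegral.integral_eq_sub_of_hasDerivAt (fun σ _ => Int2_line hq x e σ)
    (((Int2_contDiff_fderiv hq e).continuous.comp
      (continuous_const.add (continuous_id.smul continuous_const))).intervalIntegrable _ _),
    zero_smul, add_zero, neg_smul, ← sub_eq_add_neg]

end

end Crest.Agent.R216
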