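import Crest.Agent.R216.Int2

/-! # Row 216, mean, primitive and line integral act on the classes -/

set_option autoImplicit false
open Set Filter Metric
open scoped ContDiff RealInnerProductSpace Topology

noncomputable section
namespace Crest.Agent.R216

theorem int3_norm_comp_affine {X Y W : Type*} [NormedAddCommGroup X] [NormedSpace ℝ X]
    [NormedAddCommGroup Y] [NormedSpace ℝ Y] [NormedAddCommGroup W] [NormedSpace ℝ W] {u : X → W}
    (hu : ContDiff ℝ ∞ u) (L : Y →L[ℝ] X) (hL : ‖L‖ ≤ 1) (c : X) (j : ℕ) (y : Y) :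
    ‖iteratedFDeriv ℝ j (fun y => u (L y + c)) y‖ ≤ ‖iteratedFDeriv ℝ j u (L y + c)‖ := by
  have h1 : ContDiff ℝ ∞ (fun x => u (x + c)) := hu.comp (contDiff_id.add contDiff_const)
  have h2 := L.iteratedFDeriv_comp_right h1 y (i := j) (by exact_mod_cast le_top)
  change ‖iteratedFDeriv ℝ j ((fun x => u (x + c)) ∘ L) y‖ ≤ _
  rw [h2, iteratedFDeriv_comp_add_right]
  refine (ContinuousMultilinearMap.norm_compContinuousLinearMap_le _ _).trans ?_
  refine mul_le_of_le_one_right (norm_nonneg _) ?_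
  exact Finset.prod_le_one (fun _ _ => norm_nonneg _) fun _ _ => hL

theorem int3_bd_param {X W : Type*} [NormedAddCommGroup X] [NormedSpace ℝ X] [FiniteDimensional ℝ X]
    [NormedAddCommGroup W] [NormedSpace ℝ W] [CompleteSpace W] {f : X × ℝ → W}
    (hf : ContDiff ℝ ∞ f) (a b : ℝ) {B : ℕ → ℝ} {m : ℝ} {w : X → ℝ} (hm : 1 ≤ m)
    (hB : ∀ j, 0 ≤ B j) (hw : ∀ x, 0 ≤ w x)
    (h : ∀ j x, ∀ σ ∈ uIcc a b, ‖iteratedFDeriv ℝ j (fun x => f (x, σ)) x‖ ≤ B j * w x * m ^ j) :
    Bd (fun j => |b - a| * B j) m w (fun x => ∫ σ in a..b, f (x, σ)) where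
  smooth := contDiff_param_integral hf a b
  one_le := hm
  B_nonneg j := mul_nonneg (abs_nonneg _) (hB j)
  w_nonneg := hw
  bound j x := (norm_iteratedFDeriv_param_integral hf a b j x (h j x)).trans_eq (by ring)

theorem int3_bd_snd {X : Type*} [NormedAddCommGroup X] [NormedSpace ℝ X] {m : ℝ} (hm : 1 ≤ m) :
    Bd (fun _ => 1) m (fun z : X × ℝ => |z.2| + 1) (fun z => z.2) where
  smooth := contDiff_snd
  one_le := hm
  B_nonneg _ := zero_le_one
  w_nonneg z := by positivity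
  bound j z := by
    have h1 : ‖iteratedFDeriv ℝ j (fun z : X × ℝ => z.2) z‖ ≤ |z.2| + 1 := by
      cases j with
      | zero => simp
      | succ j =>
        rw [← norm_iteratedFDeriv_fderiv]
        have e : fderiv ℝ (fun z : X × ℝ => z.2) = fun _ => ContinuousLinearMap.snd ℝ X ℝ := by
          funext z
          exact fderiv_snd
        rw [e]
        have h0 := abs_nonneg z.2
        cases j with
        | zero =>
          rw [norm_iteratedFDeriv_zero]
          linarith [ContinuousLinearMap.norm_snd_le ℝ X ℝ]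
        | succ j =>
          rw [iteratedFDeriv_const_of_ne (Nat.succ_ne_zero j)]
          simp only [Pi.zero_apply, norm_zero]
          linarith
    refine h1.trans ?_
    rw [one_mul]
    exact le_mul_of_one_le_right (by positivity) (one_le_pow₀ hm)

theorem int3_prim0_eq {X W : Type*} [NormedAddCommGroup X] [NormedSpace ℝ X]
    [NormedAddCommGroup W] [NormedSpace ℝ W] (u : X × ℝ → W) (z : X × ℝ) :
    prim0 u z = z.2 • ∫ σ in (0 : ℝ)..1, (u (z.1, σ * z.2) - mean u z.1) := by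
  have := intervalIntegral.smul_integral_comp_mul_right (a := 0) (b := 1)
    (fun θ => u (z.1, θ) - mean u z.1) z.2
  rw [this, zero_mul, one_mul]
  rfl


section
variable {X W : Type*} [NormedAddCommGroup X] [NormedSpace ℝ X] [FiniteDimensional ℝ X]
  [NormedAddCommGroup W] [NormedSpace ℝ W] [CompleteSpace W] {J N : Type*} {π : J → N} {μ : J → ℝ}

theorem Sy.mean {w : J → X → ℝ} {u : J → X × ℝ → W} (h : Sy π μ (fun i z => w i z.1) u) :
    Sy π μ w (fun i => mean (u i)) := by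
  obtain ⟨k, B, hB⟩ := h
  have h1 : Sy π μ w (fun i x => ∫ θ in (0 : ℝ)..(2 * Real.pi), u i (x, θ)) := by
    refine ⟨k, fun n j => |2 * Real.pi - 0| * B n j, fun i => ?_⟩
    refine int3_bd_param (hB i).smooth 0 (2 * Real.pi) (hB i).one_le (hB i).B_nonneg
      (fun x => (hB i).w_nonneg (x, 0)) fun j x σ _ => ?_
    have h2 := int3_norm_comp_affine (hB i).smooth (ContinuousLinearMap.inl ℝ X ℝ)
      (ContinuousLinearMap.norm_inl_le_one ℝ X ℝ) (0, σ) j x
    simp only [ContinuousLinearMap.inl_apply, Prod.mk_add_mk, add_zero, zero_add] at h2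
    exact h2.trans ((hB i).bound j (x, σ))
  exact h1.const_smul _

/-- By periodicity (`Per.iteratedFDeriv`, `Per.prim0`) it suffices to bound the derivatives at
`θ ∈ [0, 2π]`.  `prim0 u z = z.2 • ∫ σ in 0..1, v (z.1, σ z.2)`, `v = u - mean u ∘ fst`; for fixed
`σ ∈ [0,1]` the integrand is `v` composed with the linear map `(x,θ) ↦ (x,σθ)` of norm `≤ 1`;
`norm_iteratedFDeriv_param_integral` and Leibniz for the factor `z.2`. -/
theorem Sy.prim0 {w : J → X → ℝ} {u : J → X × ℝ → W} (h : Sy π μ (fun i z => w i z.1) u)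
    (hp : ∀ i, Per (u i)) : Sy π μ (fun i z => w i z.1) (fun i => prim0 (u i)) := by
  have hμ := h.one_le
  have hu := h.smooth
  obtain ⟨k, B, hB⟩ := h.sub h.mean.fst
  have h1 : Sy π μ (fun i (z : X × ℝ) => w i z.1)
      (fun i z => ∫ σ in (0 : ℝ)..1, (u i (z.1, σ * z.2) - R216.mean (u i) z.1)) := by
    refine ⟨k, fun n j => |1 - 0| * B n j, fun i => ?_⟩
    refine int3_bd_param (f := fun p : (X × ℝ) × ℝ => u i (p.1.1, p.2 * p.1.2) - R216.mean (u i) p.1.1)
      ((hB i).smooth.comp (g := fun z : X × ℝ => u i z - R216.mean (u i) z.1)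
        (f := fun p : (X × ℝ) × ℝ => (p.1.1, p.2 * p.1.2)) (by fun_prop)) 0 1 (hB i).one_le
      (hB i).B_nonneg (hB i).w_nonneg fun j z σ hσ => ?_
    rw [uIcc_of_le zero_le_one] at hσ
    have hL : ‖(ContinuousLinearMap.fst ℝ X ℝ).prod (σ • ContinuousLinearMap.snd ℝ X ℝ)‖ ≤ 1 := by
      refine ContinuousLinearMap.opNorm_le_bound _ zero_le_one fun y => ?_
      rw [_root_.one_mul]
      refine max_le (le_max_left _ _) (le_trans ?_ (le_max_right _ _))
      change ‖σ • y.2‖ ≤ ‖y.2‖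
      rw [norm_smul, Real.norm_of_nonneg hσ.1]
      exact mul_le_of_le_one_left (norm_nonneg _) hσ.2
    have h2 := int3_norm_comp_affine (hB i).smooth _ hL 0 j z
    simp only [add_zero, ContinuousLinearMap.prod_apply, ContinuousLinearMap.coe_fst',
      smul_apply, ContinuousLinearMap.coe_snd', smul_eq_mul] at h2
    exact h2.trans ((hB i).bound j (z.1, σ * z.2))
  have h2 : Sy π μ (fun i (z : X × ℝ) => |z.2| + 1) (fun _ z => z.2) :=
    Sy.of_Bd (B := fun _ _ => 1) fun i => int3_bd_snd (hμ i)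
  obtain ⟨k', B', hB'⟩ := (h2.smul h1).congr fun i z => (int3_prim0_eq (u i) z).symm
  refine ⟨k', fun n j => B' n j * (2 * Real.pi + 1), fun i => ?_⟩
  have hpi := Real.pi_pos
  have hw : ∀ z : X × ℝ, 0 ≤ w i z.1 * μ i ^ k' := fun z =>
    mul_nonneg (h.w_nonneg i z) (pow_nonneg (zero_le_one.trans (hμ i)) _)
  refine ⟨(hB' i).smooth, hμ i, fun j => mul_nonneg ((hB' i).B_nonneg j) (by positivity), hw,
    fun j z => ?_⟩
  have h2π : 0 < 2 * Real.pi := by positivity
  have hper := ((hp i).prim0 (hu i).continuous).iteratedFDeriv j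
  have e := hper.int z.1 (toIcoMod h2π 0 z.2) (toIcoDiv h2π 0 z.2)
  have e2 : toIcoMod h2π 0 z.2 + (toIcoDiv h2π 0 z.2 : ℝ) * (2 * Real.pi) = z.2 := by
    have := toIcoMod_add_toIcoDiv_zsmul h2π 0 z.2
    rwa [zsmul_eq_mul] at this
  rw [e2] at e
  have hm := toIcoMod_mem_Ico h2π 0 z.2
  have hb := (hB' i).bound j (z.1, toIcoMod h2π 0 z.2)
  have e' : iteratedFDeriv ℝ j (R216.prim0 (u i)) z =
      iteratedFDeriv ℝ j (R216.prim0 (u i)) (z.1, toIcoMod h2π 0 z.2) := e
  change ‖iteratedFDeriv ℝ j (R216.prim0 (u i)) z‖ ≤ _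
  rw [e']
  refine hb.trans (mul_le_mul_of_nonneg_right ?_ (pow_nonneg (zero_le_one.trans (hμ i)) _))
  have h3 : |toIcoMod h2π 0 z.2| + 1 ≤ 2 * Real.pi + 1 := by
    rw [abs_of_nonneg hm.1]
    linarith [hm.2]
  calc B' (π i) j * ((|toIcoMod h2π 0 z.2| + 1) * w i z.1 * μ i ^ k')
      = B' (π i) j * (|toIcoMod h2π 0 z.2| + 1) * (w i z.1 * μ i ^ k') := by ring
    _ ≤ _ := mul_le_mul_of_nonneg_right (mul_le_mul_of_nonneg_left h3 ((hB' i).B_nonneg j)) (hw z)

theorem Sy.prim {w : J → X → ℝ} {u : J → X × ℝ → W} (h : Sy π μ (fun i z => w i z.1) u)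
    (hp : ∀ i, Per (u i)) : Sy π μ (fun i z => w i z.1) (fun i => prim (u i)) := by
  exact (h.prim0 hp).sub (h.prim0 hp).mean.fst

/-- translation invariance of `iteratedFDeriv` for fixed `σ` -/
theorem Sy.tint {S : J → ℝ} {q : J → X → W} (h : Sy π μ (fun i _ => S i) q) (e : J → X) :
    Sy π μ (fun i _ => S i) (fun i => tint (e i) (q i)) := by
  obtain ⟨k, B, hB⟩ := h
  refine ⟨k, fun n j => |0 - -5| * B n j, fun i => ?_⟩
  refine int3_bd_param (f := fun p : X × ℝ => q i (p.1 + p.2 • e i))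
    ((hB i).smooth.comp (f := fun p : X × ℝ => p.1 + p.2 • e i) (by fun_prop)) (-5) 0 (hB i).one_le
    (hB i).B_nonneg (hB i).w_nonneg fun j x σ _ => ?_
  change ‖iteratedFDeriv ℝ j (fun x => q i (x + σ • e i)) x‖ ≤ _
  rw [iteratedFDeriv_comp_add_right]
  exact (hB i).bound j _

end

end Crest.Agent.R216
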