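import Crest.Agent.R216.Defs

/-! # Row 216, linear algebra of 2-jets -/

set_option autoImplicit false
open Set Filter Metric
open scoped ContDiff RealInnerProductSpace Topology

noncomputable section
namespace Crest.Agent.R216

section
variable {W : Type*} [NormedAddCommGroup W] [InnerProductSpace ℝ W]

theorem E2_decomp (v : E2) : v = v 0 • b0 + v 1 • b1 := by
  ext i
  fin_cases i <;> simp [b0, b1]


theorem norm_b0 : ‖b0‖ = 1 := by
  simp [b0]


theorem norm_b1 : ‖b1‖ = 1 := by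
  simp [b1]


theorem det2_b0_b1 : det2 b0 b1 = 1 := by
  simp [det2, b0, b1]


theorem abs_det2_le (a b : E2) : |det2 a b| ≤ ‖a‖ * ‖b‖ := by
  refine abs_le_of_sq_le_sq' ?_ (by positivity) |> abs_le.2
  rw [mul_pow, EuclideanSpace.real_norm_sq_eq, EuclideanSpace.real_norm_sq_eq, Fin.sum_univ_two,
    Fin.sum_univ_two, det2]
  nlinarith [sq_nonneg (a 0 * b 0 + a 1 * b 1)]


/-- coordinates in a basis -/
theorem basis_decomp {a b : E2} (h : det2 a b ≠ 0) (v : E2) :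
    v = (det2 v b / det2 a b) • a + (det2 a v / det2 a b) • b := by
  ext i
  fin_cases i
  · simp only [Fin.zero_eta, PiLp.add_apply, PiLp.smul_apply, smul_eq_mul]
    field_simp
    simp only [det2]
    ring
  · simp only [Fin.mk_one, PiLp.add_apply, PiLp.smul_apply, smul_eq_mul]
    field_simp
    simp only [det2]
    ring


theorem det2_ne_zero {es et : E2} {l : E2 →L[ℝ] ℝ} (h1 : l es = 1) (h0 : l et = 0)
    (het : et ≠ 0) : det2 es et ≠ 0 := by
  intro h
  have e : ∀ v : E2, l v = v 0 * l b0 + v 1 * l b1 := fun v => by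
    conv_lhs => rw [E2_decomp v]
    simp
  rw [e] at h1 h0
  rw [det2] at h
  refine het ?_
  have a0 : et 0 = 0 := by linear_combination (-et 0) * h1 + es 0 * h0 - l b1 * h
  have a1 : et 1 = 0 := by linear_combination (-et 1) * h1 + es 1 * h0 + l b0 * h
  rw [E2_decomp et, a0, a1]
  simp


theorem decomp_l {es et : E2} {l : E2 →L[ℝ] ℝ} (h1 : l es = 1) (h0 : l et = 0)
    (het : et ≠ 0) (v : E2) : v = l v • es + (det2 es v / det2 es et) • et := by
  have h := basis_decomp (det2_ne_zero h1 h0 het) v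
  have e : l v = det2 v et / det2 es et := by
    conv_lhs => rw [h]
    simp [h1, h0]
  rw [e]
  exact h


theorem sq2_apply (l : E2 →L[ℝ] ℝ) (v w : E2) : sq2 l v w = l v * l w := by
  simp [sq2]


/-- a bilinear form is controlled by its values on a basis `(es, et)` with dual basis
`(l, det2 es · / det2 es et)` -/
theorem norm_bil_le {es et : E2} (h : det2 es et ≠ 0) (H : Bil) {b : ℝ}
    (h1 : |H es es| ≤ b) (h2 : |H es et| ≤ b) (h3 : |H et es| ≤ b) (h4 : |H et et| ≤ b) :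
    ‖H‖ ≤ ((‖es‖ + ‖et‖) / |det2 es et|) ^ 2 * b := by
  have hb : 0 ≤ b := (abs_nonneg _).trans h1
  have hD : 0 < |det2 es et| := abs_pos.2 h
  have key : ∀ v : E2, ∃ α β : ℝ, v = α • es + β • et ∧
      |α| + |β| ≤ (‖es‖ + ‖et‖) / |det2 es et| * ‖v‖ := fun v => by
    refine ⟨_, _, basis_decomp h v, ?_⟩
    rw [abs_div, abs_div, ← add_div, div_mul_eq_mul_div]
    refine div_le_div_of_nonneg_right ?_ hD.le
    nlinarith [abs_det2_le v et, abs_det2_le es v]
  refine ContinuousLinearMap.opNorm_le_bound₂ _ (by positivity) fun v w => ?_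
  obtain ⟨α, β, hv, h5⟩ := key v
  obtain ⟨γ, δ, hw, h6⟩ := key w
  have e : H v w = α * γ * H es es + α * δ * H es et + β * γ * H et es + β * δ * H et et := by
    rw [hv, hw]
    simp only [map_add, map_smul, _root_.add_apply, _root_.smul_apply,
      smul_eq_mul]
    ring
  have t : ∀ x y c : ℝ, |c| ≤ b → |x * y * c| ≤ |x| * |y| * b := fun x y c hc => by
    rw [abs_mul, abs_mul]
    exact mul_le_mul_of_nonneg_left hc (by positivity)
  have a1 : |H v w| ≤ (|α| + |β|) * (|γ| + |δ|) * b := by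
    rw [e]
    have c1 := abs_add_le (α * γ * H es es + α * δ * H es et + β * γ * H et es) (β * δ * H et et)
    have c2 := abs_add_le (α * γ * H es es + α * δ * H es et) (β * γ * H et es)
    have c3 := abs_add_le (α * γ * H es es) (α * δ * H es et)
    nlinarith [t α γ _ h1, t α δ _ h2, t β γ _ h3, t β δ _ h4]
  have a2 := mul_le_mul_of_nonneg_right (mul_le_mul h5 h6 (by positivity) (by positivity)) hb
  rw [Real.norm_eq_abs]
  exact (a1.trans a2).trans (le_of_eq (by ring))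


theorem g2_nonneg (u v : W) : 0 ≤ g2 u v := by
  have := real_inner_mul_inner_self_le u v
  rw [g2]
  nlinarith


theorem g2_comm (u v : W) : g2 u v = g2 v u := by
  rw [g2, g2, real_inner_comm u v]
  ring


theorem g2_map (L : E2 →L[ℝ] W) (a b : E2) :
    g2 (L a) (L b) = det2 a b ^ 2 * g2 (L b0) (L b1) := by
  have e : ∀ v : E2, L v = v 0 • L b0 + v 1 • L b1 := fun v => by
    conv_lhs => rw [E2_decomp v]
    simp
  rw [e a, e b]
  simp only [g2, det2, inner_add_left, inner_add_right, real_inner_smul_left,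
    real_inner_smul_right, real_inner_comm (L b0) (L b1)]
  ring


theorem jet1_dep {u v : W} (h : g2 u v = 0) : u = 0 ∨ ∃ c : ℝ, v = c • u := by
  by_cases hu : u = 0
  · exact Or.inl hu
  refine Or.inr ⟨⟪u, v⟫ / ⟪u, u⟫, sub_eq_zero.1 ((inner_self_eq_zero (𝕜 := ℝ)).1 ?_)⟩
  have h1 : ⟪u, u⟫ ≠ 0 := fun h => hu ((inner_self_eq_zero (𝕜 := ℝ)).1 h)
  rw [g2] at h
  simp only [inner_sub_left, inner_sub_right, real_inner_smul_left, real_inner_smul_right,
    real_inner_comm u v]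
  field_simp
  linear_combination h

theorem g2_pos_iff (L : E2 →L[ℝ] W) : 0 < g2 (L b0) (L b1) ↔ Function.Injective L := by
  constructor
  · intro h
    refine (injective_iff_map_eq_zero L).2 fun v hv => ?_
    have h0 := g2_map L v b1
    have h1 := g2_map L b0 v
    rw [hv] at h0 h1
    have a0 : v 0 = 0 := by
      have : det2 v b1 ^ 2 * g2 (L b0) (L b1) = 0 := by rw [← h0]; simp [g2]
      simpa [det2, b1] using (mul_eq_zero.1 this).resolve_right h.ne'
    have a1 : v 1 = 0 := by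
      have : det2 b0 v ^ 2 * g2 (L b0) (L b1) = 0 := by rw [← h1]; simp [g2]
      simpa [det2, b0] using (mul_eq_zero.1 this).resolve_right h.ne'
    rw [E2_decomp v, a0, a1]
    simp
  · intro h
    refine (g2_nonneg _ _).lt_of_ne fun h0 => ?_
    rcases jet1_dep h0.symm with h1 | ⟨c, h1⟩
    · have := (injective_iff_map_eq_zero L).1 h _ h1
      have h2 := norm_b0
      rw [this, norm_zero] at h2
      exact zero_ne_one h2
    · rw [← map_smul] at h1
      have h2 := det2_b0_b1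
      rw [h h1] at h2
      simp [det2, b0] at h2


theorem g3_swap12 (u v z : W) : g3 u v z = g3 v u z := by
  rw [g3, g3, real_inner_comm u v]
  ring


theorem g3_swap23 (u v z : W) : g3 u v z = g3 u z v := by
  rw [g3, g3, real_inner_comm v z]
  ring


theorem inner_nproj_left {u v : W} (h : g2 u v ≠ 0) (z : W) : ⟪u, nproj u v z⟫ = 0 := by
  simp only [nproj, inner_sub_right, real_inner_smul_right]
  field_simp
  rw [g2]
  ring


theorem inner_nproj_right {u v : W} (h : g2 u v ≠ 0) (z : W) : ⟪v, nproj u v z⟫ = 0 := by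
  simp only [nproj, inner_sub_right, real_inner_smul_right, real_inner_comm u v]
  field_simp
  rw [g2]
  ring


theorem nproj_add (u v z y : W) : nproj u v (z + y) = nproj u v z + nproj u v y := by
  simp only [nproj, inner_add_right]
  match_scalars <;> ring


theorem nproj_smul (u v z : W) (c : ℝ) : nproj u v (c • z) = c • nproj u v z := by
  simp only [nproj, real_inner_smul_right]
  match_scalars <;> ring


theorem nproj_of_orth {u v z : W} (h1 : ⟪u, z⟫ = 0) (h2 : ⟪v, z⟫ = 0) : nproj u v z = z := by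
  simp [nproj, h1, h2]


theorem nproj_span {u v : W} (h : g2 u v ≠ 0) (α β : ℝ) : nproj u v (α • u + β • v) = 0 := by
  simp only [nproj, inner_add_right, real_inner_smul_right, real_inner_comm u v]
  have e1 : (⟪v, v⟫ * (α * ⟪u, u⟫ + β * ⟪u, v⟫) - ⟪u, v⟫ * (α * ⟪u, v⟫ + β * ⟪v, v⟫)) /
      g2 u v = α := by
    rw [div_eq_iff h, g2]
    ring
  have e2 : (⟪u, u⟫ * (α * ⟪u, v⟫ + β * ⟪v, v⟫) - ⟪u, v⟫ * (α * ⟪u, u⟫ + β * ⟪u, v⟫)) /
      g2 u v = β := by
    rw [div_eq_iff h, g2]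
    ring
  rw [e1, e2]
  abel


theorem inner_nproj_of_orth {u v n : W} (h1 : ⟪u, n⟫ = 0) (h2 : ⟪v, n⟫ = 0) (z : W) :
    ⟪nproj u v z, n⟫ = ⟪z, n⟫ := by
  simp only [nproj, inner_sub_left, real_inner_smul_left, h1, h2]
  ring


theorem inner_nproj_nproj {u v : W} (h : g2 u v ≠ 0) (z y : W) :
    ⟪nproj u v z, nproj u v y⟫ = ⟪z, y⟫ -
      (⟪v, v⟫ * ⟪z, u⟫ * ⟪y, u⟫ - ⟪u, v⟫ * (⟪z, u⟫ * ⟪y, v⟫ + ⟪z, v⟫ * ⟪y, u⟫)
        + ⟪u, u⟫ * ⟪z, v⟫ * ⟪y, v⟫) / g2 u v := by
  rw [inner_nproj_of_orth (inner_nproj_left h y) (inner_nproj_right h y)]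
  simp only [nproj, inner_sub_right, real_inner_smul_right, real_inner_comm y u,
    real_inner_comm y v]
  ring


theorem norm_nproj_le {u v : W} (h : g2 u v ≠ 0) (z : W) : ‖nproj u v z‖ ≤ ‖z‖ := by
  have h1 := inner_nproj_of_orth (inner_nproj_left h z) (inner_nproj_right h z) z
  rw [real_inner_self_eq_norm_sq] at h1
  have h2 := real_inner_le_norm z (nproj u v z)
  by_contra hc
  nlinarith [norm_nonneg z, not_le.1 hc]


theorem g3_eq {u v : W} (h : g2 u v ≠ 0) (z : W) : g3 u v z = g2 u v * ‖nproj u v z‖ ^ 2 := by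
  rw [← real_inner_self_eq_norm_sq, inner_nproj_nproj h, mul_sub, mul_div_cancel₀ _ h, g3, g2,
    real_inner_comm u z, real_inner_comm v z]
  ring


theorem jet1_g3_zero {u v : W} (h : g2 u v = 0) (z : W) : g3 u v z = 0 := by
  rcases jet1_dep h with rfl | ⟨c, rfl⟩
  · simp [g3]
  · simp only [g3, real_inner_smul_left, real_inner_smul_right]
    ring

theorem g3_nonneg (u v z : W) : 0 ≤ g3 u v z := by
  by_cases h : g2 u v = 0
  · exact (jet1_g3_zero h z).ge
  · rw [g3_eq h]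
    exact mul_nonneg (g2_nonneg u v) (sq_nonneg _)


/-- `g3 u v z ≤ g2 u v * ‖z‖²`, also when `g2 u v = 0` -/
theorem g3_le (u v z : W) : g3 u v z ≤ g2 u v * ‖z‖ ^ 2 := by
  by_cases h : g2 u v = 0
  · rw [jet1_g3_zero h z, h, zero_mul]
  · rw [g3_eq h]
    exact mul_le_mul_of_nonneg_left
      (pow_le_pow_left₀ (norm_nonneg _) (norm_nproj_le h z) 2) (g2_nonneg u v)


theorem g2_le (u v : W) : g2 u v ≤ ‖u‖ ^ 2 * ‖v‖ ^ 2 := by
  rw [g2, real_inner_self_eq_norm_sq, real_inner_self_eq_norm_sq]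
  linarith [sq_nonneg ⟪u, v⟫]


/-- Lipschitz bound for `g3` (crude constant; telescope through the six factors) -/
theorem abs_g3_sub_le {u v z u' v' z' : W} {R d : ℝ} (hR : 1 ≤ R)
    (h1 : ‖u‖ ≤ R) (h2 : ‖v‖ ≤ R) (h3 : ‖z‖ ≤ R) (h1' : ‖u'‖ ≤ R) (h2' : ‖v'‖ ≤ R)
    (h3' : ‖z'‖ ≤ R) (d1 : ‖u - u'‖ ≤ d) (d2 : ‖v - v'‖ ≤ d) (d3 : ‖z - z'‖ ≤ d) :
    |g3 u v z - g3 u' v' z'| ≤ 100 * R ^ 5 * d := by
  have hd : 0 ≤ d := (norm_nonneg _).trans d1
  have hR0 : 0 ≤ R := by linarith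
  have b : ∀ x y : W, ‖x‖ ≤ R → ‖y‖ ≤ R → |⟪x, y⟫| ≤ R ^ 2 := fun x y hx hy =>
    (abs_real_inner_le_norm x y).trans (by
      rw [sq]; exact mul_le_mul hx hy (norm_nonneg _) hR0)
  have c : ∀ x y x' y' : W, ‖y‖ ≤ R → ‖x'‖ ≤ R → ‖x - x'‖ ≤ d → ‖y - y'‖ ≤ d →
      |⟪x, y⟫ - ⟪x', y'⟫| ≤ 2 * R * d := fun x y x' y' hy hx' hx hy' => by
    have e : ⟪x, y⟫ - ⟪x', y'⟫ = ⟪x - x', y⟫ + ⟪x', y - y'⟫ := by
      rw [inner_sub_left, inner_sub_right]
      ring
    have a1 := (abs_real_inner_le_norm (x - x') y).trans (mul_le_mul hx hy (norm_nonneg _) hd)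
    have a2 := (abs_real_inner_le_norm x' (y - y')).trans
      (mul_le_mul hx' hy' (norm_nonneg _) hR0)
    rw [e]
    linarith [abs_add_le ⟪x - x', y⟫ ⟪x', y - y'⟫]
  have t : ∀ p q r p' q' r' : ℝ, |q| ≤ R ^ 2 → |r| ≤ R ^ 2 → |p'| ≤ R ^ 2 → |q'| ≤ R ^ 2 →
      |p - p'| ≤ 2 * R * d → |q - q'| ≤ 2 * R * d → |r - r'| ≤ 2 * R * d →
      |p * q * r - p' * q' * r'| ≤ 6 * R ^ 5 * d := by
    intro p q r p' q' r' hq hr hp' hq' dp dq dr
    have e : p * q * r - p' * q' * r' =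
        (p - p') * q * r + p' * (q - q') * r + p' * q' * (r - r') := by ring
    have a1 : |(p - p') * q * r| ≤ 2 * R * d * R ^ 2 * R ^ 2 := by
      rw [abs_mul, abs_mul]; gcongr
    have a2 : |p' * (q - q') * r| ≤ R ^ 2 * (2 * R * d) * R ^ 2 := by
      rw [abs_mul, abs_mul]; gcongr
    have a3 : |p' * q' * (r - r')| ≤ R ^ 2 * R ^ 2 * (2 * R * d) := by
      rw [abs_mul, abs_mul]; gcongr
    rw [e]
    have a4 := abs_add_le ((p - p') * q * r + p' * (q - q') * r) (p' * q' * (r - r'))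
    have a5 := abs_add_le ((p - p') * q * r) (p' * (q - q') * r)
    linarith
  have uu := c u u u' u' h1 h1' d1 d1
  have vv := c v v v' v' h2 h2' d2 d2
  have zz := c z z z' z' h3 h3' d3 d3
  have uv := c u v u' v' h2 h1' d1 d2
  have uz := c u z u' z' h3 h1' d1 d3
  have vz := c v z v' z' h3 h2' d2 d3
  have t1 := abs_le.1 (t _ _ _ _ _ _ (b v v h2 h2) (b z z h3 h3) (b u' u' h1' h1')
    (b v' v' h2' h2') uu vv zz)
  have t2 := abs_le.1 (t _ _ _ _ _ _ (b v z h2 h3) (b v z h2 h3) (b u' u' h1' h1')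
    (b v' z' h2' h3') uu vz vz)
  have t3 := abs_le.1 (t _ _ _ _ _ _ (b u v h1 h2) (b z z h3 h3) (b u' v' h1' h2')
    (b u' v' h1' h2') uv uv zz)
  have t4 := abs_le.1 (t _ _ _ _ _ _ (b v z h2 h3) (b u z h1 h3) (b u' v' h1' h2')
    (b v' z' h2' h3') uv vz uz)
  have t5 := abs_le.1 (t _ _ _ _ _ _ (b u z h1 h3) (b u z h1 h3) (b v' v' h2' h2')
    (b u' z' h1' h3') vv uz uz)
  have p : 0 ≤ R ^ 5 * d := by positivity
  rw [g3, g3, abs_le]
  constructor <;> nlinarith [t1.1, t1.2, t2.1, t2.2, t3.1, t3.2, t4.1, t4.2, t5.1, t5.2]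


/-- the projection only depends on the plane -/
theorem nproj_basis {L : E2 →L[ℝ] W} (hL : Function.Injective L) {a b : E2} (h : det2 a b ≠ 0)
    (z : W) : nproj (L a) (L b) z = nproj (L b0) (L b1) z := by
  have h0 : g2 (L b0) (L b1) ≠ 0 := ((g2_pos_iff L).2 hL).ne'
  have h1 : g2 (L a) (L b) ≠ 0 := by
    rw [g2_map]
    exact mul_ne_zero (pow_ne_zero _ h) h0
  have o : ∀ v : E2, ⟪L v, nproj (L a) (L b) z⟫ = 0 := fun v => by
    rw [basis_decomp h v, map_add, map_smul, map_smul, inner_add_left, real_inner_smul_left,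
      real_inner_smul_left, inner_nproj_left h1, inner_nproj_right h1]
    ring
  obtain ⟨w, hw⟩ : ∃ w : E2, z = nproj (L a) (L b) z + L w := by
    refine ⟨((⟪L b, L b⟫ * ⟪L a, z⟫ - ⟪L a, L b⟫ * ⟪L b, z⟫) / g2 (L a) (L b)) • a +
      ((⟪L a, L a⟫ * ⟪L b, z⟫ - ⟪L a, L b⟫ * ⟪L a, z⟫) / g2 (L a) (L b)) • b, ?_⟩
    rw [map_add, map_smul, map_smul, nproj]
    abel
  conv_rhs => rw [hw, nproj_add, nproj_of_orth (o b0) (o b1), E2_decomp w, map_add, map_smul,
    map_smul, nproj_span h0, add_zero]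


theorem continuousAt_nproj {X : Type*} [TopologicalSpace X] {u v z : X → W} {x : X}
    (hu : ContinuousAt u x) (hv : ContinuousAt v x) (hz : ContinuousAt z x)
    (h : g2 (u x) (v x) ≠ 0) : ContinuousAt (fun y => nproj (u y) (v y) (z y)) x := by
  have i : ∀ {p q : X → W}, ContinuousAt p x → ContinuousAt q x →
      ContinuousAt (fun y => ⟪p y, q y⟫) x := fun hp hq => hp.inner hq
  have g : ContinuousAt (fun y => g2 (u y) (v y)) x :=
    ((i hu hu).mul (i hv hv)).sub ((i hu hv).pow 2)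
  exact (hz.sub (((((i hv hv).mul (i hu hz)).sub ((i hu hv).mul (i hv hz))).div g h).smul hu)).sub
    (((((i hu hu).mul (i hv hz)).sub ((i hu hv).mul (i hu hz))).div g h).smul hv)


theorem tendsto_nproj {X : Type*} {𝓕 : Filter X} {u v z : X → W} {u₀ v₀ z₀ : W}
    (hu : Tendsto u 𝓕 (𝓝 u₀)) (hv : Tendsto v 𝓕 (𝓝 v₀)) (hz : Tendsto z 𝓕 (𝓝 z₀))
    (h : g2 u₀ v₀ ≠ 0) : Tendsto (fun y => nproj (u y) (v y) (z y)) 𝓕 (𝓝 (nproj u₀ v₀ z₀)) := by
  have c : ContinuousAt (fun p : W × W × W => nproj p.1 p.2.1 p.2.2) (u₀, v₀, z₀) :=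
    continuousAt_nproj continuousAt_fst (continuousAt_fst.comp continuousAt_snd)
      (continuousAt_snd.comp continuousAt_snd) h
  exact c.tendsto.comp (hu.prodMk_nhds (hv.prodMk_nhds hz))


theorem IIj_expand (L : E2 →L[ℝ] W) (Q : E2 →L[ℝ] E2 →L[ℝ] W) (hQ : ∀ v w, Q v w = Q w v)
    (s t : E2) (x y x' y' : ℝ) :
    IIj L Q (x • s + y • t) (x' • s + y' • t)
      = (x * x') • IIj L Q s s + (x * y' + y * x') • IIj L Q s t + (y * y') • IIj L Q t t := by
  simp only [IIj, map_add, map_smul, _root_.add_apply,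
    _root_.smul_apply, nproj_add, nproj_smul, hQ t s]
  module


/-- the Gauss expression is a quadratic form on `Λ²` -/
theorem IIj_gauss_alg (L : E2 →L[ℝ] W) (Q : E2 →L[ℝ] E2 →L[ℝ] W) (hQ : ∀ v w, Q v w = Q w v)
    (a b : E2) :
    ⟪IIj L Q a a, IIj L Q b b⟫ - ‖IIj L Q a b‖ ^ 2
      = det2 a b ^ 2 * (⟪IIj L Q b0 b0, IIj L Q b1 b1⟫ - ‖IIj L Q b0 b1‖ ^ 2) := by
  have e : ∀ p q : E2, IIj L Q p q = (p 0 * q 0) • IIj L Q b0 b0 +
      (p 0 * q 1 + p 1 * q 0) • IIj L Q b0 b1 + (p 1 * q 1) • IIj L Q b1 b1 := fun p q => by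
    conv_lhs => rw [E2_decomp p, E2_decomp q]
    exact IIj_expand L Q hQ b0 b1 _ _ _ _
  rw [e a a, e b b, e a b, ← real_inner_self_eq_norm_sq, ← real_inner_self_eq_norm_sq, det2]
  generalize IIj L Q b0 b0 = A
  generalize IIj L Q b0 b1 = B
  generalize IIj L Q b1 b1 = C
  simp only [inner_add_left, inner_add_right, real_inner_smul_left, real_inner_smul_right,
    real_inner_comm A B, real_inner_comm A C, real_inner_comm B C]
  ring


end

end Crest.Agent.R216
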