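import Crest.Agent.R216.Jet1

/-! # Row 216, limit arguments for 2-jets -/

set_option autoImplicit false
open Set Filter Metric
open scoped ContDiff RealInnerProductSpace Topology

noncomputable section
namespace Crest.Agent.R216

/-- Convergence of a sequence of 2-jets with one blowing-up component, and the Gauss equation. -/
structure JetLim (es et : E2) (L : ℕ → E2 →L[ℝ] E4) (Q : ℕ → E2 →L[ℝ] E2 →L[ℝ] E4)
    (ε K : ℕ → ℝ) (vs vt vtt vts vss : E4) (K₀ : ℝ) : Prop where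
  symm : ∀ n v w, Q n v w = Q n w v
  ε_pos : ∀ n, 0 < ε n
  ε_lim : Tendsto ε atTop (𝓝 0)
  s : Tendsto (fun n => L n es) atTop (𝓝 vs)
  t : Tendsto (fun n => L n et) atTop (𝓝 vt)
  tt : Tendsto (fun n => Q n et et) atTop (𝓝 vtt)
  ts : Tendsto (fun n => Q n et es) atTop (𝓝 vts)
  ss : Tendsto (fun n => ε n • Q n es es) atTop (𝓝 vss)
  inj : ∀ n, Function.Injective (L n)
  g2_ne : g2 vs vt ≠ 0
  gauss : ∀ n a b, ⟪IIj (L n) (Q n) a a, IIj (L n) (Q n) b b⟫ - ‖IIj (L n) (Q n) a b‖ ^ 2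
    = det2 a b ^ 2 * K n
  K_lim : Tendsto K atTop (𝓝 K₀)

variable {es et : E2} {l : E2 →L[ℝ] ℝ} {L : ℕ → E2 →L[ℝ] E4} {Q : ℕ → E2 →L[ℝ] E2 →L[ℝ] E4}
  {ε K : ℕ → ℝ} {vs vt vtt vts vss : E4} {K₀ : ℝ}

theorem JetLim.h72_lims (h : JetLim es et L Q ε K vs vt vtt vts vss K₀) (hd : det2 es et ≠ 0) :
    Tendsto (fun n => IIj (L n) (Q n) et et) atTop (𝓝 (nproj vs vt vtt)) ∧
      Tendsto (fun n => IIj (L n) (Q n) et es) atTop (𝓝 (nproj vs vt vts)) ∧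
      Tendsto (fun n => ε n • IIj (L n) (Q n) es es) atTop (𝓝 (nproj vs vt vss)) := by
  simp only [IIj, ← nproj_smul, ← fun n => nproj_basis (h.inj n) hd]
  exact ⟨tendsto_nproj h.s h.t h.tt h.g2_ne, tendsto_nproj h.s h.t h.ts h.g2_ne,
    tendsto_nproj h.s h.t h.ss h.g2_ne⟩

/-- Suppose `II (τ n) (τ n) = 0` frequently; work along the filter `atTop ⊓ 𝓟 {n | ..}`.
Write `τ n = x n • es + y n • et` (`decomp_l`), replace `nproj (L b0) (L b1)` by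
`nproj (L es) (L et)` (`nproj_basis`), `IIj_expand`, `tendsto_nproj`.  `ε • II τ τ → x² nproj vss`,
so this vanishes; Gauss for `(et, τ n)` gives `det2 et τ ² K + ‖II et τ‖² = 0`, in the limit a
contradiction. -/
theorem JetLim.nonasym (h : JetLim es et L Q ε K vs vt vtt vts vss K₀) (h1 : l es = 1)
    (h0 : l et = 0) (het : et ≠ 0) {τ : ℕ → E2} {τ₀ : E2} (hτ : Tendsto τ atTop (𝓝 τ₀))
    (hQ : (l τ₀) ^ 2 • nproj vs vt vss = 0 →
      0 < det2 et τ₀ ^ 2 * K₀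
        + ‖nproj vs vt (l τ₀ • vts + (det2 es τ₀ / det2 es et) • vtt)‖ ^ 2) :
    ∀ᶠ n in atTop, IIj (L n) (Q n) (τ n) (τ n) ≠ 0 := by
  obtain ⟨hC, hB, hA⟩ := h.h72_lims (det2_ne_zero h1 h0 het)
  have hc : ∀ a : E2, Continuous fun v => det2 a v := fun a => by
    unfold det2
    fun_prop
  have hx : Tendsto (fun n => l (τ n)) atTop (𝓝 (l τ₀)) := (l.continuous.tendsto _).comp hτ
  have hy : Tendsto (fun n => det2 es (τ n) / det2 es et) atTop (𝓝 (det2 es τ₀ / det2 es et)) :=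
    (((hc es).tendsto _).comp hτ).div_const _
  have hs : ∀ n, IIj (L n) (Q n) es et = IIj (L n) (Q n) et es := fun n => by
    rw [IIj, IIj, h.symm]
  by_cases hz : (l τ₀) ^ 2 • nproj vs vt vss = 0
  · have e : ∀ n, IIj (L n) (Q n) et (τ n) = l (τ n) • IIj (L n) (Q n) et es +
        (det2 es (τ n) / det2 es et) • IIj (L n) (Q n) et et := fun n => by
      conv_lhs => rw [decomp_l h1 h0 het (τ n)]
      simp only [IIj, map_add, map_smul, nproj_add, nproj_smul]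
    have h2 := (((((hc et).tendsto _).comp hτ).pow 2).mul h.K_lim).add
      (((hx.smul hB).add (hy.smul hC)).norm.pow 2)
    have h3 := hQ hz
    rw [nproj_add, nproj_smul, nproj_smul] at h3
    filter_upwards [h2.eventually (lt_mem_nhds h3)] with n hn h4
    have h5 := h.gauss n et (τ n)
    rw [h4, inner_zero_right, e] at h5
    simp only [Function.comp] at hn
    linarith
  · have e : ∀ n, ε n • IIj (L n) (Q n) (τ n) (τ n) = (l (τ n)) ^ 2 • ε n • IIj (L n) (Q n) es es +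
        ε n • ((2 * l (τ n) * (det2 es (τ n) / det2 es et)) • IIj (L n) (Q n) et es +
          (det2 es (τ n) / det2 es et) ^ 2 • IIj (L n) (Q n) et et) := fun n => by
      conv_lhs => rw [decomp_l h1 h0 het (τ n), IIj_expand _ _ (h.symm n), hs]
      module
    have h2 := ((hx.pow 2).smul hA).add (h.ε_lim.smul
      ((((hx.const_mul 2).mul hy).smul hB).add ((hy.pow 2).smul hC)))
    rw [zero_smul, add_zero] at h2
    filter_upwards [h2.eventually_ne hz] with n hn h4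
    rw [← e, h4, smul_zero] at hn
    exact hn rfl

/-- If `nproj vss ≠ 0` then `‖II es es‖ → ∞` while `II et es` stays bounded.  Otherwise Gauss for
`(es, et)` gives `‖II es es‖ ‖II et et‖ ≥ ‖II es et‖² + det² K`. -/
theorem JetLim.growth (h : JetLim es et L Q ε K vs vt vtt vts vss K₀) (hd : det2 es et ≠ 0)
    {Λ R : ℝ} (hΛ : 0 ≤ Λ) (hR : ‖vtt‖ < R)
    (hQ : nproj vs vt vss = 0 → Λ * (1 + ‖nproj vs vt vts‖) * R
      < ‖nproj vs vt vts‖ ^ 2 + det2 es et ^ 2 * K₀) :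
    ∀ᶠ n in atTop, Λ * (1 + ‖IIj (L n) (Q n) et es‖) ≤ ‖IIj (L n) (Q n) es es‖ ∧
      ‖IIj (L n) (Q n) et et‖ ≤ R := by
  obtain ⟨hC, hB, hA⟩ := h.h72_lims hd
  have _ := hΛ
  have hR0 : 0 < R := (norm_nonneg _).trans_lt hR
  have e1 := hC.norm.eventually (gt_mem_nhds ((norm_nproj_le h.g2_ne vtt).trans_lt hR))
  have hs : ∀ n, IIj (L n) (Q n) es et = IIj (L n) (Q n) et es := fun n => by
    rw [IIj, IIj, h.symm]
  have hl := (hB.norm.const_add 1).const_mul Λ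
  by_cases hz : nproj vs vt vss = 0
  · filter_upwards [e1, (hl.mul_const R).eventually_lt
      ((hB.norm.pow 2).add (h.K_lim.const_mul _)) (hQ hz)] with n a1 a2
    have a3 := h.gauss n es et
    have a4 := (real_inner_le_norm (IIj (L n) (Q n) es es) (IIj (L n) (Q n) et et)).trans
      (mul_le_mul_of_nonneg_left a1.le (norm_nonneg _))
    rw [hs] at a3
    exact ⟨le_of_mul_le_mul_right (by linarith) hR0, a1.le⟩
  · filter_upwards [e1, (h.ε_lim.mul hl).eventually_lt hA.norm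
      (by rw [zero_mul]; exact norm_pos_iff.2 hz)] with n a1 a2
    rw [norm_smul, Real.norm_of_nonneg (h.ε_pos n).le] at a2
    exact ⟨(lt_of_mul_lt_mul_left a2 (h.ε_pos n).le).le, a1.le⟩

theorem h72_rem {σ κ : E4} {R p q p' q' u w : ℝ} (hR : 1 ≤ R) (h1 : |p| ≤ R) (h2 : |q| ≤ R)
    (h3 : |p'| ≤ R) (h4 : |q'| ≤ R) (h5 : |u| ≤ R) (h6 : |w| ≤ R) (hκ : ‖κ‖ ≤ R) :
    ‖(p * q + p' * q') • σ + (u * w) • κ‖ ≤ 3 * R ^ 3 * (1 + ‖σ‖) := by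
  have hR0 : 0 ≤ R := by linarith
  have m : ∀ {a b : ℝ}, |a| ≤ R → |b| ≤ R → |a * b| ≤ R ^ 2 := fun ha hb => by
    rw [abs_mul, sq]
    exact mul_le_mul ha hb (abs_nonneg _) hR0
  have a1 : |p * q + p' * q'| ≤ 2 * R ^ 2 := by
    linarith [abs_add_le (p * q) (p' * q'), m h1 h2, m h3 h4]
  have a2 := mul_le_mul_of_nonneg_right a1 (norm_nonneg σ)
  have a3 := mul_le_mul (m h5 h6) hκ (norm_nonneg _) (by positivity)
  have a4 : R ^ 2 ≤ R ^ 3 := pow_le_pow_right₀ hR (by norm_num)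
  refine (norm_add_le _ _).trans ?_
  rw [norm_smul, norm_smul, Real.norm_eq_abs, Real.norm_eq_abs]
  nlinarith [mul_le_mul_of_nonneg_right a4 (norm_nonneg σ), norm_nonneg σ, pow_nonneg hR0 3,
    mul_nonneg (pow_nonneg hR0 3) (norm_nonneg σ)]

theorem h72_strong {v r₁ r₂ : E4} {α β m S ρ C₀ : ℝ} (hm : 0 < m) (hS : 1 ≤ S) (hC : 0 ≤ C₀)
    (hα : |α| ≤ S) (hβ : |β| ≤ S) (hαβ : m ≤ |β * α|) (h1 : ‖r₁‖ ≤ ρ) (h2 : ‖r₂‖ ≤ ρ)
    (h3 : ρ ≤ ‖v‖) (h4 : 6 * S * ρ ≤ m * ‖v‖) (h5 : 16 * C₀ * S ^ 2 < m ^ 2 * ‖v‖ ^ 2) :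
    C₀ * ‖α • v + r₂‖ ^ 2 < ⟪β • v + r₁, α • v + r₂⟫ ^ 2 := by
  have hρ : 0 ≤ ρ := (norm_nonneg _).trans h1
  have hN := norm_nonneg v
  have hS0 : 0 ≤ S := by linarith
  have hN0 : 0 < ‖v‖ := by
    refine hN.lt_of_ne fun e => ?_
    rw [← e] at h5
    nlinarith [mul_nonneg hC (sq_nonneg S)]
  have a1 : ‖α • v + r₂‖ ≤ 2 * S * ‖v‖ := by
    refine (norm_add_le _ _).trans ?_
    rw [norm_smul, Real.norm_eq_abs]
    nlinarith [mul_le_mul_of_nonneg_right hα hN, mul_le_mul_of_nonneg_right hS hN]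
  have e : ⟪β • v + r₁, α • v + r₂⟫ =
      β * α * ‖v‖ ^ 2 + (β * ⟪v, r₂⟫ + α * ⟪r₁, v⟫ + ⟪r₁, r₂⟫) := by
    simp only [inner_add_left, inner_add_right, real_inner_smul_left, real_inner_smul_right,
      real_inner_self_eq_norm_sq]
    ring
  have b1 : |β * ⟪v, r₂⟫| ≤ S * (‖v‖ * ρ) := by
    rw [abs_mul]
    exact mul_le_mul hβ ((abs_real_inner_le_norm _ _).trans (by gcongr)) (abs_nonneg _) hS0
  have b2 : |α * ⟪r₁, v⟫| ≤ S * (ρ * ‖v‖) := by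
    rw [abs_mul]
    exact mul_le_mul hα ((abs_real_inner_le_norm _ _).trans (by gcongr)) (abs_nonneg _) hS0
  have b3 : |⟪r₁, r₂⟫| ≤ S * (ρ * ‖v‖) :=
    ((abs_real_inner_le_norm _ _).trans (mul_le_mul h1 (h2.trans h3) (norm_nonneg _) hρ)).trans
      (le_mul_of_one_le_left (by positivity) hS)
  have b4 : m * ‖v‖ ^ 2 ≤ |β * α * ‖v‖ ^ 2| := by
    rw [abs_mul, abs_of_nonneg (sq_nonneg ‖v‖)]
    exact mul_le_mul_of_nonneg_right hαβ (sq_nonneg _)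
  have b5 : m * ‖v‖ ^ 2 / 2 ≤ |⟪β • v + r₁, α • v + r₂⟫| := by
    have c1 := abs_add_le (β * ⟪v, r₂⟫ + α * ⟪r₁, v⟫) ⟪r₁, r₂⟫
    have c2 := abs_add_le (β * ⟪v, r₂⟫) (α * ⟪r₁, v⟫)
    have c3 := abs_sub_abs_le_abs_add (β * α * ‖v‖ ^ 2) (β * ⟪v, r₂⟫ + α * ⟪r₁, v⟫ + ⟪r₁, r₂⟫)
    have c4 := mul_le_mul_of_nonneg_right h4 hN
    rw [e]
    nlinarith
  have b6 := pow_le_pow_left₀ (by positivity) b5 2
  have b7 := mul_le_mul_of_nonneg_left (pow_le_pow_left₀ (norm_nonneg _) a1 2) hC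
  have b8 := mul_lt_mul_of_pos_right h5 (pow_pos hN0 2)
  rw [sq_abs] at b6
  nlinarith

/-- Strong state: `II a a = xa² v + r₂`, `II a b = xa xb v + r₁` with
`‖r‖ ≤ 3 R³ (1 + ‖σ‖) ≤ 3 R³ ‖v‖ / Λ` and `‖v‖ ≥ Λ`. -/
theorem strong_alg {ξ R C₀ : ℝ} (hξ : 0 < ξ) (hR : 1 ≤ R) (hC : 0 ≤ C₀) :
    ∃ Λ : ℝ, 0 ≤ Λ ∧ ∀ (v σ κ : E4) (xa ya xb yb : ℝ), ξ ≤ |xa| → ξ ≤ |xb| → |xa| ≤ R →
      |xb| ≤ R → |ya| ≤ R → |yb| ≤ R → ‖κ‖ ≤ R → Λ * (1 + ‖σ‖) ≤ ‖v‖ →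
      C₀ * ‖(xa * xa) • v + (xa * ya + ya * xa) • σ + (ya * ya) • κ‖ ^ 2
        < ⟪(xa * xb) • v + (xa * yb + ya * xb) • σ + (ya * yb) • κ,
            (xa * xa) • v + (xa * ya + ya * xa) • σ + (ya * ya) • κ⟫ ^ 2 := by
  have hR0 : 0 < R := by linarith
  refine ⟨1 + 3 * R ^ 3 + 18 * R ^ 5 / ξ ^ 4 + 16 * C₀ * R ^ 4 / ξ ^ 8, by positivity,
    fun v σ κ xa ya xb yb a1 a2 a3 a4 a5 a6 a7 a8 => ?_⟩
  have m : ∀ {a b : ℝ}, |a| ≤ R → |b| ≤ R → |a * b| ≤ R ^ 2 := fun ha hb => by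
    rw [abs_mul, sq]
    exact mul_le_mul ha hb (abs_nonneg _) hR0.le
  have hs : 1 ≤ 1 + ‖σ‖ := le_add_of_nonneg_right (norm_nonneg _)
  have p1 : 0 ≤ 3 * R ^ 3 := by positivity
  have p2 : 0 ≤ 18 * R ^ 5 / ξ ^ 4 := by positivity
  have p3 : 0 ≤ 16 * C₀ * R ^ 4 / ξ ^ 8 := by positivity
  have k : ∀ {c : ℝ}, c ≤ 1 + 3 * R ^ 3 + 18 * R ^ 5 / ξ ^ 4 + 16 * C₀ * R ^ 4 / ξ ^ 8 →
      c * (1 + ‖σ‖) ≤ ‖v‖ := fun hc => (mul_le_mul_of_nonneg_right hc (by positivity)).trans a8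
  rw [add_assoc ((xa * xa) • v), add_assoc ((xa * xb) • v)]
  refine h72_strong (m := ξ ^ 4) (S := R ^ 2) (ρ := 3 * R ^ 3 * (1 + ‖σ‖)) (by positivity)
    (one_le_pow₀ hR) hC (m a3 a3) (m a3 a4) ?_ (h72_rem hR a3 a6 a5 a4 a5 a6 a7)
    (h72_rem hR a3 a5 a5 a3 a5 a5 a7) (k (by linarith)) ?_ ?_
  · rw [abs_mul, abs_mul, abs_mul]
    calc ξ ^ 4 = ξ * ξ * (ξ * ξ) := by ring
      _ ≤ _ := by
        have := abs_nonneg xa
        have := abs_nonneg xb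
        gcongr
  · have := mul_le_mul_of_nonneg_left (k (c := 18 * R ^ 5 / ξ ^ 4) (by linarith))
      (by positivity : 0 ≤ ξ ^ 4)
    refine le_trans (le_of_eq ?_) this
    field_simp
    ring
  · have b1 : 1 + 16 * C₀ * R ^ 4 / ξ ^ 8 ≤ ‖v‖ :=
      (le_mul_of_one_le_right (by positivity) hs).trans (k (by linarith))
    have b2 : 16 * C₀ * R ^ 4 / ξ ^ 8 < ‖v‖ ^ 2 := by nlinarith
    rw [div_lt_iff₀ (by positivity)] at b2
    calc _ = 16 * C₀ * R ^ 4 := by ring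
      _ < _ := b2
      _ = _ := by ring

end Crest.Agent.R216
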