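import Crest.Agent.R216.Large
import Crest.Agent.R216.Lim
import Crest.Agent.R216.Jet3

/-! # Row 216, uniform consequences of the limit lemmas -/

set_option autoImplicit false
open Set Filter Metric
open scoped ContDiff RealInnerProductSpace Topology

noncomputable section
namespace Crest.Agent.R216

theorem ls1_cont {d : SD} (hd : d.Lg) : Continuous d.vs ∧ Continuous d.vts ∧ Continuous d.vss ∧
    Per d.vs ∧ Per d.vts ∧ Per d.vss := by
  obtain ⟨y, b, c, hy, hb, -, -, ha⟩ := hd.a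
  have ha' : ContDiff ℝ ∞ d.a := by
    rw [show d.a = fun x => expNegInvGlue (y x) * b x from funext ha]
    exact (expNegInvGlue.contDiff.comp hy.1).mul hb.1
  have hU : ContDiff ℝ ∞ d.U0 := (ha'.comp contDiff_fst).smul
    (((contDiff_prim hd.q1.1).smul (hd.e0.1.comp contDiff_fst)).add
      ((contDiff_prim hd.q2.1).smul (hd.nu.1.comp contDiff_fst)))
  have hP : Per d.U0 := fun x θ => by
    simp only [SD.U0, hd.ok.per1.prim hd.q1.1.continuous x θ, hd.ok.per2.prim hd.q2.1.continuous x θ]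
  have hG1 : Continuous (fderiv ℝ d.G) := hd.G.1.continuous_fderiv (by simp)
  have hG2 := continuous_d2 hd.G.1
  refine ⟨((hG1.comp continuous_fst).clm_apply continuous_const).add (contDiff_dθ hU).continuous,
    (((hG2.comp continuous_fst).clm_apply continuous_const).clm_apply continuous_const).add
      (contDiff_dx (contDiff_dθ hU) _).continuous, (contDiff_dθ (contDiff_dθ hU)).continuous,
    fun x θ => ?_, fun x θ => ?_, hP.dθ.dθ⟩
  · simp only [SD.vs, hP.dθ x θ]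
  · simp only [SD.vts, hP.dθ.dx d.et x θ]

theorem ls1_lim {A B : ℕ → E4} {b : E4} (hB : Tendsto B atTop (𝓝 b))
    (h : ∀ η > (0 : ℝ), ∀ᶠ m in atTop, ‖A m - B m‖ ≤ η) : Tendsto A atTop (𝓝 b) := by
  have h1 : Tendsto (fun m => A m - B m) atTop (𝓝 0) := by
    rw [NormedAddGroup.tendsto_nhds_zero]
    intro η hη
    exact (h _ (half_pos hη)).mono fun m hm => hm.trans_lt (half_lt_self hη)
  simpa using h1.add hB

/-- From a sequence of points with `Near` extract a `JetLim`: pass to a subsequence with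
`x m → x₀` and phases `l (x m) / ε m` converging modulo `2π` (`toIocMod`, `Per.int`; `vs, vts, vss`
are continuous and periodic). -/
theorem exists_jetLim {d : SD} (hd : d.Lg) {l : E2 →L[ℝ] ℝ} {ε : ℕ → ℝ} {H : ℕ → E2 → E4}
    {g : E2 → Bil} (hε : ∀ m, 0 < ε m) (hε0 : Tendsto ε atTop (𝓝 0))
    (hH : ∀ m, ContDiff ℝ ∞ (H m)) (hinj : ∀ m x, Function.Injective (fderiv ℝ (H m) x))
    (hg : ∀ m, pb (H m) = g) (hK : Continuous (kap g)) {L : Set E2} (hL : IsCompact L)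
    (h3 : ∀ x ∈ L, ∀ θ, 0 < g3 (d.vs (x, θ)) (d.Gt x) (d2 d.G x d.et d.et))
    (hN : ∀ η > (0 : ℝ), ∀ᶠ m in atTop, ∀ x ∈ L, d.Near l (ε m) η (H m) x)
    {φ : ℕ → ℕ} (hφ : Tendsto φ atTop atTop) {x : ℕ → E2} (hx : ∀ m, x m ∈ L) :
    ∃ (ψ : ℕ → ℕ) (x₀ : E2) (θ₀ : ℝ), StrictMono ψ ∧ x₀ ∈ L ∧
      Tendsto (fun m => x (ψ m)) atTop (𝓝 x₀) ∧
      JetLim d.es d.et (fun m => fderiv ℝ (H (φ (ψ m))) (x (ψ m)))
        (fun m => d2 (H (φ (ψ m))) (x (ψ m))) (fun m => ε (φ (ψ m)))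
        (fun m => kap g (x (ψ m))) (d.vs (x₀, θ₀)) (d.Gt x₀) (d2 d.G x₀ d.et d.et)
        (d.vts (x₀, θ₀)) (d.vss (x₀, θ₀)) (kap g x₀) := by
  obtain ⟨c1, c2, c3, p1, p2, p3⟩ := ls1_cont hd
  let θ : ℕ → ℝ := fun m => toIocMod Real.two_pi_pos 0 (l (x m) / ε (φ m))
  have hθ : ∀ {w : E2 × ℝ → E4}, Per w → ∀ m, w (ph l (ε (φ m)) (x m)) = w (x m, θ m) := by
    intro w hw m
    rw [← hw.int (x m) (θ m) (toIocDiv Real.two_pi_pos 0 (l (x m) / ε (φ m))), ← zsmul_eq_mul,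
      toIocMod_add_toIocDiv_zsmul]
    rfl
  obtain ⟨⟨x₀, θ₀⟩, ⟨hx₀, -⟩, ψ, hψ, hlim⟩ :=
    (hL.prod (isCompact_Icc (a := (0 : ℝ)) (b := 0 + 2 * Real.pi))).tendsto_subseq
      (x := fun m => (x m, θ m)) fun m => ⟨hx m, Ioc_subset_Icc_self (toIocMod_mem_Ioc _ _ _)⟩
  have hxl : Tendsto (fun m => x (ψ m)) atTop (𝓝 x₀) := (continuous_fst.tendsto _).comp hlim
  have hφψ : Tendsto (fun m => φ (ψ m)) atTop atTop := hφ.comp hψ.tendsto_atTop
  have hN' : ∀ η > (0 : ℝ), ∀ᶠ m in atTop,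
      d.Near l (ε (φ (ψ m))) η (H (φ (ψ m))) (x (ψ m)) := fun η hη =>
    (hφψ.eventually (hN η hη)).mono fun m hm => hm _ (hx _)
  have hG1 : Continuous (fderiv ℝ d.G) := hd.G.1.continuous_fderiv (by simp)
  have hG2 := continuous_d2 hd.G.1
  have hGt : Continuous d.Gt := hG1.clm_apply continuous_const
  have hGtt : Continuous fun x => d2 d.G x d.et d.et :=
    (hG2.clm_apply continuous_const).clm_apply continuous_const
  refine ⟨ψ, x₀, θ₀, hψ, hx₀, hxl,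
    { symm := fun n => d2_symm (hH _).contDiffAt
      ε_pos := fun n => hε _
      ε_lim := hε0.comp hφψ
      s := ls1_lim ((c1.tendsto _).comp hlim) fun η hη => (hN' η hη).mono fun m hm => ?_
      t := ls1_lim ((hGt.tendsto _).comp hxl) fun η hη => (hN' η hη).mono fun m hm => hm.t
      tt := ls1_lim ((hGtt.tendsto _).comp hxl) fun η hη => (hN' η hη).mono fun m hm => hm.tt
      ts := ls1_lim ((c2.tendsto _).comp hlim) fun η hη => (hN' η hη).mono fun m hm => ?_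
      ss := ls1_lim ((c3.tendsto _).comp hlim) fun η hη => (hN' η hη).mono fun m hm => ?_
      inj := fun n => hinj _ _
      g2_ne := fun h => (h3 x₀ hx₀ θ₀).ne' (jet1_g3_zero h _)
      gauss := fun n a b => ?_
      K_lim := (hK.tendsto _).comp hxl }⟩
  · have := hm.s
    rwa [hθ p1] at this
  · have := hm.ts
    rwa [hθ p2] at this
  · have := hm.ss
    rwa [hθ p3] at this
  · rw [← hg (φ (ψ n))]
    exact gauss (hH _) (hinj _ _) a b

/-- By contradiction (`Filter.extraction_of_frequently_atTop`, `exists_jetLim`, `JetLim.nonasym`). -/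
theorem uniform_nonasym {d : SD} (hd : d.Lg) {l : E2 →L[ℝ] ℝ} (h1 : l d.es = 1) (h0 : l d.et = 0)
    {ε : ℕ → ℝ} {H : ℕ → E2 → E4} {g : E2 → Bil} (hε : ∀ m, 0 < ε m)
    (hε0 : Tendsto ε atTop (𝓝 0)) (hH : ∀ m, ContDiff ℝ ∞ (H m))
    (hinj : ∀ m x, Function.Injective (fderiv ℝ (H m) x)) (hg : ∀ m, pb (H m) = g)
    (hK : Continuous (kap g)) {L : Set E2} (hL : IsCompact L)
    (h3 : ∀ x ∈ L, ∀ θ, 0 < g3 (d.vs (x, θ)) (d.Gt x) (d2 d.G x d.et d.et))
    (hN : ∀ η > (0 : ℝ), ∀ᶠ m in atTop, ∀ x ∈ L, d.Near l (ε m) η (H m) x)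
    {τ : E2 → E2} (hτ : ContinuousOn τ L)
    (hQ : ∀ x ∈ L, ∀ θ, (l (τ x)) ^ 2 • nproj (d.vs (x, θ)) (d.Gt x) (d.vss (x, θ)) = 0 →
      0 < det2 d.et (τ x) ^ 2 * kap g x + ‖nproj (d.vs (x, θ)) (d.Gt x) (l (τ x) • d.vts (x, θ)
        + (det2 d.es (τ x) / det2 d.es d.et) • d2 d.G x d.et d.et)‖ ^ 2) :
    ∀ᶠ m in atTop, ∀ x ∈ L, II (H m) x (τ x) (τ x) ≠ 0 := by
  by_contra hc
  obtain ⟨φ, hφ, hx⟩ := extraction_of_frequently_atTop (not_eventually.1 hc)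
  push Not at hx
  choose x hx hz using hx
  obtain ⟨ψ, x₀, θ₀, -, hx₀, hxl, hJ⟩ :=
    exists_jetLim hd hε hε0 hH hinj hg hK hL h3 hN hφ.tendsto_atTop hx
  have het : d.et ≠ 0 := norm_ne_zero_iff.1 (by rw [hd.ok.norm_et]; exact one_ne_zero)
  obtain ⟨n, hn⟩ := (hJ.nonasym h1 h0 het (τ := fun m => τ (x (ψ m)))
    ((hτ x₀ hx₀).tendsto.comp (tendsto_nhdsWithin_iff.2 ⟨hxl, Eventually.of_forall fun m => hx _⟩))
    (hQ x₀ hx₀ θ₀)).exists
  exact hn (hz _)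

/-- The threshold `Λ` only depends on `G`, the directions and the constants, not on the loops.
Let `ξ ≤ |l u|, |l v|` and `R ≥ 1` bound the coordinates of `u, v` and `‖d2 G et et‖ + 1` on `L`,
`Λ₀` from `strong_alg`, `C₁ ≥ |det2 es et ² kap g|` on `L`, and `Λ` with
`s ≥ Λ → Λ₀ (1 + s) R < s² - C₁`.  Then `exists_jetLim`, `JetLim.growth`, `IIj_expand`. -/
theorem uniform_strong {G : E2 → E4} (hG : ContDiff ℝ ∞ G) {es et : E2} {l : E2 →L[ℝ] ℝ}
    (h1 : l es = 1) (h0 : l et = 0) {g : E2 → Bil} (hK : Continuous (kap g)) {L : Set E2}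
    (hL : IsCompact L) {u v : E2 → E2} (hu : ContinuousOn u L) (hv : ContinuousOn v L)
    (hu0 : ∀ x ∈ L, l (u x) ≠ 0) (hv0 : ∀ x ∈ L, l (v x) ≠ 0) (C₀ : ℝ) :
    ∃ Λ : ℝ, ∀ d : SD, d.Lg → d.G = G → d.es = es → d.et = et →
      ∀ (ε : ℕ → ℝ) (H : ℕ → E2 → E4), (∀ m, 0 < ε m) → Tendsto ε atTop (𝓝 0) →
      (∀ m, ContDiff ℝ ∞ (H m)) → (∀ m x, Function.Injective (fderiv ℝ (H m) x)) →
      (∀ m, pb (H m) = g) →
      (∀ x ∈ L, ∀ θ, 0 < g3 (d.vs (x, θ)) (d.Gt x) (d2 G x et et)) →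
      (∀ η > (0 : ℝ), ∀ᶠ m in atTop, ∀ x ∈ L, d.Near l (ε m) η (H m) x) →
      (∀ x ∈ L, ∀ θ, nproj (d.vs (x, θ)) (d.Gt x) (d.vss (x, θ)) = 0 →
        Λ ≤ ‖nproj (d.vs (x, θ)) (d.Gt x) (d.vts (x, θ))‖) →
      ∀ᶠ m in atTop, ∀ x ∈ L, C₀ * ‖II (H m) x (u x) (u x)‖ ^ 2
        < ⟪II (H m) x (u x) (v x), II (H m) x (u x) (u x)⟫ ^ 2 := by
  have hc : Continuous fun v => det2 es v / det2 es et := by
    unfold det2
    fun_prop
  have hlu : ContinuousOn (fun x => l (u x)) L := l.continuous.comp_continuousOn hu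
  have hlv : ContinuousOn (fun x => l (v x)) L := l.continuous.comp_continuousOn hv
  obtain ⟨ξ₁, hξ₁, b1⟩ := hL.exists_forall_le' hlu.abs (a := 0) fun x hx => abs_pos.2 (hu0 x hx)
  obtain ⟨ξ₂, hξ₂, b2⟩ := hL.exists_forall_le' hlv.abs (a := 0) fun x hx => abs_pos.2 (hv0 x hx)
  have hF : ContinuousOn (fun x => |l (u x)| + |l (v x)| + |det2 es (u x) / det2 es et| +
      |det2 es (v x) / det2 es et| + ‖d2 G x et et‖ + |det2 es et ^ 2 * kap g x|) L :=
    ((((hlu.abs.add hlv.abs).add (hc.comp_continuousOn hu).abs).add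
      (hc.comp_continuousOn hv).abs).add ((((continuous_d2 hG).clm_apply
        continuous_const).clm_apply continuous_const).norm.continuousOn)).add
      (continuous_const.mul hK).abs.continuousOn
  obtain ⟨C, hC⟩ := hL.exists_bound_of_continuousOn hF
  set R := |C| + 1 with hR
  have hR1 : 1 ≤ R := le_add_of_nonneg_left (abs_nonneg C)
  have hb : ∀ x ∈ L, |l (u x)| ≤ R ∧ |l (v x)| ≤ R ∧ |det2 es (u x) / det2 es et| ≤ R ∧
      |det2 es (v x) / det2 es et| ≤ R ∧ ‖d2 G x et et‖ < R ∧ -R ≤ det2 es et ^ 2 * kap g x := by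
    intro x hx
    have a0 := ((le_abs_self _).trans (hC x hx)).trans (le_abs_self C)
    have a1 := abs_nonneg (l (u x))
    have a2 := abs_nonneg (l (v x))
    have a3 := abs_nonneg (det2 es (u x) / det2 es et)
    have a4 := abs_nonneg (det2 es (v x) / det2 es et)
    have a5 := norm_nonneg (d2 G x et et)
    have a6 := abs_nonneg (det2 es et ^ 2 * kap g x)
    have a7 := neg_abs_le (det2 es et ^ 2 * kap g x)
    refine ⟨?_, ?_, ?_, ?_, ?_, ?_⟩ <;> linarith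
  obtain ⟨Λ₀, hΛ₀, halg⟩ := strong_alg (lt_min hξ₁ hξ₂) hR1 (le_max_right C₀ 0)
  refine ⟨2 * (Λ₀ * R) + R + 1, ?_⟩
  rintro d hd rfl rfl rfl ε H hε hε0 hH hinj hg h3 hN hΛ
  by_contra hcon
  obtain ⟨φ, hφ, hx⟩ := extraction_of_frequently_atTop (not_eventually.1 hcon)
  push Not at hx
  choose x hx hz using hx
  obtain ⟨ψ, x₀, θ₀, -, hx₀, -, hJ⟩ :=
    exists_jetLim hd hε hε0 hH hinj hg hK hL h3 hN hφ.tendsto_atTop hx
  have het : d.et ≠ 0 := norm_ne_zero_iff.1 (by rw [hd.ok.norm_et]; exact one_ne_zero)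
  obtain ⟨n, g1, g2⟩ := (hJ.growth (det2_ne_zero h1 h0 het) hΛ₀ (hb x₀ hx₀).2.2.2.2.1 fun h => by
    have a1 := hΛ x₀ hx₀ θ₀ h
    have a2 := (hb x₀ hx₀).2.2.2.2.2
    have a3 : 0 ≤ Λ₀ * R := by positivity
    generalize ‖nproj (d.vs (x₀, θ₀)) (d.Gt x₀) (d.vts (x₀, θ₀))‖ = s at a1 ⊢
    have a4 : 1 ≤ s := by linarith
    have a5 := mul_le_mul_of_nonneg_right a1 (zero_le_one.trans a4)
    have a6 := le_mul_of_one_le_right a3 a4
    have a7 := le_mul_of_one_le_right (zero_le_one.trans hR1) a4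
    nlinarith).exists
  obtain ⟨c1, c2, c3, c4, -, -⟩ := hb _ (hx (ψ n))
  have hs : IIj (fderiv ℝ (H (φ (ψ n))) (x (ψ n))) (d2 (H (φ (ψ n))) (x (ψ n))) d.et d.es =
      IIj (fderiv ℝ (H (φ (ψ n))) (x (ψ n))) (d2 (H (φ (ψ n))) (x (ψ n))) d.es d.et := by
    rw [IIj, IIj, hJ.symm n]
  rw [hs] at g1
  have h4 := halg _ _ _ _ _ _ _ ((min_le_left _ _).trans (b1 _ (hx (ψ n))))
    ((min_le_right _ _).trans (b2 _ (hx (ψ n)))) c1 c2 c3 c4 g2 g1
  rw [← IIj_expand _ _ (hJ.symm n), ← IIj_expand _ _ (hJ.symm n), ← decomp_l h1 h0 het,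
    ← decomp_l h1 h0 het] at h4
  exact absurd ((mul_le_mul_of_nonneg_right (le_max_left C₀ 0) (sq_nonneg _)).trans_lt h4)
    (hz (ψ n)).not_gt

/-- Persistence of open conditions on 2-jets.  `Φ` is continuous at the points of the compact graph
of the jet of `G` over `L`; use the tube lemma for `(x, δL, δQ) ↦ Φ x (DG x + δL) (d2 G x + δQ)`
on `L ×ˢ {0}` (as a subtype or with `ContinuousOn`). -/
theorem persist_jet {G : E2 → E4} (hG : ContDiff ℝ ∞ G) {L : Set E2} (hL : IsCompact L)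
    (hinj : ∀ x ∈ L, Function.Injective (fderiv ℝ G x)) {u v : E2 → E2} {k : E2 → ℝ}
    (hu : ContinuousOn u L) (hv : ContinuousOn v L) (hk : ContinuousOn k L)
    (h : ∀ x ∈ L, 0 < ⟪II G x (u x) (v x), II G x (u x) (u x)⟫ ^ 2
      + k x * ‖II G x (u x) (u x)‖ ^ 2) :
    ∃ η > (0 : ℝ), ∀ x ∈ L, ∀ H : E2 → E4, ‖fderiv ℝ H x - fderiv ℝ G x‖ ≤ η →
      ‖d2 H x - d2 G x‖ ≤ η →
      0 < ⟪II H x (u x) (v x), II H x (u x) (u x)⟫ ^ 2 + k x * ‖II H x (u x) (u x)‖ ^ 2 := by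
  have hG1 : Continuous (fderiv ℝ G) := hG.continuous_fderiv (by simp)
  have hG2 := continuous_d2 hG
  have : CompactSpace L := isCompact_iff_compactSpace.1 hL
  have hu' : Continuous fun x : L => u x := hu.restrict
  have hv' : Continuous fun x : L => v x := hv.restrict
  have hk' : Continuous fun x : L => k x := hk.restrict
  have key := (isCompact_univ (X := L)).eventually_forall_of_forall_eventually
    (x₀ := (0 : (E2 →L[ℝ] E4) × (E2 →L[ℝ] E2 →L[ℝ] E4)))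
    (P := fun δ x => 0 < ⟪IIj (fderiv ℝ G x + δ.1) (d2 G x + δ.2) (u x) (v x),
      IIj (fderiv ℝ G x + δ.1) (d2 G x + δ.2) (u x) (u x)⟫ ^ 2
      + k x * ‖IIj (fderiv ℝ G x + δ.1) (d2 G x + δ.2) (u x) (u x)‖ ^ 2) fun y _ => by
      have hI : ∀ {a b : L → E2}, Continuous a → Continuous b →
          ContinuousAt (fun z : ((E2 →L[ℝ] E4) × (E2 →L[ℝ] E2 →L[ℝ] E4)) × L =>
            IIj (fderiv ℝ G z.2 + z.1.1) (d2 G z.2 + z.1.2) (a z.2) (b z.2)) (0, y) := by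
        intro a b ha hb
        have e1 : Continuous fun z : ((E2 →L[ℝ] E4) × (E2 →L[ℝ] E2 →L[ℝ] E4)) × L =>
            fderiv ℝ G z.2 + z.1.1 :=
          (hG1.comp (continuous_subtype_val.comp continuous_snd)).add continuous_fst.fst
        have e2 : Continuous fun z : ((E2 →L[ℝ] E4) × (E2 →L[ℝ] E2 →L[ℝ] E4)) × L =>
            d2 G z.2 + z.1.2 :=
          (hG2.comp (continuous_subtype_val.comp continuous_snd)).add continuous_fst.snd
        refine continuousAt_nproj (e1.clm_apply continuous_const).continuousAt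
          (e1.clm_apply continuous_const).continuousAt
          ((e2.clm_apply (ha.comp continuous_snd)).clm_apply (hb.comp continuous_snd)).continuousAt ?_
        simpa using ((g2_pos_iff _).2 (hinj y y.2)).ne'
      refine ((((hI hu' hv').inner (𝕜 := ℝ) (hI hu' hu')).pow 2).add
        ((hk'.comp continuous_snd).continuousAt.mul ((hI hu' hu').norm.pow 2))).eventually
        (lt_mem_nhds ?_)
      simpa [II] using h y y.2
  obtain ⟨η, hη, hb⟩ := (Metric.nhds_basis_closedBall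
    (α := (E2 →L[ℝ] E4) × (E2 →L[ℝ] E2 →L[ℝ] E4)) (x := 0)).eventually_iff.1 key
  refine ⟨η, hη, fun x hx H a1 a2 => ?_⟩
  have := hb (x := (fderiv ℝ H x - fderiv ℝ G x, d2 H x - d2 G x))
    ((mem_closedBall_zero_iff (E := (E2 →L[ℝ] E4) × (E2 →L[ℝ] E2 →L[ℝ] E4))).2 (max_le a1 a2))
    ⟨x, hx⟩ (mem_univ _)
  simpa only [add_sub_cancel, II] using this

end Crest.Agent.R216
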