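import Crest.Agent.R216.Exact
import Crest.Agent.R216.LStep1
import Crest.Agent.R216.Design3

/-! # Row 216, the inductive step and the main theorem -/

set_option autoImplicit false
open Set Filter Metric
open scoped ContDiff RealInnerProductSpace Topology

noncomputable section
namespace Crest.Agent.R216

variable {M : Type*} [TopologicalSpace M] [T2Space M] {A : Atl E2 M} {g : A.ι → E2 → Bil}

namespace Geo

variable (Γ : Geo A g)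

/-- the strong condition for the pair (direction of step `j`, direction of step `k`) -/
def Strong (F : M → E4) (j k : Fin Γ.S.J) (x : E2) : Prop :=
  0 < ⟪II (fun x => F (A.p (Γ.S.ch j) x)) x (Γ.S.et j) (Γ.S.tau k (Γ.S.ch j) x),
        II (fun x => F (A.p (Γ.S.ch j) x)) x (Γ.S.et j) (Γ.S.et j)⟫ ^ 2
    + det2 (Γ.S.et j) (Γ.S.tau k (Γ.S.ch j) x) ^ 2
      * kap (Γ.S.gs (A.pull Γ.F0) (j.val + 1) (Γ.S.ch j)) x
      * ‖II (fun x => F (A.p (Γ.S.ch j) x)) x (Γ.S.et j) (Γ.S.et j)‖ ^ 2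

/-- the points of `Bad j` whose last active step before `j` is among the first `n`, and at which
step `k` is active -/
def Due (n : ℕ) (j k : Fin Γ.S.J) : Set E2 :=
  {x | x ∈ Γ.Bad j ∧ (∃ i : Fin Γ.S.J, i.val < n ∧ i < j ∧ A.p (Γ.S.ch j) x ∈ Γ.S.D i) ∧
    (∀ i : Fin Γ.S.J, n ≤ i.val → i < j → A.p (Γ.S.ch j) x ∉ Γ.S.D i) ∧
    A.p (Γ.S.ch j) x ∈ Γ.S.D k}

/-- the invariant after the steps `i < n` -/
structure Inv (n : ℕ) (F : M → E4) : Prop where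
  sm : A.Sm F
  iso : A.pull F = Γ.S.gs (A.pull Γ.F0) n
  nd : ∀ a x, ∃ τ, II (fun x => F (A.p a x)) x τ τ ≠ 0
  nonasym : ∀ i : Fin Γ.S.J, n ≤ i.val → ∀ x ∈ closedBall (Γ.S.c i) (Γ.S.r i),
    II (fun x => F (A.p (Γ.S.ch i) x)) x (Γ.S.et i) (Γ.S.et i) ≠ 0
  strong : ∀ j k : Fin Γ.S.J, n ≤ j.val → j < k → ∀ x ∈ Γ.Due n j k, Γ.Strong F j k x

/-- on `Bad j`, `p x ∉ D i ↔ p x ∉ Do i` for `i < j` (`bad_gen`), so `Due` is closed -/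
theorem isCompact_Due (n : ℕ) (j k : Fin Γ.S.J) : IsCompact (Γ.Due n j k) := by
  have hD : ∀ i, IsClosed (A.p (Γ.S.ch j) ⁻¹' Γ.S.D i) := fun i =>
    (Γ.S.isCompact_D i).isClosed.preimage (A.continuous_p _)
  have hDo : ∀ i, IsClosed (A.p (Γ.S.ch j) ⁻¹' Γ.S.Do i)ᶜ := fun i =>
    ((Γ.S.isOpen_Do i).preimage (A.continuous_p _)).isClosed_compl
  have e : Γ.Due n j k = Γ.Bad j ∩
      ((⋃ i : {i : Fin Γ.S.J // i.val < n ∧ i < j}, A.p (Γ.S.ch j) ⁻¹' Γ.S.D i.1) ∩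
        ((⋂ i : {i : Fin Γ.S.J // n ≤ i.val ∧ i < j}, (A.p (Γ.S.ch j) ⁻¹' Γ.S.Do i.1)ᶜ) ∩
          A.p (Γ.S.ch j) ⁻¹' Γ.S.D k)) := by
    ext x
    simp only [Due, mem_ofPred_eq, mem_inter_iff, mem_iUnion, mem_iInter, mem_compl_iff,
      mem_preimage]
    constructor
    · rintro ⟨h1, ⟨i, hi1, hi2, hi3⟩, h3, h4⟩
      exact ⟨h1, ⟨⟨i, hi1, hi2⟩, hi3⟩,
        fun i hi => h3 i.1 i.2.1 i.2.2 (image_mono ball_subset_closedBall hi), h4⟩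
    · rintro ⟨h1, ⟨i, hi⟩, h3, h4⟩
      exact ⟨h1, ⟨i.1, i.2.1, i.2.2, hi⟩,
        fun i hi1 hi2 hi3 => h3 ⟨i, hi1, hi2⟩ (Γ.bad_gen j x h1 i hi2 hi3).1, h4⟩
  refine (isCompact_sphere (Γ.S.c j) (Γ.S.r j)).of_isClosed_subset ?_
    (fun x hx => Γ.bad_sub j hx.1)
  rw [e]
  exact (Γ.bad_closed j).inter ((isClosed_iUnion_of_finite fun i => hD _).inter
    ((isClosed_iInter fun i => hDo _).inter (hD k)))

theorem inv_zero : Γ.Inv 0 Γ.F0 := by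
  refine ⟨Γ.F0_sm, (Γ.S.gs_zero _).symm, fun a x => ⟨b0, Γ.F0_II a x b0 ?_⟩,
    fun i _ x _ => Γ.F0_II _ x _ ?_, fun j k _ _ x hx => ?_⟩
  · exact norm_ne_zero_iff.1 (by rw [norm_b0]; exact one_ne_zero)
  · exact norm_ne_zero_iff.1 (by rw [Γ.S.norm_et]; exact one_ne_zero)
  · obtain ⟨i, hi, -⟩ := hx.2.1
    exact absurd hi (Nat.not_lt_zero _)

/-- `ND` on the chart balls gives `II ≠ 0` at all points of all charts (`cover`, `II_chart`). -/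
theorem nd_of_ND {F : M → E4} (hF : A.Sm F) (hi : A.Imm F) {ν : ℝ} (hν : 0 < ν) (h : A.ND F ν) :
    ∀ a x, ∃ τ, II (fun x => F (A.p a x)) x τ τ ≠ 0 := by
  intro a x
  obtain ⟨b, hb, hb1⟩ := A.cover (A.p a x)
  have hx : x ∈ A.O a b := hb
  have hT : A.T a b x ∈ closedBall (0 : E2) 2 := by
    rw [mem_closedBall_zero_iff]
    exact hb1.le.trans one_le_two
  obtain ⟨τ, -, hτ⟩ := h b _ hT
  refine ⟨fderiv ℝ (A.T b a) (A.T a b x) τ, ?_⟩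
  have e := A.fderiv_T_inv (A.T_mem_O hx) τ
  rw [A.T_T hx] at e
  rw [Atl.II_chart hF hi hx, e]
  exact norm_pos_iff.1 (hν.trans_le hτ)

/-- Choice of the large step data for step `j` (chart `a = ch j`).  Apply `exists_design` to
`G = zeta • F ∘ p a` (`Bdd.of_hasCompactSupport`; it agrees with `F ∘ p a` near the disc, `II_congr`),
`ι = {i // j < i}`, `L i = closedBall ∩ p a ⁻¹' D i`, `τ i = tau i a` (`continuousAt_vec`,
`vec_ne_zero`), `K = kap (gs (j+1) a)` (`continuous_kap`, `Met_gs`), `Bad j`; the strong hypothesis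
is `Inv.strong` (`Bad j ∩ L i ⊆ Due j j i` by `bad_ex`). -/
theorem exists_step_data {j : Fin Γ.S.J} {F : M → E4} (h : Γ.Inv j.val F) {δ : ℝ} (hδ : 0 < δ)
    (Λ : ℝ) : ∃ d : SD, d.Lg ∧ (d.G = fun x => zeta x • F (A.p (Γ.S.ch j) x)) ∧
      d.a = Γ.S.am j ∧ d.es = Γ.S.es j ∧ d.et = Γ.S.et j ∧
      d.Z = closedBall (Γ.S.c j) (Γ.S.r j) ∧
      (∀ x ∈ d.Z, ∀ θ, 0 < g3 (d.vs (x, θ)) (d.Gt x) (d2 d.G x d.et d.et)) ∧
      (∀ i, j < i → ∀ x ∈ d.Z, A.p (Γ.S.ch j) x ∈ Γ.S.D i → ∀ θ,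
        (Γ.S.l j (Γ.S.tau i (Γ.S.ch j) x)) ^ 2 •
            nproj (d.vs (x, θ)) (d.Gt x) (d.vss (x, θ)) = 0 →
        0 < det2 d.et (Γ.S.tau i (Γ.S.ch j) x) ^ 2
            * kap (Γ.S.gs (A.pull Γ.F0) (j.val + 1) (Γ.S.ch j)) x
          + ‖nproj (d.vs (x, θ)) (d.Gt x) (Γ.S.l j (Γ.S.tau i (Γ.S.ch j) x) • d.vts (x, θ)
            + (det2 d.es (Γ.S.tau i (Γ.S.ch j) x) / det2 d.es d.et) • d2 d.G x d.et d.et)‖ ^ 2) ∧
      ∀ x ∈ d.Z, δ ≤ Γ.S.r j ^ 2 - ‖x - Γ.S.c j‖ ^ 2 → ∀ θ,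
        nproj (d.vs (x, θ)) (d.Gt x) (d.vss (x, θ)) = 0 →
          Λ ≤ ‖nproj (d.vs (x, θ)) (d.Gt x) (d.vts (x, θ))‖ := by
  have hMet0 := A.Met_pull Γ.F0_sm Γ.F0_imm
  have hi : A.Imm F := A.Imm_of_Met (h.iso ▸ Γ.S.Met_gs hMet0 j.val)
  obtain ⟨G, hG⟩ : ∃ G : E2 → E4, G = fun x => zeta x • F (A.p (Γ.S.ch j) x) := ⟨_, rfl⟩
  have hGb : Bdd G := by
    rw [hG]
    exact Bdd.of_hasCompactSupport (zeta.contDiff.smul (h.sm _)) zeta.hasCompactSupport.smul_right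
  have hGe : ∀ x ∈ closedBall (Γ.S.c j) (Γ.S.r j),
      G =ᶠ[𝓝 x] fun x => F (A.p (Γ.S.ch j) x) := fun x hx => by
    rw [hG]
    exact zeta_smul_eventuallyEq _ (ball_subset_closedBall (Γ.S.sub j hx))
  have hO : ∀ (i : Fin Γ.S.J) (x : E2), A.p (Γ.S.ch j) x ∈ Γ.S.D i →
      x ∈ A.O (Γ.S.ch j) (Γ.S.ch i) := by
    rintro i x ⟨z, -, hz⟩
    exact (A.mem_O_of_eq hz.symm).1
  have het : ∀ i, Γ.S.et i ≠ 0 := fun i =>
    norm_ne_zero_iff.1 (by rw [Γ.S.norm_et]; exact one_ne_zero)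
  have hMet := Γ.S.Met_gs hMet0 (j.val + 1)
  obtain ⟨d, h1, h2, h3, h4, h5, h6, h7, h8, h9⟩ := exists_design (G := G) hGb (c := Γ.S.c j)
    (r := Γ.S.r j) (es := Γ.S.es j) (et := Γ.S.et j) (l := Γ.S.l j) (Γ.S.r_pos j)
    ((Γ.S.sub j).trans (ball_subset_closedBall.trans (closedBall_subset_closedBall (by norm_num))))
    (Γ.S.norm_et j) (Γ.S.l_es j) (Γ.S.l_et j) (Γ.S.b_smooth j) (Γ.S.b_pos j)
    (fun x hx => by rw [(hGe x hx).fderiv_eq]; exact hi _ x)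
    (fun x hx => by rw [II_congr (hGe x hx)]; exact h.nonasym j le_rfl x hx)
    (ι := {i : Fin Γ.S.J // j < i})
    (L := fun i => closedBall (Γ.S.c j) (Γ.S.r j) ∩ A.p (Γ.S.ch j) ⁻¹' Γ.S.D i.1)
    (fun i => isClosed_closedBall.inter
      ((Γ.S.isCompact_D i.1).isClosed.preimage (A.continuous_p _)))
    (fun i => inter_subset_left) (τ := fun i => Γ.S.tau i.1 (Γ.S.ch j))
    (fun i x hx => (A.continuousAt_vec _ (hO i.1 x hx.2)).continuousWithinAt)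
    (fun i x hx => A.vec_ne_zero (het i.1) (hO i.1 x hx.2))
    (K := kap (Γ.S.gs (A.pull Γ.F0) (j.val + 1) (Γ.S.ch j)))
    (continuous_kap (hMet.smooth _) (hMet.symm _) (hMet.pos _)) (Bad := Γ.Bad j)
    (Γ.bad_closed j) (Γ.bad_sub j)
    (fun x hx hb => (Γ.good j x hx hb).imp (fun h i hi => h i.1 i.2 hi.2) id)
    (Γ.bad_tr j)
    (fun i x hx => by
      rw [II_congr (hGe x hx.2.1), II_congr (hGe x hx.2.1)]
      obtain ⟨i₀, hi₀, hi₀'⟩ := Γ.bad_ex j x hx.1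
      exact h.strong j i.1 le_rfl i.2 x ⟨hx.1, ⟨i₀, hi₀, hi₀, hi₀'⟩,
        fun i' h1 h2 => absurd (Fin.lt_def.1 h2) (not_lt.2 h1), hx.2.2⟩)
    hδ Λ
  refine ⟨d, h1, h2.trans hG, h3, h4, h5, h6, ?_, ?_, ?_⟩
  · rw [h6, h2, h5]; exact h7
  · rw [h6, h2, h4, h5]
    exact fun i hi x hx hD => h8 ⟨i, hi⟩ x ⟨hx, hD⟩
  · rw [h6]; exact h9

end Geo

end Crest.Agent.R216
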