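import Crest.Agent.R216.Int2

/-! # Row 216, exponential tilting and reparametrisation of loops -/

set_option autoImplicit false
open Set Filter Metric
open scoped ContDiff RealInnerProductSpace Topology

noncomputable section
namespace Crest.Agent.R216

/-- smooth `sin y / y` -/
def snc (y : ℝ) : ℝ := ∫ σ in (0 : ℝ)..1, Real.cos (σ * y)

theorem contDiff_snc : ContDiff ℝ ∞ snc := by
  exact contDiff_param_integral (f := fun w : ℝ × ℝ => Real.cos (w.2 * w.1)) (by fun_prop) 0 1

theorem mul_snc (y : ℝ) : y * snc y = Real.sin y := by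
  rw [snc, intervalIntegral.mul_integral_comp_mul_right, integral_cos]
  simp

theorem snc_zero : snc 0 = 1 := by
  simp [snc]

theorem snc_neg (y : ℝ) : snc (-y) = snc y := by
  simp [snc]

theorem one_sub_cos_eq (y : ℝ) : 1 - Real.cos y = y ^ 2 * (snc (y / 2) ^ 2 / 2) := by
  have h1 := Real.sin_sq_eq_half_sub (y / 2)
  rw [← mul_snc, mul_div_cancel₀ y two_ne_zero] at h1
  linarith

section
variable {X : Type*} [NormedAddCommGroup X] [NormedSpace ℝ X] [FiniteDimensional ℝ X]

/-- Exponential tilt.  `H (x, λ) = mean (f e^{λ f})` is smooth (`contDiff_mean` with slow variable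
`(x, λ)`), `∂_λ H = mean (f² e^{λ f}) > 0`, `H → ±∞` as `λ → ±∞` (`f e^{λ f} ≥ -sup|f|` for
`λ ≥ 0`, and `f ≥ c > 0` on an interval).  So there is a unique zero `λ x`; it is smooth by the
inverse function theorem for `(x, λ) ↦ (x, H)` (`exists_param_inverse` below applies verbatim: the
map is strictly increasing and onto in `λ`). -/
theorem exists_param_inverse {H : X × ℝ → ℝ} (hH : ContDiff ℝ ∞ H) (hpos : ∀ z, 0 < dθ H z)
    (hsurj : ∀ x, Function.Surjective (fun t => H (x, t))) :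
    ∃ K : X × ℝ → ℝ, ContDiff ℝ ∞ K ∧ (∀ x s, H (x, K (x, s)) = s) ∧ (∀ x t, K (x, H (x, t)) = t) ∧
      ∀ z, 0 < dθ K z := by
  have hm : ∀ x, StrictMono fun t => H (x, t) := fun x =>
    strictMono_of_hasDerivAt_pos (fun t => Int2_lineθ hH x t) fun t => hpos _
  let K : X × ℝ → ℝ := fun z => Function.surjInv (hsurj z.1) z.2
  have h1 : ∀ x s, H (x, K (x, s)) = s := fun x s => Function.surjInv_eq (hsurj x) s
  have h2 : ∀ x t, K (x, H (x, t)) = t := fun x t => (hm x).injective (h1 x _)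
  have hΦ : ContDiff ℝ ∞ fun z : X × ℝ => (z.1, H z) := contDiff_fst.prodMk hH
  have hK : ContDiff ℝ ∞ K := by
    refine contDiff_iff_contDiffAt.2 fun w => ?_
    obtain ⟨x, s⟩ := w
    obtain ⟨t, rfl⟩ := hsurj x s
    have hd : HasFDerivAt (fun z : X × ℝ => (z.1, H z))
        ((ContinuousLinearMap.fst ℝ X ℝ).prod (fderiv ℝ H (x, t))) (x, t) :=
      hasFDerivAt_fst.prodMk (hH.differentiable (by simp) _).hasFDerivAt
    have hi : Function.Injective
        ((ContinuousLinearMap.fst ℝ X ℝ).prod (fderiv ℝ H (x, t))).toLinearMap := by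
      refine (injective_iff_map_eq_zero _).2 fun v hv => ?_
      obtain ⟨a, b⟩ := v
      obtain rfl : a = 0 := congrArg Prod.fst hv
      have h3 : fderiv ℝ H (x, t) (0, b) = 0 := congrArg Prod.snd hv
      have h4 : ((0, b) : X × ℝ) = b • ((0, 1) : X × ℝ) := by simp
      rw [h4, map_smul, smul_eq_zero] at h3
      obtain rfl : b = 0 := h3.resolve_right (hpos (x, t)).ne'
      rfl
    have hd' : HasFDerivAt (fun z : X × ℝ => (z.1, H z))
        ((LinearEquiv.ofInjectiveEndo _ hi).toContinuousLinearEquiv : X × ℝ →L[ℝ] X × ℝ) (x, t) :=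
      hd
    have h5 := hΦ.contDiffAt.to_localInverse hd' (by simp)
    have h6 := (hΦ.contDiffAt.hasStrictFDerivAt' hd' (by simp)).eventually_right_inverse
    refine h5.snd.congr_of_eventuallyEq ?_
    filter_upwards [h6] with w hw
    rw [← congrArg K hw]
    exact h2 _ _
  refine ⟨K, hK, h1, h2, fun z => ?_⟩
  obtain ⟨x, s⟩ := z
  have h3 := (Int2_lineθ hH x (K (x, s))).comp s (Int2_lineθ hK x s)
  have h4 : ((fun θ => H (x, θ)) ∘ fun θ => K (x, θ)) = id := funext fun s => h1 x s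
  rw [h4] at h3
  have h5 := h3.unique (hasDerivAt_id s)
  exact (pos_iff_pos_of_mul_pos (h5 ▸ one_pos)).1 (hpos _)

omit [NormedSpace ℝ X] [FiniteDimensional ℝ X] in
private theorem Loop1_mono {u v : X × ℝ → ℝ} (hu : Continuous u) (hv : Continuous v) {x : X}
    (h : ∀ θ, u (x, θ) ≤ v (x, θ)) : mean u x ≤ mean v x :=
  smul_le_smul_of_nonneg_left (intervalIntegral.integral_mono_on Real.two_pi_pos.le
    (Int2_ii hu x _ _) (Int2_ii hv x _ _) fun θ _ => h θ) (inv_pos.2 Real.two_pi_pos).le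

private theorem Loop1_top {f : X × ℝ → ℝ} (hf : Continuous f) (hp : Per f) {x : X} {t : ℝ}
    (ht : 0 < f (x, t)) :
    Tendsto (fun l : ℝ => mean (fun z => f z * Real.exp (l * f z)) x) atTop atTop := by
  have hc : Continuous fun z => max (f z) 0 ^ 2 := by fun_prop
  have h1 : 0 < mean (fun z => max (f z) 0 ^ 2) x :=
    mean_pos hc (fun x θ => by simp only [hp x θ]) (fun θ => sq_nonneg _) (θ₀ := t)
      (pow_pos (lt_max_of_lt_left ht) 2)
  refine tendsto_atTop_mono' atTop ?_
    (tendsto_atTop_add_const_left _ (mean f x) (tendsto_id.atTop_mul_const h1))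
  filter_upwards [eventually_ge_atTop 0] with l hl
  have h2 := mean_mul_left (fun _ => l) (fun z => max (f z) 0 ^ 2) x
  have hc' : Continuous fun z => l * max (f z) 0 ^ 2 := continuous_const.mul hc
  rw [id, ← h2, ← mean_add hf hc']
  refine Loop1_mono (hf.fun_add hc') (by fun_prop) fun θ => ?_
  generalize f (x, θ) = y
  rcases le_total 0 y with hy | hy
  · rw [max_eq_left hy]
    have := mul_le_mul_of_nonneg_left (Real.add_one_le_exp (l * y)) hy
    linarith
  · rw [max_eq_right hy]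
    have := mul_le_mul_of_nonpos_left
      (Real.exp_le_one_iff.2 (mul_nonpos_of_nonneg_of_nonpos hl hy)) hy
    linarith

theorem exists_tilt {f : X × ℝ → ℝ} (hf : ContDiff ℝ ∞ f) (hp : Per f)
    (h1 : ∀ x, ∃ t, 0 < f (x, t)) (h2 : ∀ x, ∃ t, f (x, t) < 0) :
    ∃ lam : X → ℝ, ContDiff ℝ ∞ lam ∧
      ∀ x, mean (fun z => f z * Real.exp (lam z.1 * f z)) x = 0 := by
  let u : (X × ℝ) × ℝ → ℝ := fun z => f (z.1.1, z.2) * Real.exp (z.1.2 * f (z.1.1, z.2))
  have hf' : ContDiff ℝ ∞ fun z : (X × ℝ) × ℝ => f (z.1.1, z.2) :=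
    hf.comp (contDiff_fst.fst.prodMk contDiff_snd)
  have hu : ContDiff ℝ ∞ u := hf'.mul (contDiff_fst.snd.mul hf').exp
  have hd : ∀ (w : X × ℝ) θ, dx ((0, 1) : X × ℝ) u (w, θ) =
      f (w.1, θ) ^ 2 * Real.exp (w.2 * f (w.1, θ)) := fun w θ => by
    refine (Int2_linex hu (0, 1) w θ).unique ?_
    have h := ((((hasDerivAt_id (0 : ℝ)).const_add w.2).mul_const (f (w.1, θ))).exp).const_mul
      (f (w.1, θ))
    refine (h.congr_of_eventuallyEq (Eventually.of_forall fun σ => ?_)).congr_deriv ?_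
    · simp [u]
    · simp only [id, add_zero]
      ring
  obtain ⟨K, hK, h3, -, -⟩ := exists_param_inverse (contDiff_mean hu) (fun w => by
    obtain ⟨t, ht⟩ := h1 w.1
    rw [dθ, ← mean_dx hu, mean_congr (v := fun z : (X × ℝ) × ℝ =>
      f (z.1.1, z.2) ^ 2 * Real.exp (z.1.2 * f (z.1.1, z.2))) (hd w)]
    exact mean_pos ((hf'.pow 2).mul (contDiff_fst.snd.mul hf').exp).continuous
      (fun x θ => by simp only [hp _ θ]) (fun θ => by positivity) (θ₀ := t) (by positivity))
    fun x => by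
      obtain ⟨t, ht⟩ := h1 x
      obtain ⟨t', ht'⟩ := h2 x
      refine Continuous.surjective
        ((contDiff_mean hu).continuous.comp (Continuous.prodMk_right x))
        (Loop1_top hf.continuous hp ht) ?_
      have h := tendsto_neg_atTop_atBot.comp ((Loop1_top (f := fun z => -f z) hf.continuous.neg
        (fun x θ => by simp only [hp x θ]) (neg_pos.2 ht')).comp tendsto_neg_atBot_atTop)
      refine h.congr fun l => ?_
      simp only [Function.comp_apply, neg_mul, mul_neg, neg_neg]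
      rw [mean_neg, neg_neg]
      rfl
  exact ⟨fun x => K (x, 0), hK.comp (contDiff_id.prodMk contDiff_const), fun x => h3 x 0⟩

/-- Reparametrisation by a positive even `π`-periodic density of mean one:
`Θ (x,t) = ∫₀ᵗ ϱ (x,·) = t + prim0 ϱ (x,t)` is odd, `Θ (t + π) = Θ t + π`; `ϑ` is its inverse, and
`mean (φ ∘ ϑ) = mean (ϱ φ)` by the substitution `θ = Θ t`
(`intervalIntegral.integral_comp_mul_deriv`). -/
theorem exists_reparam {ϱ : X × ℝ → ℝ} (hϱ : ContDiff ℝ ∞ ϱ) (hpos : ∀ z, 0 < ϱ z)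
    (hper : ∀ x t, ϱ (x, t + Real.pi) = ϱ (x, t)) (heven : ∀ x t, ϱ (x, -t) = ϱ (x, t))
    (hmean : ∀ x, mean ϱ x = 1) :
    ∃ ϑ : X × ℝ → ℝ, ContDiff ℝ ∞ ϑ ∧ (∀ z, 0 < dθ ϑ z) ∧
      (∀ x θ, ϑ (x, θ + Real.pi) = ϑ (x, θ) + Real.pi) ∧ (∀ x θ, ϑ (x, -θ) = -ϑ (x, θ)) ∧
      (∀ x, Function.Surjective (fun θ => ϑ (x, θ))) ∧
      ∀ φ : X × ℝ → ℝ, Continuous φ → ∀ x,
        mean (fun z => φ (z.1, ϑ z)) x = mean (fun z => ϱ z * φ z) x := by
  let Θ : X × ℝ → ℝ := fun z => prim0 ϱ z + z.2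
  have hΘ : ContDiff ℝ ∞ Θ := (contDiff_prim0 hϱ).add contDiff_snd
  have hi := Int2_ii hϱ.continuous
  have e : ∀ x t, Θ (x, t) = ∫ θ in (0 : ℝ)..t, ϱ (x, θ) := fun x t => by
    simp only [Θ, prim0, hmean]
    rw [intervalIntegral.integral_sub (hi x _ _) intervalIntegrable_const]
    simp
  have hd : ∀ x t, HasDerivAt (fun t => Θ (x, t)) (ϱ (x, t)) t := fun x t => by
    simp only [e]
    exact ((hϱ.continuous.comp (Continuous.prodMk_right x)).integral_hasStrictDerivAt 0 t).hasDerivAt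
  have hP : ∀ x, Function.Periodic (fun t => ϱ (x, t)) Real.pi := hper
  have ha : ∀ x t, Θ (x, t + Real.pi) = Θ (x, t) + Θ (x, Real.pi) := fun x t => by
    have := (hP x).intervalIntegral_add_eq_add 0 t (hi x)
    rw [zero_add] at this
    simp only [e]
    exact this
  have h2π : ∀ x, Θ (x, 2 * Real.pi) = 2 * Real.pi := fun x => by
    have := hmean x
    rw [mean, smul_eq_mul, inv_mul_eq_one₀ Real.two_pi_pos.ne'] at this
    rw [e, ← this]
  have hπ : ∀ x, Θ (x, Real.pi) = Real.pi := fun x => by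
    have h1 := ha x Real.pi
    rw [← two_mul, h2π] at h1
    linarith
  have ho : ∀ x t, Θ (x, -t) = -Θ (x, t) := fun x t => by
    have h2 := intervalIntegral.integral_comp_neg (a := 0) (b := t) fun θ => ϱ (x, θ)
    simp only [heven] at h2
    rw [neg_zero, intervalIntegral.integral_symm 0 (-t)] at h2
    rw [e, e, h2, neg_neg]
  obtain ⟨K, hK, h1, h2, h3⟩ := exists_param_inverse hΘ
    (fun z => (Int2_lineθ hΘ z.1 z.2).unique (hd z.1 z.2) ▸ hpos z) fun x => by
      have h0 : 0 < ∫ θ in (0 : ℝ)..Real.pi, ϱ (x, θ) := by rw [← e, hπ]; exact Real.pi_pos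
      refine Continuous.surjective (hΘ.continuous.comp (Continuous.prodMk_right x)) ?_ ?_
      · simp only [e]
        exact (hP x).tendsto_atTop_intervalIntegral_of_pos h0 Real.pi_pos
      · simp only [e]
        exact (hP x).tendsto_atBot_intervalIntegral_of_pos h0 Real.pi_pos
  refine ⟨K, hK, h3, fun x θ => ?_, fun x θ => ?_, fun x t => ⟨_, h2 x t⟩, fun φ hφ x => ?_⟩
  · have := h2 x (K (x, θ) + Real.pi)
    rwa [ha, hπ, h1] at this
  · have := h2 x (-K (x, θ))
    rwa [ho, h1] at this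
  · have h4 := intervalIntegral.integral_comp_mul_deriv (a := 0) (b := 2 * Real.pi)
      (g := fun θ => φ (x, K (x, θ))) (fun t _ => hd x t)
      (hϱ.continuous.comp (Continuous.prodMk_right x)).continuousOn
      (hφ.comp (continuous_const.prodMk (hK.continuous.comp (Continuous.prodMk_right x))))
    rw [h2π, e, intervalIntegral.integral_same] at h4
    simp only [mean]
    rw [← h4]
    simp only [Function.comp_apply, h2, mul_comm]

end

end Crest.Agent.R216
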