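import Crest.Agent.R216.LStep2

/-! # Row 216, main theorem -/

set_option autoImplicit false
open Set Filter Metric
open scoped ContDiff RealInnerProductSpace Topology

noncomputable section
namespace Crest.Agent.R216

variable {M : Type*} [TopologicalSpace M] [T2Space M] {A : Atl E2 M} {g : A.ι → E2 → Bil}

theorem h94_det2_cont {e : E2} {v : E2 → E2} {L : Set E2} (hv : ContinuousOn v L) :
    ContinuousOn (fun x => det2 e (v x)) L := by
  unfold det2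
  have h0 : ContinuousOn (fun x => v x 0) L :=
    (EuclideanSpace.proj (𝕜 := ℝ) (0 : Fin 2)).continuous.comp_continuousOn hv
  have h1 : ContinuousOn (fun x => v x 1) L :=
    (EuclideanSpace.proj (𝕜 := ℝ) (1 : Fin 2)).continuous.comp_continuousOn hv
  exact (continuousOn_const.mul h1).sub (continuousOn_const.mul h0)

omit [T2Space M] in
theorem h94_mem_O (S : Steps A) {b : A.ι} {i : Fin S.J} {x : E2} (hx : A.p b x ∈ S.D i) :
    x ∈ A.O b (S.ch i) := by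
  obtain ⟨z, -, hz⟩ := hx
  exact (A.mem_O_of_eq hz.symm).1

omit [T2Space M] in
/-- transfer of `II (et i) (tau k)` from chart `ch i` to a chart `a` -/
theorem h94_II_transfer (S : Steps A) {F : M → E4} (hF : A.Sm F) (hi : A.Imm F) {a : A.ι}
    {i k : Fin S.J} {x z : E2} (hxz : A.p (S.ch i) x = A.p a z) (hk : A.p (S.ch i) x ∈ S.D k) :
    II (fun x => F (A.p (S.ch i) x)) x (S.et i) (S.tau k (S.ch i) x)
        = II (fun x => F (A.p a x)) z (S.tau i a z) (S.tau k a z) ∧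
      II (fun x => F (A.p (S.ch i) x)) x (S.et i) (S.et i)
        = II (fun x => F (A.p a x)) z (S.tau i a z) (S.tau i a z) := by
  obtain ⟨hx, hT⟩ := A.mem_O_of_eq hxz
  have e1 : fderiv ℝ (A.T (S.ch i) a) x (S.et i) = S.tau i a z := by
    have := Atl.vec_trans (A := A) (a := S.ch i) (b := S.ch i) (c := a) (S.et i) (x := x)
      (by simp) hx
    rw [Atl.vec_self, hT] at this
    exact this
  have e2 : fderiv ℝ (A.T (S.ch i) a) x (S.tau k (S.ch i) x) = S.tau k a z := by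
    have := Atl.vec_trans (A := A) (a := S.ch k) (b := S.ch i) (c := a) (S.et k) (x := x)
      (h94_mem_O S hk) hx
    rw [hT] at this
    exact this
  constructor
  · rw [Atl.II_chart hF hi hx, e1, e2, hT]
  · rw [Atl.II_chart hF hi hx, e1, hT]

/-- the points of the disc of step `j` which are due for the pair `(j', k)` -/
def h94P (Γ : Geo A g) (j j' k : Fin Γ.S.J) : Set E2 :=
  closedBall (Γ.S.c j) (Γ.S.r j) ∩
    A.p (Γ.S.ch j) ⁻¹' (A.p (Γ.S.ch j') '' Γ.Due (j.val + 1) j' k)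

theorem h94P_compact (Γ : Geo A g) (j j' k : Fin Γ.S.J) : IsCompact (h94P Γ j j' k) :=
  (isCompact_closedBall _ _).inter_right
    ((A.isCompact_image_p _ (Γ.isCompact_Due _ _ _)).isClosed.preimage (A.continuous_p _))

omit [T2Space M] in
theorem h94P_prop (Γ : Geo A g) {j j' k : Fin Γ.S.J} (h1 : j < j') (h2 : j' < k) {z : E2}
    (hz : z ∈ h94P Γ j j' k) :
    0 < Γ.S.r j ^ 2 - ‖z - Γ.S.c j‖ ^ 2 ∧ A.p (Γ.S.ch j) z ∈ Γ.S.D j' ∧
      A.p (Γ.S.ch j) z ∈ Γ.S.D k ∧ Γ.S.l j (Γ.S.tau j' (Γ.S.ch j) z) ≠ 0 ∧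
      Γ.S.l j (Γ.S.tau k (Γ.S.ch j) z) ≠ 0 := by
  obtain ⟨hz1, x, hx, hxz⟩ := hz
  have hDj : A.p (Γ.S.ch j') x ∈ Γ.S.D j := ⟨z, hz1, hxz.symm⟩
  have hDj' : A.p (Γ.S.ch j') x ∈ Γ.S.D j' :=
    ⟨x, sphere_subset_closedBall (Γ.bad_sub j' hx.1), rfl⟩
  obtain ⟨⟨w, hw, hwx⟩, hl⟩ := Γ.bad_gen j' x hx.1 j h1 hDj
  have hwz : w = z := A.injective_p _ (hwx.trans hxz)
  have hT := (A.mem_O_of_eq hxz).2
  rw [hT] at hl
  refine ⟨?_, hxz ▸ hDj', hxz ▸ hx.2.2.2, hl j' le_rfl hDj', hl k h2.le hx.2.2.2⟩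
  rw [hwz, mem_ball, dist_eq_norm] at hw
  have := norm_nonneg (z - Γ.S.c j)
  nlinarith

theorem h94_delta (Γ : Geo A g) (j : Fin Γ.S.J) : ∃ δ > (0 : ℝ), ∀ j' k, j < j' → j' < k →
    ∀ z ∈ h94P Γ j j' k, δ ≤ Γ.S.r j ^ 2 - ‖z - Γ.S.c j‖ ^ 2 := by
  have hc : IsCompact (⋃ q : {q : Fin Γ.S.J × Fin Γ.S.J // j < q.1 ∧ q.1 < q.2},
      h94P Γ j q.1.1 q.1.2) := isCompact_iUnion fun q => h94P_compact Γ j _ _
  have hf : Continuous fun z : E2 => Γ.S.r j ^ 2 - ‖z - Γ.S.c j‖ ^ 2 := by fun_prop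
  obtain ⟨δ, hδ, hle⟩ := hc.exists_forall_le' (a := (0 : ℝ)) hf.continuousOn (fun z hz => by
    obtain ⟨q, hq⟩ := mem_iUnion.1 hz
    exact (h94P_prop Γ q.2.1 q.2.2 hq).1)
  exact ⟨δ, hδ, fun j' k h1 h2 z hz => hle z (mem_iUnion.2 ⟨⟨(j', k), h1, h2⟩, hz⟩)⟩

theorem h94_kcont (Γ : Geo A g) (n : ℕ) (j' k : Fin Γ.S.J) :
    ContinuousOn (Γ.S.tau k (Γ.S.ch j')) (Γ.Due n j' k) ∧
    ContinuousOn (fun x => det2 (Γ.S.et j') (Γ.S.tau k (Γ.S.ch j') x) ^ 2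
      * kap (Γ.S.gs (A.pull Γ.F0) (j'.val + 1) (Γ.S.ch j')) x) (Γ.Due n j' k) := by
  have hMet := Γ.S.Met_gs (A.Met_pull Γ.F0_sm Γ.F0_imm) (j'.val + 1)
  have h1 : ContinuousOn (Γ.S.tau k (Γ.S.ch j')) (Γ.Due n j' k) := fun x hx =>
    (A.continuousAt_vec _ (h94_mem_O Γ.S hx.2.2.2)).continuousWithinAt
  exact ⟨h1, ((h94_det2_cont h1).pow 2).mul
    (continuous_kap (hMet.smooth _) (hMet.symm _) (hMet.pos _)).continuousOn⟩

theorem h94_C0 (Γ : Geo A g) (n : ℕ) (j' k : Fin Γ.S.J) : ∃ C₀ : ℝ, ∀ x ∈ Γ.Due n j' k,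
    -C₀ ≤ det2 (Γ.S.et j') (Γ.S.tau k (Γ.S.ch j') x) ^ 2
      * kap (Γ.S.gs (A.pull Γ.F0) (j'.val + 1) (Γ.S.ch j')) x := by
  obtain ⟨c, hc⟩ := (Γ.isCompact_Due n j' k).bddBelow_image (h94_kcont Γ n j' k).2
  exact ⟨-c, fun x hx => by rw [neg_neg]; exact hc ⟨x, hx, rfl⟩⟩

/-- **Inductive step.**  Let `a = ch j`.  For `j < j' < k` let `P j' k` be the image under
`T (ch j') a` of the compact set `Due (j+1) j' k ∩ (p (ch j'))⁻¹' D j`; it is compact and contained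
in the open disc of step `j` (`bad_gen`), so `r² - ‖x-c‖² ≥ δ > 0` on all `P j' k`.
`uniform_strong` with `u = tau j' a`, `v = tau k a`, `C₀ ≥ |det2² kap|` gives `Λ j' k`; take the
maximum `Λ`, then `exists_step_data`, `exact_family` (`gs_succ`, `Met_gs`).  For large `m`:
* `nonasym` for `i > j`: at `x` with `p x ∈ D j` use `uniform_nonasym` on
  `closedBall ∩ p a ⁻¹' D i` and `II_chart`, `vec_trans`, `vec_self`; at the other points
  `persist_jet` (`u = v = et i`, `k = 0`) on `closedBall (c i) (r i)`;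
* `strong`: at `x ∈ Due (j+1) j' k` with `p x ∈ D j` by the choice of `Λ`; otherwise
  `x ∈ Due j j' k` and `persist_jet` applies. -/
theorem Geo.inv_succ (Γ : Geo A g) {j : Fin Γ.S.J} {F : M → E4} (h : Γ.Inv j.val F) :
    ∃ F', Γ.Inv (j.val + 1) F' := by
  have hMet0 := A.Met_pull Γ.F0_sm Γ.F0_imm
  have hi : A.Imm F := A.Imm_of_Met (h.iso ▸ Γ.S.Met_gs hMet0 j.val)
  have hMet := Γ.S.Met_gs hMet0 (j.val + 1)
  have hK : Continuous (kap (Γ.S.gs (A.pull Γ.F0) (j.val + 1) (Γ.S.ch j))) :=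
    continuous_kap (hMet.smooth _) (hMet.symm _) (hMet.pos _)
  have hG : ContDiff ℝ ∞ (fun x => zeta x • F (A.p (Γ.S.ch j) x)) := zeta.contDiff.smul (h.sm _)
  have hsub2 : ∀ i, closedBall (Γ.S.c i) (Γ.S.r i) ⊆ closedBall (0 : E2) 2 := fun i =>
    (Γ.S.sub i).trans (ball_subset_closedBall.trans (closedBall_subset_closedBall (by norm_num)))
  obtain ⟨δ, hδ, hδle⟩ := h94_delta Γ j
  choose C₀ hC₀ using fun j' k => h94_C0 Γ (j.val + 1) j' k
  choose Λ hΛ using fun q : {q : Fin Γ.S.J × Fin Γ.S.J // j < q.1 ∧ q.1 < q.2} =>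
    uniform_strong hG (Γ.S.l_es j) (Γ.S.l_et j) hK (h94P_compact Γ j q.1.1 q.1.2)
      (u := Γ.S.tau q.1.1 (Γ.S.ch j)) (v := Γ.S.tau q.1.2 (Γ.S.ch j))
      (fun z hz => (A.continuousAt_vec _
        (h94_mem_O Γ.S (h94P_prop Γ q.2.1 q.2.2 hz).2.1)).continuousWithinAt)
      (fun z hz => (A.continuousAt_vec _
        (h94_mem_O Γ.S (h94P_prop Γ q.2.1 q.2.2 hz).2.2.1)).continuousWithinAt)
      (fun z hz => (h94P_prop Γ q.2.1 q.2.2 hz).2.2.2.1)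
      (fun z hz => (h94P_prop Γ q.2.1 q.2.2 hz).2.2.2.2) (C₀ q.1.1 q.1.2)
  obtain ⟨Λ₀, hΛ₀⟩ := Finite.exists_le Λ
  obtain ⟨d, hd, hdG, hda, hes, het, hZ, h3, hQ, hS⟩ := Γ.exists_step_data h hδ Λ₀
  have hl1 : Γ.S.l j d.es = 1 := by rw [hes]; exact Γ.S.l_es j
  have hl0 : Γ.S.l j d.et = 0 := by rw [het]; exact Γ.S.l_et j
  obtain ⟨ε, F', hε, hε0, hsm, hpull, ⟨ν, hν, hND⟩, hN⟩ := exact_family A hMet h.sm hi h.nd
    (Γ.S.ch j) hd (by rw [hZ]; exact Γ.S.sub j) hdG hl1 hl0 h3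
    (fun b x => by rw [Γ.S.gs_succ, h.iso, hda]; rfl)
  have hi' : ∀ m, A.Imm (F' m) := fun m => A.Imm_of_Met (by rw [hpull]; exact hMet)
  have hpb : ∀ m, pb (fun x => F' m (A.p (Γ.S.ch j) x))
      = Γ.S.gs (A.pull Γ.F0) (j.val + 1) (Γ.S.ch j) := fun m => congrFun (hpull m) (Γ.S.ch j)
  have hN1 : ∀ L : Set E2, L ⊆ closedBall (Γ.S.c j) (Γ.S.r j) → ∀ η > (0 : ℝ), ∀ᶠ m in atTop,
      ∀ x ∈ L, d.Near (Γ.S.l j) (ε m) η (fun x => F' m (A.p (Γ.S.ch j) x)) x :=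
    fun L hL η hη => (hN η hη).mono fun m hm x hx =>
      hm.1 x (ball_subset_closedBall (Γ.S.sub j (hL hx)))
  have hN2 : ∀ η > (0 : ℝ), ∀ᶠ m in atTop, ∀ b, ∀ x ∈ closedBall (0 : E2) 2,
      A.p b x ∉ Γ.S.D j →
        ‖fderiv ℝ (fun x => F' m (A.p b x)) x - fderiv ℝ (fun x => F (A.p b x)) x‖ ≤ η ∧
        ‖d2 (fun x => F' m (A.p b x)) x - d2 (fun x => F (A.p b x)) x‖ ≤ η :=
    fun η hη => (hN η hη).mono fun m hm b x hx hD => hm.2 b x hx (by rw [hZ]; exact hD)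
  have hA : ∀ i : Fin Γ.S.J, ∀ᶠ m in atTop, j.val + 1 ≤ i.val →
      ∀ x ∈ closedBall (Γ.S.c i) (Γ.S.r i),
        II (fun x => F' m (A.p (Γ.S.ch i) x)) x (Γ.S.et i) (Γ.S.et i) ≠ 0 := by
    intro i
    by_cases hji : j.val + 1 ≤ i.val
    swap
    · exact Eventually.of_forall fun m hm => absurd hm hji
    have hji' : j < i := Fin.lt_def.2 hji
    have e1 := uniform_nonasym hd hl1 hl0 hε hε0 (fun m => hsm m (Γ.S.ch j))
      (fun m => hi' m (Γ.S.ch j)) hpb hK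
      (L := closedBall (Γ.S.c j) (Γ.S.r j) ∩ A.p (Γ.S.ch j) ⁻¹' Γ.S.D i)
      ((isCompact_closedBall _ _).inter_right
        ((Γ.S.isCompact_D i).isClosed.preimage (A.continuous_p _)))
      (fun x hx => h3 x (by rw [hZ]; exact hx.1)) (hN1 _ inter_subset_left)
      (τ := Γ.S.tau i (Γ.S.ch j))
      (fun x hx => (A.continuousAt_vec _ (h94_mem_O Γ.S hx.2)).continuousWithinAt)
      (fun x hx => hQ i hji' x (by rw [hZ]; exact hx.1) hx.2)
    obtain ⟨η, hη, hper⟩ := persist_jet (h.sm (Γ.S.ch i))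
      (isCompact_closedBall (Γ.S.c i) (Γ.S.r i)) (fun x _ => hi _ x)
      (u := fun _ => Γ.S.et i) (v := fun _ => Γ.S.et i) (k := fun _ => 0)
      continuousOn_const continuousOn_const continuousOn_const
      (fun x hx => by
        have := h.nonasym i (by omega) x hx
        rw [zero_mul, add_zero]
        exact pow_pos (real_inner_self_pos.2 this) 2)
    filter_upwards [e1, hN2 η hη] with m hm1 hm2 _ x hx
    by_cases hD : A.p (Γ.S.ch i) x ∈ Γ.S.D j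
    · obtain ⟨z, hz, hzx⟩ := hD
      have hDi : A.p (Γ.S.ch i) x ∈ Γ.S.D i := ⟨x, hx, rfl⟩
      rw [(h94_II_transfer Γ.S (hsm m) (hi' m) hzx.symm hDi).2]
      exact hm1 z ⟨hz, by rw [mem_preimage, hzx]; exact hDi⟩
    · obtain ⟨a1, a2⟩ := hm2 _ x (hsub2 i hx) hD
      have := hper x hx _ a1 a2
      intro h0
      rw [h0] at this
      simp at this
  have hB : ∀ j' k : Fin Γ.S.J, ∀ᶠ m in atTop, j.val + 1 ≤ j'.val → j' < k →
      ∀ x ∈ Γ.Due (j.val + 1) j' k, Γ.Strong (F' m) j' k x := by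
    intro j' k
    by_cases hjj : j.val + 1 ≤ j'.val ∧ j' < k
    swap
    · exact Eventually.of_forall fun m h1 h2 => absurd ⟨h1, h2⟩ hjj
    obtain ⟨hjj, hjk⟩ := hjj
    have hjj' : j < j' := Fin.lt_def.2 hjj
    have e1 := hΛ ⟨(j', k), hjj', hjk⟩ d hd hdG hes het ε _ hε hε0 (fun m => hsm m (Γ.S.ch j))
      (fun m => hi' m (Γ.S.ch j)) hpb
      (fun x hx θ => by
        have := h3 x (by rw [hZ]; exact hx.1) θ
        rw [← hdG, ← het]
        exact this)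
      (hN1 _ inter_subset_left)
      (fun x hx θ h0 => (hΛ₀ _).trans
        (hS x (by rw [hZ]; exact hx.1) (hδle j' k hjj' hjk x hx) θ h0))
    obtain ⟨η, hη, hper⟩ := persist_jet (h.sm (Γ.S.ch j')) (Γ.isCompact_Due j.val j' k)
      (fun x _ => hi _ x) (u := fun _ => Γ.S.et j') continuousOn_const
      (h94_kcont Γ j.val j' k).1 (h94_kcont Γ j.val j' k).2
      (fun x hx => h.strong j' k (by omega) hjk x hx)
    filter_upwards [e1, hN2 η hη] with m hm1 hm2 _ _ x hx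
    by_cases hD : A.p (Γ.S.ch j') x ∈ Γ.S.D j
    · obtain ⟨z, hz, hzx⟩ := hD
      obtain ⟨t1, t2⟩ := h94_II_transfer Γ.S (hsm m) (hi' m) hzx.symm hx.2.2.2
      have a1 := hm1 z ⟨hz, x, hx, hzx.symm⟩
      have a2 := mul_le_mul_of_nonneg_right (hC₀ j' k x hx)
        (sq_nonneg ‖II (fun x => F' m (A.p (Γ.S.ch j') x)) x (Γ.S.et j') (Γ.S.et j')‖)
      unfold Geo.Strong
      rw [← t1, ← t2] at a1
      linarith
    · have hx' : x ∈ Γ.Due j.val j' k := by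
        obtain ⟨b1, ⟨i, i1, i2, i3⟩, b3, b4⟩ := hx
        refine ⟨b1, ⟨i, ?_, i2, i3⟩, fun i' i4 i5 => ?_, b4⟩
        · by_contra hc
          have : i = j := Fin.ext (by omega)
          exact hD (this ▸ i3)
        · by_cases hc : i' = j
          · exact hc ▸ hD
          · exact b3 i' (by have := Fin.val_ne_of_ne hc; omega) i5
      obtain ⟨a1, a2⟩ := hm2 _ x (hsub2 j' (sphere_subset_closedBall (Γ.bad_sub j' hx.1))) hD
      exact hper x hx' _ a1 a2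
  obtain ⟨m, m1, m2, m3⟩ := (hND.and ((eventually_all.2 hA).and
    (eventually_all.2 fun j' => eventually_all.2 (hB j')))).exists
  exact ⟨F' m, hsm m, hpull m, Geo.nd_of_ND (hsm m) (hi' m) hν m1, m2, m3⟩

/-- **Main theorem** over an abstract atlas. -/
theorem main_of_geo (A : Atl E2 M) (g : A.ι → E2 → Bil) (Γ : Geo A g) :
    ∃ F : M → E4, A.Sm F ∧ A.pull F = g := by
  have key : ∀ n, n ≤ Γ.S.J → ∃ F, Γ.Inv n F := by
    intro n
    induction n with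
    | zero => exact fun _ => ⟨_, Γ.inv_zero⟩
    | succ n ih =>
      intro hn
      obtain ⟨F, hF⟩ := ih (by omega)
      exact Γ.inv_succ (j := ⟨n, by omega⟩) hF
  obtain ⟨F, hF⟩ := key _ le_rfl
  exact ⟨F, hF.sm, hF.iso.trans Γ.sum⟩

end Crest.Agent.R216
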