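import Crest.Agent.R216.Small
import Crest.Agent.R216.Smooth1
import Crest.Agent.R216.AtlL3

/-! # Row 216, finitely many small steps -/

set_option autoImplicit false
set_option maxSynthPendingDepth 3
open Set Filter Metric
open scoped ContDiff RealInnerProductSpace Topology

noncomputable section
namespace Crest.Agent.R216

theorem Multi_gram {F V G : E2 → E4} (hF : ContDiff ℝ ∞ F) (hV : ContDiff ℝ ∞ V) {x es et : E2}
    (hG : G =ᶠ[𝓝 x] fun y => F y + V y) (het : ‖et‖ = 1) {R d E p q : ℝ} (hR1 : 1 ≤ R)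
    (hE1 : 1 ≤ E) (hes : ‖es‖ ≤ E) (hF1 : ‖iteratedFDeriv ℝ 1 F x‖ ≤ p)
    (hF2 : ‖iteratedFDeriv ℝ 2 F x‖ ≤ p) (hV1 : ‖iteratedFDeriv ℝ 1 V x‖ ≤ q)
    (hV2 : ‖iteratedFDeriv ℝ 2 V x‖ ≤ q) (hR : E * (p + q) ≤ R) (hd : E * q ≤ d) :
    g3 (fderiv ℝ F x es) (fderiv ℝ F x et) (d2 F x et et) - 100 * R ^ 5 * d
      ≤ g3 (fderiv ℝ G x es) (fderiv ℝ G x et) (d2 G x et et) := by
  have hp : 0 ≤ p := (norm_nonneg _).trans hF1
  have hq : 0 ≤ q := (norm_nonneg _).trans hV1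
  rw [norm_iteratedFDeriv_one] at hF1 hV1
  rw [← norm_d2_eq] at hF2 hV2
  have e1 : fderiv ℝ G x = fderiv ℝ F x + fderiv ℝ V x := by
    rw [hG.fderiv_eq]
    exact fderiv_fun_add (hF.differentiable (by simp) x) (hV.differentiable (by simp) x)
  have e2 : d2 G x = d2 F x + d2 V x := by
    rw [← d2_add hF.contDiffAt hV.contDiffAt]
    exact hG.fderiv.fderiv_eq
  have b1 : ∀ (L : E2 →L[ℝ] E4) (v : E2) (r : ℝ), ‖L‖ ≤ r → ‖v‖ ≤ E → ‖L v‖ ≤ E * r :=
    fun L v r h1 h2 => (L.le_opNorm v).trans (by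
      rw [mul_comm]
      exact mul_le_mul h2 h1 (norm_nonneg _) (by linarith))
  have b2 : ∀ (Q : E2 →L[ℝ] E2 →L[ℝ] E4) (r : ℝ), ‖Q‖ ≤ r → ‖Q et et‖ ≤ E * r := fun Q r h1 => by
    have := Q.le_opNorm₂ et et
    rw [het, mul_one, mul_one] at this
    have h0 : 0 ≤ r := (norm_nonneg _).trans h1
    nlinarith
  have hetE : ‖et‖ ≤ E := het.le.trans hE1
  have hEp : 0 ≤ E * p := by positivity
  have hEq : 0 ≤ E * q := by positivity
  have u1 := b1 _ es _ hF1 hes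
  have u2 := b1 _ et _ hF1 hetE
  have u3 := b2 _ _ hF2
  have v1 := b1 _ es _ hV1 hes
  have v2 := b1 _ et _ hV1 hetE
  have v3 := b2 _ _ hV2
  have hs : ∀ u v : E4, ‖u‖ ≤ E * p → ‖v‖ ≤ E * q → ‖u + v‖ ≤ R := fun u v h1 h2 =>
    (norm_add_le u v).trans (by linarith)
  have hd' : ∀ u v : E4, ‖v‖ ≤ E * q → ‖u - (u + v)‖ ≤ d := fun u v h2 => by
    rw [sub_add_cancel_left, norm_neg]
    linarith
  have h := abs_g3_sub_le hR1 (u1.trans (by linarith)) (u2.trans (by linarith))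
    (u3.trans (by linarith)) (hs _ _ u1 v1) (hs _ _ u2 v2) (hs _ _ u3 v3) (hd' _ _ v1) (hd' _ _ v2)
    (hd' _ _ v3)
  rw [e1, e2]
  simp only [add_apply]
  linarith [(abs_le.1 h).2]

theorem Multi_num {μ α C : ℝ} {K N : ℕ} (hC : 1 ≤ C) (hμ : 200 * C ^ 6 ≤ μ) (hK : 1 ≤ K)
    (hα : α ≤ (μ ^ N)⁻¹) (hN : 18 * K + 2 ≤ N) :
    (μ ^ (K + 1))⁻¹ ≤ μ⁻¹ - 100 * (C * μ ^ (3 * K)) ^ 5 * (C * α * μ ^ (3 * K)) := by
  have h6 : 1 ≤ C ^ 6 := one_le_pow₀ hC
  have h1 : 1 ≤ μ := by linarith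
  have h0 : 0 < μ := by linarith
  have e : 100 * (C * μ ^ (3 * K)) ^ 5 * (C * α * μ ^ (3 * K)) =
      100 * C ^ 6 * (α * μ ^ (18 * K)) := by ring
  have a1 : α * μ ^ (18 * K) ≤ (μ ^ 2)⁻¹ := by
    calc α * μ ^ (18 * K) ≤ (μ ^ (18 * K + 2))⁻¹ * μ ^ (18 * K) := by
          refine mul_le_mul_of_nonneg_right (hα.trans ?_) (by positivity)
          exact inv_anti₀ (by positivity) (pow_le_pow_right₀ h1 hN)
      _ = (μ ^ 2)⁻¹ := by
          rw [pow_add]
          field_simp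
  have a2 : (μ ^ (K + 1))⁻¹ ≤ (μ ^ 2)⁻¹ :=
    inv_anti₀ (by positivity) (pow_le_pow_right₀ h1 (by omega))
  have a3 : (1 + 100 * C ^ 6) * (μ ^ 2)⁻¹ ≤ μ⁻¹ := by
    calc (1 + 100 * C ^ 6) * (μ ^ 2)⁻¹ ≤ μ * (μ ^ 2)⁻¹ :=
          mul_le_mul_of_nonneg_right (by linarith) (by positivity)
      _ = μ⁻¹ := by field_simp
  have a4 : 100 * C ^ 6 * (α * μ ^ (18 * K)) ≤ 100 * C ^ 6 * (μ ^ 2)⁻¹ :=
    mul_le_mul_of_nonneg_left a1 (by positivity)
  rw [e]
  linarith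

theorem Multi_err {G G' V : E2 → E4} {a : E2 → ℝ} {Q : Bil} {b : ℝ} (hb : 0 ≤ b)
    (hG : ∀ z ∈ tsupport a, G =ᶠ[𝓝 z] G') (hV : ∀ z, z ∉ tsupport a → V z = 0)
    (he : ∀ z, ‖pb (fun y => G y + V y) z - pb G z - a z ^ 2 • Q‖ ≤ b) :
    (∀ z, z ∉ tsupport a → pb (fun y => G' y + V y) z - pb G' z - a z ^ 2 • Q = 0) ∧
      ∀ z, ‖pb (fun y => G' y + V y) z - pb G' z - a z ^ 2 • Q‖ ≤ b := by
  have h0 : ∀ z, z ∉ tsupport a → pb (fun y => G' y + V y) z - pb G' z - a z ^ 2 • Q = 0 := by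
    intro z hz
    have h1 : (fun y => G' y + V y) =ᶠ[𝓝 z] G' := by
      filter_upwards [(isClosed_tsupport a).isOpen_compl.mem_nhds hz] with y hy
      rw [hV y hy, add_zero]
    rw [(pb_congr h1).eq_of_nhds, image_eq_zero_of_notMem_tsupport hz]
    simp
  refine ⟨h0, fun z => ?_⟩
  by_cases hz : z ∈ tsupport a
  · have h1 : (fun y => G y + V y) =ᶠ[𝓝 z] fun y => G' y + V y := by
      filter_upwards [hG z hz] with y hy
      rw [hy]
    rw [← (pb_congr h1).eq_of_nhds, ← (pb_congr (hG z hz)).eq_of_nhds]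
    exact he z
  · rw [h0 z hz, norm_zero]
    exact hb

variable {M : Type*} [TopologicalSpace M] [T2Space M] (A : Atl E2 M)

/-- Induction on `s`.  Given `V` for `s` (exponent `K`), apply `small_step` at the scale
`m = μ^(K+1)` to `G = zeta • ((F + V) ∘ p (ch i))` (`Bd_cut`; `α ≤ 1`), which agrees with
`(F + V) ∘ p` near `tsupport (a i)`.  The Gram determinant changes by at most `100 R⁵ d`
(`abs_g3_sub_le`; `R ≤ C μ^(3K)`, `d ≤ C α μ^(3K)`, `‖fderiv‖ = ‖iteratedFDeriv 1‖`, `norm_d2_eq`),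
which is `≤ μ⁻¹/2` if `α ≤ μ^(-18K-2)` and `μ ≥ μ₀`.  New `V' = V + push (ch i) V₁`; `CB_push`,
`pull_add_push`, `pushT_add`, `norm_pushT_le` (the error tensor
`pb (G' + V₁) - pb G' - a² l⊗l`, `G' = (F + V) ∘ p`, vanishes off `tsupport (a i)` and agrees there
with the one for `G`, `pb_congr`). -/
theorem multi_step {ι : Type} [DecidableEq ι] (ch : ι → A.ι) (es et : ι → E2)
    (l : ι → (E2 →L[ℝ] ℝ)) (h1 : ∀ i, l i (es i) = 1) (h0 : ∀ i, l i (et i) = 0)
    (het : ∀ i, ‖et i‖ = 1) (s : Finset ι) :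
    ∃ K n₁ : ℕ, 1 ≤ K ∧ ∀ (n : ℕ) (B₀ : ℕ → ℝ), ∃ (B : ℕ → ℝ) (μ₀ : ℝ), (∀ j, 0 ≤ B j) ∧
      ∀ (μ : ℝ) (F : M → E4) (a : ι → E2 → ℝ) (α κ : ℝ), μ₀ ≤ μ → A.Sm F →
        (∀ D, A.CB D F (fun j => B₀ j * μ ^ (j + 1))) →
        (∀ i, Bd B₀ μ (fun x => (|a i x| + κ) * μ) (a i)) →
        (∀ i, tsupport (a i) ⊆ closedBall 0 (3 / 2)) →
        (∀ i, ∀ x ∈ tsupport (a i), μ⁻¹ ≤ g3 (fderiv ℝ (fun x => F (A.p (ch i) x)) x (es i))
          (fderiv ℝ (fun x => F (A.p (ch i) x)) x (et i))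
          (d2 (fun x => F (A.p (ch i) x)) x (et i) (et i))) →
        (∀ i x, |a i x| ≤ α) → α ≤ (μ ^ n₁)⁻¹ → 0 < κ → κ ≤ α →
        ∃ V : M → E4, A.Sm V ∧ (∀ D, A.CB D V (fun j => B j * α * (μ ^ K) ^ (j + 1))) ∧
          ∀ b, ∀ x ∈ closedBall (0 : E2) 2,
            ‖A.pull (fun y => F y + V y) b x - A.pull F b x
              - ∑ i ∈ s, A.pushT (ch i) (fun z => a i z ^ 2 • sq2 (l i)) b x‖
              ≤ B 0 * ((μ ^ n)⁻¹ + κ ^ 2 * μ ^ K) := by
  induction s using Finset.induction_on with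
  | empty =>
    refine ⟨1, 0, le_rfl, fun n B₀ => ⟨fun _ => 0, 0, fun _ => le_rfl, ?_⟩⟩
    intro μ F a α κ _ _ _ _ _ _ _ _ _ _
    refine ⟨fun _ => 0, Atl.Sm.const 0, fun D b j _ x _ => ?_, fun b x _ => ?_⟩
    · simp
    · simp
  | insert i s hi ih =>
    obtain ⟨K, n₁, hK, ih⟩ := ih
    obtain ⟨c, hc, hsm⟩ := small_step
    have hKK : K + 1 ≤ (K + 1) * c := Nat.le_mul_of_pos_right _ hc
    refine ⟨(K + 1) * c, n₁ + (K + 1) * c + (18 * K + 2), by omega, fun n B₀ => ?_⟩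
    obtain ⟨B, μ₀, hB, ih⟩ := ih n B₀
    obtain ⟨B1, hB1⟩ := Bd_cut (W := E4) (fun j => B₀ j + B j)
    obtain ⟨B', hB', hsm⟩ := hsm n (fun j => B1 j + B₀ j)
    choose C hC1 hC using fun D => A.CB_push (W := E4) D
    obtain ⟨CT, hCT1, hCT⟩ := A.norm_pushT_le
    obtain ⟨E, hE⟩ : ∃ E : ℝ, E = ‖es i‖ + 1 := ⟨_, rfl⟩
    obtain ⟨C₁, hC₁⟩ : ∃ C₁ : ℝ, C₁ = E * (|B₀ 1| + |B₀ 2| + B 1 + B 2) + 1 := ⟨_, rfl⟩
    have hE1 : 1 ≤ E := by linarith [norm_nonneg (es i)]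
    have hC₁1 : 1 ≤ C₁ := by
      have := hB 1
      have := hB 2
      have : 0 ≤ E * (|B₀ 1| + |B₀ 2| + B 1 + B 2) := by positivity
      linarith
    have hS : ∀ j, 0 ≤ ∑ k ∈ Finset.range (j + 1), B' k := fun j =>
      Finset.sum_nonneg fun k _ => hB' k
    refine ⟨fun j => B j + C j * ∑ k ∈ Finset.range (j + 1), B' k + CT * B' 0,
      |μ₀| + 200 * C₁ ^ 6 + ‖es i‖ + ‖l i‖, fun j => ?_, ?_⟩
    · have := hB j
      have := hC1 j
      have := hS j
      have := hB' 0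
      positivity
    intro μ F a α κ hμ hF hFB ha hsupp hg hα hαμ hκ hκα
    have hμ1 : 1 ≤ μ := (ha i).one_le
    have hB₀ : ∀ j, 0 ≤ B₀ j := (ha i).B_nonneg
    have hα0 : 0 ≤ α := (hκ.le.trans hκα)
    have h6 : 0 ≤ 200 * C₁ ^ 6 := by positivity
    have hμa : μ₀ ≤ μ := by linarith [le_abs_self μ₀, norm_nonneg (es i), norm_nonneg (l i)]
    have hμb : 200 * C₁ ^ 6 ≤ μ := by
      linarith [abs_nonneg μ₀, norm_nonneg (es i), norm_nonneg (l i)]
    have hμc : ‖es i‖ ≤ μ := by linarith [abs_nonneg μ₀, norm_nonneg (l i)]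
    have hμd : ‖l i‖ ≤ μ := by linarith [abs_nonneg μ₀, norm_nonneg (es i)]
    have hpow : ∀ {p q : ℕ}, p ≤ q → μ ^ p ≤ μ ^ q := fun h => pow_le_pow_right₀ hμ1 h
    have hinv : ∀ {p q : ℕ}, p ≤ q → (μ ^ q)⁻¹ ≤ (μ ^ p)⁻¹ := fun h =>
      inv_anti₀ (by positivity) (hpow h)
    have hα1 : α ≤ 1 := by simpa using hαμ.trans (hinv (Nat.zero_le _))
    obtain ⟨V, hV, hVB, hVe⟩ := ih μ F a α κ hμa hF hFB ha hsupp hg hα
      (hαμ.trans (hinv (by omega))) hκ hκα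
    have hμm : μ ≤ μ ^ (K + 1) := by simpa using hpow (show 1 ≤ K + 1 by omega)
    have hm1 : 1 ≤ μ ^ (K + 1) := hμ1.trans hμm
    have hFV : A.Sm fun y => F y + V y := hF.add hV
    have hG := hB1 (μ ^ (K + 1)) (μ ^ (K + 1)) (fun x => F (A.p (ch i) x) + V (A.p (ch i) x)) hm1
      (by positivity) (hFV (ch i)) (fun j x hx => by
        have h := Atl.CB.add hF hV (hFB j) (hVB j) (ch i) j le_rfl x hx
        refine h.trans ?_
        have e1 : μ ^ (j + 1) ≤ (μ ^ (K + 1)) ^ (j + 1) := pow_le_pow_left₀ (by positivity) hμm _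
        have e2 : (μ ^ K) ^ (j + 1) ≤ (μ ^ (K + 1)) ^ (j + 1) :=
          pow_le_pow_left₀ (by positivity) (hpow (by omega)) _
        have e3 : B j * α * (μ ^ K) ^ (j + 1) ≤ B j * 1 * (μ ^ (K + 1)) ^ (j + 1) :=
          mul_le_mul (mul_le_mul_of_nonneg_left hα1 (hB j)) e2 (by positivity)
            (by have := hB j; positivity)
        have e4 := mul_le_mul_of_nonneg_left e1 (hB₀ j)
        calc B₀ j * μ ^ (j + 1) + B j * α * (μ ^ K) ^ (j + 1)
            ≤ B₀ j * (μ ^ (K + 1)) ^ (j + 1) + B j * 1 * (μ ^ (K + 1)) ^ (j + 1) := add_le_add e4 e3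
          _ = (B₀ j + B j) * μ ^ (K + 1) * (μ ^ (K + 1)) ^ j := by ring)
    have hGe : ∀ z ∈ tsupport (a i), (fun y => zeta y • (F (A.p (ch i) y) + V (A.p (ch i) y)))
        =ᶠ[𝓝 z] fun y => F (A.p (ch i) y) + V (A.p (ch i) y) := fun z hz =>
      zeta_smul_eventuallyEq _ (hsupp i hz)
    have hsub : tsupport (a i) ⊆ closedBall 0 2 :=
      (hsupp i).trans (closedBall_subset_closedBall (by norm_num))
    obtain ⟨V₁, hV₁, hV₁0, hV₁e⟩ := hsm (μ ^ (K + 1)) _ (a i) (es i) (et i) (l i) α κ (h1 i) (h0 i)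
      (het i) (hμc.trans hμm) (hμd.trans hμm)
      (hG.mono (fun j => le_add_of_nonneg_right (hB₀ j)) le_rfl fun _ => le_rfl)
      ((ha i).mono (fun j => le_add_of_nonneg_left (hG.B_nonneg j)) hμm fun x =>
        mul_le_mul_of_nonneg_left hμm (by positivity))
      hsub (fun x hx => by
        have hx2 := hsub hx
        have hP : ∀ p, p ≤ 3 * K → μ ^ p ≤ μ ^ (3 * K) := fun p hp => hpow hp
        have hP1 : 1 ≤ μ ^ (3 * K) := one_le_pow₀ hμ1
        have f1 := hFB 2 (ch i) 1 (by norm_num) x hx2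
        have f2 := hFB 2 (ch i) 2 (by norm_num) x hx2
        have g1 := hVB 2 (ch i) 1 (by norm_num) x hx2
        have g2 := hVB 2 (ch i) 2 (by norm_num) x hx2
        simp only [← pow_mul] at f1 f2 g1 g2
        have p1 := hB₀ 1
        have p2 := hB₀ 2
        have p3 := hB 1
        have p4 := hB 2
        have h := Multi_gram (hF (ch i)) (hV (ch i)) (es := es i) (hGe x hx) (het i)
          (R := C₁ * μ ^ (3 * K)) (d := C₁ * α * μ ^ (3 * K)) (E := E)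
          (p := (B₀ 1 + B₀ 2) * μ ^ (3 * K)) (q := (B 1 + B 2) * α * μ ^ (3 * K))
          (one_le_mul_of_one_le_of_one_le hC₁1 hP1) hE1 (by linarith)
          (f1.trans (mul_le_mul (by linarith) (hP _ (by omega)) (by positivity) (by positivity)))
          (f2.trans (mul_le_mul (by linarith) (hP _ (by omega)) (by positivity) (by positivity)))
          (g1.trans (mul_le_mul (mul_le_mul_of_nonneg_right (by linarith) hα0) (hP _ (by omega))
            (by positivity) (by positivity)))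
          (g2.trans (mul_le_mul (mul_le_mul_of_nonneg_right (by linarith) hα0) (hP _ (by omega))
            (by positivity) (by positivity)))
          (by
            rw [← add_mul, ← mul_assoc]
            refine mul_le_mul_of_nonneg_right ?_ (by positivity)
            rw [hC₁, abs_of_nonneg p1, abs_of_nonneg p2]
            have : E * (B₀ 1 + B₀ 2 + (B 1 + B 2) * α) ≤ E * (B₀ 1 + B₀ 2 + B 1 + B 2) :=
              mul_le_mul_of_nonneg_left (by nlinarith) (by positivity)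
            linarith)
          (by
            rw [← mul_assoc, ← mul_assoc]
            refine mul_le_mul_of_nonneg_right (mul_le_mul_of_nonneg_right ?_ hα0) (by positivity)
            rw [hC₁, abs_of_nonneg p1, abs_of_nonneg p2]
            have : E * (B 1 + B 2) ≤ E * (B₀ 1 + B₀ 2 + B 1 + B 2) :=
              mul_le_mul_of_nonneg_left (by linarith) (by positivity)
            linarith)
        have h' := Multi_num hC₁1 hμb hK hαμ (by omega)
        linarith [hg i x hx])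
      (hα i) (by rw [← pow_mul]; exact hαμ.trans (hinv (by omega))) hκ hκα
    rw [← pow_mul μ (K + 1) c] at hV₁ hV₁e
    have hV₁z : ∀ x, x ∉ closedBall (0 : E2) 2 → V₁ x = 0 := fun x hx =>
      hV₁0 x fun h => hx (hsub h)
    have hcs : HasCompactSupport V₁ := HasCompactSupport.intro (isCompact_closedBall 0 2) hV₁z
    have hP : A.Sm (A.push (ch i) V₁) := A.Sm_push (ch i) hV₁.smooth hcs
    have hM1 : 1 ≤ μ ^ ((K + 1) * c) := one_le_pow₀ hμ1
    refine ⟨fun y => V y + A.push (ch i) V₁ y, hV.add hP, fun D b j hj x hx => ?_,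
      fun b x hx => ?_⟩
    · have k1 := hC j (ch i) V₁
        ((∑ k ∈ Finset.range (j + 1), B' k) * α * (μ ^ ((K + 1) * c)) ^ (j + 1)) hV₁.smooth hV₁z
        (fun k hk y => by
          refine (hV₁.bound k y).trans ?_
          have e1 : B' k ≤ ∑ k ∈ Finset.range (j + 1), B' k :=
            Finset.single_le_sum (fun k _ => hB' k) (Finset.mem_range.2 (by omega))
          calc B' k * (α * μ ^ ((K + 1) * c)) * (μ ^ ((K + 1) * c)) ^ k
              = B' k * α * (μ ^ ((K + 1) * c)) ^ (k + 1) := by ring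
            _ ≤ _ := mul_le_mul (mul_le_mul_of_nonneg_right e1 hα0)
              (pow_le_pow_right₀ hM1 (by omega)) (by positivity)
              (by have := hS j; positivity))
      refine (Atl.CB.add hV hP (hVB j) k1 b j le_rfl x hx).trans ?_
      have e2 : (μ ^ K) ^ (j + 1) ≤ (μ ^ ((K + 1) * c)) ^ (j + 1) :=
        pow_le_pow_left₀ (by positivity) (hpow (by omega)) _
      have e3 := mul_le_mul_of_nonneg_left e2 (mul_nonneg (hB j) hα0)
      have e4 : 0 ≤ CT * B' 0 * α * (μ ^ ((K + 1) * c)) ^ (j + 1) := by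
        have := hB' 0
        positivity
      simp only
      linarith
    · have hb0 : 0 ≤ B' 0 * (((μ ^ (K + 1)) ^ n)⁻¹ + κ ^ 2 * μ ^ ((K + 1) * c)) := by
        have := hB' 0
        positivity
      obtain ⟨r0, r1⟩ := Multi_err hb0 hGe hV₁0 hV₁e
      have k1 := hCT (ch i) _ _ (fun z hz => r0 z fun h => hz (hsub h)) r1 b x hx
      have k2 := Atl.pull_add_push hFV (ch i) hV₁.smooth hcs b x
      have k3 := Atl.pushT_add (A := A) (ch i)
        (fun z => pb (fun y => F (A.p (ch i) y) + V (A.p (ch i) y) + V₁ y) z -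
          pb (fun y => F (A.p (ch i) y) + V (A.p (ch i) y)) z - a i z ^ 2 • sq2 (l i))
        (fun z => a i z ^ 2 • sq2 (l i)) b x
      simp only [sub_add_cancel] at k3
      rw [k3] at k2
      simp only [← add_assoc]
      rw [Finset.sum_insert hi, k2]
      have k4 := hVe b x hx
      have k5 : ∀ p q r t u : Bil, p + r + t - q - (t + u) = (p - q - u) + r := fun p q r t u => by
        abel
      rw [← add_assoc, k5]
      refine (norm_add_le _ _).trans ((add_le_add k4 k1).trans ?_)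
      have e1 : ((μ ^ (K + 1)) ^ n)⁻¹ ≤ (μ ^ n)⁻¹ :=
        inv_anti₀ (by positivity) (pow_le_pow_left₀ (by positivity) hμm _)
      have e2 : κ ^ 2 * μ ^ K ≤ κ ^ 2 * μ ^ ((K + 1) * c) :=
        mul_le_mul_of_nonneg_left (hpow (by omega)) (by positivity)
      have e3 : B 0 * ((μ ^ n)⁻¹ + κ ^ 2 * μ ^ K) ≤
          B 0 * ((μ ^ n)⁻¹ + κ ^ 2 * μ ^ ((K + 1) * c)) :=
        mul_le_mul_of_nonneg_left (by linarith) (hB 0)
      have e4 : CT * (B' 0 * (((μ ^ (K + 1)) ^ n)⁻¹ + κ ^ 2 * μ ^ ((K + 1) * c))) ≤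
          CT * (B' 0 * ((μ ^ n)⁻¹ + κ ^ 2 * μ ^ ((K + 1) * c))) :=
        mul_le_mul_of_nonneg_left (mul_le_mul_of_nonneg_left (by linarith) (hB' 0)) (by linarith)
      have e5 : 0 ≤ C 0 * (∑ k ∈ Finset.range (0 + 1), B' k) *
          ((μ ^ n)⁻¹ + κ ^ 2 * μ ^ ((K + 1) * c)) := by
        have := hS 0
        have := hC1 0
        positivity
      linarith

end Crest.Agent.R216
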