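import Crest.Agent.R216.AtlL2

/-! # Row 216, triples of directions and patches adapted to a metric -/

set_option autoImplicit false
set_option maxSynthPendingDepth 3
open Set Filter Metric
open scoped ContDiff RealInnerProductSpace Topology

noncomputable section
namespace Crest.Agent.R216

/-- three rank-one forms spanning the symmetric forms -/
structure Tri where
  l : Fin 3 → (E2 →L[ℝ] ℝ)
  es : Fin 3 → E2
  et : Fin 3 → E2
  Λ : Fin 3 → (Bil →L[ℝ] ℝ)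
  l_es : ∀ i, l i (es i) = 1
  l_et : ∀ i, l i (et i) = 0
  norm_et : ∀ i, ‖et i‖ = 1
  decomp : ∀ h : Bil, (∀ v w, h v w = h w v) → h = ∑ i, Λ i h • sq2 (l i)

/-- `w ↦ det2 w v` -/
def patch_dl (v : E2) : E2 →L[ℝ] ℝ :=
  v 1 • EuclideanSpace.proj (0 : Fin 2) - v 0 • EuclideanSpace.proj (1 : Fin 2)

theorem patch_dl_apply (v w : E2) : patch_dl v w = det2 w v := by
  simp [patch_dl, det2]; ring

/-- `H ↦ H u v` -/
def patch_ev (u v : E2) : Bil →L[ℝ] ℝ :=
  (ContinuousLinearMap.apply ℝ ℝ v).comp (ContinuousLinearMap.apply ℝ (E2 →L[ℝ] ℝ) u)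

theorem patch_ev_apply (u v : E2) (H : Bil) : patch_ev u v H = H u v := rfl

theorem patch_det_smul (c : ℝ) (u v : E2) : det2 (c • u) v = c * det2 u v := by
  simp [det2]; ring

theorem patch_det_sub (u v w : E2) : det2 (u - v) w = det2 u w - det2 v w := by
  simp [det2]; ring

theorem patch_det_self (u : E2) : det2 u u = 0 := by simp [det2]; ring

theorem patch_det_swap (u v : E2) : det2 v u = -det2 u v := by simp [det2]; ring

/-- For a basis `(u, v)`: covectors `l0 = det2 · v / det2 u v`, `l1 = det2 u · / det2 u v`,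
`l0 + l1`; `es = u, v, u`; `et` = normalisations of `v, u, u - v`; coefficients
`h u u - h u v`, `h v v - h u v`, `h u v`. -/
theorem exists_tri {u v : E2} (h : det2 u v ≠ 0) : ∃ t : Tri,
    (∀ H : Bil, t.Λ 0 H = H u u - H u v ∧ t.Λ 1 H = H v v - H u v ∧ t.Λ 2 H = H u v) ∧
    det2 (t.et 0) v = 0 ∧ det2 (t.et 1) u = 0 ∧ det2 (t.et 2) (u - v) = 0 := by
  have hu : u ≠ 0 := by rintro rfl; simp [det2] at h
  have hv : v ≠ 0 := by rintro rfl; simp [det2] at h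
  have huv : u - v ≠ 0 := by
    intro h0
    rw [sub_eq_zero.1 h0, patch_det_self] at h
    exact h rfl
  refine ⟨⟨![(det2 u v)⁻¹ • patch_dl v, -(det2 u v)⁻¹ • patch_dl u,
      (det2 u v)⁻¹ • patch_dl v + -(det2 u v)⁻¹ • patch_dl u], ![u, v, u],
    ![‖v‖⁻¹ • v, ‖u‖⁻¹ • u, ‖u - v‖⁻¹ • (u - v)],
    ![patch_ev u u - patch_ev u v, patch_ev v v - patch_ev u v, patch_ev u v], ?_, ?_, ?_, ?_⟩,
    fun H => ⟨rfl, rfl, rfl⟩, ?_, ?_, ?_⟩
  · intro i
    fin_cases i <;>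
      simp [patch_dl_apply, patch_det_self, patch_det_swap u v, inv_mul_cancel₀ h]
  · intro i
    fin_cases i <;>
      simp [patch_dl_apply, patch_det_self, patch_det_sub, patch_det_swap u v]
  · intro i
    fin_cases i
    exacts [norm_smul_inv_norm hv, norm_smul_inv_norm hu, norm_smul_inv_norm huv]
  · intro H hH
    ext x y
    have e : H x y = H ((det2 x v / det2 u v) • u + (det2 u x / det2 u v) • v)
        ((det2 y v / det2 u v) • u + (det2 u y / det2 u v) • v) := by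
      rw [← basis_decomp h x, ← basis_decomp h y]
    rw [e]
    simp [Fin.sum_univ_three, sq2_apply, patch_dl_apply, patch_ev_apply, hH v u,
      patch_det_swap u x, patch_det_swap u y, div_eq_inv_mul]
    ring
  · exact (patch_det_smul _ _ _).trans (by rw [patch_det_self, mul_zero])
  · exact (patch_det_smul _ _ _).trans (by rw [patch_det_self, mul_zero])
  · exact (patch_det_smul _ _ _).trans (by rw [patch_det_self, mul_zero])

theorem patch_expand (Q : E2 →L[ℝ] E2 →L[ℝ] E4) (hQ : ∀ v w, Q v w = Q w v) (x : E2) :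
    Q x x = (x 0 ^ 2) • Q b0 b0 + (2 * x 0 * x 1) • Q b0 b1 + (x 1 ^ 2) • Q b1 b1 := by
  have e : Q x x = Q (x 0 • b0 + x 1 • b1) (x 0 • b0 + x 1 • b1) := by rw [← E2_decomp x]
  rw [e]
  simp only [map_add, map_smul, add_apply, smul_apply,
    hQ b1 b0]
  module

theorem patch_interp (Q : E2 →L[ℝ] E2 →L[ℝ] E4) (hQ : ∀ v w, Q v w = Q w v) {a b c τ : E2}
    (ha : ‖a‖ ≤ 1) (hb : ‖b‖ ≤ 1) (hc : ‖c‖ ≤ 1) (hτ : ‖τ‖ ≤ 1) :
    |det2 a b| * |det2 a c| * |det2 b c| * ‖Q τ τ‖ ≤ ‖Q a a‖ + ‖Q b b‖ + ‖Q c c‖ := by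
  have e : (det2 a b * det2 a c * det2 b c) • Q τ τ = (det2 τ b * det2 τ c * det2 b c) • Q a a +
      (-(det2 τ a * det2 τ c * det2 a c)) • Q b b + (det2 τ a * det2 τ b * det2 a b) • Q c c := by
    rw [patch_expand Q hQ τ, patch_expand Q hQ a, patch_expand Q hQ b, patch_expand Q hQ c]
    unfold det2
    module
  have hd : ∀ x y : E2, ‖x‖ ≤ 1 → ‖y‖ ≤ 1 → |det2 x y| ≤ 1 := fun x y hx hy =>
    (abs_det2_le x y).trans (mul_le_one₀ hx (norm_nonneg _) hy)
  have h3 : ∀ p q r : ℝ, |p| ≤ 1 → |q| ≤ 1 → |r| ≤ 1 → ∀ z : E4, ‖(p * q * r) • z‖ ≤ ‖z‖ := by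
    intro p q r hp hq hr z
    rw [norm_smul, Real.norm_eq_abs, abs_mul, abs_mul]
    exact mul_le_of_le_one_left (norm_nonneg _)
      (mul_le_one₀ (mul_le_one₀ hp (abs_nonneg _) hq) (abs_nonneg _) hr)
  rw [← abs_mul, ← abs_mul, ← Real.norm_eq_abs, ← norm_smul, e]
  refine norm_add₃_le.trans (add_le_add (add_le_add ?_ ?_) ?_)
  · exact h3 _ _ _ (hd _ _ hτ hb) (hd _ _ hτ hc) (hd _ _ hb hc) _
  · rw [neg_smul, norm_neg]
    exact h3 _ _ _ (hd _ _ hτ ha) (hd _ _ hτ hc) (hd _ _ ha hc) _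
  · exact h3 _ _ _ (hd _ _ hτ ha) (hd _ _ hτ hb) (hd _ _ ha hb) _

/-- A symmetric bilinear map vanishing on three pairwise independent directions is zero (expand
in a basis); the quantitative form follows from the explicit interpolation formula: for each of the
27 choices `i₀ i₁ i₂` of one direction per triple, `Q τ τ` is a combination of the three values with
bounded coefficients, so `‖Q τ τ‖ ≤ C max_T ‖Q (et T (i T)) (et T (i T))‖`; choose `i T` minimising. -/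
theorem exists_good_triple (t : Fin 3 → Tri)
    (h : ∀ T T', T ≠ T' → ∀ i i', det2 ((t T).et i) ((t T').et i') ≠ 0) :
    ∃ c₀ > (0 : ℝ), ∀ Q : E2 →L[ℝ] E2 →L[ℝ] E4, (∀ v w, Q v w = Q w v) → ∀ τ : E2, ‖τ‖ ≤ 1 →
      ∃ T, ∀ i, c₀ * ‖Q τ τ‖ ≤ ‖Q ((t T).et i) ((t T).et i)‖ := by
  have h1 : ∀ᶠ m in 𝓝[>] (0 : ℝ), ∀ T T' i i', T ≠ T' →
      m ≤ |det2 ((t T).et i) ((t T').et i')| := by
    simp only [eventually_all]
    intro T T' i i' hT
    filter_upwards [Ioo_mem_nhdsGT (abs_pos.2 (h T T' hT i i'))] with m hm using hm.2.le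
  obtain ⟨m, hm, hm0⟩ := (h1.and self_mem_nhdsWithin).exists
  have hm0' : 0 < m := hm0
  refine ⟨m ^ 3 / 3, by positivity, fun Q hQ τ hτ => ?_⟩
  by_contra hcon
  push Not at hcon
  choose i hi using hcon
  have h2 := patch_interp Q hQ ((t 0).norm_et (i 0)).le ((t 1).norm_et (i 1)).le
    ((t 2).norm_et (i 2)).le hτ
  have h3 := mul_le_mul_of_nonneg_right (mul_le_mul (mul_le_mul (hm 0 1 (i 0) (i 1) (by decide))
    (hm 0 2 (i 0) (i 2) (by decide)) hm0'.le (abs_nonneg _)) (hm 1 2 (i 1) (i 2) (by decide))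
    hm0'.le (mul_nonneg (abs_nonneg _) (abs_nonneg _))) (norm_nonneg (Q τ τ))
  linarith [hi 0, hi 1, hi 2]

theorem patch_transv {e e' w w' : E2} (he : ‖e‖ = 1) (he' : ‖e'‖ = 1) (h : det2 e w = 0)
    (h' : det2 e' w' = 0) (hw : det2 w w' ≠ 0) : det2 e e' ≠ 0 := by
  intro h0
  have n : ∀ e : E2, ‖e‖ = 1 → e 0 ^ 2 + e 1 ^ 2 = 1 := fun e he => by
    have := EuclideanSpace.real_norm_sq_eq e
    rw [he, Fin.sum_univ_two] at this
    linarith
  have n1 := n e he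
  have n2 := n e' he'
  unfold det2 at *
  have a0 : w 0 = (e 0 * w 0 + e 1 * w 1) * e 0 := by linear_combination -w 0 * n1 - e 1 * h
  have a1 : w 1 = (e 0 * w 0 + e 1 * w 1) * e 1 := by linear_combination -w 1 * n1 + e 0 * h
  have c0 : w' 0 = (e' 0 * w' 0 + e' 1 * w' 1) * e' 0 := by
    linear_combination -w' 0 * n2 - e' 1 * h'
  have c1 : w' 1 = (e' 0 * w' 0 + e' 1 * w' 1) * e' 1 := by
    linear_combination -w' 1 * n2 + e' 0 * h'
  generalize e 0 * w 0 + e 1 * w 1 = p at a0 a1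
  generalize e' 0 * w' 0 + e' 1 * w' 1 = q at c0 c1
  apply hw
  rw [a0, a1, c0, c1]
  linear_combination p * q * h0

theorem patch_orth {g₀ : Bil} (hs : ∀ v w, g₀ v w = g₀ w v) (hp : ∀ v, v ≠ 0 → 0 < g₀ v v) :
    ∃ u₁ u₂ : E2, det2 u₁ u₂ ≠ 0 ∧ g₀ u₁ u₁ = 1 ∧ g₀ u₁ u₂ = 0 ∧ g₀ u₂ u₂ = 1 := by
  have h0 : b0 ≠ 0 := fun h => by simpa [h] using norm_b0
  have p0 := hp b0 h0
  have hd : det2 b0 (b1 - (g₀ b0 b1 / g₀ b0 b0) • b0) = 1 := by
    rw [patch_det_swap, patch_det_sub, patch_det_smul, patch_det_self, patch_det_swap,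
      det2_b0_b1]
    ring
  have ho : g₀ b0 (b1 - (g₀ b0 b1 / g₀ b0 b0) • b0) = 0 := by
    rw [map_sub, map_smul, smul_eq_mul, div_mul_cancel₀ _ p0.ne', sub_self]
  generalize b1 - (g₀ b0 b1 / g₀ b0 b0) • b0 = z at hd ho
  have hz : z ≠ 0 := by rintro rfl; simp [det2] at hd
  have p1 := hp z hz
  have s0 := Real.sqrt_pos.2 p0
  have s1 := Real.sqrt_pos.2 p1
  have nn : ∀ y : E2, 0 < g₀ y y → g₀ ((√(g₀ y y))⁻¹ • y) ((√(g₀ y y))⁻¹ • y) = 1 := by
    intro y hy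
    simp only [map_smul, smul_apply, smul_eq_mul]
    rw [← mul_assoc, ← mul_inv, Real.mul_self_sqrt hy.le, inv_mul_cancel₀ hy.ne']
  refine ⟨(√(g₀ b0 b0))⁻¹ • b0, (√(g₀ z z))⁻¹ • z, ?_, nn _ p0, ?_, nn _ p1⟩
  · rw [patch_det_smul, patch_det_swap, patch_det_smul, patch_det_swap, hd]
    exact mul_ne_zero (inv_ne_zero s0.ne') (by simpa using s1.ne')
  · simp only [map_smul, smul_apply, smul_eq_mul, ho, mul_zero]

/-- For a positive form `g₀` take `g₀`-orthogonal `u₁, u₂` with `g₀ u₁ u₁ = g₀ u₂ u₂`,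
`u = 2u₁ + u₂`, `v = u₁ + 2u₂`, and the sheared bases `(u + σ v, v - σ u)`, `σ = 0, s, 2 s` with
`s > 0` small; in the basis `(u, v)` the directions are `(-σ,1)`, `(1,σ)`, `(1+σ, σ-1)`. -/
theorem exists_triples {g₀ : Bil} (hs : ∀ v w, g₀ v w = g₀ w v) (hp : ∀ v, v ≠ 0 → 0 < g₀ v v) :
    ∃ t : Fin 3 → Tri, (∀ T i, 0 < (t T).Λ i g₀) ∧
      ∀ T T', T ≠ T' → ∀ i i', det2 ((t T).et i) ((t T').et i') ≠ 0 := by
  obtain ⟨u₁, u₂, hd, h11, h12, h22⟩ := patch_orth hs hp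
  have hg : ∀ α β γ δ : ℝ, g₀ (α • u₁ + β • u₂) (γ • u₁ + δ • u₂) = α * γ + β * δ := by
    intro α β γ δ
    simp only [map_add, map_smul, add_apply, smul_apply,
      smul_eq_mul, hs u₂ u₁, h11, h12, h22]
    ring
  have hdet : ∀ α β γ δ : ℝ, α * δ - β * γ ≠ 0 →
      det2 (α • u₁ + β • u₂) (γ • u₁ + δ • u₂) ≠ 0 := by
    intro α β γ δ h
    have : det2 (α • u₁ + β • u₂) (γ • u₁ + δ • u₂) = (α * δ - β * γ) * det2 u₁ u₂ := by
      simp [det2]; ring
    rw [this]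
    exact mul_ne_zero h hd
  have key : ∀ α β γ δ : ℝ, α * δ - β * γ ≠ 0 → 0 < α * γ + β * δ →
      α * γ + β * δ < α * α + β * β → α * γ + β * δ < γ * γ + δ * δ →
      ∃ t : Tri, (∀ i, 0 < t.Λ i g₀) ∧
        ∀ i, det2 (t.et i) (![γ, α, α - γ] i • u₁ + ![δ, β, β - δ] i • u₂) = 0 := by
    intro α β γ δ h1 h2 h3 h4
    obtain ⟨t, ht, e0, e1, e2⟩ := exists_tri (hdet α β γ δ h1)
    obtain ⟨a0, a1, a2⟩ := ht g₀
    rw [hg, hg] at a0 a1
    rw [hg] at a2
    refine ⟨t, fun i => ?_, fun i => ?_⟩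
    · fin_cases i
      · exact a0.symm ▸ sub_pos.2 h3
      · exact a1.symm ▸ sub_pos.2 h4
      · exact a2.symm ▸ h2
    · fin_cases i
      · exact e0
      · exact e1
      · have : α • u₁ + β • u₂ - (γ • u₁ + δ • u₂) = (α - γ) • u₁ + (β - δ) • u₂ := by module
        exact this ▸ e2
  obtain ⟨t0, p0, q0⟩ := key 2 1 1 2 (by norm_num) (by norm_num) (by norm_num) (by norm_num)
  obtain ⟨t1, p1, q1⟩ := key (-1) 2 (-2) 1 (by norm_num) (by norm_num) (by norm_num) (by norm_num)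
  obtain ⟨t2, p2, q2⟩ := key 3 0 1 3 (by norm_num) (by norm_num) (by norm_num) (by norm_num)
  have q : ∀ T i, det2 ((![t0, t1, t2] T).et i)
      ((![![1, 2, 2 - 1], ![-2, -1, -1 - -2], ![1, 3, 3 - 1]] T i : ℝ) • u₁ +
        (![![2, 1, 1 - 2], ![1, 2, 2 - 1], ![3, 0, 0 - 3]] T i : ℝ) • u₂) = 0 := by
    intro T
    fin_cases T
    exacts [q0, q1, q2]
  refine ⟨![t0, t1, t2], fun T => ?_, fun T T' hT i i' => ?_⟩
  · fin_cases T
    exacts [p0, p1, p2]
  · refine patch_transv (Tri.norm_et _ _) (Tri.norm_et _ _) (q T i) (q T' i') (hdet _ _ _ _ ?_)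
    clear q q0 q1 q2 p0 p1 p2 key hdet hg
    fin_cases T <;> fin_cases T' <;> first
      | exact absurd rfl hT
      | fin_cases i <;> fin_cases i' <;> simp <;> norm_num

/-- Patches adapted to a metric. `om k` is the normalising factor. -/
structure Pat {M : Type*} [TopologicalSpace M] (A : Atl E2 M) (g : A.ι → E2 → Bil) where
  P : ℕ
  ch : Fin P → A.ι
  c : Fin P → E2
  R : Fin P → ℝ
  t : Fin P → Fin 3 → Tri
  om : Fin P → E2 → ℝ
  η : ℝ
  η_pos : 0 < η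
  R_pos : ∀ k, 0 < R k
  sub : ∀ k, closedBall (c k) (R k) ⊆ closedBall 0 (3 / 2)
  cone : ∀ k T i, ∀ x ∈ closedBall (c k) (R k), ∀ h : Bil, ‖h - g (ch k) x‖ ≤ 3 * η →
    η ≤ (t k T).Λ i h
  gen : ∀ k T T', T ≠ T' → ∀ i i', det2 ((t k T).et i) ((t k T').et i') ≠ 0
  om_smooth : ∀ k, ContDiff ℝ ∞ (om k)
  om_pos : ∀ k x, 0 < om k x
  pou : ∀ y, ∑ k, A.push (ch k)
    (fun x => (expNegInvGlue (R k ^ 2 - ‖x - c k‖ ^ 2) * om k x) ^ 2) y = 1

theorem patch_local {G : E2 → Bil} (hG : Continuous G) (c : E2) (hs : ∀ v w, G c v w = G c w v)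
    (hp : ∀ v, v ≠ 0 → 0 < G c v v) :
    ∃ (t : Fin 3 → Tri) (R : ℝ), 0 < R ∧ R ≤ 1 / 2 ∧
      (∀ T T', T ≠ T' → ∀ i i', det2 ((t T).et i) ((t T').et i') ≠ 0) ∧
      ∀ᶠ η in 𝓝[>] (0 : ℝ), ∀ T i, ∀ x ∈ closedBall c R, ∀ h : Bil, ‖h - G x‖ ≤ 3 * η →
        η ≤ (t T).Λ i h := by
  obtain ⟨t, h1, h2⟩ := exists_triples hs hp
  have h3 : ∀ᶠ m in 𝓝[>] (0 : ℝ), ∀ T i, m < (t T).Λ i (G c) := by
    simp only [eventually_all]
    intro T i
    filter_upwards [Ioo_mem_nhdsGT (h1 T i)] with m hm using hm.2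
  obtain ⟨m, hm, hm0⟩ := (h3.and self_mem_nhdsWithin).exists
  have hm0' : 0 < m := hm0
  have h4 : ∀ᶠ h in 𝓝 (G c), ∀ T i, m < (t T).Λ i h := by
    simp only [eventually_all]
    intro T i
    exact ((t T).Λ i).continuous.continuousAt.eventually (lt_mem_nhds (hm T i))
  obtain ⟨ε, hε, h5⟩ := Metric.eventually_nhds_iff.1 h4
  obtain ⟨δ, hδ, h6⟩ := Metric.continuousAt_iff.1 (hG.continuousAt (x := c)) (ε / 2) (by linarith)
  refine ⟨t, min (δ / 2) (1 / 2), lt_min (by linarith) (by norm_num), min_le_right _ _, h2, ?_⟩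
  filter_upwards [Ioo_mem_nhdsGT hm0', Ioo_mem_nhdsGT (show 0 < ε / 6 by linarith)] with η e1 e2
    T i x hx h hh
  have h7 := h6 (x := x) (lt_of_le_of_lt ((mem_closedBall.1 hx).trans (min_le_left _ _))
    (by linarith))
  have h8 : dist h (G c) < ε := by
    have := dist_triangle h (G x) (G c)
    rw [dist_eq_norm h (G x)] at this
    linarith [e2.2]
  exact (e1.2.trans (h5 h8 T i)).le

/-- For every chart `a` and `c ∈ closedBall 0 1` take triples for `g a c` and `R ≤ 1/2` so small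
that the cone condition holds with some `η > 0` (continuity); finitely many open balls cover
`closedBall 0 1`, for each chart.  `s = Σ push (Θ_k²) > 0` is `Sm`, `om k x = (√(s (p x)))⁻¹`. -/
theorem exists_pat {M : Type*} [TopologicalSpace M] [T2Space M] (A : Atl E2 M)
    {g : A.ι → E2 → Bil} (hg : A.Met g) : Nonempty (Pat A g) := by
  classical
  choose t R hR0 hR1 hgen hcone using fun (a : A.ι) (c : E2) =>
    patch_local (hg.smooth a).continuous c (hg.symm a c) (hg.pos a c)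
  choose S hS1 hS2 using fun a : A.ι => (isCompact_closedBall (0 : E2) 1).elim_nhds_subcover
    (fun c => ball c (R a c)) fun c _ => ball_mem_nhds c (hR0 a c)
  let e := (Fintype.equivFin (Σ a : A.ι, S a)).symm
  obtain ⟨η, hη, hη0⟩ := ((eventually_all.2 fun k : Fin (Fintype.card (Σ a : A.ι, S a)) =>
    hcone (e k).1 (e k).2).and self_mem_nhdsWithin).exists
  let θ : Fin (Fintype.card (Σ a : A.ι, S a)) → E2 → ℝ := fun k x =>
    expNegInvGlue (R (e k).1 (e k).2 ^ 2 - ‖x - (e k).2‖ ^ 2)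
  let s : M → ℝ := fun y => ∑ k, A.push (e k).1 (fun x => θ k x ^ 2) y
  have hθ : ∀ k, ContDiff ℝ ∞ (θ k) := fun k => expNegInvGlue.contDiff.comp
    (contDiff_const.sub ((contDiff_id.sub contDiff_const).norm_sq ℝ))
  have hs : A.Sm s := Atl.Sm.sum _ fun k _ => A.Sm_push _ ((hθ k).pow 2) <|
    HasCompactSupport.intro (isCompact_closedBall ((e k).2 : E2) (R (e k).1 (e k).2)) fun x hx => by
      rw [mem_closedBall_iff_norm, not_le] at hx
      have := hR0 (e k).1 (e k).2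
      simp only [θ]
      rw [expNegInvGlue.zero_of_nonpos (by nlinarith)]
      norm_num
  have hs0 : ∀ y, 0 < s y := by
    intro y
    obtain ⟨a, ha, ha'⟩ := A.cover y
    obtain ⟨c, hc, hc'⟩ := mem_iUnion₂.1 (hS2 a (mem_closedBall_zero_iff.2 ha'.le))
    obtain ⟨k, hk⟩ := e.surjective ⟨a, c, hc⟩
    refine Finset.sum_pos' (fun k _ => ?_) ⟨k, Finset.mem_univ _, ?_⟩
    · unfold Atl.push
      split_ifs
      exacts [sq_nonneg _, le_rfl]
    · simp only [θ]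
      rw [hk, Atl.push, if_pos ha]
      rw [mem_ball_iff_norm] at hc'
      have := norm_nonneg (A.e a y - c)
      exact pow_pos (expNegInvGlue.pos_of_pos (by nlinarith)) 2
  refine ⟨⟨Fintype.card (Σ a : A.ι, S a), fun k => (e k).1, fun k => (e k).2,
    fun k => R (e k).1 (e k).2, fun k => t (e k).1 (e k).2,
    fun k x => (√(s (A.p (e k).1 x)))⁻¹, η, hη0, fun k => hR0 _ _, fun k => ?_, hη,
    fun k => hgen _ _, fun k => ?_, fun k x => inv_pos.2 (Real.sqrt_pos.2 (hs0 _)), fun y => ?_⟩⟩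
  · refine closedBall_subset_closedBall' ?_
    have h1 := mem_closedBall.1 (hS1 (e k).1 (e k).2 (e k).2.2)
    linarith [hR1 (e k).1 (e k).2]
  · exact ((hs (e k).1).sqrt fun x => (hs0 _).ne').inv fun x => (Real.sqrt_pos.2 (hs0 _)).ne'
  · have h1 : ∀ k, A.push (e k).1 (fun x => (θ k x * (√(s (A.p (e k).1 x)))⁻¹) ^ 2) y =
        A.push (e k).1 (fun x => θ k x ^ 2) y * (s y)⁻¹ := by
      intro k
      unfold Atl.push
      split_ifs with hy
      · simp only [A.p_e _ hy]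
        rw [mul_pow, inv_pow, Real.sq_sqrt (hs0 y).le]
      · rw [zero_mul]
    refine (Finset.sum_congr rfl fun k _ => h1 k).trans ?_
    rw [← Finset.sum_mul]
    exact mul_inv_cancel₀ (hs0 y).ne'

end Crest.Agent.R216
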