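import Crest.Agent.R216.StageB

/-! # Row 216, the perturbation theorem -/

set_option autoImplicit false
open Set Filter Metric
open scoped ContDiff RealInnerProductSpace Topology

noncomputable section
namespace Crest.Agent.R216

variable {M : Type*} [TopologicalSpace M] [T2Space M] (A : Atl E2 M)

theorem Perturb_norm1 {X : Type*} [NormedAddCommGroup X] [NormedSpace ℝ X] (g p : X) {δ η : ℝ}
    (hδ : 0 ≤ δ) (h : ‖g - p - δ • g‖ ≤ η * δ) : ‖p - g‖ ≤ (η + ‖g‖) * δ := by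
  have e : p - g = -((g - p - δ • g) + δ • g) := by abel
  rw [e, norm_neg]
  refine (norm_add_le _ _).trans ?_
  rw [norm_smul, Real.norm_of_nonneg hδ]
  linarith

theorem Perturb_norm2 {X : Type*} [NormedAddCommGroup X] [NormedSpace ℝ X] (g p : X) {δ b : ℝ}
    (hδ : 0 ≤ δ) (hδ1 : δ ≤ 1) (h : ‖g - p‖ ≤ b) : ‖g - (1 - δ) • p - δ • g‖ ≤ b := by
  have e : g - (1 - δ) • p - δ • g = (1 - δ) • (g - p) := by module
  rw [e, norm_smul, Real.norm_of_nonneg (by linarith)]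
  nlinarith [norm_nonneg (g - p)]

theorem Perturb_dist {X : Type*} [NormedAddCommGroup X] (g p : X) : dist p g = ‖g - p‖ := by
  rw [dist_comm, dist_eq_norm]

/-- the sum of a series of smooth maps -/
theorem Perturb_tsum : ∃ C : ℝ, 1 ≤ C ∧ ∀ (d : ℕ → M → E4) (b : ℕ → ℝ), (∀ k, A.Sm (d k)) →
    Summable b → (∀ k, A.CB 2 (d k) (fun _ => b k)) →
    (∀ m, ∀ᶠ k in atTop, A.CB m (d k) (fun _ => b k)) →
    A.Sm (fun y => ∑' k, d k y) ∧ A.CB 2 (fun y => ∑' k, d k y) (fun _ => C * ∑' i, b i) := by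
  have hz : ContDiff ℝ ∞ (zeta : E2 → ℝ) := zeta.contDiff
  choose Cc hCc1 hCc using fun D => norm_iteratedFDeriv_cut (W := E4) hz tsupport_zeta D
  obtain ⟨C₂, hC₂, hB⟩ := A.CB_of_ball (W := E4) 2
  refine ⟨C₂ * Cc 2, one_le_mul_of_one_le_of_one_le hC₂ (hCc1 2), fun d b hd hb h2 hm => ?_⟩
  have hu : ∀ a k, ContDiff ℝ ∞ (fun x => zeta x • d k (A.p a x)) := fun a k => hz.smul (hd k a)
  have hev : ∀ a, ∀ x ∈ ball (0 : E2) 1, (fun x => ∑' k, zeta x • d k (A.p a x)) =ᶠ[𝓝 x]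
      fun x => ∑' k, d k (A.p a x) := by
    intro a x hx
    filter_upwards [isOpen_ball.mem_nhds hx] with y hy
    have : zeta y = 1 := zeta_eq_one (ball_subset_closedBall (ball_subset_ball (by norm_num) hy))
    simp only [this, one_smul]
  have hsm : ∀ a, ContDiff ℝ ∞ (fun x => ∑' k, zeta x • d k (A.p a x)) := by
    intro a
    refine contDiff_tsum_of_eventually (N := ⊤) (v := fun m k => Cc m * b k) (hu a)
      (fun m _ => hb.mul_left _) fun m _ => ?_
    rw [Nat.cofinite_eq_atTop]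
    filter_upwards [hm m] with k hk x
    exact hCc m _ _ (hd k a) (hk a) m le_rfl x
  have hS : A.Sm (fun y => ∑' k, d k y) := by
    refine Atl.Sm_of_local fun a x hx => ?_
    exact (hsm a).contDiffAt.congr_of_eventuallyEq (hev a x (mem_ball_zero_iff.2 hx)).symm
  refine ⟨hS, ?_⟩
  have := hB _ (Cc 2 * ∑' i, b i) hS fun a j hj x hx => ?_
  · simpa only [mul_assoc] using this
  rw [← ((hev a x hx).iteratedFDeriv ℝ j).eq_of_nhds]
  have hb2 : ∀ (j : ℕ) (k : ℕ) (x : E2), j ≤ 2 →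
      ‖iteratedFDeriv ℝ j (fun x => zeta x • d k (A.p a x)) x‖ ≤ Cc 2 * b k :=
    fun j k x hj => hCc 2 _ _ (hd k a) (h2 k a) j hj x
  rw [iteratedFDeriv_tsum_apply (N := 2) (v := fun _ k => Cc 2 * b k)
    (fun k => (hu a k).of_le (by exact_mod_cast le_top)) (fun _ _ => hb.mul_left _)
    (fun j k x hj => hb2 j k x (by exact_mod_cast hj)) (by exact_mod_cast hj)]
  exact tsum_of_norm_bounded (hb.hasSum.mul_left _) fun k => hb2 j k x hj

/-- Convergence of a sequence with summable increments in every `C^m`.  In chart `a` apply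
`contDiff_tsum_of_eventually` to `zeta • ((F (k+1) - F k) ∘ p a)` (`norm_iteratedFDeriv_cut`;
finitely many terms are harmless); pointwise the limit is `F 0 y + ∑' k, (F (k+1) y - F k y)`;
`Sm_of_local`.  The `C²` distance of `F k` to the limit on the unit balls is bounded by the tail of
the series (`iteratedFDeriv_tsum_apply`-type formula, or apply the bound to the shifted sequence),
then `CB_of_ball`. -/
theorem exists_limit : ∃ C : ℝ, 1 ≤ C ∧ ∀ (F : ℕ → M → E4) (b : ℕ → ℝ), (∀ k, A.Sm (F k)) →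
    Summable b → (∀ k, A.CB 2 (fun y => F (k + 1) y - F k y) (fun _ => b k)) →
    (∀ m, ∀ᶠ k in atTop, A.CB m (fun y => F (k + 1) y - F k y) (fun _ => b k)) →
    ∃ F' : M → E4, A.Sm F' ∧
      ∀ k, A.CB 2 (fun y => F' y - F k y) (fun _ => C * ∑' i, b (i + k)) := by
  obtain ⟨C, hC, h⟩ := Perturb_tsum A
  refine ⟨C, hC, fun F b hF hb h2 hm => ?_⟩
  have hd : ∀ k, A.Sm (fun y => F (k + 1) y - F k y) := fun k => (hF (k + 1)).sub (hF k)
  have hsum : ∀ y, Summable fun k => F (k + 1) y - F k y := by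
    intro y
    obtain ⟨a, ha, hy⟩ := A.cover y
    refine Summable.of_norm_bounded hb fun k => ?_
    have := h2 k a 0 (Nat.zero_le _) (A.e a y) (mem_closedBall_zero_iff.2 (by linarith))
    rwa [norm_iteratedFDeriv_zero, A.p_e a ha] at this
  refine ⟨fun y => F 0 y + ∑' k, (F (k + 1) y - F k y), (hF 0).add (h _ b hd hb h2 hm).1,
    fun k => ?_⟩
  have e : (fun y => F 0 y + ∑' k, (F (k + 1) y - F k y) - F k y)
      = fun y => ∑' i, (F (i + k + 1) y - F (i + k) y) := by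
    funext y
    rw [← (hsum y).sum_add_tsum_nat_add k, Finset.sum_range_sub (fun i => F i y) k]
    abel
  rw [e]
  exact (h (fun i y => F (i + k + 1) y - F (i + k) y) (fun i => b (i + k)) (fun i => hd _)
    ((summable_nat_add_iff k).2 hb) (fun i => h2 _)
    (fun m => (tendsto_add_atTop_nat k).eventually (hm m))).2

/-- The iteration.  Choose `D n n'`, `μ₀ n n' D'` from `stage`; `D* n = max` of `D n n`,
`D n (n+1)`, `D (n+1) (n+1)`, `D (n+1) (n+2)`; `T n = max (μ₀ n n (D* n)) 2`,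
`T' n = max (μ₀ n (n+1) (D* n)) (T (n+1))`.  State: `(F, n)` at the scale `μ_k = μ^(K^k) ≥ T n` with
`CB (max (D n n) (D n (n+1)))`, `NG`, `Def`.  If `μ_k ≥ T' n` pass to `n + 1`, otherwise keep `n`.
Since `μ_k → ∞`, `n_k → ∞`; `Σ μ_k⁻¹ ≤ 2 μ⁻¹` (`μ_k ≥ μ 2^k`).  The defect tends to zero, and
`pull F_k → pull F'` (`norm_pull_sub_le`), so `pull F' = g` (`Ten.ext`). -/
theorem perturb_core {g : A.ι → E2 → Bil} (hg : A.Met g) :
    ∃ η > (0 : ℝ), ∃ (D n : ℕ) (μ₀ C : ℝ), 5 ≤ n ∧ ∀ (μ : ℝ) (F : M → E4), μ₀ ≤ μ → A.Sm F →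
      A.CB D F (fun j => μ ^ (j + 1)) → A.NG F μ⁻¹ → A.Def g F (μ ^ n)⁻¹ η →
      ∃ F' : M → E4, A.Sm F' ∧ A.pull F' = g ∧
        A.CB 2 (fun y => F' y - F y) (fun _ => C * μ⁻¹) := by
  obtain ⟨η, hη, K, n₀, hK, hn₀, hst⟩ := stage A hg
  choose! D hD using hst
  choose! μ₀ hμ₀ using hD
  obtain ⟨C, hC, hlim⟩ := exists_limit A
  set E : ℕ → ℕ := fun n => max (D n n) (D n (n + 1)) with hE
  set T : ℕ → ℝ := fun n => max (μ₀ n n (E n)) 2 with hT
  set T' : ℕ → ℝ := fun n => max (μ₀ n (n + 1) (E (n + 1))) (T (n + 1)) with hT'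
  set nx : ℕ → ℝ → ℕ := fun n μ => if T' n ≤ μ then n + 1 else n with hnx
  set Q : ℕ → ℝ → (M → E4) → Prop := fun n μ F => n₀ ≤ n ∧ T n ≤ μ ∧ A.Sm F ∧
    A.CB (E n) F (fun j => μ ^ (j + 1)) ∧ A.NG F μ⁻¹ ∧ A.Def g F (μ ^ n)⁻¹ η with hQ
  have hstep : ∀ n μ F, Q n μ F → ∃ F', Q (nx n μ) (μ ^ K) F' ∧
      ∀ m : ℕ, K * (2 * m + 6) ≤ n → A.CB m (fun y => F' y - F y) (fun _ => μ⁻¹) := by
    rintro n μ F ⟨h1, h2, h3, h4, h5, h6⟩
    have hμ2 : 2 ≤ μ := (le_max_right _ _).trans h2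
    have hμK : μ ≤ μ ^ K := le_self_pow₀ (by linarith) (by omega)
    by_cases hc : T' n ≤ μ
    · obtain ⟨F', g1, g2, g3, g4, g5⟩ := hμ₀ n (n + 1) h1 (Nat.le_succ n) (E (n + 1)) μ F
        ((le_max_left _ _).trans hc) h3 (h4.mono (le_max_right _ _) fun _ _ => le_rfl) h5 h6
      have e : nx n μ = n + 1 := if_pos hc
      rw [e]
      exact ⟨F', ⟨by omega, ((le_max_right _ _).trans hc).trans hμK, g1, g2, g3, g4⟩, g5⟩
    · obtain ⟨F', g1, g2, g3, g4, g5⟩ := hμ₀ n n h1 le_rfl (E n) μ F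
        ((le_max_left _ _).trans h2) h3 (h4.mono (le_max_left _ _) fun _ _ => le_rfl) h5 h6
      have e : nx n μ = n := if_neg hc
      rw [e]
      exact ⟨F', ⟨h1, h2.trans hμK, g1, g2, g3, g4⟩, g5⟩
  choose! st hst1 hst2 using hstep
  refine ⟨η, hη, E n₀, n₀, T n₀, C * 2, by omega, fun μ F hμ hF hCB hNG hDef => ?_⟩
  have hμ2 : 2 ≤ μ := (le_max_right _ _).trans hμ
  have hμ0 : 0 < μ := by linarith
  obtain ⟨ms, ms0, msS⟩ : ∃ ms : ℕ → ℝ, ms 0 = μ ∧ ∀ k, ms (k + 1) = ms k ^ K :=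
    ⟨fun k => Nat.rec μ (fun _ m => m ^ K) k, rfl, fun _ => rfl⟩
  obtain ⟨ns, ns0, nsS⟩ : ∃ ns : ℕ → ℕ, ns 0 = n₀ ∧ ∀ k, ns (k + 1) = nx (ns k) (ms k) :=
    ⟨fun k => Nat.rec n₀ (fun k n => nx n (ms k)) k, rfl, fun _ => rfl⟩
  obtain ⟨Fs, Fs0, FsS⟩ : ∃ Fs : ℕ → M → E4, Fs 0 = F ∧
      ∀ k, Fs (k + 1) = st (ns k) (ms k) (Fs k) :=
    ⟨fun k => Nat.rec F (fun k G => st (ns k) (ms k) G) k, rfl, fun _ => rfl⟩
  have hQk : ∀ k, Q (ns k) (ms k) (Fs k) := by
    intro k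
    induction k with
    | zero => rw [ns0, ms0, Fs0]; exact ⟨le_rfl, hμ, hF, hCB, hNG, hDef⟩
    | succ k ih => rw [nsS, msS, FsS]; exact hst1 _ _ _ ih
  have hms2 : ∀ k, 2 ≤ ms k := fun k => (le_max_right _ _).trans (hQk k).2.1
  have hms : ∀ k, μ * 2 ^ k ≤ ms k := by
    intro k
    induction k with
    | zero => simp [ms0]
    | succ k ih =>
      have h2 := hms2 k
      have : ms k ^ 2 ≤ ms k ^ K := pow_le_pow_right₀ (by linarith) hK
      rw [msS, pow_succ]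
      nlinarith
  have hb : ∀ k, (ms k)⁻¹ ≤ μ⁻¹ * (1 / 2) ^ k := by
    intro k
    rw [one_div, inv_pow, ← mul_inv]
    exact inv_anti₀ (by positivity) (hms k)
  have hmono : Monotone ns := by
    refine monotone_nat_of_le_succ fun k => ?_
    rw [nsS]
    simp only [hnx]
    split_ifs <;> omega
  have hmt : Tendsto ms atTop atTop :=
    tendsto_atTop_mono hms
      ((tendsto_pow_atTop_atTop_of_one_lt (by norm_num : (1 : ℝ) < 2)).const_mul_atTop hμ0)
  have hnt : ∀ N, ∀ᶠ k in atTop, N ≤ ns k := by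
    intro N
    induction N with
    | zero => exact Eventually.of_forall fun _ => Nat.zero_le _
    | succ N ih =>
      obtain ⟨k₀, h1, h2⟩ := (ih.and (hmt.eventually_ge_atTop (T' N))).exists
      have : N + 1 ≤ ns (k₀ + 1) := by
        rcases h1.eq_or_lt with h | h
        · rw [nsS, ← h]
          exact (if_pos h2 : nx N (ms k₀) = N + 1).ge
        · exact (Nat.succ_le_of_lt h).trans (hmono (Nat.le_succ _))
      filter_upwards [eventually_ge_atTop (k₀ + 1)] with k hk using this.trans (hmono hk)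
  have hinc : ∀ k m, K * (2 * m + 6) ≤ ns k →
      A.CB m (fun y => Fs (k + 1) y - Fs k y) (fun _ => μ⁻¹ * (1 / 2) ^ k) := by
    intro k m hm
    rw [FsS]
    exact (hst2 _ _ _ (hQk k) m hm).mono le_rfl fun _ _ => hb k
  obtain ⟨F', hF', hd⟩ := hlim Fs (fun k => μ⁻¹ * (1 / 2) ^ k) (fun k => (hQk k).2.2.1)
    (summable_geometric_two.mul_left _) (fun k => hinc k 2 (by have := (hQk k).1; omega))
    (fun m => (hnt _).mono fun k hk => hinc k m hk)
  have htail : ∀ k : ℕ, ∑' i : ℕ, μ⁻¹ * (1 / 2 : ℝ) ^ (i + k) = 2 * (μ⁻¹ * (1 / 2) ^ k) := by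
    intro k
    simp only [pow_add]
    rw [tsum_mul_left, tsum_mul_right, tsum_geometric_two]
    ring
  simp only [htail] at hd
  have hb0 : Tendsto (fun k : ℕ => μ⁻¹ * (1 / 2 : ℝ) ^ k) atTop (𝓝 0) :=
    (summable_geometric_two.mul_left _).tendsto_atTop_zero
  refine ⟨F', hF', ?_, ?_⟩
  · refine Atl.Ten.ext (Atl.Ten_pull hF') hg.toTen fun a x hx => ?_
    have hx2 : x ∈ closedBall (0 : E2) 2 := mem_closedBall_zero_iff.2 (by linarith)
    have hD1 : Tendsto (fun k => fderiv ℝ (fun x => Fs k (A.p a x)) x) atTop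
        (𝓝 (fderiv ℝ (fun x => F' (A.p a x)) x)) := by
      rw [tendsto_iff_norm_sub_tendsto_zero]
      refine squeeze_zero (fun _ => norm_nonneg _) (fun k => ?_)
        (by simpa using (hb0.const_mul 2).const_mul C)
      have := hd k a 1 (by norm_num) x hx2
      rw [norm_iteratedFDeriv_one, fderiv_fun_sub ((hF' a).differentiable (by simp) x)
        (((hQk k).2.2.1 a).differentiable (by simp) x), norm_sub_rev] at this
      simpa using this
    have h1 : Tendsto (fun k => A.pull (Fs k) a x) atTop (𝓝 (A.pull F' a x)) := by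
      refine (tendsto_iff_norm_sub_tendsto_zero (E := Bil)).2 ?_
      refine squeeze_zero (fun _ => norm_nonneg (E := Bil) _) (fun k => norm_pb_sub_le _ _ x) ?_
      have := (hD1.norm.add_const ‖fderiv ℝ (fun x => F' (A.p a x)) x‖).mul
        (tendsto_iff_norm_sub_tendsto_zero.1 hD1)
      rwa [mul_zero] at this
    have h2 : Tendsto (fun k => A.pull (Fs k) a x) atTop (𝓝 (g a x)) := by
      refine (tendsto_iff_norm_sub_tendsto_zero (E := Bil)).2 ?_
      refine squeeze_zero (fun _ => norm_nonneg (E := Bil) _) (fun k => ?_)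
        (by simpa using hb0.const_mul (η + ‖g a x‖))
      have h3 := (hQk k).2.2.2.2.2 a x hx2
      have h4 : (ms k ^ ns k)⁻¹ ≤ μ⁻¹ * (1 / 2) ^ k := by
        have := hms2 k
        refine (inv_anti₀ (by linarith) (le_self_pow₀ (by linarith) ?_)).trans (hb k)
        have := (hQk k).1
        omega
      have h5 : 0 ≤ (ms k ^ ns k)⁻¹ := by have := hms2 k; positivity
      have h6 := Perturb_norm1 (X := Bil) _ _ h5 h3
      have := h6.trans (mul_le_mul_of_nonneg_left h4 (by positivity))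
      simpa using this
    exact tendsto_nhds_unique h1 h2
  · have := hd 0
    rw [Fs0] at this
    exact this.mono le_rfl fun _ _ => by simp [mul_assoc]

theorem Perturb_CB_smul {A : Atl E2 M} {D : ℕ} {F : M → E4} {β : ℕ → ℝ} (hF : A.Sm F)
    (h : A.CB D F β) (c : ℝ) : A.CB D (fun y => c • F y) (fun j => |c| * β j) := by
  intro a j hj x hx
  rw [iteratedFDeriv_const_smul_apply' (f := fun x => F (A.p a x))
    ((hF a).of_le (by exact_mod_cast le_top)).contDiffAt, norm_smul, Real.norm_eq_abs]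
  exact mul_le_mul_of_nonneg_left (h a j hj x hx) (abs_nonneg _)

theorem Perturb_fderiv_smul (G : E2 → E4) (c : ℝ) :
    fderiv ℝ (fun x => c • G x) = fun x => c • fderiv ℝ G x :=
  fderiv_const_smul_field (𝕜 := ℝ) (f := G) c

theorem Perturb_d2_smul (G : E2 → E4) (c : ℝ) (x : E2) :
    d2 (fun x => c • G x) x = c • d2 G x := by
  unfold d2
  rw [Perturb_fderiv_smul]
  exact congrFun (fderiv_const_smul_field (𝕜 := ℝ) (f := fderiv ℝ G) c) x

theorem Perturb_pb_smul (G : E2 → E4) (c : ℝ) (x : E2) :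
    pb (fun x => c • G x) x = (c ^ 2) • pb G x := by
  ext v w
  simp only [pb_apply, Perturb_fderiv_smul, smul_apply, real_inner_smul_left, real_inner_smul_right,
    smul_eq_mul]
  ring

theorem Perturb_g3_smul (u v z : E4) (c : ℝ) : g3 (c • u) (c • v) (c • z) = c ^ 6 * g3 u v z := by
  simp only [g3, real_inner_smul_left, real_inner_smul_right]
  ring

theorem Perturb_det {g : A.ι → E2 → Bil} (hg : A.Met g) : ∃ c > (0 : ℝ), ∃ ε > (0 : ℝ),
    ∀ a, ∀ x ∈ closedBall (0 : E2) 2, ∀ H : Bil, ‖g a x - H‖ ≤ ε →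
      c ≤ H b0 b0 * H b1 b1 - H b0 b1 ^ 2 := by
  have hG : Continuous fun H : Bil => H b0 b0 * H b1 b1 - H b0 b1 ^ 2 := by fun_prop
  have hK : IsCompact (⋃ a, g a '' closedBall (0 : E2) 2) :=
    isCompact_iUnion fun a => (isCompact_closedBall _ _).image (hg.smooth a).continuous
  obtain ⟨c, hc, h⟩ := hK.exists_forall_le' hG.continuousOn (a := 0) (by
    intro H hH
    obtain ⟨a, x, -, rfl⟩ := by simpa only [mem_iUnion, mem_image] using hH
    have hb1 : b1 ≠ 0 := fun h => by simpa [h] using norm_b1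
    have h1 := hg.pos a x b1 hb1
    have hv : g a x b1 b1 • b0 - g a x b0 b1 • b1 ≠ 0 := by
      intro h
      have := congrArg (fun v : E2 => v 0) h
      simp [b0, b1] at this
      exact h1.ne' this
    have h2 := hg.pos a x _ hv
    simp only [map_sub, map_smul, sub_apply, smul_apply, smul_eq_mul, hg.symm a x b1 b0] at h2
    by_contra hn
    nlinarith [mul_nonneg h1.le (neg_nonneg.2 (not_lt.1 hn))])
  obtain ⟨ε, hε, hs⟩ := hK.exists_cthickening_subset_open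
    (isOpen_lt (continuous_const (y := c / 2)) hG) fun H hH => by
      have := h H hH
      exact (half_lt_self hc).trans_le this
  refine ⟨c / 2, by positivity, ε, hε, fun a x hx H hH => le_of_lt (hs ?_)⟩
  refine mem_cthickening_of_dist_le H (g a x) ε _ (mem_iUnion.2 ⟨a, x, hx, rfl⟩) ?_
  exact (Perturb_dist (X := Bil) _ _).trans_le hH

/-- **Perturbation theorem.**  Apply `perturb_core` at the scale `m = μ⁴` to `F₁ = s • F`,
`s = √(1 - δ)`, `δ = m^(-n)`: `g - pull F₁ - δ g = s² (g - pull F)`, of norm `≤ μ^(-4n-1) ≤ η δ`.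
`g2 (DF b0) (DF b1) ≥ c₀ > 0` because `pull F` is close to `g` (compactness), hence
`g3 = g2 ‖II‖² ≥ c₀ μ⁻²` and `g3` for `F₁` is `s⁶` times that. -/
theorem perturb {g : A.ι → E2 → Bil} (hg : A.Met g) :
    ∃ (D n : ℕ) (μ₀ C : ℝ), ∀ (μ : ℝ) (F : M → E4), μ₀ ≤ μ → A.Sm F →
      A.CB D F (fun j => μ ^ (j + 1)) → A.ND F μ⁻¹ →
      (∀ a, ∀ x ∈ closedBall (0 : E2) 2, ‖g a x - A.pull F a x‖ ≤ (μ ^ n)⁻¹) →
      ∃ F' : M → E4, A.Sm F' ∧ A.pull F' = g ∧
        A.CB 2 (fun y => F' y - F y) (fun _ => C * μ⁻¹) := by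
  obtain ⟨η, hη, D, n, μ₀, C, hn, h⟩ := perturb_core A hg
  obtain ⟨c, hc, ε, hε, hdet⟩ := Perturb_det A hg
  refine ⟨max D 2, 4 * n + 1, max (max μ₀ 2) (max (max η⁻¹ ε⁻¹) (8 / c)), |C| + 1,
    fun μ F hμ hF hCB hND hdef => ?_⟩
  simp only [max_le_iff] at hμ
  obtain ⟨⟨m1, m2⟩, ⟨m3, m4⟩, m5⟩ := hμ
  have hμ0 : 0 < μ := by linarith
  have hμ1 : 1 ≤ μ := by linarith
  have hm : μ ≤ μ ^ 4 := le_self_pow₀ hμ1 (by norm_num)
  set δ : ℝ := ((μ ^ 4) ^ n)⁻¹ with hδ
  have hδ0 : 0 < δ := by positivity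
  have hδ4 : δ ≤ (μ ^ 4)⁻¹ := inv_anti₀ (by positivity) (le_self_pow₀ (by linarith) (by omega))
  have hδ1 : δ ≤ 1 / 2 := by
    rw [one_div]
    exact hδ4.trans (inv_anti₀ (by norm_num) (by linarith))
  set s : ℝ := √(1 - δ) with hs
  have hs2 : s ^ 2 = 1 - δ := Real.sq_sqrt (by linarith)
  have hs0 : 0 ≤ s := Real.sqrt_nonneg _
  have hs1 : s ≤ 1 := by nlinarith
  have e1 : (μ ^ (4 * n + 1))⁻¹ = μ⁻¹ * δ := by rw [hδ, pow_succ, pow_mul, mul_inv, mul_comm]
  have hi0 : 0 < μ⁻¹ := inv_pos.2 hμ0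
  have hA : A.CB D (fun y => s • F y) (fun j => (μ ^ 4) ^ (j + 1)) := by
    refine (Perturb_CB_smul hF hCB s).mono (le_max_left _ _) fun j _ => ?_
    rw [abs_of_nonneg hs0]
    have : μ ^ (j + 1) ≤ (μ ^ 4) ^ (j + 1) := pow_le_pow_left₀ hμ0.le hm _
    have : 0 ≤ μ ^ (j + 1) := by positivity
    nlinarith
  have hB : A.NG (fun y => s • F y) (μ ^ 4)⁻¹ := by
    intro a x hx
    obtain ⟨τ, hτ, hII⟩ := hND a x hx
    refine ⟨τ, hτ, ?_⟩
    have h1 := hdet a x hx (A.pull F a x) ((hdef a x hx).trans (by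
      rw [e1]
      have : μ⁻¹ ≤ ε := inv_le_of_inv_le₀ hε m4
      nlinarith))
    have h2 : c ≤ g2 (fderiv ℝ (fun x => F (A.p a x)) x b0) (fderiv ℝ (fun x => F (A.p a x)) x b1) := by
      simpa only [Atl.pull, pb_apply, g2] using h1
    rw [Perturb_fderiv_smul (fun x => F (A.p a x)), Perturb_d2_smul (fun x => F (A.p a x))]
    simp only [smul_apply]
    rw [Perturb_g3_smul, g3_eq (hc.trans_le h2).ne']
    have h3 : (μ⁻¹) ^ 2 ≤ ‖nproj (fderiv ℝ (fun x => F (A.p a x)) x b0)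
        (fderiv ℝ (fun x => F (A.p a x)) x b1) (d2 (fun x => F (A.p a x)) x τ τ)‖ ^ 2 :=
      pow_le_pow_left₀ hi0.le hII 2
    have h4 : 1 / 8 ≤ s ^ 6 := by
      have : s ^ 6 = (s ^ 2) ^ 3 := by ring
      rw [this, hs2]
      calc (1 / 8 : ℝ) = (1 / 2) ^ 3 := by norm_num
        _ ≤ _ := pow_le_pow_left₀ (by norm_num) (by linarith) 3
    have h5 : (μ ^ 4)⁻¹ ≤ 1 / 8 * (c * μ⁻¹ ^ 2) := by
      rw [div_le_iff₀ hc] at m5
      have : 8 ≤ μ ^ 2 * c := by nlinarith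
      rw [inv_le_iff_one_le_mul₀ (by positivity)]
      have e : 1 / 8 * (c * μ⁻¹ ^ 2) * μ ^ 4 = μ ^ 2 * c / 8 := by field_simp
      rw [e]
      linarith
    exact h5.trans (mul_le_mul h4 (mul_le_mul h2 h3 (by positivity) (hc.le.trans h2))
      (by positivity) (by positivity))
  have hC : A.Def g (fun y => s • F y) δ η := by
    intro a x hx
    have : A.pull (fun y => s • F y) a x = (1 - δ) • A.pull F a x := by
      rw [← hs2]
      exact Perturb_pb_smul (fun x => F (A.p a x)) s x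
    rw [this]
    refine Perturb_norm2 (X := Bil) _ _ hδ0.le (by linarith) ((hdef a x hx).trans ?_)
    rw [e1]
    exact mul_le_mul_of_nonneg_right (inv_le_of_inv_le₀ hη m3) hδ0.le
  obtain ⟨F', hF', hp, hd⟩ := h (μ ^ 4) (fun y => s • F y) (m1.trans hm)
    ((Atl.Sm.const s).smul hF) hA hB hC
  · refine ⟨F', hF', hp, ?_⟩
    have h1 := Atl.CB.add (hF'.sub ((Atl.Sm.const s).smul hF)) ((Atl.Sm.const (s - 1)).smul hF) hd
      (Perturb_CB_smul hF (hCB.mono (le_max_right _ _) fun _ _ => le_rfl) (s - 1))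
    have e : (fun y => F' y - s • F y + (s - 1) • F y) = fun y => F' y - F y := by
      funext y
      rw [sub_smul, one_smul]
      abel
    rw [e] at h1
    refine h1.mono le_rfl fun j hj => ?_
    have a1 : C * (μ ^ 4)⁻¹ ≤ |C| * μ⁻¹ :=
      mul_le_mul (le_abs_self C) (inv_anti₀ hμ0 hm) (by positivity) (abs_nonneg _)
    have a2 : |s - 1| ≤ (μ ^ 4)⁻¹ := by
      rw [abs_sub_comm, abs_of_nonneg (by linarith)]
      nlinarith
    have a3 : μ ^ (j + 1) ≤ μ ^ 3 := pow_le_pow_right₀ hμ1 (by omega)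
    have a4 : |s - 1| * μ ^ (j + 1) ≤ (μ ^ 4)⁻¹ * μ ^ 3 :=
      mul_le_mul a2 a3 (by positivity) (by positivity)
    have a5 : (μ ^ 4)⁻¹ * μ ^ 3 = μ⁻¹ := by field_simp
    linarith

end Crest.Agent.R216
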