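import Crest.Agent.R216.SmallA

/-! # Row 216, the small-amplitude step -/

set_option autoImplicit false
open Set Filter Metric
open scoped ContDiff RealInnerProductSpace Topology

noncomputable section
namespace Crest.Agent.R216

/-- **Small step.**  Universal family: outer index `(n, B) : ℕ × (ℕ → ℝ)`, inner index the subtype
of all admissible `(n, B, m, G, a, es, et, l, α, κ, τ)` with `0 < τ ≤ 1`, `α ≤ τ⁴`.
`Z = tsupport a`, `O = {x | (2m)⁻¹ < g3 Gs Gt Gtt}` (`Gtt = d2 G x et et`, `d2_apply`), frames from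
`exists_frames` (`C = 2`, exponent `1`), `q1 = 0`, `q2 = √2 cos θ`, `im = 1`, `β = α`,
`ip` = `Sx.rinv` of `rho² + a² q2²` (`rho ≥ 1/|irho|` on `O`), `iA` by `Sx.inv_weight` applied to
`a² + κ²`, `hq = a * (a * (q2² - 1))` with `|a| + κ ≤ 2α`, `Sy.indicator` for the weight `w`.
Choose one `K` for all data (`Sx.sy_ge`), apply `step_core` at the scale `m^(K+1)` (the data, except
the field `τ`, do not depend on `τ`), get `k`, put `τ = (m^((K+1)(k+k₀+1)))⁻¹` where `k₀` is the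
exponent of `Cl.U0`; `c` = a large multiple.  `V = ev l ε U`; `U = U0 + (U - U0)` has weight
`w ≤ 2α`; `norm_iteratedFDeriv_ev`, `SD.metric_error` with
`|R| ≤ B₀ w τ^(n'+3) + B₀ κ²`, `n'` large (`τ ≤ m⁻¹`). -/
theorem small_step : ∃ c : ℕ, 1 ≤ c ∧ ∀ (n : ℕ) (B : ℕ → ℝ), ∃ B' : ℕ → ℝ, (∀ j, 0 ≤ B' j) ∧
    ∀ (m : ℝ) (G : E2 → E4) (a : E2 → ℝ) (es et : E2) (l : E2 →L[ℝ] ℝ) (α κ : ℝ),
      l es = 1 → l et = 0 → ‖et‖ = 1 → ‖es‖ ≤ m → ‖l‖ ≤ m →
      Bd B m (fun _ => m) G → Bd B m (fun x => (|a x| + κ) * m) a →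
      tsupport a ⊆ closedBall 0 2 →
      (∀ x ∈ tsupport a, m⁻¹ ≤ g3 (fderiv ℝ G x es) (fderiv ℝ G x et) (d2 G x et et)) →
      (∀ x, |a x| ≤ α) → α ≤ (m ^ c)⁻¹ → 0 < κ → κ ≤ α →
      ∃ V : E2 → E4, Bd B' (m ^ c) (fun _ => α * m ^ c) V ∧ (∀ x, x ∉ tsupport a → V x = 0) ∧
        ∀ x, ‖pb (fun y => G y + V y) x - pb G x - a x ^ 2 • sq2 l‖
          ≤ B' 0 * ((m ^ n)⁻¹ + κ ^ 2 * m ^ c) := by
  obtain ⟨K, d, hcl, hd⟩ := small_cl
  obtain ⟨k, hk⟩ := step_core hcl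
  obtain ⟨k₀, B0, hU0⟩ := hcl.U0
  set e := (K + 1) * (k + k₀ + 1) with he
  have he1 : K + 1 ≤ e := by rw [he]; nlinarith [Nat.zero_le ((K + 1) * (k + k₀))]
  have hek : (K + 1) * k ≤ e := by rw [he]; exact Nat.mul_le_mul_left _ (by omega)
  have hek0 : (K + 1) * k₀ ≤ e := by rw [he]; exact Nat.mul_le_mul_left _ (by omega)
  refine ⟨5 * e + 1, by omega, fun n B => ?_⟩
  obtain ⟨Bn, hBn⟩ := hk (n + 1)
  refine ⟨fun j => 2 * 2 ^ j * (|B0 B j| + |Bn B j|) + 8 * |Bn B 0|, fun j => by positivity, ?_⟩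
  intro m G a es et l α κ h1 h0 het hes hl hG ha hs h3 hα hαc hκ hκα
  have hm : 1 ≤ m := hG.one_le
  have hm0 : 0 < m := zero_lt_one.trans_le hm
  have hpw : ∀ {p q : ℕ}, p ≤ q → m ^ p ≤ m ^ q := fun h => pow_le_pow_right₀ hm h
  set τ : ℝ := (m ^ e)⁻¹ with hτ
  have hτ0 : 0 < τ := by positivity
  have hτm : τ ≤ m⁻¹ := inv_anti₀ hm0 (by simpa using hpw (show 1 ≤ e by omega))
  have hτ1 : τ ≤ 1 := hτm.trans (inv_le_one_of_one_le₀ hm)
  have hτ4 : τ ^ 4 = (m ^ (4 * e))⁻¹ := by rw [hτ, inv_pow, ← pow_mul, mul_comm]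
  have hατ : α ≤ τ ^ 4 := by
    rw [hτ4]; exact hαc.trans (inv_anti₀ (by positivity) (hpw (by omega)))
  have hα1 : α ≤ 1 := hατ.trans (pow_le_one₀ hτ0.le hτ1)
  have hα0 : 0 < α := hκ.trans_le hκα
  let i : SI := ⟨B, m, G, a, es, et, α, κ, τ, het, hes, hG, ha, hs, h3, hα, hκ, hκα, hτ0, hτ1, hατ⟩
  obtain ⟨eG, ea, ees, eet, eZ, eκ, eτ⟩ := hd i
  change (d i).G = G at eG
  change (d i).a = a at ea
  change (d i).es = es at ees
  change (d i).et = et at eet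
  change (d i).Z = tsupport a at eZ
  change (d i).κ = κ at eκ
  change (d i).τ = τ at eτ
  obtain ⟨U, Φ2, Φ3, st⟩ := hBn i (by
    change (d i).τ * (m ^ (K + 1)) ^ k ≤ 1
    rw [eτ, ← pow_mul, hτ, inv_mul_le_iff₀ (by positivity), mul_one]
    exact hpw hek)
  have hU0' := hU0 i
  change Bd (B0 B) (m ^ (K + 1)) (fun z : E2 × ℝ => (d i).w z.1 * (m ^ (K + 1)) ^ k₀)
    (d i).U0 at hU0'
  change (d i).St (Bn B) (m ^ (K + 1)) ((d i).τ ^ (n + 1 + 3)) U Φ2 Φ3 at st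
  have ok := hcl.ok i
  have hw0 : ∀ x, 0 ≤ (d i).w x := ok.w_nonneg
  have hw : ∀ x, (d i).w x ≤ 2 * α := fun x => by
    unfold SD.w
    by_cases hx : x ∈ (d i).Z
    · rw [indicator_of_mem hx, ea, eκ]; linarith [hα x]
    · rw [indicator_of_notMem hx]; positivity
  have hUe : U = fun z => (U z - (d i).U0 z) + (d i).U0 z := by ext1 z; simp
  have hU : ContDiff ℝ ∞ U := by rw [hUe]; exact st.dU.smooth.add hU0'.smooth
  have hε : (d i).ε = (m ^ (4 * e))⁻¹ := by rw [SD.ε, eτ, hτ4]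
  have hε0 : 0 < (d i).ε := ok.ε_pos
  have hε1 : (d i).ε ≤ 1 := by rw [SD.ε, eτ]; exact pow_le_one₀ hτ0.le hτ1
  have hDU : ∀ j z, ‖iteratedFDeriv ℝ j U z‖
      ≤ (|B0 B j| + |Bn B j|) * (2 * α) * m ^ e * (m ^ e) ^ j := fun j z => by
    have e1 : iteratedFDeriv ℝ j U z = iteratedFDeriv ℝ j (fun z => U z - (d i).U0 z) z
        + iteratedFDeriv ℝ j (d i).U0 z := by
      conv_lhs => rw [hUe]
      exact fun_iteratedFDeriv_add_apply (st.dU.smooth.contDiffAt.of_le (by exact_mod_cast le_top))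
        (hU0'.smooth.contDiffAt.of_le (by exact_mod_cast le_top))
    have b1 := st.dU.bound j z
    have b2 := hU0'.bound j z
    have p1 : (m ^ (K + 1)) ^ j ≤ (m ^ e) ^ j := pow_le_pow_left₀ (by positivity) (hpw he1) j
    have p2 : (m ^ (K + 1)) ^ k₀ ≤ m ^ e := by rw [← pow_mul]; exact hpw hek0
    have p3 : (d i).τ ^ 2 ≤ m ^ e := by
      rw [eτ]; exact (pow_le_one₀ hτ0.le hτ1).trans (one_le_pow₀ hm)
    have q1 : Bn B j * ((d i).w z.1 * (d i).τ ^ 2) * (m ^ (K + 1)) ^ j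
        ≤ |Bn B j| * (2 * α * m ^ e) * (m ^ e) ^ j := by
      have := hw0 z.1; have := hw z.1
      gcongr
      exact le_abs_self _
    have q2 : B0 B j * ((d i).w z.1 * (m ^ (K + 1)) ^ k₀) * (m ^ (K + 1)) ^ j
        ≤ |B0 B j| * (2 * α * m ^ e) * (m ^ e) ^ j := by
      have := hw0 z.1; have := hw z.1
      gcongr
      exact le_abs_self _
    rw [e1]
    refine (norm_add_le _ _).trans ?_
    nlinarith
  refine ⟨ev l (d i).ε U, ⟨contDiff_ev hU, one_le_pow₀ hm, fun j => by positivity,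
    fun _ => by positivity, fun j x => ?_⟩, fun x hx => ?_, fun x => ?_⟩
  · refine (norm_iteratedFDeriv_ev hU hε0 hε1 j x).trans ?_
    have r1 : (1 + ‖l‖) / (d i).ε ≤ 2 * m ^ (4 * e + 1) := by
      rw [hε, div_inv_eq_mul, pow_succ]
      nlinarith [pow_pos hm0 (4 * e)]
    have r2 : m ^ e ≤ m ^ (5 * e + 1) := hpw (by omega)
    have r3 : (m ^ e) ^ j * (2 * m ^ (4 * e + 1)) ^ j = 2 ^ j * (m ^ (5 * e + 1)) ^ j := by
      rw [← mul_pow, ← mul_pow]; congr 1; ring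
    calc (d i).ε * ‖iteratedFDeriv ℝ j U (ph l (d i).ε x)‖ * ((1 + ‖l‖) / (d i).ε) ^ j
        ≤ 1 * ((|B0 B j| + |Bn B j|) * (2 * α) * m ^ (5 * e + 1) * (m ^ e) ^ j)
          * (2 * m ^ (4 * e + 1)) ^ j := by
          gcongr
          refine (hDU j _).trans ?_
          gcongr
      _ = (2 * 2 ^ j * (|B0 B j| + |Bn B j|)) * (α * m ^ (5 * e + 1)) * (m ^ (5 * e + 1)) ^ j := by
          rw [mul_assoc, mul_assoc _ ((m ^ e) ^ j), r3]; ring
      _ ≤ _ := by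
          gcongr
          exact le_add_of_nonneg_right (by positivity)
  · have hx' : x ∉ (d i).Z := by rwa [eZ]
    have z1 := st.dU.norm_le (ph l (d i).ε x)
    have z2 := hU0'.norm_le (ph l (d i).ε x)
    simp only [ph, ok.w_eq_zero hx', zero_mul, mul_zero, norm_le_zero_iff] at z1 z2
    rw [z2, sub_zero] at z1
    simp [ev, ph, z1]
  · set b := |Bn B 0| * (2 * τ ^ (n + 4) + κ ^ 2) with hb
    have hS : ∀ z : E2 × ℝ, Bn B 0 * ((d i).w z.1 * (d i).τ ^ (n + 1 + 3))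
        ≤ |Bn B 0| * (2 * τ ^ (n + 4)) := fun z => by
      have := hw0 z.1; have h2 : (d i).w z.1 ≤ 2 := by linarith [hw z.1]
      rw [eτ]
      gcongr
      exact le_abs_self _
    have hF : Bn B 0 * (d i).κ ^ 2 ≤ |Bn B 0| * κ ^ 2 := by
      rw [eκ]; gcongr; exact le_abs_self _
    have hκb : 0 ≤ |Bn B 0| * κ ^ 2 := by positivity
    have b1 : |(d i).R1 U (ph l (d i).ε x)| ≤ b := by
      have := (st.r1.norm_le (ph l (d i).ε x)).trans (hS _)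
      rw [Real.norm_eq_abs] at this
      rw [hb, mul_add]; linarith
    have b2 : |(d i).R2 U (ph l (d i).ε x)| ≤ b := by
      have t1 := (st.r2.norm_le (ph l (d i).ε x)).trans (hS _)
      have t2 := (st.fl2.norm_le (ph l (d i).ε x)).trans hF
      rw [Real.norm_eq_abs] at t1 t2
      have := abs_add_le ((d i).R2 U (ph l (d i).ε x) - Φ2 (ph l (d i).ε x)) (Φ2 (ph l (d i).ε x))
      rw [sub_add_cancel] at this
      rw [hb, mul_add]; linarith
    have b3 : |(d i).R3 U (ph l (d i).ε x)| ≤ b := by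
      have t1 := (st.r3.norm_le (ph l (d i).ε x)).trans (hS _)
      have t2 := (st.fl3.norm_le (ph l (d i).ε x)).trans hF
      rw [Real.norm_eq_abs] at t1 t2
      have := abs_add_le ((d i).R3 U (ph l (d i).ε x) - Φ3 (ph l (d i).ε x)) (Φ3 (ph l (d i).ε x))
      rw [sub_add_cancel] at this
      rw [hb, mul_add]; linarith
    have key := (d i).metric_error (by rw [eG]; exact hG.smooth) hU (l := l) (by rw [ees, h1])
      (by rw [eet, h0]) (by rw [eet, het]) hε0 hε1 x b1 b2 b3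
    rw [eG, ea, ees] at key
    refine key.trans ?_
    have s1 : ((‖es‖ + 1) * ‖l‖) ^ 2 ≤ 4 * m ^ 4 := by
      calc ((‖es‖ + 1) * ‖l‖) ^ 2 ≤ ((m + m) * m) ^ 2 := by gcongr
        _ = 4 * m ^ 4 := by ring
    have s2 : m ^ 4 * τ ^ (n + 4) ≤ (m ^ n)⁻¹ := by
      calc m ^ 4 * τ ^ (n + 4) ≤ m ^ 4 * (m⁻¹) ^ (n + 4) := by gcongr
        _ = (m ^ n)⁻¹ := by rw [inv_pow, pow_add]; field_simp
    have s3 : m ^ 4 ≤ m ^ (5 * e + 1) := hpw (by omega)
    have s4 : 0 ≤ κ ^ 2 * m ^ (5 * e + 1) := by positivity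
    calc ((‖es‖ + 1) * ‖l‖) ^ 2 * b ≤ 4 * m ^ 4 * b := by gcongr
      _ = |Bn B 0| * (8 * (m ^ 4 * τ ^ (n + 4)) + 4 * (κ ^ 2 * m ^ 4)) := by rw [hb]; ring
      _ ≤ |Bn B 0| * (8 * (m ^ n)⁻¹ + 8 * (κ ^ 2 * m ^ (5 * e + 1))) := by
          have : 4 * (κ ^ 2 * m ^ 4) ≤ 8 * (κ ^ 2 * m ^ (5 * e + 1)) := by
            have : κ ^ 2 * m ^ 4 ≤ κ ^ 2 * m ^ (5 * e + 1) := by gcongr
            linarith
          gcongr
      _ = 8 * |Bn B 0| * ((m ^ n)⁻¹ + κ ^ 2 * m ^ (5 * e + 1)) := by ring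
      _ ≤ _ := by
          gcongr
          exact le_add_of_nonneg_left (by positivity)

end Crest.Agent.R216
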