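import Crest.Agent.R216.StepC
import Crest.Agent.R216.Frames
import Crest.Agent.R216.Eval

/-! # Row 216, the universal family of small steps -/

set_option autoImplicit false
open Set Filter Metric
open scoped ContDiff RealInnerProductSpace Topology

noncomputable section
namespace Crest.Agent.R216

theorem Sx.rinv' {X : Type*} [NormedAddCommGroup X] [NormedSpace ℝ X] {J N : Type*} {π : J → N}
    {μ : J → ℝ} {f : J → X → ℝ} (hμ : ∀ i, 1 ≤ μ i) (h : Sx π μ (fun _ _ => 1) f) (C : N → ℝ)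
    (hC : ∀ n, 0 < C n) (m : ℕ) : ∃ g : J → X → ℝ, Sx π μ (fun _ _ => 1) g ∧
      (∀ i x y, f i x = f i y → g i x = g i y) ∧
      ∀ i x, (C (π i) * μ i ^ m)⁻¹ ≤ f i x → g i x = (f i x)⁻¹ := by
  obtain ⟨φ, h1, h2⟩ := exists_rinv
  have hL : ∀ i, 0 < C (π i) * μ i ^ m := fun i =>
    mul_pos (hC _) (pow_pos (zero_lt_one.trans_le (hμ i)) _)
  have sc : ∀ {u : J → X → ℝ}, Sx π μ (fun _ _ => 1) u →
      Sx π μ (fun _ _ => 1) (fun i x => (C (π i) * μ i ^ m) • u i x) := fun {u} hu =>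
    (hu.fam_smul (fun i => C (π i) * μ i ^ m)).of_le hμ (fun _ _ => zero_le_one) m C
      (fun i x => by rw [abs_of_pos (hL i)]; simp)
  refine ⟨_, sc ((sc h).comp hμ h1), fun i x y hxy => by simp only [hxy], fun i x hx => ?_⟩
  have h3 := hL i
  have h4 : 0 < f i x := (inv_pos.2 h3).trans_le hx
  rw [inv_le_iff_one_le_mul₀' h3] at hx
  simp only [smul_eq_mul]
  rw [h2 _ hx]
  generalize C (π i) * μ i ^ m = L at *
  field_simp

/-- admissible data of a small step -/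
structure SI where
  B : ℕ → ℝ
  m : ℝ
  G : E2 → E4
  a : E2 → ℝ
  es : E2
  et : E2
  α : ℝ
  κ : ℝ
  τ : ℝ
  het : ‖et‖ = 1
  hes : ‖es‖ ≤ m
  hG : Bd B m (fun _ => m) G
  ha : Bd B m (fun x => (|a x| + κ) * m) a
  hs : tsupport a ⊆ closedBall 0 2
  h3 : ∀ x ∈ tsupport a, m⁻¹ ≤ g3 (fderiv ℝ G x es) (fderiv ℝ G x et) (d2 G x et et)
  hα : ∀ x, |a x| ≤ α
  κ_pos : 0 < κ
  κ_le : κ ≤ α
  τ_pos : 0 < τ
  τ_le : τ ≤ 1
  ατ : α ≤ τ ^ 4

theorem mean_cos_sq (x : E2) :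
    mean (fun z : E2 × ℝ => (√2 * Real.cos z.2) ^ 2) x = 1 := by
  have : ∀ θ : ℝ, (√2 * Real.cos θ) ^ 2 = 2 * Real.cos θ ^ 2 := fun θ => by
    rw [mul_pow, Real.sq_sqrt (by norm_num)]
  simp only [mean, this, intervalIntegral.integral_const_mul, integral_cos_sq, smul_eq_mul]
  simp
  field_simp

theorem mean_cos (x : E2) : mean (fun z : E2 × ℝ => √2 * Real.cos z.2) x = 0 := by
  simp [mean, intervalIntegral.integral_const_mul]

theorem continuous_g3 {X W : Type*} [TopologicalSpace X] [NormedAddCommGroup W]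
    [InnerProductSpace ℝ W] {u v z : X → W} (hu : Continuous u) (hv : Continuous v)
    (hz : Continuous z) : Continuous (fun x => g3 (u x) (v x) (z x)) := by
  unfold g3
  fun_prop

theorem small_cl : ∃ (K : ℕ) (d : SI → SD),
    Cl (fun i : SI => i.B) (fun i => i.m ^ (K + 1)) d ∧
    ∀ i, (d i).G = i.G ∧ (d i).a = i.a ∧ (d i).es = i.es ∧ (d i).et = i.et ∧
      (d i).Z = tsupport i.a ∧ (d i).κ = i.κ ∧ (d i).τ = i.τ := by
  set π : SI → ℕ → ℝ := fun i => i.B with hπ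
  set μ : SI → ℝ := fun i => i.m with hμd
  have hμ : ∀ i, 1 ≤ μ i := fun i => i.hG.one_le
  have hα1 : ∀ i : SI, i.α ≤ 1 := fun i => i.ατ.trans (pow_le_one₀ i.τ_pos.le i.τ_le)
  have hα0 : ∀ i : SI, 0 ≤ i.α := fun i => (i.κ_pos.trans_le i.κ_le).le
  have hG : Sx π μ (fun _ _ => 1) (fun i => i.G) := by
    refine Sy.toSx ⟨1, fun B => B, fun i => ?_⟩
    simpa using i.hG
  have hs : Sx π μ (fun _ _ => 1) (fun i x => fderiv ℝ i.G x i.es) :=
    hG.dir hμ (fun i => i.es) (fun i => i.hes)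
  have het : ∀ i : SI, ‖i.et‖ ≤ μ i := fun i => by rw [i.het]; exact hμ i
  have hu : Sx π μ (fun _ _ => 1) (fun i x => fderiv ℝ i.G x i.et) :=
    hG.dir hμ (fun i => i.et) het
  have hv : Sx π μ (fun _ _ => 1)
      (fun i x => fderiv ℝ (fun y => fderiv ℝ i.G y i.et) x i.et) := hu.dir hμ (fun i => i.et) het
  obtain ⟨f1, f2, e0, nu, rho, irho, hf1, hf2, he0, hnu, hrho, hirho, hfr⟩ :=
    exists_frames hμ hs hu hv (fun _ => 2) (fun _ => by norm_num) 1
  have ha0 : Sy π μ (fun i x => |i.a x| + i.κ) (fun i => i.a) :=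
    ⟨1, fun B => B, fun i => by simpa using i.ha⟩
  have haw : Sy π μ (fun i => (tsupport i.a).indicator (fun x => |i.a x| + i.κ)) (fun i => i.a) :=
    ha0.indicator (fun i => isClosed_tsupport _) (fun i x hx => image_eq_zero_of_notMem_tsupport hx)
  have haα : Sy π μ (fun i _ => i.α) (fun i => i.a) :=
    ha0.of_le (fun i _ => hα0 i) 0 (fun _ => 2) (fun i x => by
      have := i.hα x; have := i.κ_le; simp only [pow_zero]; linarith)
  have ha1 : Sx π μ (fun _ _ => 1) (fun i => i.a) := (haα.mono (fun i _ => hα1 i)).toSx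
  have hq2 : Sx π μ (fun _ _ => 1) (fun _ (z : E2 × ℝ) => √2 * Real.cos z.2) :=
    (Sx.fixed hμ Bdd.cos_snd).const_mul _
  have hf : Sx π μ (fun _ _ => 1) (fun i (z : E2 × ℝ) =>
      rho i z.1 * rho i z.1 + (i.a z.1 * (√2 * Real.cos z.2)) * (i.a z.1 * (√2 * Real.cos z.2))) :=
    Sx.add hμ (hrho.fst.mul1 hμ hrho.fst)
      ((ha1.fst.mul1 hμ hq2).mul1 hμ (ha1.fst.mul1 hμ hq2))
  obtain ⟨k, C, hC, hk⟩ := hirho.norm_le
  obtain ⟨ip, hip, hipe, hipi⟩ := Sx.rinv' hμ hf (fun n => C n ^ 2)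
    (fun n => pow_pos (zero_lt_one.trans_le (hC n)) 2) (2 * k)
  have hA : Sx π μ (fun i x => i.a x ^ 2 + i.κ ^ 2) (fun i x => i.a x ^ 2 + i.κ ^ 2) := by
    have hpos : ∀ (i : SI) x, 0 ≤ i.a x ^ 2 + i.κ ^ 2 := fun i x => by positivity
    have h1 : Sy π μ (fun i x => i.a x ^ 2 + i.κ ^ 2) (fun i x => i.a x * i.a x) :=
      (ha0.mul ha0).of_le hpos 0 (fun _ => 2) (fun i x => by
        have := sq_abs (i.a x)
        simp only [pow_zero]
        nlinarith [sq_nonneg (|i.a x| - i.κ)])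
    have h2 : Sy π μ (fun i x => i.a x ^ 2 + i.κ ^ 2) (fun i (_ : E2) => i.κ ^ 2) :=
      (Sy.const hμ (fun i => i.κ ^ 2)).mono (fun i x => by
        rw [Real.norm_eq_abs, abs_of_nonneg (sq_nonneg _)]
        nlinarith [sq_nonneg (i.a x)])
    exact ((h1.add h2).congr (fun i x => by ring)).toSx
  have hiA := Sx.inv_weight hμ (fun i x => by have := i.κ_pos; positivity) hA
  have hone : Sx π μ (fun _ _ => 1) (fun _ (_ : E2) => (1 : ℝ)) :=
    ((Sy.const hμ (fun _ => (1 : ℝ))).mono (fun i x => by simp)).toSx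
  have hhq : Sx π μ
      (fun i (z : E2 × ℝ) => (tsupport i.a).indicator (fun x => |i.a x| + i.κ) z.1 * i.α)
      (fun i z => i.a z.1 * (i.a z.1 * ((√2 * Real.cos z.2) * (√2 * Real.cos z.2) - 1))) := by
    have h1 := Sx.sub hμ (hq2.mul1 hμ hq2) hone.fst
    have h2 := (haα.toSx.fst.mul hμ h1)
    exact (haw.toSx.fst.mul hμ h2).mono (fun i z => by simp)
  obtain ⟨K1, s1⟩ := hG.sy_ge hμ
  obtain ⟨K2, s2⟩ := haw.toSx.sy_ge hμ
  obtain ⟨K3, s3⟩ := hq2.sy_ge hμ
  obtain ⟨K4, s4⟩ := hip.sy_ge hμ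
  obtain ⟨K5, s5⟩ := hf1.sy_ge hμ
  obtain ⟨K6, s6⟩ := hf2.sy_ge hμ
  obtain ⟨K7, s7⟩ := he0.sy_ge hμ
  obtain ⟨K8, s8⟩ := hnu.sy_ge hμ
  obtain ⟨K9, s9⟩ := hrho.sy_ge hμ
  obtain ⟨K10, s10⟩ := hirho.sy_ge hμ
  obtain ⟨K11, s11⟩ := hone.sy_ge hμ
  obtain ⟨K12, s12⟩ := hiA.sy_ge hμ
  obtain ⟨K13, s13⟩ := hhq.sy_ge hμ
  set K := K1 + K2 + K3 + K4 + K5 + K6 + K7 + K8 + K9 + K10 + K11 + K12 + K13 with hK
  have hμK : ∀ i, μ i ≤ μ i ^ (K + 1) := fun i => le_self_pow₀ (hμ i) (by omega)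
  have hμK1 : ∀ i, 1 ≤ μ i ^ (K + 1) := fun i => (hμ i).trans (hμK i)
  let d : SI → SD := fun i =>
    { G := i.G, a := i.a, q1 := fun _ => 0, q2 := fun z => √2 * Real.cos z.2, f1 := f1 i,
      f2 := f2 i, e0 := e0 i, nu := nu i, rho := rho i, irho := irho i, im := fun _ => 1,
      ip := ip i, es := i.es, et := i.et, Z := tsupport i.a,
      O := {x | (2 * μ i ^ 1)⁻¹ < g3 (fderiv ℝ i.G x i.es) (fderiv ℝ i.G x i.et)
        (fderiv ℝ (fun y => fderiv ℝ i.G y i.et) x i.et)},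
      κ := i.κ, τ := i.τ, β := i.α }
  have hsub : ∀ i, (d i).Z ⊆ (d i).O := fun i x hx => by
    have h := i.h3 x hx
    rw [d2_apply i.hG.smooth.contDiffAt] at h
    refine lt_of_lt_of_le ?_ h
    have := zero_lt_one.trans_le (hμ i)
    rw [pow_one]
    exact inv_strictAnti₀ this (by simp only [hμd] at *; linarith)
  have hfr' : ∀ i, ∀ x ∈ (d i).O, Fr ((d i).Gs x) ((d i).Gt x) ((d i).Gtt x) ((d i).f1 x)
      ((d i).f2 x) ((d i).e0 x) ((d i).nu x) ((d i).rho x) ((d i).irho x) :=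
    fun i x hx => hfr i x (le_of_lt hx)
  refine ⟨K, d, ?_, fun i => ⟨rfl, rfl, rfl, rfl, rfl, rfl, rfl⟩⟩
  refine
    { ok := fun i => ?_
      G := s1 K (by omega)
      a := s2 K (by omega)
      a_le := fun i x => ((i.hα x).trans (hα1 i)).trans (hμK1 i)
      es_le := fun i => i.hes.trans (hμK i)
      q1 := Sy.zero hμK1 (fun _ _ => zero_le_one)
      q2 := s3 K (by omega)
      ip := s4 K (by omega)
      f1 := s5 K (by omega)
      f2 := s6 K (by omega)
      e0 := s7 K (by omega)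
      nu := s8 K (by omega)
      rho := s9 K (by omega)
      irho := s10 K (by omega)
      im := s11 K (by omega)
      iA := s12 K (by omega)
      hq := (s13 K (by omega)).congr (fun i z => by simp only [d, SD.hq]; ring) }
  refine
    { closed := isClosed_tsupport _
      isOpen := isOpen_lt continuous_const
        (continuous_g3 (hs.smooth i).continuous (hu.smooth i).continuous (hv.smooth i).continuous)
      sub := hsub i
      ball := i.hs
      norm_et := i.het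
      κ_pos := i.κ_pos
      κ_le := i.κ_le.trans (hα1 i)
      τ_pos := i.τ_pos
      τ_le := i.τ_le
      β_nonneg := hα0 i
      β_le := i.ατ
      a_zero := fun x hx => image_eq_zero_of_notMem_tsupport hx
      per1 := fun _ _ => rfl
      per2 := fun x θ => by simp [d]
      perp := fun x θ => hipe i _ _ (by simp)
      even1 := fun _ _ => rfl
      even2 := fun x θ => by simp [d]
      fr := hfr' i
      mean1 := fun x _ => by simp [d, mean]
      mean2 := fun x _ => mean_cos x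
      meansq := fun x _ => by simpa [d] using mean_cos_sq x
      im_mul := fun x _ => by simpa [d] using mean_cos_sq x
      ip_mul := fun x hx θ => ?_ }
  have F := hfr' i x (hsub i hx)
  have h1 := F.irho_mul
  have h2 := F.rho_pos
  have h3 := hk i x
  simp only [d] at h1 h2
  simp only [mul_one, Real.norm_eq_abs] at h3
  have hL : 0 < C (π i) * μ i ^ k :=
    mul_pos (zero_lt_one.trans_le (hC _)) (pow_pos (zero_lt_one.trans_le (hμ i)) _)
  have h4 : 1 ≤ C (π i) * μ i ^ k * rho i x := by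
    rw [← h1]
    exact mul_le_mul_of_nonneg_right ((le_abs_self _).trans h3) h2.le
  have h5 : (C (π i) ^ 2 * μ i ^ (2 * k))⁻¹ ≤ rho i x * rho i x := by
    have e : C (π i) ^ 2 * μ i ^ (2 * k) = (C (π i) * μ i ^ k) ^ 2 := by ring
    rw [e, inv_le_iff_one_le_mul₀' (by positivity)]
    nlinarith
  have h6 := hipi i (x, θ) (h5.trans (le_add_of_nonneg_right (mul_self_nonneg _)))
  have h7 : 0 < rho i x * rho i x + (i.a x * (√2 * Real.cos θ)) * (i.a x * (√2 * Real.cos θ)) :=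
    add_pos_of_pos_of_nonneg (mul_pos h2 h2) (mul_self_nonneg _)
  simp only [d, SD.p1, SD.p2, mul_zero, add_zero]
  rw [h6, sq, sq]
  exact inv_mul_cancel₀ h7.ne'

end Crest.Agent.R216
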