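import Crest.Agent.R216.Smooth1
import Crest.Agent.R216.AtlL3

/-! # Row 216, smoothing on the surface -/

set_option autoImplicit false
set_option maxSynthPendingDepth 3
open Set Filter Metric
open scoped ContDiff RealInnerProductSpace Topology

noncomputable section
namespace Crest.Agent.R216

variable {M : Type*} [TopologicalSpace M] [T2Space M] (A : Atl E2 M)

omit [T2Space M] in
private theorem Smooth2_sum {κ : Type*} (s : Finset κ) {D : ℕ} {F : κ → M → E4} {b : ℝ}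
    (hF : ∀ k, A.Sm (F k)) (h : ∀ k, A.CB D (F k) (fun _ => b)) :
    A.CB D (fun y => ∑ k ∈ s, F k y) (fun _ => s.card * b) := by
  classical
  induction s using Finset.induction_on with
  | empty => intro a j _ x _; simp
  | insert k s hk ih =>
    simp only [Finset.sum_insert hk, Finset.card_insert_of_notMem hk]
    refine (Atl.CB.add (hF k) (Atl.Sm.sum s fun k _ => hF k) (h k) ih).mono le_rfl fun j _ => ?_
    push_cast
    linarith

private theorem Smooth2_glue {χ : A.ι → E2 → ℝ} (hχ : ∀ a, ContDiff ℝ ∞ (χ a))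
    (hs : ∀ a, tsupport (χ a) ⊆ ball 0 (3 / 2)) (D : ℕ) : ∃ C : ℝ, 0 ≤ C ∧
    ∀ (w : A.ι → E2 → E4) (b : ℝ), 0 ≤ b → (∀ a, ContDiff ℝ ∞ (w a)) →
      (∀ a, ∀ j ≤ D, ∀ x, ‖iteratedFDeriv ℝ j (w a) x‖ ≤ b) →
      A.Sm (fun y => ∑ a, A.push a (fun x => χ a x • w a x) y) ∧
      A.CB D (fun y => ∑ a, A.push a (fun x => χ a x • w a x) y) (fun _ => C * b) := by
  have hs2 : ∀ a, tsupport (χ a) ⊆ closedBall 0 2 := fun a =>
    (hs a).trans (ball_subset_closedBall.trans (closedBall_subset_closedBall (by norm_num)))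
  choose Cc hCc1 hCc using fun a => norm_iteratedFDeriv_cut (W := E4) (hχ a) (hs2 a) D
  obtain ⟨C₀, hC₀, hC⟩ := AtlL3_max Cc
  obtain ⟨Cp, hCp1, hCp⟩ := A.CB_push (W := E4) D
  refine ⟨Fintype.card A.ι * (Cp * C₀), by positivity, fun w b hb hw hbd => ?_⟩
  have h0 : ∀ a x, x ∉ closedBall (0 : E2) 2 → χ a x • w a x = 0 := fun a x hx => by
    rw [image_eq_zero_of_notMem_tsupport fun h => hx (hs2 a h), zero_smul]
  have hsm : ∀ a, A.Sm (A.push a fun x => χ a x • w a x) := fun a =>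
    A.Sm_push a ((hχ a).smul (hw a))
      (HasCompactSupport.intro (isCompact_closedBall (0 : E2) 2) (h0 a))
  refine ⟨Atl.Sm.sum _ fun a _ => hsm a, ?_⟩
  refine (Smooth2_sum A Finset.univ (b := Cp * (C₀ * b)) hsm fun a => ?_).mono le_rfl
    fun j _ => le_of_eq ?_
  · refine hCp a _ _ ((hχ a).smul (hw a)) (h0 a) fun j hj x => ?_
    exact (hCc a (w a) b (hw a) (fun i hi z _ => hbd a i hi z) j hj x).trans
      (mul_le_mul_of_nonneg_right (hC a) hb)
  · rw [Finset.card_univ]; ring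

private theorem Smooth2_zero {W : Type*} [NormedAddCommGroup W] [NormedSpace ℝ W] (u : E2 → W)
    (x : E2) (hx : x ∉ closedBall (0 : E2) 2) : zeta x • u x = 0 := by
  rw [image_eq_zero_of_notMem_tsupport fun h => hx (tsupport_zeta h), zero_smul]

private theorem Smooth2_pow {μ : ℝ} (hμ : 1 ≤ μ) {D k n : ℕ} (h : k + n ≤ 3 * D) :
    (μ ^ 3)⁻¹ ^ D * μ ^ k ≤ (μ ^ n)⁻¹ := by
  have h0 : 0 < μ := by linarith
  rw [inv_pow, ← pow_mul, inv_mul_le_iff₀ (by positivity), ← div_eq_mul_inv,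
    le_div_iff₀ (by positivity), ← pow_add]
  exact pow_le_pow_right₀ hμ h

/-- `F' = Σ_a push a (χ a • v a)`, `v a` the smoothing of `zeta • (F ∘ p a)` with `ℓ = μ⁻³`,
`D₁ = n + m + 1`, `D = m + D₁` (`χ` from `exists_pou`; `F = Σ push a (χ a • zeta • F ∘ p a)`);
`norm_iteratedFDeriv_cut`, `CB_push`. -/
theorem exists_smooth_map (n m : ℕ) : ∃ D : ℕ, ∃ B : ℕ → ℝ, (∀ j, 0 ≤ B j) ∧
    ∀ μ : ℝ, 1 ≤ μ → ∀ F : M → E4, A.Sm F → A.CB D F (fun j => μ ^ (j + 1)) →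
      ∃ F' : M → E4, A.Sm F' ∧ (∀ D', A.CB D' F' (fun j => B j * μ ^ (3 * j + 7))) ∧
        A.CB m (fun y => F' y - F y) (fun _ => B 0 * (μ ^ n)⁻¹) := by
  obtain ⟨χ, hχ, hs, -, hsum⟩ := A.exists_pou
  choose C hC0 hC using Smooth2_glue A hχ hs
  obtain ⟨Bs, hBs0, hBs⟩ := exists_smoothing (W := E4) (n + m + 1)
  obtain ⟨Z₀, hZ₀1, hZ₀⟩ := norm_iteratedFDeriv_cut (W := E4) zeta.contDiff tsupport_zeta 0
  obtain ⟨Z, hZ1, hZ⟩ := norm_iteratedFDeriv_cut (W := E4) zeta.contDiff tsupport_zeta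
    (m + (n + m + 1))
  have hS0 : ∀ j, 0 ≤ ∑ i ∈ Finset.range (j + 1), Bs i := fun j =>
    Finset.sum_nonneg fun i _ => hBs0 i
  refine ⟨m + (n + m + 1), fun j => C j * ((∑ i ∈ Finset.range (j + 1), Bs i) * Z₀) + C m * Z,
    fun j => by have := hC0 j; have := hC0 m; have := hS0 j; positivity, fun μ hμ F hF hb => ?_⟩
  have hμ0 : 0 < μ := by linarith
  have hu : ∀ a, ContDiff ℝ ∞ fun x => zeta x • F (A.p a x) := fun a => zeta.contDiff.smul (hF a)
  choose v hv hv1 hv2 using fun a => hBs (μ ^ 3)⁻¹ (by positivity)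
    (inv_le_one_of_one_le₀ (one_le_pow₀ hμ)) _ (hu a) (Smooth2_zero _)
  have hvb : ∀ a j x, ‖iteratedFDeriv ℝ j (v a) x‖ ≤ Bs j * Z₀ * μ ^ (3 * j + 7) := by
    intro a j x
    have h1 := hv1 a (Z₀ * μ) (fun z => by
      have := hZ₀ _ μ (hF a) (fun i hi y hy => by
        have := hb a i (by omega) y hy
        obtain rfl : i = 0 := by omega
        simpa using this) 0 le_rfl z
      rwa [norm_iteratedFDeriv_zero] at this) j x
    refine h1.trans (le_of_eq ?_)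
    rw [inv_inv]
    ring
  have hG : ∀ j, A.Sm (fun y => ∑ a, A.push a (fun x => χ a x • v a x) y) ∧
      A.CB j (fun y => ∑ a, A.push a (fun x => χ a x • v a x) y)
        (fun _ => C j * ((∑ i ∈ Finset.range (j + 1), Bs i) * Z₀ * μ ^ (3 * j + 7))) := by
    intro j
    refine hC j v _ (by have := hS0 j; positivity) hv fun a i hi x => (hvb a i x).trans ?_
    have h1 : Bs i ≤ ∑ i ∈ Finset.range (j + 1), Bs i :=
      Finset.single_le_sum (fun i _ => hBs0 i) (Finset.mem_range.2 (by omega))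
    have h2 : μ ^ (3 * i + 7) ≤ μ ^ (3 * j + 7) := pow_le_pow_right₀ hμ (by omega)
    have := hS0 j
    gcongr
  refine ⟨_, (hG 0).1, fun D' a j _ x hx => ((hG j).2 a j le_rfl x hx).trans ?_, ?_⟩
  · have := hC0 m
    have : 0 ≤ C m * Z * μ ^ (3 * j + 7) := by positivity
    simp only
    linarith
  · have hd : ∀ a, ∀ j ≤ m, ∀ x,
        ‖iteratedFDeriv ℝ j (fun y => -(zeta y • F (A.p a y) - v a y)) x‖ ≤ Z * (μ ^ n)⁻¹ := by
      intro a j hj x
      have h1 := hv2 a j (Z * μ ^ (m + (n + m + 1) + 1)) (fun z =>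
        hZ _ _ (hF a) (fun i hi y hy => (hb a i hi y hy).trans
          (pow_le_pow_right₀ hμ (by omega))) _ (by omega) z) x
      have h2 : iteratedFDeriv ℝ j (fun y => -(zeta y • F (A.p a y) - v a y)) x =
          -iteratedFDeriv ℝ j (fun y => zeta y • F (A.p a y) - v a y) x :=
        iteratedFDeriv_neg_apply
      rw [h2, norm_neg]
      refine h1.trans ?_
      rw [mul_left_comm]
      exact mul_le_mul_of_nonneg_left (Smooth2_pow hμ (by omega)) (by linarith)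
    have h3 := (hC m _ _ (by positivity) (fun a => ((hu a).sub (hv a)).neg) hd).2
    have h4 : (fun y => (∑ a, A.push a (fun x => χ a x • v a x) y) - F y) =
        fun y => ∑ a, A.push a (fun x => χ a x • -(zeta x • F (A.p a x) - v a x)) y := by
      funext y
      conv_lhs => rw [← one_smul ℝ (F y), ← hsum y, Finset.sum_smul, ← Finset.sum_sub_distrib]
      refine Finset.sum_congr rfl fun a _ => ?_
      unfold Atl.push
      split_ifs with hy
      · simp only [A.p_e a hy]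
        by_cases h0 : χ a (A.e a y) = 0
        · simp [h0]
        · rw [zeta_eq_one (ball_subset_closedBall.trans (closedBall_subset_closedBall (by norm_num))
            (hs a (subset_tsupport _ h0))), one_smul, neg_sub, smul_sub]
      · simp
    rw [h4]
    refine h3.mono le_rfl fun j _ => ?_
    have := hC0 0
    have := hS0 0
    have : 0 ≤ C 0 * ((∑ i ∈ Finset.range (0 + 1), Bs i) * Z₀) * (μ ^ n)⁻¹ := by positivity
    linarith

/-- Smoothing of the metric defect in the charts: smooth `zeta • (g a - pull F a)` with `ℓ = μ⁻³`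
(its `C^{D₁}` norm is `≤ C μ^(2 D₁ + 4)` by `norm_iteratedFDeriv_pb_le`), `D₁ = n + 4`,
`D = D₁ + 1`, and symmetrise. -/
theorem exists_smooth_defect {g : A.ι → E2 → Bil} (hg : A.Ten g) (n : ℕ) :
    ∃ D : ℕ, ∃ B : ℕ → ℝ, ∀ μ δ : ℝ, 1 ≤ μ → 0 ≤ δ → ∀ F : M → E4, A.Sm F →
      A.CB D F (fun j => μ ^ (j + 1)) →
      (∀ a, ∀ x ∈ closedBall (0 : E2) 2, ‖g a x - A.pull F a x‖ ≤ δ) →
      ∀ a, ∃ h : E2 → Bil, Bd B (μ ^ 3) (fun _ => δ * μ ^ 6) h ∧ (∀ x v w, h x v w = h x w v) ∧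
        ∀ x ∈ closedBall (0 : E2) (3 / 2), ‖h x - (g a x - A.pull F a x)‖ ≤ B 0 * (μ ^ n)⁻¹ := by
  obtain ⟨Bs, hBs0, hBs⟩ := exists_smoothing (W := Bil) (n + 4)
  obtain ⟨Z₀, hZ₀1, hZ₀⟩ := norm_iteratedFDeriv_cut (W := Bil) zeta.contDiff tsupport_zeta 0
  obtain ⟨Z, hZ1, hZ⟩ := norm_iteratedFDeriv_cut (W := Bil) zeta.contDiff tsupport_zeta (n + 4)
  choose Cg hCg using fun q : A.ι × Fin (n + 5) =>
    (isCompact_closedBall (0 : E2) 2).exists_bound_of_continuousOn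
      (((hg.smooth q.1).continuous_iteratedFDeriv (m := q.2) (mod_cast le_top)).continuousOn)
  obtain ⟨G₀, hG₀, hG⟩ := AtlL3_max Cg
  obtain ⟨S, hS⟩ : ∃ S : Bil →L[ℝ] Bil,
      ∀ (q : Bil) (v w : E2), S q v w = (1 / 2) * (q v w + q w v) := by
    let Fl : Bil →L[ℝ] Bil :=
      ⟨(ContinuousLinearMap.flipₗᵢ ℝ E2 E2 ℝ).toLinearEquiv.toLinearMap,
        (ContinuousLinearMap.flipₗᵢ ℝ E2 E2 ℝ).continuous⟩
    exact ⟨(1 / 2 : ℝ) • (ContinuousLinearMap.id ℝ Bil + Fl), fun q v w => rfl⟩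
  refine ⟨n + 5, fun j => ‖S‖ * (Bs j * Z₀) + ‖S‖ * (Z * (G₀ + 2 ^ (n + 4))),
    fun μ δ hμ hδ F hF hb hd a => ?_⟩
  have hμ0 : 0 < μ := by linarith
  have hq := hg.sub (Atl.Ten_pull hF)
  have hu : ContDiff ℝ ∞ fun x => zeta x • (g a x - A.pull F a x) :=
    zeta.contDiff.smul (hq.smooth a)
  obtain ⟨v, hv, hv1, hv2⟩ := hBs (μ ^ 3)⁻¹ (by positivity)
    (inv_le_one_of_one_le₀ (one_le_pow₀ hμ)) _ hu (Smooth2_zero _)
  have hE : 0 ≤ ‖S‖ * (Z * (G₀ + 2 ^ (n + 4))) := by positivity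
  refine ⟨fun x => S (v x), ⟨S.contDiff.comp hv, one_le_pow₀ hμ, fun j => ?_, fun _ => ?_,
    fun j x => ?_⟩, fun x v w => ?_, fun x hx => ?_⟩
  · have := hBs0 j; positivity
  · positivity
  · have h1 := hv1 (Z₀ * δ) (fun z => by
      have := hZ₀ _ δ (hq.smooth a) (fun i hi y hy => by
        obtain rfl : i = 0 := by omega
        rw [norm_iteratedFDeriv_zero]
        exact hd a y hy) 0 le_rfl z
      rwa [norm_iteratedFDeriv_zero] at this) j x
    have h2 := S.norm_iteratedFDeriv_comp_left (hv.contDiffAt (x := x)) (n := j) (mod_cast le_top)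
    refine h2.trans ((mul_le_mul_of_nonneg_left h1 (norm_nonneg _)).trans ?_)
    have h3 : 0 ≤ ‖S‖ * (Z * (G₀ + 2 ^ (n + 4))) * (δ * μ ^ 6) * (μ ^ 3) ^ j := by positivity
    rw [inv_inv]
    have h4 : ‖S‖ * (Bs j * (Z₀ * δ) * (μ ^ 3) ^ (j + 2)) =
      ‖S‖ * (Bs j * Z₀) * (δ * μ ^ 6) * (μ ^ 3) ^ j := by ring
    rw [h4, add_mul, add_mul]
    linarith
  · rw [hS, hS, add_comm]
  · have hq2 : ∀ i ≤ n + 4, ∀ y ∈ closedBall (0 : E2) 2,
        ‖iteratedFDeriv ℝ i (fun x => g a x - A.pull F a x) y‖ ≤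
          (G₀ + 2 ^ (n + 4)) * μ ^ (2 * (n + 6)) := by
      intro i hi y hy
      have h1 : iteratedFDeriv ℝ i (fun x => g a x - A.pull F a x) y =
          iteratedFDeriv ℝ i (g a) y - iteratedFDeriv ℝ i (A.pull F a) y :=
        iteratedFDeriv_sub_apply ((hg.smooth a).contDiffAt.of_le (mod_cast le_top))
          (((Atl.Ten_pull hF).smooth a).contDiffAt.of_le (mod_cast le_top))
      have h2 : ‖iteratedFDeriv ℝ i (g a) y‖ ≤ G₀ :=
        (hCg (a, ⟨i, by omega⟩) y hy).trans (hG _)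
      have h3 : ‖iteratedFDeriv ℝ i (A.pull F a) y‖ ≤ 2 ^ i * (μ ^ (n + 6)) ^ 2 :=
        norm_iteratedFDeriv_pb_le (hF a) i y fun k hk =>
          (hb a k (by omega) y hy).trans (pow_le_pow_right₀ hμ (by omega))
      have h4 : (2 : ℝ) ^ i ≤ 2 ^ (n + 4) := pow_le_pow_right₀ (by norm_num) hi
      have h5 : 1 ≤ μ ^ (2 * (n + 6)) := one_le_pow₀ hμ
      rw [← pow_mul, mul_comm (n + 6) 2] at h3
      rw [h1]
      refine (norm_sub_le _ _).trans ?_
      nlinarith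
    have h1 := hv2 0 (Z * ((G₀ + 2 ^ (n + 4)) * μ ^ (2 * (n + 6)))) (fun z =>
      hZ _ _ (hq.smooth a) hq2 _ (by omega) z) x
    rw [norm_iteratedFDeriv_zero,
      zeta_eq_one (closedBall_subset_closedBall (by norm_num) hx), one_smul] at h1
    have h2 : S (v x) - (g a x - A.pull F a x) = -S (g a x - A.pull F a x - v x) := by
      rw [map_sub S _ (v x), neg_sub]
      congr 1
      ext1 p
      ext1 r
      rw [hS, hq.symm a x r p]
      ring
    rw [h2, norm_neg]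
    refine (S.le_opNorm _).trans ((mul_le_mul_of_nonneg_left h1 (norm_nonneg _)).trans ?_)
    have h3 : (μ ^ 3)⁻¹ ^ (n + 4) * μ ^ (2 * (n + 6)) ≤ (μ ^ n)⁻¹ := Smooth2_pow hμ (by omega)
    have h4 : 0 ≤ ‖S‖ * (Bs 0 * Z₀) * (μ ^ n)⁻¹ := by have := hBs0 0; positivity
    have h5 := mul_le_mul_of_nonneg_left h3 hE
    have h6 : ‖S‖ * ((μ ^ 3)⁻¹ ^ (n + 4) * (Z * ((G₀ + 2 ^ (n + 4)) * μ ^ (2 * (n + 6))))) =
      ‖S‖ * (Z * (G₀ + 2 ^ (n + 4))) * ((μ ^ 3)⁻¹ ^ (n + 4) * μ ^ (2 * (n + 6))) := by ring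
    rw [h6, add_mul]
    linarith

end Crest.Agent.R216
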