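import Crest.Agent.R216.Patch
import Crest.Agent.R216.Cls1
import Crest.Agent.R216.Smooth2

/-! # Row 216, auxiliary lemmas for `stage_amp` -/

set_option autoImplicit false
open Set Filter Metric
open scoped ContDiff RealInnerProductSpace Topology

noncomputable section
namespace Crest.Agent.R216
namespace St49

theorem Bd_smul {X W : Type*} [NormedAddCommGroup X] [NormedSpace ℝ X] [NormedAddCommGroup W]
    [NormedSpace ℝ W] {B : ℕ → ℝ} {m : ℝ} {w : X → ℝ} {u : X → W} (h : Bd B m w u) (c : ℝ) :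
    Bd B m (fun x => |c| * w x) (fun x => c • u x) := by
  refine ⟨h.smooth.const_smul c, h.one_le, h.B_nonneg,
    fun x => mul_nonneg (abs_nonneg c) (h.w_nonneg x), fun j x => ?_⟩
  have h1 : iteratedFDeriv ℝ j (fun x => c • u x) x = c • iteratedFDeriv ℝ j u x :=
    iteratedFDeriv_const_smul_apply' (h.smooth.contDiffAt.of_le (by exact_mod_cast le_top))
  rw [h1, norm_smul, Real.norm_eq_abs]
  calc |c| * ‖iteratedFDeriv ℝ j u x‖ ≤ |c| * (B j * w x * m ^ j) :=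
        mul_le_mul_of_nonneg_left (h.bound j x) (abs_nonneg c)
    _ = B j * (|c| * w x) * m ^ j := by ring

theorem exists_bound_fam {ι W : Type*} [Finite ι] [NormedAddCommGroup W] [NormedSpace ℝ W]
    {g : ι → E2 → W} (hg : ∀ a, ContDiff ℝ ∞ (g a)) :
    ∃ β : ℕ → ℝ, (∀ j, 1 ≤ β j) ∧ ∀ a j, ∀ x ∈ closedBall (0 : E2) 2,
      ‖iteratedFDeriv ℝ j (g a) x‖ ≤ β j := by
  have h1 : ∀ j a, ∃ C : ℝ, ∀ x ∈ closedBall (0 : E2) 2, ‖iteratedFDeriv ℝ j (g a) x‖ ≤ C := by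
    intro j a
    have hc : Continuous (iteratedFDeriv ℝ j (g a)) :=
      (hg a).continuous_iteratedFDeriv (by exact_mod_cast le_top)
    exact (isCompact_closedBall (0 : E2) 2).exists_bound_of_continuousOn hc.continuousOn
  choose C hC using h1
  have h2 : ∀ j, ∃ C₀ : ℝ, 1 ≤ C₀ ∧ ∀ a, C j a ≤ C₀ := fun j => AtlL3_max (C j)
  choose β hβ using h2
  exact ⟨β, fun j => (hβ j).1, fun a j x hx => (hC j a x hx).trans ((hβ j).2 a)⟩

theorem d2_congr {W : Type*} [NormedAddCommGroup W] [NormedSpace ℝ W] {G G' : E2 → W} {x : E2}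
    (h : G =ᶠ[𝓝 x] G') : d2 G x = d2 G' x := by
  unfold d2
  exact h.fderiv.fderiv_eq

section gen
variable {W : Type*} [NormedAddCommGroup W] [NormedSpace ℝ W]

theorem gen1 {k G q : W} {s δ' η e b : ℝ} (hs : 0 < s) (hδ' : 0 < δ') (h1 : ‖k - (G - q)‖ ≤ e)
    (h2 : ‖G - q - s⁻¹ • G‖ ≤ η * s⁻¹) (h3 : ‖G‖ ≤ b) (he : s * e ≤ η) (hb : δ' * s * b ≤ η) :
    ‖s • k + (-(δ' * s)) • (1 : ℝ) • G - G‖ ≤ 3 * η ∧
      ‖s⁻¹ • (s • k + (-(δ' * s)) • (1 : ℝ) • G) - (G - q - δ' • G)‖ ≤ e := by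
  rw [one_smul]
  have hq0 : 0 < δ' * s := mul_pos hδ' hs
  constructor
  · have e1 : s • k + (-(δ' * s)) • G - G
        = s • (k - (G - q)) + s • (G - q - s⁻¹ • G) + (-(δ' * s)) • G := by
      rw [smul_sub s (G - q), smul_smul, mul_inv_cancel₀ hs.ne', one_smul, smul_sub s k]
      abel
    rw [e1]
    have t1 : ‖s • (k - (G - q))‖ ≤ η := by
      rw [norm_smul, Real.norm_eq_abs, abs_of_pos hs]
      exact (mul_le_mul_of_nonneg_left h1 hs.le).trans he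
    have t2 : ‖s • (G - q - s⁻¹ • G)‖ ≤ η := by
      rw [norm_smul, Real.norm_eq_abs, abs_of_pos hs]
      calc s * ‖G - q - s⁻¹ • G‖ ≤ s * (η * s⁻¹) := mul_le_mul_of_nonneg_left h2 hs.le
        _ = η := by field_simp
    have t3 : ‖(-(δ' * s)) • G‖ ≤ η := by
      rw [norm_smul, Real.norm_eq_abs, abs_neg, abs_of_pos hq0]
      exact (mul_le_mul_of_nonneg_left h3 hq0.le).trans hb
    have := norm_add₃_le (a := s • (k - (G - q))) (b := s • (G - q - s⁻¹ • G))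
      (c := (-(δ' * s)) • G)
    linarith
  · have e1 : s⁻¹ • (s • k + (-(δ' * s)) • G) - (G - q - δ' • G) = k - (G - q) := by
      have : s⁻¹ * (-(δ' * s)) = -δ' := by field_simp
      rw [smul_add, smul_smul, smul_smul, inv_mul_cancel₀ hs.ne', one_smul, this, neg_smul]
      abel
    rw [e1]
    exact h1

theorem gen2 {G q : W} {s η b : ℝ} (hs : 0 < s) (h2 : ‖G - q - s • G‖ ≤ η * s) (h3 : ‖G‖ ≤ b) :
    ‖G - q‖ ≤ (b + η) * s := by
  have e1 : G - q = (G - q - s • G) + s • G := by abel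
  rw [e1]
  refine (norm_add_le _ _).trans ?_
  rw [norm_smul, Real.norm_eq_abs, abs_of_pos hs]
  have := mul_le_mul_of_nonneg_left h3 hs.le
  linarith

theorem gen3 (t : ℝ) (h H : W) : t • h = t • H + t • (h - H) := by
  rw [smul_sub]
  abel

theorem gen4 {t e : ℝ} (h0 : 0 ≤ t) (h1 : t ≤ 1) {v : W} (hv : ‖v‖ ≤ e) : ‖t • v‖ ≤ e := by
  rw [norm_smul, Real.norm_eq_abs, abs_of_nonneg h0]
  calc t * ‖v‖ ≤ 1 * e := mul_le_mul h1 hv (norm_nonneg _) zero_le_one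
    _ = e := one_mul e

theorem gen5 {t : ℝ} (h0 : t = 0) (v : W) : t • v = 0 := by rw [h0, zero_smul]

theorem gen5' {t e : ℝ} (h0 : t = 0) (v : W) (he : 0 ≤ e) : ‖t • v‖ ≤ e := by
  rw [h0, zero_smul, norm_zero]
  exact he

theorem gen6 {n : ℕ} {t : Fin n → ℝ} (ht : ∑ p, t p = 1) {H : W} {u v : Fin n → W}
    (huv : ∀ p, u p = t p • H + v p) {e : ℝ} (hv : ∀ p, ‖v p‖ ≤ e) :
    ‖H - ∑ p, u p‖ ≤ n * e := by
  simp only [huv]
  rw [Finset.sum_add_distrib, ← Finset.sum_smul, ht, one_smul, sub_add_cancel_left, norm_neg]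
  calc _ ≤ ∑ p : Fin n, e := norm_sum_le_of_le _ (fun p _ => hv p)
    _ = n * e := by simp

theorem gen7 {G q q₁ S : W} {δ' e₁ e₂ : ℝ} (h1 : ‖q₁ - q‖ ≤ e₁) (h2 : ‖G - q - δ' • G - S‖ ≤ e₂) :
    ‖G - q₁ - δ' • G - S‖ ≤ e₁ + e₂ := by
  have e1 : G - q₁ - δ' • G - S = -(q₁ - q) + (G - q - δ' • G - S) := by abel
  rw [e1]
  refine (norm_add_le _ _).trans ?_
  rw [norm_neg]
  linarith

theorem gen8 {a : Fin 3 → Fin 3 → ℝ} {v : Fin 3 → Fin 3 → W} {δ t : ℝ} {H : W} (hδ : 0 ≤ δ)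
    (h : ∑ T, ∑ i, a T i ^ 2 • v T i = t • H) :
    ∑ T, ∑ i, (√δ * a T i) ^ 2 • v T i = t • δ • H := by
  rw [smul_comm, ← h, Finset.smul_sum]
  refine Finset.sum_congr rfl (fun T _ => ?_)
  rw [Finset.smul_sum]
  refine Finset.sum_congr rfl (fun i _ => ?_)
  rw [mul_pow, Real.sq_sqrt hδ, smul_smul]

end gen

variable {M : Type*} [TopologicalSpace M] {A : Atl E2 M} {g : A.ι → E2 → Bil}

/-- the partition of unity of the patches -/
def th (P : Pat A g) (p : Fin P.P) (x : E2) : ℝ :=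
  (expNegInvGlue (P.R p ^ 2 - ‖x - P.c p‖ ^ 2) * P.om p x) ^ 2

theorem th_nonneg (P : Pat A g) (p : Fin P.P) (x : E2) : 0 ≤ th P p x := sq_nonneg _

theorem th_le_one (P : Pat A g) (p : Fin P.P) (x : E2) : th P p x ≤ 1 := by
  have h1 := P.pou (A.p (P.ch p) x)
  have h2 : A.push (P.ch p) (th P p) (A.p (P.ch p) x) = th P p x := A.push_p _ _ _
  rw [← h1, ← h2]
  refine Finset.single_le_sum (f := fun k => A.push (P.ch k) (th P k) (A.p (P.ch p) x))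
    (fun k _ => ?_) (Finset.mem_univ p)
  unfold Atl.push
  split_ifs
  · exact th_nonneg P k _
  · exact le_rfl

theorem th_eq_zero (P : Pat A g) (p : Fin P.P) {x : E2} (hx : x ∉ closedBall (0 : E2) (3 / 2)) :
    th P p x = 0 := by
  have h1 : x ∉ closedBall (P.c p) (P.R p) := fun h => hx (P.sub p h)
  rw [mem_closedBall, dist_eq_norm, not_le] at h1
  have h2 : P.R p ^ 2 - ‖x - P.c p‖ ^ 2 ≤ 0 := by
    have := P.R_pos p
    nlinarith
  unfold th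
  rw [expNegInvGlue.zero_of_nonpos h2]
  simp

theorem sum_inc [T2Space M] (P : Pat A g) : ∃ C : ℝ, 1 ≤ C ∧ ∀ (H h : A.ι → E2 → Bil) (e : ℝ),
    A.Ten H → 0 ≤ e → (∀ a, ∀ x ∈ closedBall (0 : E2) (3 / 2), ‖h a x - H a x‖ ≤ e) →
    ∀ b, ∀ x ∈ closedBall (0 : E2) 2,
      ‖H b x - ∑ p, A.pushT (P.ch p) (fun z => th P p z • h (P.ch p) z) b x‖ ≤ C * e := by
  obtain ⟨C, hC1, hC⟩ := A.norm_pushT_le
  refine ⟨(P.P + 1) * C, by nlinarith [Nat.cast_nonneg (α := ℝ) P.P], ?_⟩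
  intro H h e hH he hh b x hx
  have h1 : ∀ p, A.pushT (P.ch p) (fun z => th P p z • h (P.ch p) z) b x
      = A.push (P.ch p) (th P p) (A.p b x) • H b x
        + A.pushT (P.ch p) (fun z => th P p z • (h (P.ch p) z - H (P.ch p) z)) b x := by
    intro p
    rw [← hH.pushT_smul, ← Atl.pushT_add]
    congr 1
    funext z
    exact gen3 (W := Bil) _ _ _
  have h2 : ∑ p, A.push (P.ch p) (th P p) (A.p b x) = 1 := P.pou (A.p b x)
  have h3 : ∀ p, ‖A.pushT (P.ch p) (fun z => th P p z • (h (P.ch p) z - H (P.ch p) z)) b x‖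
      ≤ C * e := by
    intro p
    refine hC _ _ e (fun z hz => ?_) (fun z => ?_) b x hx
    · exact gen5 (W := Bil)
        (th_eq_zero P p (fun h' => hz (closedBall_subset_closedBall (by norm_num) h'))) _
    · by_cases hz : z ∈ closedBall (0 : E2) (3 / 2)
      · exact gen4 (W := Bil) (th_nonneg P p z) (th_le_one P p z) (hh _ z hz)
      · exact gen5' (W := Bil) (th_eq_zero P p hz) _ he
  refine (gen6 (W := Bil) h2 h1 h3).trans ?_
  nlinarith [mul_nonneg (zero_le_one.trans hC1) he]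

/-- smoothing of the defect and normalisation -/
theorem smooth_defect [T2Space M] (hg : A.Ten g) {η : ℝ} (hη : 0 < η) {n N : ℕ} (hn : n < N) :
    ∃ D : ℕ, ∃ (B : ℕ → ℝ) (μ₀ : ℝ), ∀ (μ δ' : ℝ) (F : M → E4), μ₀ ≤ μ → 0 < δ' →
      δ' ≤ (μ ^ (n + 1))⁻¹ → A.Sm F → A.CB D F (fun j => μ ^ (j + 1)) →
      (∀ a, ∀ x ∈ closedBall (0 : E2) 2,
        ‖g a x - A.pull F a x - (μ ^ n)⁻¹ • g a x‖ ≤ η * (μ ^ n)⁻¹) →
      ∀ a, ∃ h : E2 → Bil, Bd B (μ ^ 10) (fun _ => μ ^ 10) h ∧ (∀ x v w, h x v w = h x w v) ∧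
        ∀ x ∈ closedBall (0 : E2) (3 / 2), ‖h x - g a x‖ ≤ 3 * η ∧
          ‖(μ ^ n)⁻¹ • h x - (g a x - A.pull F a x - δ' • g a x)‖ ≤ (μ ^ (N + 1))⁻¹ := by
  obtain ⟨D, B₂, h₂⟩ := exists_smooth_defect A hg (N + 2)
  obtain ⟨β, hβ1, hβ⟩ := exists_bound_fam hg.smooth
  obtain ⟨B₃, h₃⟩ := Bd_cut (W := Bil) β
  obtain ⟨μ₀, hμ₀⟩ := eventually_atTop.1 ((eventually_ge_atTop (1 : ℝ)).and
    ((eventually_ge_atTop (B₂ 0)).and ((eventually_ge_atTop (β 0 / η)).and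
      (eventually_ge_atTop (β 0 + η)))))
  refine ⟨D, fun j => B₂ j + B₃ j, μ₀, ?_⟩
  intro μ δ' F hμ hδ' hδ'le hF hCB hdef a
  obtain ⟨hμ1, hμ2, hμ3, hμ4⟩ := hμ₀ μ hμ
  have hμp : 0 < μ := zero_lt_one.trans_le hμ1
  have hpn : 0 < μ ^ n := pow_pos hμp n
  have hg0 : ∀ a, ∀ x ∈ closedBall (0 : E2) 2, ‖g a x‖ ≤ β 0 := by
    intro a x hx
    have := hβ a 0 x hx
    rwa [norm_iteratedFDeriv_zero] at this
  have hβη : β 0 * μ⁻¹ ≤ η := by
    rw [div_le_iff₀ hη] at hμ3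
    rw [mul_inv_le_iff₀ hμp]
    linarith
  have hη1 : μ⁻¹ ≤ η := by
    have := hβ1 0
    have h' : 0 < μ⁻¹ := inv_pos.2 hμp
    nlinarith
  obtain ⟨k, hk, hks, hkc⟩ := h₂ μ ((β 0 + η) * (μ ^ n)⁻¹) hμ1
    (by have := hβ1 0; positivity) F hF hCB
    (fun a x hx => gen2 (W := Bil) (inv_pos.2 hpn) (hdef a x hx) (hg0 a x hx)) a
  have hm1 : 1 ≤ μ ^ 10 := one_le_pow₀ hμ1
  have hz : Bd B₃ (μ ^ 10) (fun _ => 1) (fun y => zeta y • g a y) := by
    refine h₃ _ 1 _ hm1 zero_le_one (hg.smooth a) (fun j x hx => (hβ a j x hx).trans ?_)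
    have : 1 ≤ (μ ^ 10) ^ j := one_le_pow₀ hm1
    have := hβ1 j
    nlinarith
  have hq : δ' * μ ^ n ≤ μ⁻¹ := by
    calc δ' * μ ^ n ≤ (μ ^ (n + 1))⁻¹ * μ ^ n := mul_le_mul_of_nonneg_right hδ'le hpn.le
      _ = μ⁻¹ := by rw [pow_succ]; field_simp
  have hq0 : 0 < δ' * μ ^ n := mul_pos hδ' hpn
  have hinv1 : μ⁻¹ ≤ 1 := inv_le_one_of_one_le₀ hμ1
  have hA : Bd B₂ (μ ^ 10) (fun _ => μ ^ 10) (fun x => μ ^ n • k x) := by
    refine (Bd_smul hk (μ ^ n)).mono (fun _ => le_rfl) (pow_le_pow_right₀ hμ1 (by norm_num))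
      (fun _ => ?_)
    rw [abs_of_pos hpn]
    calc μ ^ n * ((β 0 + η) * (μ ^ n)⁻¹ * μ ^ 6) = (β 0 + η) * μ ^ 6 := by field_simp
      _ ≤ μ * μ ^ 6 := mul_le_mul_of_nonneg_right hμ4 (by positivity)
      _ = μ ^ 7 := by ring
      _ ≤ μ ^ 10 := pow_le_pow_right₀ hμ1 (by norm_num)
  have hB : Bd B₃ (μ ^ 10) (fun _ => μ ^ 10) (fun x => (-(δ' * μ ^ n)) • zeta x • g a x) := by
    refine (Bd_smul hz (-(δ' * μ ^ n))).mono (fun _ => le_rfl) le_rfl (fun _ => ?_)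
    rw [abs_neg, abs_of_pos hq0, mul_one]
    linarith
  have hkc' : ∀ x ∈ closedBall (0 : E2) (3 / 2),
      ‖k x - (g a x - A.pull F a x)‖ ≤ (μ ^ (N + 1))⁻¹ := by
    intro x hx
    refine (hkc x hx).trans ?_
    calc B₂ 0 * (μ ^ (N + 2))⁻¹ ≤ μ * (μ ^ (N + 2))⁻¹ :=
          mul_le_mul_of_nonneg_right hμ2 (by positivity)
      _ = (μ ^ (N + 1))⁻¹ := by rw [pow_succ μ (N + 1)]; field_simp
  refine ⟨_, hA.add hB, fun x v w => ?_, fun x hx => ?_⟩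
  · simp only [add_apply, smul_apply, hks x v w, hg.symm a x v w]
  have hx2 : x ∈ closedBall (0 : E2) 2 := closedBall_subset_closedBall (by norm_num) hx
  have hz1 : zeta x = 1 := zeta_eq_one (closedBall_subset_closedBall (by norm_num) hx)
  simp only [hz1]
  refine gen1 (W := Bil) hpn hδ' (hkc' x hx) (hdef a x hx2) (hg0 a x hx2) ?_ ?_
  · calc μ ^ n * (μ ^ (N + 1))⁻¹ ≤ μ ^ n * (μ ^ (n + 1))⁻¹ :=
          mul_le_mul_of_nonneg_left
            (inv_anti₀ (by positivity) (pow_le_pow_right₀ hμ1 (by omega))) hpn.le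
      _ = μ⁻¹ := by rw [pow_succ]; field_simp
      _ ≤ η := hη1
  · have := mul_le_mul_of_nonneg_right hq (zero_le_one.trans (hβ1 0))
    linarith

end St49
end Crest.Agent.R216
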