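import Crest.Agent.R216.Multi
import Crest.Agent.R216.Amp
import Crest.Agent.R216.Smooth2
import Crest.Agent.R216.StageAux49

/-! # Row 216, one stage of the perturbation theorem -/

set_option autoImplicit false
open Set Filter Metric
open scoped ContDiff RealInnerProductSpace Topology

noncomputable section
namespace Crest.Agent.R216

variable {M : Type*} [TopologicalSpace M] [T2Space M] (A : Atl E2 M)

/-- non-degeneracy in terms of Gram determinants -/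
def Atl.NG (F : M → E4) (ν : ℝ) : Prop :=
  ∀ a, ∀ x ∈ closedBall (0 : E2) 2, ∃ τ : E2, ‖τ‖ ≤ 1 ∧
    ν ≤ g3 (fderiv ℝ (fun x => F (A.p a x)) x b0) (fderiv ℝ (fun x => F (A.p a x)) x b1)
      (d2 (fun x => F (A.p a x)) x τ τ)

/-- the metric defect is `δ (g + r)` with `‖r‖ ≤ η` -/
def Atl.Def (g : A.ι → E2 → Bil) (F : M → E4) (δ η : ℝ) : Prop :=
  ∀ a, ∀ x ∈ closedBall (0 : E2) 2, ‖g a x - A.pull F a x - δ • g a x‖ ≤ η * δ

omit [T2Space M] in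
theorem St49.jet_bounds {A : Atl E2 M} {F : M → E4} {R : ℝ} {D : ℕ} (hD : 1 ≤ D)
    (hb : A.CB D F (fun _ => R)) (a : A.ι) {x : E2} (hx : x ∈ closedBall (0 : E2) 2) :
    ‖fderiv ℝ (fun x => F (A.p a x)) x‖ ≤ R := by
  have := hb a 1 hD x hx
  rwa [norm_iteratedFDeriv_one] at this

omit [T2Space M] in
theorem St49.fderiv_diff {A : Atl E2 M} {F F' : M → E4} (hF : A.Sm F) (hF' : A.Sm F') (a : A.ι)
    (x : E2) : fderiv ℝ (fun x => F' (A.p a x) - F (A.p a x)) x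
      = fderiv ℝ (fun x => F' (A.p a x)) x - fderiv ℝ (fun x => F (A.p a x)) x :=
  fderiv_fun_sub ((hF' a).differentiable (by simp) x) ((hF a).differentiable (by simp) x)

theorem St49.app_le {L : E2 →L[ℝ] E4} {R : ℝ} (h : ‖L‖ ≤ R) {v : E2} (hv : ‖v‖ ≤ 1) :
    ‖L v‖ ≤ R := by
  refine (L.le_opNorm v).trans ?_
  calc ‖L‖ * ‖v‖ ≤ R * 1 := mul_le_mul h hv (norm_nonneg _) ((norm_nonneg _).trans h)
    _ = R := mul_one R

theorem St49.app2_le {G : E2 → E4} {x : E2} {R : ℝ} (h : ‖iteratedFDeriv ℝ 2 G x‖ ≤ R) {v : E2}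
    (hv : ‖v‖ ≤ 1) : ‖d2 G x v v‖ ≤ R := by
  rw [← norm_d2_eq] at h
  refine St49.app_le ?_ hv
  refine ((d2 G x).le_opNorm v).trans ?_
  calc ‖d2 G x‖ * ‖v‖ ≤ R * 1 :=
        mul_le_mul h hv (norm_nonneg _) ((ContinuousLinearMap.opNorm_nonneg _).trans h)
    _ = R := mul_one R

/-- `abs_g3_sub_le` -/
theorem Atl.NG.perturb {A : Atl E2 M} {F F' : M → E4} (hF : A.Sm F) (hF' : A.Sm F') {ν R d : ℝ}
    (h : A.NG F ν) (hR : 1 ≤ R) (hb : A.CB 2 F (fun _ => R)) (hb' : A.CB 2 F' (fun _ => R))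
    (hd : A.CB 2 (fun y => F' y - F y) (fun _ => d)) : A.NG F' (ν - 100 * R ^ 5 * d) := by
  intro a x hx
  obtain ⟨τ, hτ, hν⟩ := h a x hx
  refine ⟨τ, hτ, ?_⟩
  have b1' := St49.jet_bounds (by norm_num) hb a hx
  have b2' := St49.jet_bounds (by norm_num) hb' a hx
  have b3' := St49.jet_bounds (by norm_num) hd a hx
  rw [St49.fderiv_diff hF hF'] at b3'
  have hd2 : d2 (fun x => F' (A.p a x)) x
      = d2 (fun x => F (A.p a x)) x + d2 (fun x => F' (A.p a x) - F (A.p a x)) x := by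
    rw [← d2_add (hF a).contDiffAt ((hF' a).sub (hF a)).contDiffAt]
    simp
  have c3 : ‖d2 (fun x => F' (A.p a x)) x τ τ - d2 (fun x => F (A.p a x)) x τ τ‖ ≤ d := by
    have := St49.app2_le (hd a 2 le_rfl x hx) hτ
    rw [hd2]
    simpa using this
  have key := abs_g3_sub_le hR (St49.app_le b2' norm_b0.le) (St49.app_le b2' norm_b1.le)
    (St49.app2_le (hb' a 2 le_rfl x hx) hτ) (St49.app_le b1' norm_b0.le)
    (St49.app_le b1' norm_b1.le) (St49.app2_le (hb a 2 le_rfl x hx) hτ)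
    (St49.app_le b3' norm_b0.le) (St49.app_le b3' norm_b1.le) c3
  have := (abs_le.1 key).1
  linarith

/-- `norm_pb_sub_le` -/
theorem Atl.norm_pull_sub_le {A : Atl E2 M} {F F' : M → E4} (hF : A.Sm F) (hF' : A.Sm F')
    {R d : ℝ} (hb : A.CB 1 F (fun _ => R)) (hb' : A.CB 1 F' (fun _ => R))
    (hd : A.CB 1 (fun y => F' y - F y) (fun _ => d)) (a : A.ι) {x : E2}
    (hx : x ∈ closedBall (0 : E2) 2) : ‖A.pull F' a x - A.pull F a x‖ ≤ 2 * R * d := by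
  have b1' := St49.jet_bounds le_rfl hb a hx
  have b2' := St49.jet_bounds le_rfl hb' a hx
  have b3' := St49.jet_bounds le_rfl hd a hx
  rw [St49.fderiv_diff hF hF'] at b3'
  refine (norm_pb_sub_le _ _ x).trans ?_
  have h0 : 0 ≤ R := (norm_nonneg _).trans b1'
  calc _ ≤ (R + R) * d := mul_le_mul (add_le_add b2' b1') b3' (norm_nonneg _) (by linarith)
    _ = 2 * R * d := by ring

/-- smoothing of the map -/
theorem St49.smooth_map (n N : ℕ) : ∃ D : ℕ, ∃ (B : ℕ → ℝ) (μ₀ : ℝ), (∀ j, 0 ≤ B j) ∧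
    ∀ (μ : ℝ) (F : M → E4), μ₀ ≤ μ → A.Sm F → A.CB D F (fun j => μ ^ (j + 1)) → A.NG F μ⁻¹ →
      ∃ F₁ : M → E4, A.Sm F₁ ∧ (∀ D', A.CB D' F₁ (fun j => B j * μ ^ (3 * j + 7))) ∧
        A.CB (n + 2) (fun y => F₁ y - F y) (fun _ => (μ ^ N)⁻¹) ∧ A.NG F₁ (μ ^ 10)⁻¹ ∧
        ∀ a, ∀ x ∈ closedBall (0 : E2) 2,
          ‖A.pull F₁ a x - A.pull F a x‖ ≤ (μ ^ (N + 1))⁻¹ := by
  obtain ⟨D, B, hB, h⟩ := exists_smooth_map A (N + 20) (n + 2)
  refine ⟨max D 2, B, max (B 0) 6400, hB, ?_⟩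
  intro μ F hμ hF hCB hNG
  have hμ1 : B 0 ≤ μ := (le_max_left _ _).trans hμ
  have hμ2 : 6400 ≤ μ := (le_max_right _ _).trans hμ
  have h1 : 1 ≤ μ := by linarith
  have hp : 0 < μ := by linarith
  obtain ⟨F₁, hF₁, hb, hd⟩ := h μ h1 F hF (hCB.mono (le_max_left _ _) (fun _ _ => le_rfl))
  have hd' : A.CB (n + 2) (fun y => F₁ y - F y) (fun _ => (μ ^ (N + 19))⁻¹) := by
    refine hd.mono le_rfl (fun _ _ => ?_)
    calc B 0 * (μ ^ (N + 20))⁻¹ ≤ μ * (μ ^ (N + 20))⁻¹ :=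
          mul_le_mul_of_nonneg_right hμ1 (by positivity)
      _ = (μ ^ (N + 19))⁻¹ := by rw [pow_succ μ (N + 19)]; field_simp
  have h3 : 1 ≤ μ ^ 3 := one_le_pow₀ h1
  have hR : A.CB 2 F (fun _ => μ ^ 3) :=
    hCB.mono (le_max_right _ _) (fun j hj => pow_le_pow_right₀ h1 (by omega))
  have hR1 : A.CB 2 F (fun _ => 2 * μ ^ 3) := hR.mono le_rfl (fun _ _ => by linarith)
  have hd2 : A.CB 2 (fun y => F₁ y - F y) (fun _ => (μ ^ (N + 19))⁻¹) :=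
    hd'.mono (by omega) (fun _ _ => le_rfl)
  have hR2 : A.CB 2 F₁ (fun _ => 2 * μ ^ 3) := by
    have h4 := Atl.CB.add hF (hF₁.sub hF) hR hd2
    simp only [add_sub_cancel] at h4
    refine h4.mono le_rfl (fun _ _ => ?_)
    have : (μ ^ (N + 19))⁻¹ ≤ 1 := inv_le_one_of_one_le₀ (one_le_pow₀ h1)
    linarith
  have hN : 1 ≤ μ ^ N := one_le_pow₀ h1
  refine ⟨F₁, hF₁, hb, hd'.mono le_rfl (fun _ _ => ?_), ?_, fun a x hx => ?_⟩
  · exact inv_anti₀ (by positivity) (pow_le_pow_right₀ h1 (by omega))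
  · have h5 := hNG.perturb hF hF₁ (by linarith) hR1 hR2 hd2
    intro a x hx
    obtain ⟨τ, hτ, h6⟩ := h5 a x hx
    refine ⟨τ, hτ, le_trans ?_ h6⟩
    have e1 : (μ ^ 10)⁻¹ ≤ μ⁻¹ / 2 := by
      have : 2 * μ ≤ μ ^ 10 := by
        calc 2 * μ ≤ μ * μ := by nlinarith
          _ = μ ^ 2 := by ring
          _ ≤ μ ^ 10 := pow_le_pow_right₀ h1 (by norm_num)
      calc (μ ^ 10)⁻¹ ≤ (2 * μ)⁻¹ := inv_anti₀ (by positivity) this
        _ = μ⁻¹ / 2 := by field_simp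
    have e2 : 100 * (2 * μ ^ 3) ^ 5 * (μ ^ (N + 19))⁻¹ ≤ μ⁻¹ / 2 := by
      have h7 : 6400 ≤ μ ^ (N + 3) := hμ2.trans (le_self_pow₀ h1 (by omega))
      have h8 : 100 * (2 * μ ^ 3) ^ 5 * (μ ^ (N + 19))⁻¹ = μ⁻¹ / 2 * (6400 / μ ^ (N + 3)) := by
        field_simp
        ring
      rw [h8]
      refine mul_le_of_le_one_right (by positivity) ?_
      rw [div_le_one (by positivity)]
      exact h7
    linarith
  · refine (Atl.norm_pull_sub_le hF hF₁ (hR1.mono (by norm_num) (fun _ _ => le_rfl))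
      (hR2.mono (by norm_num) (fun _ _ => le_rfl)) (hd2.mono (by norm_num) (fun _ _ => le_rfl))
      a hx).trans ?_
    have h7 : 4 ≤ μ ^ 15 := (by linarith : (4 : ℝ) ≤ μ).trans (le_self_pow₀ h1 (by omega))
    have h8 : 2 * (2 * μ ^ 3) * (μ ^ (N + 19))⁻¹ = (μ ^ (N + 1))⁻¹ * (4 / μ ^ 15) := by
      field_simp
      ring
    rw [h8]
    refine mul_le_of_le_one_right (by positivity) ?_
    rw [div_le_one (by positivity)]
    exact h7

/-- First half of a stage: smoothing and amplitudes.  With `δ = μ^(-n)`, `0 < δ' ≤ δ / μ`: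
`F₁` from `exists_smooth_map` (order `N + 20`, `m = n + 2`), `h̃ a` from `exists_smooth_defect` (the
defect is `≤ (C_g + η) δ`), `h a = δ⁻¹ • h̃ a - (δ'/δ) • zeta • g a` satisfies
`‖h a x - g a x‖ ≤ 3 η` on `closedBall 0 (3/2)` for large `μ` (take `N > n`), `NG F₁ (μ⁻¹/2)`
(`NG.perturb`), `G a = zeta • F₁ ∘ p a` and `h a` are `Bd` at the scale `m = μ^10` with weight `m`;
`exists_amp` for every patch (take the maximum of the exponents, `Bd.mono`), amplitudes `√δ • a`,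
`κ = √δ (m^N)⁻¹`.  The sum of the increments is `Σ_k pushT (θ_k • (h̃ - δ' g))`, and
`Σ_k pushT (θ_k • (g - pull F - δ' g)) = g - pull F - δ' g` (`Ten.pushT_smul`, `Pat.pou`);
`norm_pushT_le`, `norm_pull_sub_le`. -/
theorem stage_amp {g : A.ι → E2 → Bil} (hg : A.Met g) (P : Pat A g) :
    ∃ k : ℕ, 1 ≤ k ∧ ∀ n N : ℕ, n < N → ∃ D : ℕ, ∃ (B : ℕ → ℝ) (μ₀ : ℝ), (∀ j, 0 ≤ B j) ∧
      ∀ (μ δ' : ℝ) (F : M → E4), μ₀ ≤ μ → 0 < δ' → δ' ≤ (μ ^ (n + 1))⁻¹ → A.Sm F →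
        A.CB D F (fun j => μ ^ (j + 1)) → A.NG F μ⁻¹ → A.Def g F (μ ^ n)⁻¹ P.η →
        ∃ (F₁ : M → E4) (a : Fin P.P × Fin 3 × Fin 3 → E2 → ℝ) (κ : ℝ), A.Sm F₁ ∧
          (∀ D', A.CB D' F₁ (fun j => B j * (μ ^ k) ^ (j + 1))) ∧
          A.CB (n + 2) (fun y => F₁ y - F y) (fun _ => (μ ^ N)⁻¹) ∧
          (∀ i, Bd B (μ ^ k) (fun x => (|a i x| + κ) * μ ^ k) (a i)) ∧
          (∀ i, tsupport (a i) ⊆ closedBall 0 (3 / 2)) ∧
          (∀ i, ∀ x ∈ tsupport (a i), (μ ^ k)⁻¹ ≤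
            g3 (fderiv ℝ (fun x => F₁ (A.p (P.ch i.1) x)) x ((P.t i.1 i.2.1).es i.2.2))
              (fderiv ℝ (fun x => F₁ (A.p (P.ch i.1) x)) x ((P.t i.1 i.2.1).et i.2.2))
              (d2 (fun x => F₁ (A.p (P.ch i.1) x)) x ((P.t i.1 i.2.1).et i.2.2)
                ((P.t i.1 i.2.1).et i.2.2))) ∧
          (∀ i x, |a i x| ≤ √((μ ^ n)⁻¹) * μ ^ k) ∧ 0 < κ ∧ κ ≤ √((μ ^ n)⁻¹) * (μ ^ N)⁻¹ ∧
          ∀ b, ∀ x ∈ closedBall (0 : E2) 2,
            ‖g b x - A.pull F₁ b x - δ' • g b x - ∑ i, A.pushT (P.ch i.1)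
              (fun z => a i z ^ 2 • sq2 ((P.t i.1 i.2.1).l i.2.2)) b x‖ ≤ (μ ^ N)⁻¹ := by
  have hamp := fun p : Fin P.P => exists_amp (P.R_pos p) P.η_pos (P.sub p) (P.t p) (P.gen p)
    (P.om_smooth p) (P.om_pos p)
  choose kp m₀ hkp hamp using hamp
  obtain ⟨K, hK⟩ : ∃ K : ℕ, ∀ p, kp p ≤ K :=
    ⟨∑ p, kp p, fun p => Finset.single_le_sum (fun _ _ => Nat.zero_le _) (Finset.mem_univ p)⟩
  refine ⟨10 * (K + 1), by omega, fun n N hn => ?_⟩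
  obtain ⟨D₁, B₁, μ₁, hB₁, h₁⟩ := St49.smooth_map A n N
  obtain ⟨D₂, B₂, μ₂, h₂⟩ := St49.smooth_defect hg.toTen P.η_pos hn
  obtain ⟨B₄, h₄⟩ := Bd_cut (W := E4) B₁
  obtain ⟨C, hC1, hC⟩ := St49.sum_inc P
  choose B' hB' using fun p => hamp p N (fun j => B₂ j + B₄ j)
  obtain ⟨μ₀, hμ₀⟩ := eventually_atTop.1 ((eventually_ge_atTop (1 : ℝ)).and
    ((eventually_ge_atTop μ₁).and ((eventually_ge_atTop μ₂).and
      ((eventually_ge_atTop (1 + C)).and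
        ((eventually_all.2 fun p => eventually_ge_atTop (m₀ p)).and
          (eventually_all.2 fun p => eventually_ge_atTop (B' p 0)))))))
  have hsum0 : ∀ j, 0 ≤ ∑ p, |B' p j| := fun j => Finset.sum_nonneg (fun _ _ => abs_nonneg _)
  refine ⟨max D₁ D₂, fun j => B₁ j + ∑ p, |B' p j|, μ₀, fun j => add_nonneg (hB₁ j) (hsum0 j), ?_⟩
  intro μ δ' F hμ hδ' hδ'le hF hCB hNG hDef
  obtain ⟨hμ1, hμ2, hμ3, hμ4, hμ5, hμ6⟩ := hμ₀ μ hμ
  have hμp : 0 < μ := zero_lt_one.trans_le hμ1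
  obtain ⟨F₁, hF₁, hb₁, hd₁, hNG₁, hpull⟩ :=
    h₁ μ F hμ2 hF (hCB.mono (le_max_left _ _) (fun _ _ => le_rfl)) hNG
  choose h hBd hsym hcl using
    h₂ μ δ' F hμ3 hδ' hδ'le hF (hCB.mono (le_max_right _ _) (fun _ _ => le_rfl)) hDef
  have hm1 : 1 ≤ μ ^ 10 := one_le_pow₀ hμ1
  have hmμ : μ ≤ μ ^ 10 := le_self_pow₀ hμ1 (by norm_num)
  have hG : ∀ a, Bd B₄ (μ ^ 10) (fun _ => μ ^ 10) (fun y => zeta y • F₁ (A.p a y)) := by
    intro a
    refine h₄ _ _ _ hm1 (by positivity) (hF₁ a) (fun j x hx => (hb₁ j a j le_rfl x hx).trans ?_)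
    rw [mul_assoc, ← pow_mul, ← pow_add]
    exact mul_le_mul_of_nonneg_left (pow_le_pow_right₀ hμ1 (by omega)) (hB₁ j)
  have hev : ∀ a, ∀ x ∈ closedBall (0 : E2) (3 / 2),
      (fun y => zeta y • F₁ (A.p a y)) =ᶠ[𝓝 x] (fun y => F₁ (A.p a y)) :=
    fun a x hx => zeta_smul_eventuallyEq _ hx
  have h32 : closedBall (0 : E2) (3 / 2) ⊆ closedBall 0 2 :=
    closedBall_subset_closedBall (by norm_num)
  have key := fun p => hB' p (μ ^ 10) (fun y => zeta y • F₁ (A.p (P.ch p) y)) (h (P.ch p))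
    ((hμ5 p).trans hmμ)
    ((hG _).mono (fun j => le_add_of_nonneg_left ((hBd (P.ch p)).B_nonneg j)) le_rfl
      (fun _ => le_rfl))
    ((hBd _).mono (fun j => le_add_of_nonneg_right ((hG (P.ch p)).B_nonneg j)) le_rfl
      (fun _ => le_rfl))
    (hsym _) (fun x hx T i => P.cone p T i x hx _ (hcl _ x (P.sub p hx)).1)
    (fun x hx => by
      obtain ⟨τ, hτ, h'⟩ := hNG₁ (P.ch p) x (h32 (P.sub p hx))
      refine ⟨τ, hτ, ?_⟩
      rw [(hev _ x (P.sub p hx)).fderiv_eq, St49.d2_congr (hev _ x (P.sub p hx))]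
      exact h')
  choose a ha1 ha2 ha3 ha4 ha5 using key
  have hpn : 0 < (μ ^ n)⁻¹ := by positivity
  have hs : 0 < √((μ ^ n)⁻¹) := Real.sqrt_pos.2 hpn
  have hk1 : ∀ p, (μ ^ 10) ^ kp p ≤ μ ^ (10 * (K + 1)) := by
    intro p
    rw [← pow_mul]
    exact pow_le_pow_right₀ hμ1 (by have := hK p; omega)
  have hts : ∀ p T i, tsupport (fun x => √((μ ^ n)⁻¹) * a p T i x) ⊆ tsupport (a p T i) :=
    fun p T i => tsupport_mul_subset_right
  refine ⟨F₁, fun i x => √((μ ^ n)⁻¹) * a i.1 i.2.1 i.2.2 x, √((μ ^ n)⁻¹) * ((μ ^ 10) ^ N)⁻¹,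
    hF₁, fun D' => (hb₁ D').mono le_rfl (fun j _ => ?_), hd₁, fun i => ?_,
    fun i => (hts _ _ _).trans ((ha3 _ _ _).trans (P.sub _)), fun i x hx => ?_, fun i x => ?_,
    by positivity, ?_, fun b x hx => ?_⟩
  · rw [← pow_mul]
    refine mul_le_mul (le_add_of_nonneg_right (hsum0 j)) (pow_le_pow_right₀ hμ1 ?_)
      (by positivity) (add_nonneg (hB₁ j) (hsum0 j))
    nlinarith [Nat.zero_le (K * (j + 1))]
  · refine (St49.Bd_smul (ha1 i.1 i.2.1 i.2.2) (√((μ ^ n)⁻¹))).mono (fun j => ?_) (hk1 _)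
      (fun x => ?_)
    · refine (le_abs_self _).trans (le_trans ?_ (le_add_of_nonneg_left (hB₁ j)))
      exact Finset.single_le_sum (f := fun p => |B' p j|) (fun _ _ => abs_nonneg _)
        (Finset.mem_univ i.1)
    · rw [abs_mul, abs_of_pos hs, ← mul_assoc, mul_add]
      exact mul_le_mul_of_nonneg_left (hk1 _) (by positivity)
  · have hx' := hts _ _ _ hx
    have hx'' := P.sub _ (ha3 _ _ _ hx')
    have h' := ha4 _ _ _ x hx'
    rw [(hev _ x hx'').fderiv_eq, St49.d2_congr (hev _ x hx'')] at h'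
    exact (inv_anti₀ (by positivity) (hk1 _)).trans h'
  · rw [abs_mul, abs_of_pos hs]
    refine mul_le_mul_of_nonneg_left ((ha2 _ _ _ x).trans ?_) hs.le
    calc B' i.1 0 * (μ ^ 10) ^ kp i.1 ≤ μ ^ 10 * (μ ^ 10) ^ kp i.1 :=
          mul_le_mul_of_nonneg_right ((hμ6 _).trans hmμ) (by positivity)
      _ = μ ^ (10 * (kp i.1 + 1)) := by rw [pow_mul μ 10 (kp i.1 + 1), pow_succ' (μ ^ 10)]
      _ ≤ μ ^ (10 * (K + 1)) := pow_le_pow_right₀ hμ1 (by have := hK i.1; omega)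
  · exact mul_le_mul_of_nonneg_left
      (inv_anti₀ (by positivity) (pow_le_pow_left₀ hμp.le hmμ N)) hs.le
  · have e1 : ∑ i : Fin P.P × Fin 3 × Fin 3, A.pushT (P.ch i.1)
          (fun z => (√((μ ^ n)⁻¹) * a i.1 i.2.1 i.2.2 z) ^ 2 • sq2 ((P.t i.1 i.2.1).l i.2.2)) b x
        = ∑ p, A.pushT (P.ch p) (fun z => St49.th P p z • (μ ^ n)⁻¹ • h (P.ch p) z) b x := by
      rw [Fintype.sum_prod_type]
      refine Finset.sum_congr rfl (fun p _ => ?_)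
      rw [Fintype.sum_prod_type]
      simp only [← Atl.pushT_sum]
      congr 1
      funext z
      exact St49.gen8 (W := Bil) hpn.le (ha5 p z)
    rw [e1]
    have hH : A.Ten (fun a x => g a x - A.pull F a x - δ' • g a x) :=
      (hg.toTen.sub (Atl.Ten_pull hF)).sub (hg.toTen.const_smul δ')
    have h2 := hC _ (fun a z => (μ ^ n)⁻¹ • h a z) _ hH (by positivity)
      (fun a z hz => (hcl a z hz).2) b x hx
    refine (St49.gen7 (W := Bil) (hpull b x hx) h2).trans ?_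
    calc (μ ^ (N + 1))⁻¹ + C * (μ ^ (N + 1))⁻¹ = (1 + C) * (μ ^ (N + 1))⁻¹ := by ring
      _ ≤ μ * (μ ^ (N + 1))⁻¹ := mul_le_mul_of_nonneg_right hμ4 (by positivity)
      _ = (μ ^ N)⁻¹ := by rw [pow_succ μ N]; field_simp

end Crest.Agent.R216
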