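import Crest.Agent.R216.Stage
import Crest.Agent.R216.Multi

/-! # Row 216, one stage of the perturbation theorem -/

set_option autoImplicit false
open Set Filter Metric
open scoped ContDiff RealInnerProductSpace Topology

noncomputable section
namespace Crest.Agent.R216

variable {M : Type*} [TopologicalSpace M] [T2Space M] (A : Atl E2 M)

/-- **One stage.**  `stage_amp` (exponent `k`), `multi_step` at the scale `μ^k` (exponents `K₁, n₁`)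
with `α = √(μ^(-n)) μ^k`; `K = k K₁ + k + 2`, `n₀ = max (10 K) (2 k n₁ + 2 k) + 40 K`,
`N = K n' + K + 2`, `δ' = ((μ^K)^n')⁻¹`.  All constants are absorbed by taking `μ₀` large. -/
theorem stage {g : A.ι → E2 → Bil} (hg : A.Met g) :
    ∃ η > (0 : ℝ), ∃ K n₀ : ℕ, 2 ≤ K ∧ 10 * K ≤ n₀ ∧ ∀ n n' : ℕ, n₀ ≤ n → n ≤ n' →
      ∃ D : ℕ, ∀ D' : ℕ, ∃ μ₀ : ℝ, ∀ (μ : ℝ) (F : M → E4), μ₀ ≤ μ → A.Sm F →
        A.CB D F (fun j => μ ^ (j + 1)) → A.NG F μ⁻¹ → A.Def g F (μ ^ n)⁻¹ η →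
        ∃ F' : M → E4, A.Sm F' ∧ A.CB D' F' (fun j => (μ ^ K) ^ (j + 1)) ∧ A.NG F' (μ ^ K)⁻¹ ∧
          A.Def g F' ((μ ^ K) ^ n')⁻¹ η ∧
          ∀ m : ℕ, K * (2 * m + 6) ≤ n → A.CB m (fun y => F' y - F y) (fun _ => μ⁻¹) := by
  obtain ⟨P⟩ := exists_pat A hg
  obtain ⟨k, hk1, hamp⟩ := stage_amp A hg P
  obtain ⟨K₁, n₁, hK1, hmul⟩ := multi_step A (ι := Fin P.P × Fin 3 × Fin 3) (fun i => P.ch i.1)
    (fun i => (P.t i.1 i.2.1).es i.2.2) (fun i => (P.t i.1 i.2.1).et i.2.2)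
    (fun i => (P.t i.1 i.2.1).l i.2.2) (fun i => (P.t _ _).l_es _) (fun i => (P.t _ _).l_et _)
    (fun i => (P.t _ _).norm_et _) Finset.univ
  set K := k * K₁ + k + 2 with hK
  refine ⟨P.η, P.η_pos, K, 2 * (k * n₁) + 2 * k + 50 * K, by omega, by omega, fun n n' hn hn' => ?_⟩
  set N := K * n' + K + 2 with hN
  have hKn : 2 * n' ≤ K * n' := Nat.mul_le_mul_right _ (by omega)
  obtain ⟨D, B, μa, hB, hamp⟩ := hamp n N (by omega)
  obtain ⟨B₁, μ₁, hB₁, hmul⟩ := hmul N B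
  refine ⟨max D 2, fun D' => ?_⟩
  set C : ℝ := 1 + ∑ j ∈ Finset.range (D' + n + 3), (B j + B₁ j) with hC
  have hCb : ∀ j, j ≤ D' + n + 2 → B j + B₁ j ≤ C := fun j hj => by
    have := Finset.single_le_sum (f := fun j => B j + B₁ j) (s := Finset.range (D' + n + 3))
      (fun j _ => add_nonneg (hB j) (hB₁ j)) (Finset.mem_range.2 (by omega : j < D' + n + 3))
    rw [hC]; linarith
  have hC0 : 0 ≤ C := (add_nonneg (hB 0) (hB₁ 0)).trans (hCb 0 (by omega))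
  have hη := P.η_pos
  refine ⟨max (max μa μ₁) (max (max 11 C) ((1 + 2 * C) / P.η)), fun μ F hμ hF hCB hNG hDef => ?_⟩
  simp only [max_le_iff] at hμ
  obtain ⟨⟨hμa, hμ₁⟩, ⟨hμ11, hμC⟩, hμη⟩ := hμ
  have hμ1 : 1 ≤ μ := by linarith
  have hμ0 : 0 < μ := by linarith
  have hpw : ∀ {p q : ℕ}, p ≤ q → μ ^ p ≤ μ ^ q := fun h => pow_le_pow_right₀ hμ1 h
  have hipw : ∀ {p q : ℕ}, p ≤ q → (μ ^ q)⁻¹ ≤ (μ ^ p)⁻¹ := fun h =>
    inv_anti₀ (by positivity) (hpw h)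
  obtain ⟨F₁, a, κ, hF₁, hb₁, hd₁, ha, hsup, h3, haα, hκ0, hκ, herr⟩ :=
    hamp μ ((μ ^ K) ^ n')⁻¹ F hμa (by positivity) (by rw [← pow_mul]; exact hipw (by omega)) hF
      (hCB.mono (le_max_left _ _) (fun _ _ => le_rfl)) hNG hDef
  set p := n / 2 with hp
  set s := √((μ ^ n)⁻¹) with hs
  have hs0 : 0 ≤ s := Real.sqrt_nonneg _
  have hsp : s ≤ (μ ^ p)⁻¹ := by
    refine Real.sqrt_le_iff.2 ⟨by positivity, ?_⟩
    rw [inv_pow, ← pow_mul]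
    exact hipw (by omega)
  have hs1 : s ≤ 1 := hsp.trans (inv_le_one_of_one_le₀ (one_le_pow₀ hμ1))
  have hα : s * μ ^ k ≤ ((μ ^ k) ^ n₁)⁻¹ := by
    calc s * μ ^ k ≤ (μ ^ (k * n₁ + k))⁻¹ * μ ^ k := by
          gcongr; exact hsp.trans (hipw (by omega))
      _ = _ := by rw [pow_add, ← pow_mul]; field_simp
  have hα1 : s * μ ^ k ≤ 1 :=
    hα.trans (inv_le_one_of_one_le₀ (one_le_pow₀ (one_le_pow₀ hμ1)))
  have hNi : (μ ^ N)⁻¹ ≤ 1 := inv_le_one_of_one_le₀ (one_le_pow₀ hμ1)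
  obtain ⟨V, hV, hbV, herrV⟩ := hmul (μ ^ k) F₁ a (s * μ ^ k) κ
    (hμ₁.trans (le_self_pow₀ hμ1 (by omega))) hF₁ hb₁ ha hsup h3 haα hα hκ0
    (hκ.trans (mul_le_mul_of_nonneg_left (hNi.trans (one_le_pow₀ hμ1)) hs0))
  have hF' : A.Sm (fun y => F₁ y + V y) := hF₁.add hV
  have hinc : ∀ m q : ℕ, m ≤ n + 2 → q + 1 + K * (m + 1) ≤ p → q ≤ N →
      A.CB m (fun y => (F₁ y + V y) - F y) (fun _ => 2 * (μ ^ q)⁻¹) := fun m q hm hq hqN => by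
    have h1 := Atl.CB.add (hF₁.sub hF) hV (hd₁.mono hm (fun _ _ => le_rfl)) (hbV m)
    have e : (fun y => F₁ y - F y + V y) = fun y => (F₁ y + V y) - F y := by
      ext1 y; abel
    rw [e] at h1
    refine h1.mono le_rfl (fun j hj => ?_)
    have b1 : B₁ j ≤ μ := by linarith [hCb j (by omega), hB j]
    have e1 : k * K₁ * (j + 1) ≤ k * K₁ * (m + 1) := Nat.mul_le_mul_left _ (by omega)
    have e2 : k + k * K₁ * (m + 1) ≤ K * (m + 1) := by rw [hK]; nlinarith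
    have b2 : B₁ j * (s * μ ^ k) * ((μ ^ k) ^ K₁) ^ (j + 1) ≤ (μ ^ q)⁻¹ := by
      calc B₁ j * (s * μ ^ k) * ((μ ^ k) ^ K₁) ^ (j + 1)
          ≤ μ * ((μ ^ (q + 1 + K * (m + 1)))⁻¹ * μ ^ k) * μ ^ (k * K₁ * (m + 1)) := by
            rw [← pow_mul, ← pow_mul, ← mul_assoc k]
            gcongr
            exact hsp.trans (hipw hq)
        _ = μ * (μ ^ (q + 1 + K * (m + 1)))⁻¹ * μ ^ (k + k * K₁ * (m + 1)) := by
            rw [pow_add μ k]; ring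
        _ ≤ μ * (μ ^ (q + 1 + K * (m + 1)))⁻¹ * μ ^ (K * (m + 1)) := by
            gcongr
        _ = (μ ^ q)⁻¹ := by rw [pow_add, pow_add]; field_simp
    linarith [hipw hqN]
  refine ⟨fun y => F₁ y + V y, hF', ?_, ?_, fun b x hx => ?_, fun m hm => ?_⟩
  · refine (Atl.CB.add hF₁ hV (hb₁ D') (hbV D')).mono le_rfl (fun j hj => ?_)
    have b1 := hCb j (by omega)
    have p1 : (μ ^ k) ^ (j + 1) ≤ (μ ^ (K - 1)) ^ (j + 1) :=
      pow_le_pow_left₀ (by positivity) (hpw (by omega)) _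
    have p2 : ((μ ^ k) ^ K₁) ^ (j + 1) ≤ (μ ^ (K - 1)) ^ (j + 1) := by
      rw [← pow_mul μ k K₁]
      exact pow_le_pow_left₀ (by positivity) (hpw (by omega)) _
    have p3 : μ * (μ ^ (K - 1)) ^ (j + 1) ≤ (μ ^ K) ^ (j + 1) := by
      have : μ ^ K = μ * μ ^ (K - 1) := by
        rw [← pow_succ']; congr 1
      rw [this, mul_pow]
      gcongr
      exact le_self_pow₀ hμ1 (by omega)
    have := hB j
    have := hB₁ j
    calc B j * (μ ^ k) ^ (j + 1) + B₁ j * (s * μ ^ k) * ((μ ^ k) ^ K₁) ^ (j + 1)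
        ≤ B j * (μ ^ (K - 1)) ^ (j + 1) + B₁ j * 1 * (μ ^ (K - 1)) ^ (j + 1) := by gcongr
      _ = (B j + B₁ j) * (μ ^ (K - 1)) ^ (j + 1) := by ring
      _ ≤ μ * (μ ^ (K - 1)) ^ (j + 1) := by gcongr; linarith
      _ ≤ _ := p3
  · have hd := hinc 2 20 (by omega) (by omega) (by omega)
    have hR : (1 : ℝ) ≤ 2 * μ ^ 3 := by linarith [one_le_pow₀ (n := 3) hμ1]
    have hb : A.CB 2 F (fun _ => μ ^ 3) :=
      hCB.mono (le_max_right _ _) (fun j hj => hpw (by omega))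
    have hb' : A.CB 2 (fun y => F₁ y + V y) (fun _ => 2 * μ ^ 3) := by
      have h1 := Atl.CB.add hF (hF'.sub hF) hb hd
      have e : (fun y => F y + (F₁ y + V y - F y)) = fun y => F₁ y + V y := by
        ext1 y; abel
      rw [e] at h1
      refine h1.mono le_rfl (fun j _ => ?_)
      have t1 : (μ ^ 20)⁻¹ ≤ 1 := inv_le_one_of_one_le₀ (one_le_pow₀ hμ1)
      have t2 : μ ≤ μ ^ 3 := le_self_pow₀ hμ1 (by omega)
      linarith
    have h := Atl.NG.perturb hF hF' hNG hR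
      (hb.mono le_rfl (fun _ _ => by linarith [pow_pos hμ0 3])) hb' hd
    intro b x hx
    obtain ⟨τ, hτ, h⟩ := h b x hx
    refine ⟨τ, hτ, le_trans ?_ h⟩
    have t1 : (μ ^ K)⁻¹ ≤ (μ ^ 2)⁻¹ := hipw (by omega)
    have t2 : (μ ^ 2)⁻¹ ≤ μ⁻¹ / 2 := by
      rw [sq, mul_inv, div_eq_mul_inv]
      gcongr
      linarith
    have t3 : 100 * (2 * μ ^ 3) ^ 5 * (2 * (μ ^ 20)⁻¹) ≤ μ⁻¹ / 2 := by
      have t4 : (11 : ℝ) ^ 4 ≤ μ ^ 4 := by gcongr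
      have e : 100 * (2 * μ ^ 3) ^ 5 * (2 * (μ ^ 20)⁻¹) = μ⁻¹ * (6400 / μ ^ 4) := by
        field_simp; ring
      rw [e, div_eq_mul_inv μ⁻¹]
      gcongr
      rw [div_le_iff₀ (by positivity)]
      norm_num at t4 ⊢
      linarith
    linarith
  · have h1 := herr b x hx
    have h2 := herrV b x hx
    have e : g b x - A.pull (fun y => F₁ y + V y) b x - ((μ ^ K) ^ n')⁻¹ • g b x
        = (g b x - A.pull F₁ b x - ((μ ^ K) ^ n')⁻¹ • g b x - ∑ i, A.pushT (P.ch i.1)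
            (fun z => a i z ^ 2 • sq2 ((P.t i.1 i.2.1).l i.2.2)) b x)
          - (A.pull (fun y => F₁ y + V y) b x - A.pull F₁ b x - ∑ i, A.pushT (P.ch i.1)
            (fun z => a i z ^ 2 • sq2 ((P.t i.1 i.2.1).l i.2.2)) b x) := by abel
    rw [e]
    refine (norm_sub_le (E := Bil) _ _).trans ?_
    have hκN : κ ≤ (μ ^ N)⁻¹ := hκ.trans (mul_le_of_le_one_left (by positivity) hs1)
    have t1 : ((μ ^ k) ^ N)⁻¹ ≤ (μ ^ N)⁻¹ := by
      rw [← pow_mul]; exact hipw (Nat.le_mul_of_pos_left _ (by omega))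
    have t2 : κ ^ 2 * (μ ^ k) ^ K₁ ≤ (μ ^ N)⁻¹ := by
      calc κ ^ 2 * (μ ^ k) ^ K₁ ≤ ((μ ^ N)⁻¹) ^ 2 * μ ^ N := by
            rw [← pow_mul μ k]
            gcongr
            omega
        _ = (μ ^ N)⁻¹ := by field_simp
    have t3 : B₁ 0 ≤ C := by linarith [hCb 0 (by omega), hB 0]
    have t4 : B₁ 0 * (((μ ^ k) ^ N)⁻¹ + κ ^ 2 * (μ ^ k) ^ K₁) ≤ C * ((μ ^ N)⁻¹ + (μ ^ N)⁻¹) := by
      have := hB₁ 0
      gcongr
    have t5 : (μ ^ N)⁻¹ ≤ μ⁻¹ * ((μ ^ K) ^ n')⁻¹ := by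
      rw [← pow_mul, ← mul_inv, ← pow_succ']
      exact hipw (by omega)
    have t6 : (1 + 2 * C) * μ⁻¹ ≤ P.η := by
      rw [div_le_iff₀ hη] at hμη
      rw [← div_eq_mul_inv, div_le_iff₀ hμ0]
      linarith
    calc _ ≤ (1 + 2 * C) * (μ ^ N)⁻¹ := by linarith
      _ ≤ (1 + 2 * C) * (μ⁻¹ * ((μ ^ K) ^ n')⁻¹) := by gcongr
      _ = ((1 + 2 * C) * μ⁻¹) * ((μ ^ K) ^ n')⁻¹ := by ring
      _ ≤ _ := by gcongr
  · have e1 : K * (2 * m + 6) = 2 * (K * (m + 1)) + 4 * K := by ring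
    have e2 : m + 1 ≤ K * (m + 1) := Nat.le_mul_of_pos_left _ (by omega)
    refine (hinc m 2 (by omega) (by omega) (by omega)).mono le_rfl (fun j _ => ?_)
    rw [sq, mul_inv, ← mul_assoc]
    refine mul_le_of_le_one_left (by positivity) ?_
    rw [← div_eq_mul_inv, div_le_one hμ0]
    linarith

end Crest.Agent.R216
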