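import Crest.Agent.R216.StepDefs

/-! # Row 216, the step lemma: expansions of the residuals, the leading term -/

set_option autoImplicit false
open Set Filter Metric
open scoped ContDiff RealInnerProductSpace Topology

noncomputable section
namespace Crest.Agent.R216

namespace SD

variable (d : SD)

theorem _root_.Crest.Agent.R216.Step0_dx_add {U u : E2 × ℝ → E4} (hU : ContDiff ℝ ∞ U)
    (hu : ContDiff ℝ ∞ u) (v : E2) (z : E2 × ℝ) :
    dx v (fun z => U z + u z) z = dx v U z + dx v u z := by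
  unfold dx
  rw [fderiv_fun_add (hU.differentiable (by simp) z) (hu.differentiable (by simp) z)]
  rfl

theorem _root_.Crest.Agent.R216.Step0_dθ_add {U u : E2 × ℝ → E4} (hU : ContDiff ℝ ∞ U)
    (hu : ContDiff ℝ ∞ u) (z : E2 × ℝ) :
    dθ (fun z => U z + u z) z = dθ U z + dθ u z := by
  unfold dθ
  rw [fderiv_fun_add (hU.differentiable (by simp) z) (hu.differentiable (by simp) z)]
  rfl

theorem _root_.Crest.Agent.R216.Step0_dx_zero (v : E2) (z : E2 × ℝ) :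
    dx v (fun _ : E2 × ℝ => (0 : E4)) z = 0 := by
  unfold dx
  simp

theorem _root_.Crest.Agent.R216.Step0_dθ_zero (z : E2 × ℝ) :
    dθ (fun _ : E2 × ℝ => (0 : E4)) z = 0 := by
  unfold dθ
  simp

theorem R1_add {U u : E2 × ℝ → E4} (hU : ContDiff ℝ ∞ U) (hu : ContDiff ℝ ∞ u) (z : E2 × ℝ) :
    d.R1 (fun z => U z + u z) z = d.R1 U z + 2 * ⟪d.Gt z.1, dx d.et u z⟫
      + d.ε * (2 * ⟪dx d.et U z, dx d.et u z⟫ + ⟪dx d.et u z, dx d.et u z⟫) := by
  unfold R1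
  rw [Step0_dx_add hU hu]
  generalize dx d.et U z = A
  generalize dx d.et u z = a
  simp only [inner_add_left, inner_add_right]
  rw [real_inner_comm A a]
  ring

theorem R2_add {U u : E2 × ℝ → E4} (hU : ContDiff ℝ ∞ U) (hu : ContDiff ℝ ∞ u) (z : E2 × ℝ) :
    d.R2 (fun z => U z + u z) z = d.R2 U z + ⟪d.Gt z.1, dθ u z⟫
      + d.ε * (⟪d.Gt z.1, dx d.es u z⟫ + ⟪d.Gs z.1, dx d.et u z⟫)
      + d.ε * (⟪dx d.et U z, dθ u z⟫ + ⟪dθ U z, dx d.et u z⟫ + ⟪dx d.et u z, dθ u z⟫)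
      + d.ε ^ 2 * (⟪dx d.et U z, dx d.es u z⟫ + ⟪dx d.es U z, dx d.et u z⟫
        + ⟪dx d.et u z, dx d.es u z⟫) := by
  unfold R2
  rw [Step0_dx_add hU hu, Step0_dx_add hU hu, Step0_dθ_add hU hu]
  generalize dx d.et U z = A
  generalize dx d.et u z = a
  generalize dx d.es U z = S
  generalize dx d.es u z = s
  generalize dθ U z = T
  generalize dθ u z = t
  generalize d.Gs z.1 = gs
  generalize d.Gt z.1 = gt
  simp only [smul_add, inner_add_left, inner_add_right, real_inner_smul_left,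
    real_inner_smul_right]
  rw [real_inner_comm a gs, real_inner_comm a T, real_inner_comm a S]
  ring

theorem R3_add {U u : E2 × ℝ → E4} (hU : ContDiff ℝ ∞ U) (hu : ContDiff ℝ ∞ u) (z : E2 × ℝ) :
    d.R3 (fun z => U z + u z) z = d.R3 U z + 2 * ⟪d.Gs z.1 + dθ U z, dθ u z⟫
      + ⟪dθ u z, dθ u z⟫ + d.ε * (2 * ⟪d.Gs z.1, dx d.es u z⟫)
      + d.ε * (2 * ⟪dx d.es U z, dθ u z⟫ + 2 * ⟪dθ U z, dx d.es u z⟫ + 2 * ⟪dθ u z, dx d.es u z⟫)
      + d.ε ^ 2 * (2 * ⟪dx d.es U z, dx d.es u z⟫ + ⟪dx d.es u z, dx d.es u z⟫) := by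
  unfold R3
  rw [Step0_dx_add hU hu, Step0_dθ_add hU hu]
  generalize dx d.es U z = S
  generalize dx d.es u z = s
  generalize dθ U z = T
  generalize dθ u z = t
  generalize d.Gs z.1 = gs
  simp only [smul_add, inner_add_left, inner_add_right, real_inner_smul_left,
    real_inner_smul_right]
  rw [real_inner_comm gs t, real_inner_comm gs s, real_inner_comm T t, real_inner_comm T s,
    real_inner_comm S t, real_inner_comm S s, real_inner_comm t s]
  ring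

theorem R1_zero (z : E2 × ℝ) : d.R1 (fun _ => 0) z = 0 := by
  unfold R1
  rw [Step0_dx_zero]
  simp

theorem R2_zero (z : E2 × ℝ) : d.R2 (fun _ => 0) z = 0 := by
  unfold R2
  rw [Step0_dx_zero, Step0_dx_zero, Step0_dθ_zero]
  simp

theorem R3_zero (z : E2 × ℝ) : d.R3 (fun _ => 0) z = -d.a z.1 ^ 2 := by
  unfold R3
  rw [Step0_dx_zero, Step0_dθ_zero]
  simp

theorem per_R1 {U : E2 × ℝ → E4} (hU : Per U) : Per (d.R1 U) := by
  intro x θ
  unfold R1
  rw [hU.dx d.et x θ]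

theorem per_R2 {U : E2 × ℝ → E4} (hU : Per U) : Per (d.R2 U) := by
  intro x θ
  unfold R2
  rw [hU.dx d.et x θ, hU.dx d.es x θ, hU.dθ x θ]

theorem per_R3 {U : E2 × ℝ → E4} (hU : Per U) : Per (d.R3 U) := by
  intro x θ
  unfold R3
  rw [hU.dx d.es x θ, hU.dθ x θ]

variable {d}

theorem Ok.w_nonneg (h : d.Ok) (x : E2) : 0 ≤ d.w x := by
  unfold w
  exact indicator_nonneg (fun y _ => add_nonneg (abs_nonneg _) h.κ_pos.le) x

theorem Ok.w_eq_zero (h : d.Ok) {x : E2} (hx : x ∉ d.Z) : d.w x = 0 := by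
  have := h
  unfold w
  exact indicator_of_notMem hx _

theorem Ok.iA_pos (h : d.Ok) (x : E2) : 0 < d.iA x := by
  unfold iA
  have := h.κ_pos
  positivity

theorem Ok.Step0_w_le (h : d.Ok) (x : E2) : d.w x ≤ |d.a x| + d.κ := by
  unfold w
  exact indicator_le_self' (fun y _ => add_nonneg (abs_nonneg _) h.κ_pos.le) x

theorem Ok.w_sq_iA (h : d.Ok) (x : E2) : d.w x ^ 2 * d.iA x ≤ 2 := by
  have h1 := h.Step0_w_le x
  have h2 := h.w_nonneg x
  have hκ := h.κ_pos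
  have h3 : d.w x ^ 2 ≤ (|d.a x| + d.κ) ^ 2 := pow_le_pow_left₀ h2 h1 2
  have h4 : (|d.a x| + d.κ) ^ 2 ≤ 2 * (d.a x ^ 2 + d.κ ^ 2) := by
    have := sq_abs (d.a x)
    nlinarith [sq_nonneg (|d.a x| - d.κ)]
  have h5 : 0 < d.a x ^ 2 + d.κ ^ 2 := by positivity
  unfold iA
  rw [← div_eq_mul_inv, div_le_iff₀ h5]
  linarith

theorem Ok.a_sq_iA (h : d.Ok) (x : E2) : d.a x ^ 2 * d.iA x = 1 - d.κ ^ 2 * d.iA x := by
  have hκ := h.κ_pos
  have h5 : 0 < d.a x ^ 2 + d.κ ^ 2 := by positivity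
  unfold iA
  field_simp
  ring

theorem Ok.ε_pos (h : d.Ok) : 0 < d.ε := by
  unfold ε
  exact pow_pos h.τ_pos 4

theorem Ok.ε_le (h : d.Ok) : d.ε ≤ d.τ ^ 2 := by
  unfold ε
  exact pow_le_pow_of_le_one h.τ_pos.le h.τ_le (by norm_num)

/-- If `u` vanishes on `Zᶜ × ℝ` and `⟪Gt, u⟫ = X` on `O × ℝ`, then
`⟪Gt, u_t⟫ = X_t - ⟪Gtt, u⟫` on `O × ℝ`, and `⟪Gt, u_θ⟫ = X_θ`. -/
theorem Ok.inner_dx (h : d.Ok) (hG : ContDiff ℝ ∞ d.G) {u : E2 × ℝ → E4} (hu : ContDiff ℝ ∞ u)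
    {X : E2 × ℝ → ℝ} (hX : ∀ x ∈ d.O, ∀ θ, ⟪d.Gt x, u (x, θ)⟫ = X (x, θ)) {x : E2}
    (hx : x ∈ d.O) (θ : ℝ) :
    ⟪d.Gt x, dx d.et u (x, θ)⟫ = dx d.et X (x, θ) - ⟪d.Gtt x, u (x, θ)⟫ ∧
      ⟪d.Gt x, dθ u (x, θ)⟫ = dθ X (x, θ) := by
  have hGt : ContDiff ℝ ∞ d.Gt := Int2_contDiff_fderiv hG d.et
  have hev : X =ᶠ[𝓝 (x, θ)] fun z : E2 × ℝ => ⟪d.Gt z.1, u z⟫ := by
    have ho : IsOpen (Prod.fst ⁻¹' d.O : Set (E2 × ℝ)) := h.isOpen.preimage continuous_fst
    filter_upwards [ho.mem_nhds (show (x, θ) ∈ (Prod.fst ⁻¹' d.O : Set (E2 × ℝ)) from hx)]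
      with z hz
    exact (hX z.1 hz z.2).symm
  have hfst : ContDiff ℝ ∞ (fun z : E2 × ℝ => d.Gt z.1) := hGt.comp contDiff_fst
  have key : ∀ v : E2 × ℝ, fderiv ℝ X (x, θ) v = ⟪d.Gt x, fderiv ℝ u (x, θ) v⟫
      + ⟪fderiv ℝ (fun z : E2 × ℝ => d.Gt z.1) (x, θ) v, u (x, θ)⟫ := by
    intro v
    rw [hev.fderiv_eq, fderiv_inner_apply ℝ (hfst.differentiable (by simp) _)
      (hu.differentiable (by simp) _)]
  constructor
  · have h1 := dx_fst d.Gt hGt d.et (x, θ)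
    have h2 := key (d.et, 0)
    unfold dx at h1 ⊢
    rw [h2, h1]
    unfold Gtt
    ring
  · have h1 := dθ_fst d.Gt hGt (x, θ)
    have h2 := key (0, 1)
    unfold dθ at h1 ⊢
    rw [h2, h1]
    simp

/-- derivatives of a function vanishing off `Z` vanish off `Z` -/
theorem Ok.fderiv_eq_zero (h : d.Ok) {W : Type*} [NormedAddCommGroup W] [NormedSpace ℝ W]
    {u : E2 × ℝ → W} (hu : ∀ x θ, x ∉ d.Z → u (x, θ) = 0) {x : E2} (hx : x ∉ d.Z) (θ : ℝ) :
    fderiv ℝ u (x, θ) = 0 := by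
  have hev : u =ᶠ[𝓝 (x, θ)] fun _ => (0 : W) := by
    have ho : IsOpen (Prod.fst ⁻¹' d.Zᶜ : Set (E2 × ℝ)) :=
      h.closed.isOpen_compl.preimage continuous_fst
    filter_upwards [ho.mem_nhds (show (x, θ) ∈ (Prod.fst ⁻¹' d.Zᶜ : Set (E2 × ℝ)) from hx)]
      with z hz
    exact hu z.1 z.2 hz
  rw [hev.fderiv_eq]
  simp

end SD

section
variable {J N : Type} {π : J → N} {μ : J → ℝ} {d : J → SD}

theorem Cl.one_le (h : Cl π μ d) (i : J) : 1 ≤ μ i := by
  exact h.G.one_le i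

theorem Cl.et_le (h : Cl π μ d) (i : J) : ‖(d i).et‖ ≤ μ i := by
  rw [(h.ok i).norm_et]
  exact h.one_le i

theorem Cl.w_le (h : Cl π μ d) (i : J) (x : E2) : (d i).w x ≤ 2 * μ i := by
  have h1 := (h.ok i).Step0_w_le x
  have h2 := h.a_le i x
  have h3 := (h.ok i).κ_le
  have h4 := h.one_le i
  linarith

theorem Cl.comap {J' N' : Type} (h : Cl π μ d) (f : J' → J) (π' : J' → N') (g : N' → N)
    (hf : ∀ i, π (f i) = g (π' i)) : Cl π' (fun i => μ (f i)) (fun i => d (f i)) := by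
  exact
    { ok := fun i => h.ok (f i)
      G := h.G.comap f π' g hf
      a := h.a.comap f π' g hf
      a_le := fun i x => h.a_le (f i) x
      es_le := fun i => h.es_le (f i)
      q1 := h.q1.comap f π' g hf
      q2 := h.q2.comap f π' g hf
      ip := h.ip.comap f π' g hf
      f1 := h.f1.comap f π' g hf
      f2 := h.f2.comap f π' g hf
      e0 := h.e0.comap f π' g hf
      nu := h.nu.comap f π' g hf
      rho := h.rho.comap f π' g hf
      irho := h.irho.comap f π' g hf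
      im := h.im.comap f π' g hf
      iA := h.iA.comap f π' g hf
      hq := h.hq.comap f π' g hf }

theorem Cl.Gs (h : Cl π μ d) : Sy π μ (fun _ _ => 1) (fun i => (d i).Gs) := by
  exact h.G.dir (fun i => (d i).es) h.es_le

theorem Cl.Gt (h : Cl π μ d) : Sy π μ (fun _ _ => 1) (fun i => (d i).Gt) := by
  exact h.G.dir (fun i => (d i).et) h.et_le

theorem Cl.p1 (h : Cl π μ d) : Sy π μ (fun _ _ => 1) (fun i => (d i).p1) := by
  have h1 : Sy π μ (fun i (z : E2 × ℝ) => (d i).w z.1)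
      (fun i z => (d i).a z.1 * (d i).q1 z) := h.a.fst.mul_one h.q1
  have h2 : Sy π μ (fun _ (_ : E2 × ℝ) => (1 : ℝ)) (fun i z => (d i).a z.1 * (d i).q1 z) :=
    h1.of_le (fun _ _ => zero_le_one) 1 (fun _ => 2) (fun i z => by
      have := h.w_le i z.1
      simpa using this)
  exact h.rho.fst.add h2

theorem Cl.p2 (h : Cl π μ d) : Sy π μ (fun i z => (d i).w z.1) (fun i => (d i).p2) := by
  exact h.a.fst.mul_one h.q2

theorem Cl.U0 (h : Cl π μ d) : Sy π μ (fun i z => (d i).w z.1) (fun i => (d i).U0) := by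
  have h1 : Sy π μ (fun _ (_ : E2 × ℝ) => (1 : ℝ)) (fun i => prim (d i).q1) :=
    Sy.prim (w := fun _ _ => 1) h.q1 (fun i => (h.ok i).per1)
  have h2 : Sy π μ (fun _ (_ : E2 × ℝ) => (1 : ℝ)) (fun i => prim (d i).q2) :=
    Sy.prim (w := fun _ _ => 1) h.q2 (fun i => (h.ok i).per2)
  exact h.a.fst.smul_one ((h1.smul_one h.e0.fst).add (h2.smul_one h.nu.fst))

theorem Cl.per_U0 (h : Cl π μ d) (i : J) : Per (d i).U0 := by
  intro x θ
  unfold SD.U0
  rw [Per.prim (h.q1.smooth i).continuous (h.ok i).per1 x θ,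
    Per.prim (h.q2.smooth i).continuous (h.ok i).per2 x θ]

/-- `a * mean q = 0` everywhere -/
theorem Cl.dθ_U0 (h : Cl π μ d) (i : J) (z : E2 × ℝ) :
    dθ (d i).U0 z = (d i).a z.1 • ((d i).q1 z • (d i).e0 z.1 + (d i).q2 z • (d i).nu z.1) := by
  obtain ⟨x, θ⟩ := z
  have h0 := Int2_lineθ (h.U0.smooth i) x θ
  have h1 := Int2_lineθ (contDiff_prim (h.q1.smooth i)) x θ
  have h2 := Int2_lineθ (contDiff_prim (h.q2.smooth i)) x θ
  have h3 := ((h1.smul_const ((d i).e0 x)).add (h2.smul_const ((d i).nu x))).const_smul ((d i).a x)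
  have h4 := h0.unique h3
  rw [h4, dθ_prim (h.q1.smooth i), dθ_prim (h.q2.smooth i)]
  by_cases hx : x ∈ (d i).Z
  · simp only [(h.ok i).mean1 x hx, (h.ok i).mean2 x hx, sub_zero]
  · simp only [(h.ok i).a_zero x hx, zero_smul]

theorem Cl.mean_U0 (h : Cl π μ d) (i : J) (x : E2) : mean (d i).U0 x = 0 := by
  have c1 := (contDiff_prim (h.q1.smooth i)).continuous
  have c2 := (contDiff_prim (h.q2.smooth i)).continuous
  have c3 := (h.e0.smooth i).continuous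
  have c4 := (h.nu.smooth i).continuous
  have e : (d i).U0 = fun z => (d i).a z.1 •
      (fun z : E2 × ℝ => prim (d i).q1 z • (d i).e0 z.1 + prim (d i).q2 z • (d i).nu z.1) z := rfl
  rw [e, mean_smul_left, mean_add (by fun_prop) (by fun_prop), mean_smul_right, mean_smul_right,
    mean_prim (h.q1.smooth i), mean_prim (h.q2.smooth i)]
  simp

theorem Cl.U0_odd (h : Cl π μ d) (i : J) (x : E2) (θ : ℝ) :
    (d i).U0 (x, -θ) = -(d i).U0 (x, θ) := by
  unfold SD.U0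
  rw [prim_odd (h.q1.smooth i) (h.ok i).per1 (h.ok i).even1,
    prim_odd (h.q2.smooth i) (h.ok i).per2 (h.ok i).even2]
  simp only [neg_smul, ← neg_add, smul_neg]

/-- `|Gs + U0_θ|² = |Gs|² + a² + hq` (on `O` by the frame identities, off `Z` all terms vanish) -/
theorem Cl.norm_sq_U0 (h : Cl π μ d) (i : J) (z : E2 × ℝ) :
    ⟪(d i).Gs z.1 + dθ (d i).U0 z, (d i).Gs z.1 + dθ (d i).U0 z⟫
      = ⟪(d i).Gs z.1, (d i).Gs z.1⟫ + (d i).a z.1 ^ 2 + (d i).hq z := by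
  rw [h.dθ_U0 i z]
  unfold SD.hq
  by_cases hx : z.1 ∈ (d i).Z
  · have F := (h.ok i).fr z.1 ((h.ok i).sub hx)
    have e1 : ⟪(d i).e0 z.1, (d i).Gs z.1⟫ = (d i).rho z.1 := by
      rw [real_inner_comm]; exact F.s_e0
    have e2 : ⟪(d i).nu z.1, (d i).Gs z.1⟫ = 0 := by
      rw [real_inner_comm]; exact F.s_nu
    have e3 : ⟪(d i).nu z.1, (d i).e0 z.1⟫ = 0 := by
      rw [real_inner_comm]; exact F.e0_nu
    simp only [smul_add, inner_add_left, inner_add_right, real_inner_smul_left,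
      real_inner_smul_right, e1, e2, e3, F.s_e0, F.s_nu, F.e0_e0, F.nu_nu, F.e0_nu]
    ring
  · simp only [(h.ok i).a_zero z.1 hx, zero_smul, add_zero]
    ring

theorem Cl.mean_hq (h : Cl π μ d) (i : J) (x : E2) : mean (d i).hq x = 0 := by
  by_cases hx : x ∈ (d i).Z
  · have c1 := (h.q1.smooth i).continuous
    have c2 := (h.q2.smooth i).continuous
    have c3 := (h.a.smooth i).continuous
    have c4 := (h.rho.smooth i).continuous
    have e : (d i).hq = fun z : E2 × ℝ =>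
        ((fun x => 2 * (d i).a x * (d i).rho x) z.1 * (d i).q1 z
          + (fun x => (d i).a x ^ 2) z.1 * (fun z => (d i).q1 z ^ 2 + (d i).q2 z ^ 2) z)
          - (fun x => (d i).a x ^ 2) z.1 := by
      funext z
      unfold SD.hq
      ring
    rw [e, mean_sub (by fun_prop) (by fun_prop), mean_add (by fun_prop) (by fun_prop),
      mean_mul_left (fun x => 2 * (d i).a x * (d i).rho x) (d i).q1,
      mean_mul_left (fun x => (d i).a x ^ 2) (fun z => (d i).q1 z ^ 2 + (d i).q2 z ^ 2),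
      mean_fst (fun x => (d i).a x ^ 2), (h.ok i).mean1 x hx, (h.ok i).meansq x hx]
    ring
  · have e : mean (d i).hq x = mean (fun z : E2 × ℝ => (fun _ : E2 => (0 : ℝ)) z.1) x :=
      mean_congr (fun θ => by
        unfold SD.hq
        simp only [(h.ok i).a_zero x hx, zero_mul])
    rw [e, mean_fst (fun _ : E2 => (0 : ℝ))]

theorem Cl.mean_sq_U0 (h : Cl π μ d) (i : J) (x : E2) :
    mean (fun z => ⟪dθ (d i).U0 z, dθ (d i).U0 z⟫) x = (d i).a x ^ 2 := by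
  by_cases hx : x ∈ (d i).Z
  · have F := (h.ok i).fr x ((h.ok i).sub hx)
    have e3 : ⟪(d i).nu x, (d i).e0 x⟫ = 0 := by
      rw [real_inner_comm]; exact F.e0_nu
    have e : mean (fun z => ⟪dθ (d i).U0 z, dθ (d i).U0 z⟫) x = mean (fun z : E2 × ℝ =>
        (fun x => (d i).a x ^ 2) z.1 * (fun z => (d i).q1 z ^ 2 + (d i).q2 z ^ 2) z) x :=
      mean_congr (fun θ => by
        rw [h.dθ_U0 i (x, θ)]
        simp only [smul_add, inner_add_left, inner_add_right, real_inner_smul_left,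
          real_inner_smul_right, e3, F.e0_e0, F.nu_nu, F.e0_nu]
        ring)
    rw [e, mean_mul_left (fun x => (d i).a x ^ 2) (fun z => (d i).q1 z ^ 2 + (d i).q2 z ^ 2),
      (h.ok i).meansq x hx, mul_one]
  · have e : mean (fun z => ⟪dθ (d i).U0 z, dθ (d i).U0 z⟫) x
        = mean (fun z : E2 × ℝ => (fun _ : E2 => (0 : ℝ)) z.1) x :=
      mean_congr (fun θ => by
        rw [h.dθ_U0 i (x, θ)]
        simp only [(h.ok i).a_zero x hx, zero_smul, inner_zero_left])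
    rw [e, mean_fst (fun _ : E2 => (0 : ℝ)), (h.ok i).a_zero x hx]
    simp

theorem FSt.U {S S2 : J → ℝ} {U : J → E2 × ℝ → E4} {Φ2 Φ3 : J → E2 × ℝ → ℝ} (h : Cl π μ d)
    (s : FSt π μ d S S2 U Φ2 Φ3) : Sy π μ (fun i z => (d i).w z.1) U := by
  have h1 : Sy π μ (fun i (z : E2 × ℝ) => (d i).w z.1) (fun i z => U i z - (d i).U0 z) :=
    s.dU.mono (fun i z => by
      have a1 := (h.ok i).w_nonneg z.1
      have a2 : (d i).τ ^ 2 ≤ 1 := pow_le_one₀ (h.ok i).τ_pos.le (h.ok i).τ_le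
      exact mul_le_of_le_one_right a1 a2)
  exact (h1.add h.U0).congr (fun i z => sub_add_cancel _ _)

end

end Crest.Agent.R216
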