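import Crest.Agent.R216.Step0

/-! # Row 216, the step lemma: phase correction -/

set_option autoImplicit false
open Set Filter Metric
open scoped ContDiff RealInnerProductSpace Topology

noncomputable section
namespace Crest.Agent.R216

section stepA_aux
variable {W : Type*} [NormedAddCommGroup W] [NormedSpace ℝ W]

theorem stepA_fd_smul {φ : E2 → ℝ} {V : E2 × ℝ → W} (hφ : ContDiff ℝ ∞ φ) (hV : ContDiff ℝ ∞ V)
    (z y : E2 × ℝ) : fderiv ℝ (fun z : E2 × ℝ => φ z.1 • V z) z y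
      = φ z.1 • fderiv ℝ V z y + fderiv ℝ φ z.1 y.1 • V z := by
  have h1 : HasFDerivAt (fun z : E2 × ℝ => φ z.1)
      ((fderiv ℝ φ z.1).comp (ContinuousLinearMap.fst ℝ E2 ℝ)) z :=
    (hφ.differentiable (by simp) z.1).hasFDerivAt.comp z hasFDerivAt_fst
  have h2 := (hV.differentiable (by simp) z).hasFDerivAt
  have h3 : HasFDerivAt (fun z : E2 × ℝ => φ z.1 • V z) _ z := h1.smul h2
  rw [h3.fderiv]
  simp

theorem stepA_dθ_smul {φ : E2 → ℝ} {V : E2 × ℝ → W} (hφ : ContDiff ℝ ∞ φ) (hV : ContDiff ℝ ∞ V)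
    (z : E2 × ℝ) : dθ (fun z : E2 × ℝ => φ z.1 • V z) z = φ z.1 • dθ V z := by
  unfold dθ
  rw [stepA_fd_smul hφ hV]
  simp

theorem stepA_dx_smul {φ : E2 → ℝ} {V : E2 × ℝ → W} (hφ : ContDiff ℝ ∞ φ) (hV : ContDiff ℝ ∞ V)
    (v : E2) (z : E2 × ℝ) : dx v (fun z : E2 × ℝ => φ z.1 • V z) z
      = φ z.1 • dx v V z + fderiv ℝ φ z.1 v • V z := by
  unfold dx
  rw [stepA_fd_smul hφ hV]

theorem stepA_fd_sub {F G : E2 × ℝ → W} (hF : ContDiff ℝ ∞ F) (hG : ContDiff ℝ ∞ G)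
    (z y : E2 × ℝ) : fderiv ℝ F z y = fderiv ℝ G z y + fderiv ℝ (fun z => F z - G z) z y := by
  have h3 : HasFDerivAt (fun z => F z - G z) _ z :=
    (hF.differentiable (by simp) z).hasFDerivAt.sub (hG.differentiable (by simp) z).hasFDerivAt
  rw [h3.fderiv]
  simp

theorem stepA_dθ_add {F G : E2 × ℝ → W} (hF : ContDiff ℝ ∞ F) (hG : ContDiff ℝ ∞ G)
    (z : E2 × ℝ) : dθ (fun z => F z + G z) z = dθ F z + dθ G z := by
  have h3 : HasFDerivAt (fun z => F z + G z) _ z :=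
    (hF.differentiable (by simp) z).hasFDerivAt.add (hG.differentiable (by simp) z).hasFDerivAt
  unfold dθ
  rw [h3.fderiv]
  simp

theorem stepA_dθ_inner {F G : E2 × ℝ → E4} (hF : ContDiff ℝ ∞ F) (hG : ContDiff ℝ ∞ G)
    (z : E2 × ℝ) : dθ (fun z => ⟪F z, G z⟫) z = ⟪F z, dθ G z⟫ + ⟪dθ F z, G z⟫ := by
  unfold dθ
  exact fderiv_inner_apply ℝ (hF.differentiable (by simp) z) (hG.differentiable (by simp) z) _

theorem stepA_mean3 {f A E : E2 × ℝ → ℝ} (hf : ContDiff ℝ ∞ f) (hA : ContDiff ℝ ∞ A)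
    (hE : ContDiff ℝ ∞ E) (x : E2) :
    mean (fun z => f z + A z + E z) x = mean f x + mean A x + mean E x := by
  rw [mean_add (u := fun z => f z + A z) (hf.continuous.add hA.continuous) hE.continuous,
    mean_add hf.continuous hA.continuous]

/-- the mean of `⟪c, ∂_v u⟫` vanishes if the mean of `u` does -/
theorem stepA_mean_lin {u : E2 × ℝ → E4} (hu : ContDiff ℝ ∞ u) (h0 : ∀ x, mean u x = 0)
    (c : E2 → E4) (v x : E2) : mean (fun z => ⟪c z.1, dx v u z⟫) x = 0 := by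
  rw [mean_inner_left c (contDiff_dx hu v).continuous, mean_dx hu]
  have : mean u = fun _ => 0 := funext h0
  rw [this]
  simp

end stepA_aux

section stepA_fam
variable {J N : Type} {π : J → N} {μ : J → ℝ} {d : J → SD}

theorem stepA_inner {a b e c : J → ℝ} {F G : J → E2 × ℝ → E4}
    (hF : Sy π μ (fun i z => (d i).w z.1 * a i) F) (hG : Sy π μ (fun i z => (d i).w z.1 * b i) G)
    (he : ∀ i, 0 ≤ e i) (hc : ∀ i, e i * (a i * b i) ≤ c i) :
    Sy π μ (fun i z => (d i).w z.1 ^ 2 * c i) (fun i z => e i * ⟪F i z, G i z⟫) := by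
  refine ((hF.inner hG).fam_mul e).mono fun i z => ?_
  rw [abs_of_nonneg (he i)]
  calc e i * ((d i).w z.1 * a i * ((d i).w z.1 * b i))
      = (d i).w z.1 ^ 2 * (e i * (a i * b i)) := by ring
    _ ≤ _ := mul_le_mul_of_nonneg_left (hc i) (sq_nonneg _)

theorem stepA_lin {b e c : J → ℝ} {F : J → E2 → E4} {G : J → E2 × ℝ → E4} (h : Cl π μ d)
    (hF : Sy π μ (fun _ _ => 1) F) (hG : Sy π μ (fun i z => (d i).w z.1 * b i) G)
    (he : ∀ i, 0 ≤ e i) (hc : ∀ i, e i * b i ≤ c i) :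
    Sy π μ (fun i z => (d i).w z.1 * c i) (fun i z => e i * ⟪F i z.1, G i z⟫) := by
  refine ((hF.fst.one_inner hG).fam_mul e).mono fun i z => ?_
  rw [abs_of_nonneg (he i)]
  calc e i * ((d i).w z.1 * b i) = (d i).w z.1 * (e i * b i) := by ring
    _ ≤ _ := mul_le_mul_of_nonneg_left (hc i) ((h.ok i).w_nonneg _)

theorem stepA_down {c c' : J → ℝ} {F : J → E2 × ℝ → ℝ} (h : Cl π μ d)
    (hF : Sy π μ (fun i z => (d i).w z.1 ^ 2 * c i) F) (hc : ∀ i, c i ≤ c' i)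
    (hc' : ∀ i, 0 ≤ c' i) : Sy π μ (fun i z => (d i).w z.1 * c' i) F := by
  refine hF.of_le (fun i z => mul_nonneg ((h.ok i).w_nonneg _) (hc' i)) 1 (fun _ => 2)
    fun i z => ?_
  have h1 := (h.ok i).w_nonneg z.1
  have h2 := h.w_le i z.1
  calc (d i).w z.1 ^ 2 * c i ≤ (d i).w z.1 ^ 2 * c' i :=
        mul_le_mul_of_nonneg_left (hc i) (sq_nonneg _)
    _ = ((d i).w z.1 * c' i) * (d i).w z.1 := by ring
    _ ≤ ((d i).w z.1 * c' i) * (2 * μ i) :=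
        mul_le_mul_of_nonneg_left h2 (mul_nonneg h1 (hc' i))
    _ = _ := by ring

/-- numerical facts -/
theorem stepA_num (h : Cl π μ d) {S : J → ℝ} (hS : ∀ i, 0 ≤ S i) (hS' : ∀ i, S i ≤ (d i).τ ^ 2)
    (i : J) : 0 < (d i).ε ∧ (d i).ε ≤ (d i).τ ^ 2 ∧ (d i).τ ^ 2 ≤ 1 ∧ S i ≤ 1 ∧ (d i).ε ≤ 1 ∧
      (d i).ε * S i ≤ S i * (d i).τ ^ 2 ∧ S i * S i ≤ S i * (d i).τ ^ 2 ∧
      (d i).ε * (S i * S i) ≤ S i * (d i).τ ^ 2 ∧ 0 ≤ S i * (d i).τ ^ 2 := by
  have h1 := (h.ok i).ε_pos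
  have h2 := (h.ok i).ε_le
  have h3 : (d i).τ ^ 2 ≤ 1 := pow_le_one₀ (h.ok i).τ_pos.le (h.ok i).τ_le
  have h4 := hS i
  have h5 := hS' i
  have h6 : S i * S i ≤ S i * (d i).τ ^ 2 := mul_le_mul_of_nonneg_left h5 h4
  refine ⟨h1, h2, h3, h5.trans h3, h2.trans h3, by nlinarith, h6, ?_, by positivity⟩
  have : (d i).ε * (S i * S i) ≤ 1 * (S i * S i) :=
    mul_le_mul_of_nonneg_right (h2.trans h3) (mul_nonneg h4 h4)
  linarith

theorem stepA_R1 (h : Cl π μ d) {S : J → ℝ} (hS : ∀ i, 0 ≤ S i) (hS' : ∀ i, S i ≤ (d i).τ ^ 2)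
    {U u : J → E2 × ℝ → E4} (hU : Sy π μ (fun i z => (d i).w z.1 * 1) U)
    (hu : Sy π μ (fun i z => (d i).w z.1 * S i) u)
    (hz : ∀ i z, ⟪(d i).Gt z.1, dx (d i).et (u i) z⟫ = 0)
    (r1 : Sy π μ (fun i z => (d i).w z.1 * (S i * (d i).τ ^ 2)) (fun i => (d i).R1 (U i)))
    (m1 : Sy π μ (fun i x => (d i).w x ^ 2 * (S i * (d i).τ ^ 2))
      (fun i => mean ((d i).R1 (U i)))) :
    Sy π μ (fun i z => (d i).w z.1 * (S i * (d i).τ ^ 2))
        (fun i => (d i).R1 (fun z => U i z + u i z)) ∧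
      Sy π μ (fun i x => (d i).w x ^ 2 * (S i * (d i).τ ^ 2))
        (fun i => mean ((d i).R1 (fun z => U i z + u i z))) := by
  have n := stepA_num h hS hS'
  have hUt := hU.dx (fun i => (d i).et) h.et_le
  have hut := hu.dx (fun i => (d i).et) h.et_le
  have hE : Sy π μ (fun i z => (d i).w z.1 ^ 2 * (S i * (d i).τ ^ 2))
      (fun i z => 2 * ((d i).ε * ⟪dx (d i).et (U i) z, dx (d i).et (u i) z⟫)
        + (d i).ε * ⟪dx (d i).et (u i) z, dx (d i).et (u i) z⟫) :=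
    ((stepA_inner hUt hut (fun i => (n i).1.le) fun i => by
      rw [one_mul]; exact (n i).2.2.2.2.2.1).const_mul 2).add
      (stepA_inner hut hut (fun i => (n i).1.le) fun i => (n i).2.2.2.2.2.2.2.1)
  have e : ∀ i z, (d i).R1 (U i) z
      + (2 * ((d i).ε * ⟪dx (d i).et (U i) z, dx (d i).et (u i) z⟫)
        + (d i).ε * ⟪dx (d i).et (u i) z, dx (d i).et (u i) z⟫)
      = (d i).R1 (fun z => U i z + u i z) z := fun i z => by
    rw [SD.R1_add _ (hU.smooth i) (hu.smooth i), hz]; ring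
  refine ⟨(r1.add (stepA_down h hE (fun _ => le_rfl) fun i => (n i).2.2.2.2.2.2.2.2)).congr e,
    (m1.add hE.mean).congr fun i x => ?_⟩
  rw [← mean_add (r1.smooth i).continuous (hE.smooth i).continuous]
  exact mean_congr fun θ => e i _

theorem stepA_R3 (h : Cl π μ d) {S : J → ℝ} (hS : ∀ i, 0 ≤ S i) (hS' : ∀ i, S i ≤ (d i).τ ^ 2)
    {U u : J → E2 × ℝ → E4} {Φ3 : J → E2 × ℝ → ℝ} (hU : Sy π μ (fun i z => (d i).w z.1 * 1) U)
    (hD : Sy π μ (fun i z => (d i).w z.1 * (d i).τ ^ 2) (fun i z => U i z - (d i).U0 z))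
    (hu : Sy π μ (fun i z => (d i).w z.1 * S i) u) (h0 : ∀ i x, mean (u i) x = 0)
    (hA : Sy π μ (fun i z => (d i).w z.1 * (S i * (d i).τ ^ 2))
      (fun i z => 2 * ⟪(d i).Gs z.1 + dθ (d i).U0 z, dθ (u i) z⟫))
    (hA0 : ∀ i x, mean (fun z => 2 * ⟪(d i).Gs z.1 + dθ (d i).U0 z, dθ (u i) z⟫) x = 0)
    (r3 : Sy π μ (fun i z => (d i).w z.1 * (S i * (d i).τ ^ 2))
      (fun i z => (d i).R3 (U i) z - Φ3 i z))
    (m3 : Sy π μ (fun i x => (d i).w x ^ 2 * (S i * (d i).τ ^ 2))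
      (fun i => mean (fun z => (d i).R3 (U i) z - Φ3 i z))) :
    Sy π μ (fun i z => (d i).w z.1 * (S i * (d i).τ ^ 2))
        (fun i z => (d i).R3 (fun z => U i z + u i z) z - Φ3 i z) ∧
      Sy π μ (fun i x => (d i).w x ^ 2 * (S i * (d i).τ ^ 2))
        (fun i => mean (fun z => (d i).R3 (fun z => U i z + u i z) z - Φ3 i z)) := by
  have n := stepA_num h hS hS'
  have hUs := hU.dx (fun i => (d i).es) h.es_le
  have hus := hu.dx (fun i => (d i).es) h.es_le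
  have hUθ := hU.dθ
  have huθ := hu.dθ
  have hDθ := hD.dθ
  have e0 : ∀ i, 0 ≤ (d i).ε := fun i => (n i).1.le
  have e1 : ∀ i, (d i).ε * (1 * S i) ≤ S i * (d i).τ ^ 2 := fun i => by
    rw [one_mul]; exact (n i).2.2.2.2.2.1
  have e2 : ∀ i, (d i).ε * (S i * S i) ≤ S i * (d i).τ ^ 2 := fun i => (n i).2.2.2.2.2.2.2.1
  have e3 : ∀ i, (d i).ε ^ 2 * (1 * S i) ≤ S i * (d i).τ ^ 2 := fun i => by
    refine le_trans ?_ (e1 i)
    refine mul_le_mul_of_nonneg_right ?_ (by rw [one_mul]; exact hS i)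
    have := (n i).2.2.2.2.1
    have := e0 i
    nlinarith
  have e4 : ∀ i, (d i).ε ^ 2 * (S i * S i) ≤ S i * (d i).τ ^ 2 := fun i => by
    refine le_trans ?_ (e2 i)
    refine mul_le_mul_of_nonneg_right ?_ (mul_nonneg (hS i) (hS i))
    have := (n i).2.2.2.2.1
    have := e0 i
    nlinarith
  have hB : Sy π μ (fun i z => (d i).w z.1 * (S i * (d i).τ ^ 2))
      (fun i z => (d i).ε * ⟪(d i).Gs z.1, dx (d i).es (u i) z⟫) :=
    stepA_lin h h.Gs hus e0 fun i => (n i).2.2.2.2.2.1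
  have hAB := hA.add (hB.const_mul 2)
  have t1 := (stepA_inner (e := fun _ => 1) (c := fun i => S i * (d i).τ ^ 2) hDθ huθ
    (fun _ => zero_le_one) fun i => le_of_eq (by ring)).const_mul 2
  have t2 := stepA_inner (e := fun _ => 1) (c := fun i => S i * (d i).τ ^ 2) huθ huθ
    (fun _ => zero_le_one) fun i => by rw [one_mul]; exact (n i).2.2.2.2.2.2.1
  have t3 := (stepA_inner hUs huθ e0 e1).const_mul 2
  have t4 := (stepA_inner hUθ hus e0 e1).const_mul 2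
  have t5 := (stepA_inner huθ hus e0 e2).const_mul 2
  have t6 := (stepA_inner hUs hus (fun i => sq_nonneg (d i).ε) e3).const_mul 2
  have t7 := stepA_inner hus hus (fun i => sq_nonneg (d i).ε) e4
  have hE := (((((t1.add t2).add t3).add t4).add t5).add t6).add t7
  have e : ∀ i z, ((d i).R3 (U i) z - Φ3 i z)
      + (2 * ⟪(d i).Gs z.1 + dθ (d i).U0 z, dθ (u i) z⟫
        + 2 * ((d i).ε * ⟪(d i).Gs z.1, dx (d i).es (u i) z⟫))
      + (2 * (1 * ⟪dθ (fun z => U i z - (d i).U0 z) z, dθ (u i) z⟫)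
        + 1 * ⟪dθ (u i) z, dθ (u i) z⟫
        + 2 * ((d i).ε * ⟪dx (d i).es (U i) z, dθ (u i) z⟫)
        + 2 * ((d i).ε * ⟪dθ (U i) z, dx (d i).es (u i) z⟫)
        + 2 * ((d i).ε * ⟪dθ (u i) z, dx (d i).es (u i) z⟫)
        + 2 * ((d i).ε ^ 2 * ⟪dx (d i).es (U i) z, dx (d i).es (u i) z⟫)
        + (d i).ε ^ 2 * ⟪dx (d i).es (u i) z, dx (d i).es (u i) z⟫)
      = (d i).R3 (fun z => U i z + u i z) z - Φ3 i z := fun i z => by
    rw [SD.R3_add _ (hU.smooth i) (hu.smooth i)]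
    have hd : dθ (U i) z = dθ (d i).U0 z + dθ (fun z => U i z - (d i).U0 z) z :=
      stepA_fd_sub (hU.smooth i) (h.U0.smooth i) z _
    have hi : ⟪(d i).Gs z.1 + dθ (U i) z, dθ (u i) z⟫
        = ⟪(d i).Gs z.1 + dθ (d i).U0 z, dθ (u i) z⟫
          + ⟪dθ (fun z => U i z - (d i).U0 z) z, dθ (u i) z⟫ := by
      rw [hd, ← add_assoc, inner_add_left]
    rw [hi]; ring
  refine ⟨((r3.add hAB).add
      (stepA_down h hE (fun _ => le_rfl) fun i => (n i).2.2.2.2.2.2.2.2)).congr e,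
    (m3.add hE.mean).congr fun i x => ?_⟩
  beta_reduce
  rw [← funext (e i), stepA_mean3 (r3.smooth i) (hAB.smooth i) (hE.smooth i),
    mean_add (hA.smooth i).continuous ((hB.const_mul 2).smooth i).continuous, hA0,
    mean_mul_left (fun _ => 2), mean_mul_left (fun _ => (d i).ε),
    stepA_mean_lin (hu.smooth i) (h0 i)]
  simp

theorem stepA_R2 (h : Cl π μ d) {S : J → ℝ} (hS : ∀ i, 0 ≤ S i) (hS' : ∀ i, S i ≤ (d i).τ ^ 2)
    {U u : J → E2 × ℝ → E4} {Φ2 : J → E2 × ℝ → ℝ} {g : J → E2 → ℝ}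
    (hU : Sy π μ (fun i z => (d i).w z.1 * 1) U)
    (hD : Sy π μ (fun i z => (d i).w z.1 * (d i).τ ^ 2) (fun i z => U i z - (d i).U0 z))
    (hu : Sy π μ (fun i z => (d i).w z.1 * S i) u) (h0 : ∀ i x, mean (u i) x = 0)
    (hz : ∀ i z, ⟪(d i).Gt z.1, dθ (u i) z⟫ = 0)
    (hg : Sy π μ (fun i x => (d i).w x ^ 2 * (S i * (d i).τ ^ 2)) g)
    (hA0 : ∀ i x, mean (fun z => (d i).R2 (U i) z - Φ2 i z) x
      + (d i).ε * mean (fun z => ⟪dx (d i).et (d i).U0 z, dθ (u i) z⟫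
        + ⟪dθ (d i).U0 z, dx (d i).et (u i) z⟫) x = g i x)
    (r2 : Sy π μ (fun i z => (d i).w z.1 * (S i * (d i).τ ^ 2))
      (fun i z => (d i).R2 (U i) z - Φ2 i z)) :
    Sy π μ (fun i z => (d i).w z.1 * (S i * (d i).τ ^ 2))
        (fun i z => (d i).R2 (fun z => U i z + u i z) z - (Φ2 i z + g i z.1)) ∧
      Sy π μ (fun i x => (d i).ε * (d i).w x ^ 2 * (S i * (d i).τ ^ 2))
        (fun i => mean (fun z => (d i).R2 (fun z => U i z + u i z) z - (Φ2 i z + g i z.1))) := by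
  have n := stepA_num h hS hS'
  have hU0 : Sy π μ (fun i z => (d i).w z.1 * 1) (fun i => (d i).U0) :=
    h.U0.mono fun i z => (mul_one _).ge
  have hUs := hU.dx (fun i => (d i).es) h.es_le
  have hus := hu.dx (fun i => (d i).es) h.es_le
  have hUt := hU.dx (fun i => (d i).et) h.et_le
  have hut := hu.dx (fun i => (d i).et) h.et_le
  have hDt := hD.dx (fun i => (d i).et) h.et_le
  have hU0t := hU0.dx (fun i => (d i).et) h.et_le
  have hU0θ := hU0.dθ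
  have huθ := hu.dθ
  have hDθ := hD.dθ
  have hT : ∀ i, 0 ≤ S i * (d i).τ ^ 2 := fun i => (n i).2.2.2.2.2.2.2.2
  have e0 : ∀ i, 0 ≤ (d i).ε := fun i => (n i).1.le
  have e1 : ∀ i, (d i).ε * (1 * S i) ≤ S i * (d i).τ ^ 2 := fun i => by
    rw [one_mul]; exact (n i).2.2.2.2.2.1
  have e2 : ∀ i, (d i).ε * (S i * S i) ≤ S i * (d i).τ ^ 2 := fun i => (n i).2.2.2.2.2.2.2.1
  have f1 : ∀ i, (d i).ε * ((d i).τ ^ 2 * S i) ≤ (d i).ε * (S i * (d i).τ ^ 2) := fun i =>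
    le_of_eq (by ring)
  have f2 : ∀ i, (d i).ε * (S i * S i) ≤ (d i).ε * (S i * (d i).τ ^ 2) := fun i =>
    mul_le_mul_of_nonneg_left (n i).2.2.2.2.2.2.1 (e0 i)
  have f3 : ∀ i, (d i).ε ^ 2 * (1 * S i) ≤ (d i).ε * (S i * (d i).τ ^ 2) := fun i => by
    rw [sq (d i).ε, mul_assoc]; exact mul_le_mul_of_nonneg_left (e1 i) (e0 i)
  have f4 : ∀ i, (d i).ε ^ 2 * (S i * S i) ≤ (d i).ε * (S i * (d i).τ ^ 2) := fun i => by
    rw [sq (d i).ε, mul_assoc]; exact mul_le_mul_of_nonneg_left (e2 i) (e0 i)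
  have b1 : Sy π μ (fun i z => (d i).w z.1 * (S i * (d i).τ ^ 2))
      (fun i z => (d i).ε * ⟪(d i).Gt z.1, dx (d i).es (u i) z⟫) :=
    stepA_lin h h.Gt hus e0 fun i => (n i).2.2.2.2.2.1
  have b2 : Sy π μ (fun i z => (d i).w z.1 * (S i * (d i).τ ^ 2))
      (fun i z => (d i).ε * ⟪(d i).Gs z.1, dx (d i).et (u i) z⟫) :=
    stepA_lin h h.Gs hut e0 fun i => (n i).2.2.2.2.2.1
  have b3 : Sy π μ (fun i z => (d i).w z.1 * (S i * (d i).τ ^ 2))
      (fun i z => (d i).ε * (⟪dx (d i).et (d i).U0 z, dθ (u i) z⟫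
        + ⟪dθ (d i).U0 z, dx (d i).et (u i) z⟫)) :=
    (stepA_down h ((stepA_inner hU0t huθ e0 e1).add (stepA_inner hU0θ hut e0 e1))
      (fun _ => le_rfl) hT).congr fun i z => by ring
  have b4 : Sy π μ (fun i z => (d i).w z.1 * (S i * (d i).τ ^ 2))
      (fun i (z : E2 × ℝ) => g i z.1) := stepA_down h hg.fst (fun _ => le_rfl) hT
  have hAB := ((b1.add b2).add b3).sub b4
  have t1 := stepA_inner hDt huθ e0 f1
  have t2 := stepA_inner hDθ hut e0 f1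
  have t3 := stepA_inner hut huθ e0 f2
  have t4 := stepA_inner hUt hus (fun i => sq_nonneg (d i).ε) f3
  have t5 := stepA_inner hUs hut (fun i => sq_nonneg (d i).ε) f3
  have t6 := stepA_inner hut hus (fun i => sq_nonneg (d i).ε) f4
  have hE := ((((t1.add t2).add t3).add t4).add t5).add t6
  have e : ∀ i z, ((d i).R2 (U i) z - Φ2 i z)
      + ((d i).ε * ⟪(d i).Gt z.1, dx (d i).es (u i) z⟫
        + (d i).ε * ⟪(d i).Gs z.1, dx (d i).et (u i) z⟫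
        + (d i).ε * (⟪dx (d i).et (d i).U0 z, dθ (u i) z⟫
          + ⟪dθ (d i).U0 z, dx (d i).et (u i) z⟫) - g i z.1)
      + ((d i).ε * ⟪dx (d i).et (fun z => U i z - (d i).U0 z) z, dθ (u i) z⟫
        + (d i).ε * ⟪dθ (fun z => U i z - (d i).U0 z) z, dx (d i).et (u i) z⟫
        + (d i).ε * ⟪dx (d i).et (u i) z, dθ (u i) z⟫
        + (d i).ε ^ 2 * ⟪dx (d i).et (U i) z, dx (d i).es (u i) z⟫
        + (d i).ε ^ 2 * ⟪dx (d i).es (U i) z, dx (d i).et (u i) z⟫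
        + (d i).ε ^ 2 * ⟪dx (d i).et (u i) z, dx (d i).es (u i) z⟫)
      = (d i).R2 (fun z => U i z + u i z) z - (Φ2 i z + g i z.1) := fun i z => by
    rw [SD.R2_add _ (hU.smooth i) (hu.smooth i), hz]
    have hd : dθ (U i) z = dθ (d i).U0 z + dθ (fun z => U i z - (d i).U0 z) z :=
      stepA_fd_sub (hU.smooth i) (h.U0.smooth i) z _
    have hd' : dx (d i).et (U i) z
        = dx (d i).et (d i).U0 z + dx (d i).et (fun z => U i z - (d i).U0 z) z :=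
      stepA_fd_sub (hU.smooth i) (h.U0.smooth i) z _
    have hi : ⟪dθ (U i) z, dx (d i).et (u i) z⟫ = ⟪dθ (d i).U0 z, dx (d i).et (u i) z⟫
        + ⟪dθ (fun z => U i z - (d i).U0 z) z, dx (d i).et (u i) z⟫ := by
      rw [hd, inner_add_left]
    have hi' : ⟪dx (d i).et (U i) z, dθ (u i) z⟫ = ⟪dx (d i).et (d i).U0 z, dθ (u i) z⟫
        + ⟪dx (d i).et (fun z => U i z - (d i).U0 z) z, dθ (u i) z⟫ := by
      rw [hd', inner_add_left]
    rw [hi, hi']; ring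
  refine ⟨((r2.add hAB).add (stepA_down h hE (fun i => ?_) hT)).congr e,
    ((Sy.mean (w := fun i x => (d i).w x ^ 2 * ((d i).ε * (S i * (d i).τ ^ 2))) hE).mono
      fun i x => le_of_eq (by ring)).congr fun i x => ?_⟩
  · exact mul_le_of_le_one_left (hT i) (n i).2.2.2.2.1
  beta_reduce
  rw [← funext (e i), stepA_mean3 (r2.smooth i) (hAB.smooth i) (hE.smooth i),
    mean_sub (((b1.add b2).add b3).smooth i).continuous (b4.smooth i).continuous,
    stepA_mean3 (b1.smooth i) (b2.smooth i) (b3.smooth i),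
    mean_mul_left (fun _ => (d i).ε), mean_mul_left (fun _ => (d i).ε),
    mean_mul_left (fun _ => (d i).ε), stepA_mean_lin (hu.smooth i) (h0 i),
    stepA_mean_lin (hu.smooth i) (h0 i), mean_fst, ← hA0]
  ring

/-- the linear terms of order `ε⁰` vanish -/
theorem stepA_orth (h : Cl π μ d) (i : J) {φ : E2 → ℝ} (hφ : ContDiff ℝ ∞ φ) (z : E2 × ℝ) :
    ⟪(d i).Gt z.1, dx (d i).et (fun z : E2 × ℝ => φ z.1 • dθ (d i).U0 z) z⟫ = 0 ∧
      ⟪(d i).Gt z.1, dθ (fun z : E2 × ℝ => φ z.1 • dθ (d i).U0 z) z⟫ = 0 := by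
  obtain ⟨x, θ⟩ := z
  have ok := h.ok i
  have hsm : ContDiff ℝ ∞ (fun z : E2 × ℝ => φ z.1 • dθ (d i).U0 z) :=
    (hφ.comp contDiff_fst).smul (contDiff_dθ (h.U0.smooth i))
  by_cases hx : x ∈ (d i).Z
  · have hO := ok.sub hx
    have k := ok.inner_dx (h.G.smooth i) hsm (X := fun _ => 0) (fun x hx θ => by
      have f := ok.fr x hx
      simp only [h.dθ_U0, inner_smul_right, inner_add_right, f.t_e0, f.t_nu]
      ring) hO θ
    have f := ok.fr x hO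
    refine ⟨k.1.trans ?_, k.2.trans ?_⟩
    · simp only [h.dθ_U0, inner_smul_right, inner_add_right, f.tt_e0, f.tt_nu]
      simp [dx]
    · simp [dθ]
  · have k := ok.fderiv_eq_zero (u := fun z : E2 × ℝ => φ z.1 • dθ (d i).U0 z)
      (fun x θ hx => by simp only [h.dθ_U0, ok.a_zero x hx, zero_smul, smul_zero]) hx θ
    constructor
    · unfold dx; rw [k]; simp
    · rw [show dθ (fun z : E2 × ℝ => φ z.1 • dθ (d i).U0 z) (x, θ)
        = fderiv ℝ (fun z : E2 × ℝ => φ z.1 • dθ (d i).U0 z) (x, θ) (0, 1) from rfl, k]; simp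

theorem stepA_dθ_hq (h : Cl π μ d) (i : J) (z : E2 × ℝ) :
    2 * ⟪(d i).Gs z.1 + dθ (d i).U0 z, dθ (dθ (d i).U0) z⟫ = dθ (d i).hq z := by
  have hV := contDiff_dθ (h.U0.smooth i)
  have hGs := h.Gs.smooth i
  have hG1 : ContDiff ℝ ∞ (fun z : E2 × ℝ => (d i).Gs z.1) := hGs.comp contDiff_fst
  have hF : ContDiff ℝ ∞ (fun z : E2 × ℝ => (d i).Gs z.1 + dθ (d i).U0 z) := hG1.add hV
  have hc : ContDiff ℝ ∞ (fun x : E2 => ⟪(d i).Gs x, (d i).Gs x⟫ + (d i).a x ^ 2) :=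
    (hGs.inner ℝ hGs).add ((h.a.smooth i).pow 2)
  have e : (fun z : E2 × ℝ => ⟪(d i).Gs z.1 + dθ (d i).U0 z, (d i).Gs z.1 + dθ (d i).U0 z⟫)
      = fun z : E2 × ℝ => (fun x : E2 => ⟪(d i).Gs x, (d i).Gs x⟫ + (d i).a x ^ 2) z.1
        + (d i).hq z := funext fun z => h.norm_sq_U0 i z
  have k1 := stepA_dθ_inner hF hF z
  have hc1 : ContDiff ℝ ∞ (fun z : E2 × ℝ =>
      (fun x : E2 => ⟪(d i).Gs x, (d i).Gs x⟫ + (d i).a x ^ 2) z.1) := hc.comp contDiff_fst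
  rw [e, stepA_dθ_add hc1 (h.hq.smooth i), dθ_fst _ hc,
    stepA_dθ_add hG1 hV, dθ_fst _ hGs, zero_add, zero_add] at k1
  rw [k1, real_inner_comm ((d i).Gs z.1 + dθ (d i).U0 z)]
  ring

theorem stepA_per_hq (h : Cl π μ d) (i : J) : Per (d i).hq := fun x θ => by
  simp only [SD.hq, (h.ok i).per1 x θ, (h.ok i).per2 x θ]

theorem stepA_mean_phase (h : Cl π μ d) (i : J) {φ : E2 → ℝ} (hφ : ContDiff ℝ ∞ φ) (x : E2) :
    mean (fun z => ⟪dx (d i).et (d i).U0 z, dθ (fun z : E2 × ℝ => φ z.1 • dθ (d i).U0 z) z⟫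
      + ⟪dθ (d i).U0 z, dx (d i).et (fun z : E2 × ℝ => φ z.1 • dθ (d i).U0 z) z⟫) x
      = fderiv ℝ φ x (d i).et * (d i).a x ^ 2 := by
  have hU0 := h.U0.smooth i
  have hV := contDiff_dθ hU0
  have hT := contDiff_dx hU0 (d i).et
  have hP : ContDiff ℝ ∞ (fun z => ⟪dx (d i).et (d i).U0 z, dθ (d i).U0 z⟫) := hT.inner ℝ hV
  have hper : Per (fun z => ⟪dx (d i).et (d i).U0 z, dθ (d i).U0 z⟫) := fun x θ => by
    simp only [(h.per_U0 i).dθ x θ, (h.per_U0 i).dx (d i).et x θ]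
  have e : ∀ z : E2 × ℝ,
      ⟪dx (d i).et (d i).U0 z, dθ (fun z : E2 × ℝ => φ z.1 • dθ (d i).U0 z) z⟫
      + ⟪dθ (d i).U0 z, dx (d i).et (fun z : E2 × ℝ => φ z.1 • dθ (d i).U0 z) z⟫
      = φ z.1 * dθ (fun z => ⟪dx (d i).et (d i).U0 z, dθ (d i).U0 z⟫) z
        + fderiv ℝ φ z.1 (d i).et * ⟪dθ (d i).U0 z, dθ (d i).U0 z⟫ := fun z => by
    rw [stepA_dθ_smul hφ hV, stepA_dx_smul hφ hV, stepA_dθ_inner hT hV, dx_dθ hU0,
      inner_add_right, inner_smul_right, inner_smul_right, inner_smul_right,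
      real_inner_comm (dθ (d i).U0 z) (dθ (dx (d i).et (d i).U0) z)]
    ring
  have c1 : Continuous fun z : E2 × ℝ =>
      φ z.1 * dθ (fun z => ⟪dx (d i).et (d i).U0 z, dθ (d i).U0 z⟫) z :=
    (hφ.continuous.comp continuous_fst).mul (contDiff_dθ hP).continuous
  have c2 : Continuous fun z : E2 × ℝ =>
      fderiv ℝ φ z.1 (d i).et * ⟪dθ (d i).U0 z, dθ (d i).U0 z⟫ :=
    ((Int2_contDiff_fderiv hφ (d i).et).continuous.comp continuous_fst).mul
      (hV.inner ℝ hV).continuous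
  rw [funext e, mean_add c1 c2, mean_mul_left φ,
    mean_mul_left (fun x => fderiv ℝ φ x (d i).et), mean_dθ hP hper, h.mean_sq_U0]
  ring

end stepA_fam

/-- `m = mean (R2 U - Φ2)`, `q = -ε⁻¹ m iA ∈ S` (weight `w² iA ≤ 2`, vanishes off `Z`),
`φ = tint et q`, `φ_t = q` on `closedBall 0 2` (`fderiv_tint`: `x - 5 et ∉ Z`), `u = φ • U0_θ`,
`U' = U + u`, `Φ2' = Φ2 + m κ² iA`.  `⟪Gt,u⟫ = ⟪Gtt,u⟫ = 0` on `O`, so the linear terms of `R1`, `R2`
of order `ε⁰` vanish; `mean u = 0`; `2⟪Gs + U0_θ, U0_θθ⟫ = ∂_θ hq` (differentiate `norm_sq_U0`), which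
has weight `w β` and mean zero; `mean (⟪U0_t, u_θ⟫ + ⟪U0_θ, u_t⟫) = φ_t a²`
(`u_θ = φ U0_θθ`, `u_t = φ_t U0_θ + φ U0_θt`, `mean ∂_θ⟪U0_t,U0_θ⟫ = 0`, `dx_dθ`, `mean_sq_U0`), and
`m + ε q a² = m κ² iA` (`a = 0` off `Z`). The remaining terms of `R2` contain `U - U0 ∈ w τ²` or are
quadratic in `u` or carry `ε²`. -/
theorem step_A {J N : Type} {π : J → N} {μ : J → ℝ} {d : J → SD} (h : Cl π μ d)
    {S : J → ℝ} {U : J → E2 × ℝ → E4} {Φ2 Φ3 : J → E2 × ℝ → ℝ}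
    (s : FSt π μ d (fun i => S i * (d i).τ ^ 2) S U Φ2 Φ3)
    (hS : ∀ i, 0 ≤ S i) (hS' : ∀ i, S i ≤ (d i).τ ^ 2) :
    ∃ (U' : J → E2 × ℝ → E4) (Φ2' : J → E2 × ℝ → ℝ),
      FSt π μ d (fun i => S i * (d i).τ ^ 2) (fun i => S i * (d i).τ ^ 2) U' Φ2' Φ3 ∧
      Sy π μ (fun i z => (d i).w z.1 * S i) (fun i z => U' i z - U i z) ∧
      Sy π μ (fun i _ => (d i).κ ^ 2 * S i) (fun i z => Φ2' i z - Φ2 i z) := by
  have n := stepA_num h hS hS'
  have ok := h.ok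
  obtain ⟨m, hmd⟩ : ∃ m : J → E2 → ℝ,
      m = fun i => mean (fun z => (d i).R2 (U i) z - Φ2 i z) := ⟨_, rfl⟩
  have hm : Sy π μ (fun i x => (d i).ε * (d i).w x ^ 2 * S i) m := hmd ▸ s.m2
  have hmA := hm.mul h.iA
  obtain ⟨q, hqd⟩ : ∃ q : J → E2 → ℝ,
      q = fun i x => -((d i).ε)⁻¹ * (m i x * (d i).iA x) := ⟨_, rfl⟩
  have hq : Sy π μ (fun i _ => S i) q := by
    rw [hqd]
    refine (hmA.fam_mul fun i => -((d i).ε)⁻¹).of_le (fun i _ => hS i) 0 (fun _ => 2)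
      fun i x => ?_
    have h1 := (n i).1
    rw [abs_neg, abs_of_pos (inv_pos.2 h1)]
    calc ((d i).ε)⁻¹ * ((d i).ε * (d i).w x ^ 2 * S i * (d i).iA x)
        = ((d i).w x ^ 2 * (d i).iA x) * S i := by field_simp
      _ ≤ 2 * S i := mul_le_mul_of_nonneg_right ((ok i).w_sq_iA x) (hS i)
      _ = _ := by ring
  have hq0 : ∀ i x, x ∉ (d i).Z → q i x = 0 := fun i x hx => by
    have : m i x = 0 := hm.eq_zero (by simp [(ok i).w_eq_zero hx])
    simp [hqd, this]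
  obtain ⟨φ, hφd⟩ : ∃ φ : J → E2 → ℝ, φ = fun i => tint (d i).et (q i) := ⟨_, rfl⟩
  have hφ : Sy π μ (fun i _ => S i) φ := hφd ▸ hq.tint _
  have hφt : ∀ i x, fderiv ℝ (φ i) x (d i).et * (d i).a x ^ 2 = q i x * (d i).a x ^ 2 := by
    intro i x
    by_cases hx : x ∈ (d i).Z
    · have hx' : x - (5 : ℝ) • (d i).et ∉ (d i).Z := fun hx' => by
        have a1 := mem_closedBall_zero_iff.1 ((ok i).ball hx)
        have a2 := mem_closedBall_zero_iff.1 ((ok i).ball hx')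
        have a3 : ‖(5 : ℝ) • (d i).et‖ = 5 := by rw [norm_smul, (ok i).norm_et]; norm_num
        have a4 := norm_sub_le x (x - (5 : ℝ) • (d i).et)
        rw [sub_sub_cancel, a3] at a4
        linarith
      rw [hφd]
      beta_reduce
      rw [fderiv_tint (hq.smooth i), hq0 i _ hx', sub_zero]
    · simp [(ok i).a_zero x hx]
  have hu : Sy π μ (fun i z => (d i).w z.1 * S i)
      (fun i (z : E2 × ℝ) => φ i z.1 • dθ (d i).U0 z) :=
    (hφ.fst.smul h.U0.dθ).mono fun i z => le_of_eq (mul_comm _ _)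
  have h0 : ∀ i x, mean (fun z : E2 × ℝ => φ i z.1 • dθ (d i).U0 z) x = 0 := fun i x => by
    rw [mean_smul_left, mean_dθ (h.U0.smooth i) (h.per_U0 i), smul_zero]
  have hU : Sy π μ (fun i z => (d i).w z.1 * 1) U := (s.U h).mono fun i z => (mul_one _).ge
  have hg0 := hmA.fam_mul fun i => (d i).κ ^ 2
  have hκ : ∀ i x, (d i).κ ^ 2 * (d i).iA x ≤ 1 := fun i x => by
    have a1 := (ok i).a_sq_iA x
    have a2 := mul_nonneg (sq_nonneg ((d i).a x)) ((ok i).iA_pos x).le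
    linarith
  have hg : Sy π μ (fun i x => (d i).w x ^ 2 * (S i * (d i).τ ^ 2))
      (fun i x => (d i).κ ^ 2 * (m i x * (d i).iA x)) := by
    refine hg0.mono fun i x => ?_
    rw [abs_of_nonneg (sq_nonneg _)]
    calc (d i).κ ^ 2 * ((d i).ε * (d i).w x ^ 2 * S i * (d i).iA x)
        = (d i).w x ^ 2 * (((d i).ε * S i) * ((d i).κ ^ 2 * (d i).iA x)) := by ring
      _ ≤ (d i).w x ^ 2 * (((d i).ε * S i) * 1) :=
        mul_le_mul_of_nonneg_left
          (mul_le_mul_of_nonneg_left (hκ i x) (mul_nonneg (n i).1.le (hS i))) (sq_nonneg _)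
      _ ≤ _ := mul_le_mul_of_nonneg_left (by rw [mul_one]; exact (n i).2.2.2.2.2.1) (sq_nonneg _)
  have hg' : Sy π μ (fun i _ => (d i).κ ^ 2 * S i)
      (fun i x => (d i).κ ^ 2 * (m i x * (d i).iA x)) := by
    refine hg0.of_le (fun i _ => mul_nonneg (sq_nonneg _) (hS i)) 0 (fun _ => 2) fun i x => ?_
    rw [abs_of_nonneg (sq_nonneg _)]
    have a0 := mul_nonneg (sq_nonneg (d i).κ) (hS i)
    calc (d i).κ ^ 2 * ((d i).ε * (d i).w x ^ 2 * S i * (d i).iA x)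
        = ((d i).κ ^ 2 * S i) * ((d i).ε * ((d i).w x ^ 2 * (d i).iA x)) := by ring
      _ ≤ ((d i).κ ^ 2 * S i) * (1 * 2) :=
        mul_le_mul_of_nonneg_left (mul_le_mul (n i).2.2.2.2.1 ((ok i).w_sq_iA x)
          (mul_nonneg (sq_nonneg _) ((ok i).iA_pos x).le) zero_le_one) a0
      _ = _ := by ring
  have eA : ∀ i (z : E2 × ℝ), φ i z.1 * dθ (d i).hq z = 2 * ⟪(d i).Gs z.1 + dθ (d i).U0 z,
      dθ (fun z : E2 × ℝ => φ i z.1 • dθ (d i).U0 z) z⟫ := fun i z => by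
    rw [stepA_dθ_smul (hφ.smooth i) (contDiff_dθ (h.U0.smooth i)), inner_smul_right,
      ← stepA_dθ_hq h]
    ring
  have k1 := stepA_R1 h hS hS' hU hu (fun i z => (stepA_orth h i (hφ.smooth i) z).1) s.r1 s.m1
  have k2 := stepA_R2 h hS hS' (Φ2 := Φ2) hU s.dU hu h0
    (fun i z => (stepA_orth h i (hφ.smooth i) z).2) hg (fun i x => by
      rw [stepA_mean_phase h i (hφ.smooth i), hφt]
      have a1 := (ok i).a_sq_iA x
      have a2 := (n i).1.ne'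
      have a3 : mean (fun z => (d i).R2 (U i) z - Φ2 i z) x = m i x := by rw [hmd]
      rw [a3, hqd]
      calc m i x + (d i).ε * (-((d i).ε)⁻¹ * (m i x * (d i).iA x) * (d i).a x ^ 2)
          = m i x - m i x * ((d i).a x ^ 2 * (d i).iA x) := by field_simp; ring
        _ = _ := by rw [a1]; ring) s.r2
  have k3 := stepA_R3 h hS hS' (Φ3 := Φ3) hU s.dU hu h0
    (((hφ.fst.mul h.hq.dθ).mono fun i z => by
      have a1 := (ok i).β_le
      have a2 := (n i).2.1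
      have a3 : (d i).β ≤ (d i).τ ^ 2 := a1.trans a2
      calc S i * ((d i).w z.1 * (d i).β) = (d i).w z.1 * (S i * (d i).β) := by ring
        _ ≤ _ := mul_le_mul_of_nonneg_left (mul_le_mul_of_nonneg_left a3 (hS i))
          ((ok i).w_nonneg _)).congr eA)
    (fun i x => by
      rw [← funext (eA i), mean_mul_left,
        mean_dθ (h.hq.smooth i) (stepA_per_hq h i), mul_zero]) s.r3 s.m3
  refine ⟨fun i z => U i z + φ i z.1 • dθ (d i).U0 z,
    fun i z => Φ2 i z + (d i).κ ^ 2 * (m i z.1 * (d i).iA z.1),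
    ⟨fun i x θ => ?_, fun i x θ => ?_, s.per3, fun i => ?_, s.sm3, ?_, k1.1, k1.2, k2.1, k2.2,
      k3.1, k3.2⟩, hu.congr fun i z => by simp, hg'.fst.congr fun i z => by simp⟩
  · simp only [s.perU i x θ, (h.per_U0 i).dθ x θ]
  · simp only [s.per2 i x θ]
  · exact (s.sm2 i).add (hg.fst.smooth i)
  · refine (s.dU.add (hu.mono fun i z => ?_)).congr fun i z => by abel
    exact mul_le_mul_of_nonneg_left (hS' i) ((ok i).w_nonneg _)

end Crest.Agent.R216
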