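import Crest.Agent.R216.Step0

/-! # Row 216, the step lemma: algebraic correction, construction -/

set_option autoImplicit false
open Set Filter Metric
open scoped ContDiff RealInnerProductSpace Topology

noncomputable section
namespace Crest.Agent.R216

section
variable {J N : Type} {π : J → N} {μ : J → ℝ} {d : J → SD}

/-- functions of class `w` have class `1` -/
theorem b1_drop (h : Cl π μ d) {u : J → E2 × ℝ → ℝ}
    (hu : Sy π μ (fun i z => (d i).w z.1) u) : Sy π μ (fun _ _ => 1) u :=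
  hu.of_le (fun _ _ => zero_le_one) 1 (fun _ => 2) fun i z => by
    simpa using h.w_le i z.1

theorem b1_per_p1 (h : Cl π μ d) (i : J) : Per (d i).p1 := fun x θ => by
  simp only [SD.p1, (h.ok i).per1 x θ]

theorem b1_per_p2 (h : Cl π μ d) (i : J) : Per (d i).p2 := fun x θ => by
  simp only [SD.p2, (h.ok i).per2 x θ]

theorem b1_mean_zero {u : E2 × ℝ → ℝ} {x : E2} (hu : ∀ θ, u (x, θ) = 0) : mean u x = 0 :=
  (mean_congr (v := fun z => (fun _ : E2 => (0 : ℝ)) z.1) hu).trans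
    (mean_fst (fun _ : E2 => (0 : ℝ)) x)

/-- the class of `v1 = mean (f p1 ip)` -/
theorem b1_v1 (h : Cl π μ d) {S : J → ℝ} {f : J → E2 × ℝ → ℝ}
    (hf : Sy π μ (fun i z => (d i).w z.1 * S i) f)
    (mf : Sy π μ (fun i x => (d i).w x ^ 2 * S i) (fun i => mean (f i))) :
    Sy π μ (fun i x => (d i).w x ^ 2 * S i)
      (fun i => mean (fun z => f i z * ((d i).p1 z * (d i).ip z))) := by
  have hg : Sy π μ (fun i z => (d i).w z.1) (fun i z =>
      ((d i).p1 z * ((d i).a z.1 * (d i).q1 z) + (d i).p2 z * (d i).p2 z)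
        * ((d i).ip z * (d i).irho z.1)) :=
    ((h.p1.one_mul (h.a.fst.mul_one h.q1)).add (h.p2.mul_one (b1_drop h h.p2))).mul_one
      (h.ip.mul_one h.irho.fst)
  have hfg := (hf.mul hg).mono (w' := fun i z => (d i).w z.1 ^ 2 * S i) fun i z =>
    le_of_eq (by ring)
  have hm := Sy.mean (w := fun i x => (d i).w x ^ 2 * S i) hfg
  refine ((h.irho.one_mul mf).sub hm).congr fun i x => ?_
  have e1 : Continuous fun z : E2 × ℝ => (d i).irho z.1 * f i z :=
    ((h.irho.fst.one_mul hf).smooth i).continuous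
  rw [← mean_mul_left, ← mean_sub e1 (hfg.smooth i).continuous]
  refine mean_congr fun θ => ?_
  by_cases hx : x ∈ (d i).Z
  · have h1 := (h.ok i).ip_mul x hx θ
    have h2 := ((h.ok i).fr x ((h.ok i).sub hx)).irho_mul
    have h3 : (d i).p1 (x, θ) = (d i).rho x + (d i).a x * (d i).q1 (x, θ) := rfl
    linear_combination (-(f i (x, θ) * (d i).irho x)) * h1
      + (f i (x, θ) * (d i).p1 (x, θ) * (d i).ip (x, θ)) * h2
      + (f i (x, θ) * (d i).p1 (x, θ) * (d i).ip (x, θ) * (d i).irho x) * h3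
  · have h0 : f i (x, θ) = 0 := hf.eq_zero (by simp [(h.ok i).w_eq_zero hx])
    simp [h0]

/-- solving the normal part of the `ss` equation up to the defect `ψ` -/
theorem b1_normal (h : Cl π μ d) {S : J → ℝ} {f : J → E2 × ℝ → ℝ} (pf : ∀ i, Per (f i))
    (hf : Sy π μ (fun i z => (d i).w z.1 * S i) f)
    (mf : Sy π μ (fun i x => (d i).w x ^ 2 * S i) (fun i => mean (f i))) (hS : ∀ i, 0 ≤ S i) :
    ∃ ζ1 ζ2 ψ : J → E2 × ℝ → ℝ, (∀ i, Per (ζ1 i)) ∧ (∀ i, Per (ζ2 i)) ∧ (∀ i, Per (ψ i)) ∧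
      Sy π μ (fun i z => (d i).w z.1 * S i) ζ1 ∧ Sy π μ (fun i z => (d i).w z.1 * S i) ζ2 ∧
      Sy π μ (fun i _ => (d i).κ ^ 2 * S i) ψ ∧
      ∀ i z, 2 * ((d i).p1 z * (ζ1 i z - mean (ζ1 i) z.1)
        + (d i).p2 z * (ζ2 i z - mean (ζ2 i) z.1)) = 2 * f i z + ψ i z := by
  have hA1 := hf.mul_one (h.p1.mul_one h.ip)
  have hA2 := hf.mul_one ((b1_drop h h.p2).mul_one h.ip)
  have hv1 := b1_v1 h hf mf
  have hv2 := Sy.mean (w := fun i x => (d i).w x * S i) hA2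
  have hm12 := Sy.mean (w := fun i x => (d i).w x) (h.p2.mul_one h.p1)
  obtain ⟨v1, ev1⟩ : ∃ v1 : J → E2 → ℝ,
    v1 = fun i => mean (fun z => f i z * ((d i).p1 z * (d i).ip z)) := ⟨_, rfl⟩
  obtain ⟨v2, ev2⟩ : ∃ v2 : J → E2 → ℝ,
    v2 = fun i => mean (fun z => f i z * ((d i).p2 z * (d i).ip z)) := ⟨_, rfl⟩
  obtain ⟨m12, em12⟩ : ∃ m12 : J → E2 → ℝ,
    m12 = fun i => mean (fun z => (d i).p2 z * (d i).p1 z) := ⟨_, rfl⟩
  rw [← ev1] at hv1
  rw [← ev2] at hv2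
  rw [← em12] at hm12
  have hvA : Sy π μ (fun i _ => S i) (fun i x => v1 i x * (d i).iA x) :=
    (hv1.mul h.iA).of_le (fun i _ => hS i) 0 (fun _ => 2) fun i x => by
      have := mul_le_mul_of_nonneg_right ((h.ok i).w_sq_iA x) (hS i)
      rw [pow_zero, mul_one]
      linarith
  have hc2 := hvA.mul_one h.im
  obtain ⟨c2, ec2⟩ : ∃ c2 : J → E2 → ℝ,
    c2 = fun i x => v1 i x * (d i).iA x * (d i).im x := ⟨_, rfl⟩
  rw [← ec2] at hc2
  have hc1 := ((hv2.add ((hm12.mul hc2))).mul_one h.irho).neg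
  obtain ⟨c1, ec1⟩ : ∃ c1 : J → E2 → ℝ,
    c1 = fun i x => -((v2 i x + m12 i x * c2 i x) * (d i).irho x) := ⟨_, rfl⟩
  rw [← ec1] at hc1
  have hc : Sy π μ (fun i z => (d i).w z.1 * S i)
      (fun i z => c1 i z.1 + (d i).p2 z * c2 i z.1) := hc1.fst.add (h.p2.mul hc2.fst)
  have hζ1 := hA1.sub (hc.mul_one (b1_drop h h.p2))
  have hζ2 := hA2.add (hc.mul_one h.p1)
  have hψ := ((h.p1.one_mul hvA.fst).fam_mul fun i => (d i).κ ^ 2).const_mul (-2)
  refine ⟨_, _, _, fun i x θ => ?_, fun i x θ => ?_, fun i x θ => ?_, hζ1, hζ2,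
    hψ.mono fun i z => le_of_eq (by rw [abs_of_nonneg (sq_nonneg _)]), fun i z => ?_⟩
  · simp only [pf i x θ, b1_per_p1 h i x θ, b1_per_p2 h i x θ, (h.ok i).perp x θ]
  · simp only [pf i x θ, b1_per_p1 h i x θ, b1_per_p2 h i x θ, (h.ok i).perp x θ]
  · simp only [b1_per_p1 h i x θ]
  obtain ⟨x, θ⟩ := z
  by_cases hx : x ∈ (d i).Z
  · have fr := (h.ok i).fr x ((h.ok i).sub hx)
    have cp1 := (h.p1.smooth i).continuous
    have cp2 := (h.p2.smooth i).continuous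
    have cc1 := (hc1.fst.smooth i).continuous
    have cc2 := (hc2.fst.smooth i).continuous
    have mp2 : mean (d i).p2 x = 0 := by
      have := mean_mul_left (d i).a (d i).q2 x
      rw [(h.ok i).mean2 x hx, mul_zero] at this
      exact this
    have mp1 : mean (d i).p1 x = (d i).rho x := by
      have h1 := mean_mul_left (d i).a (d i).q1 x
      rw [(h.ok i).mean1 x hx, mul_zero] at h1
      have h2 := mean_add (h.rho.fst.smooth i).continuous
        ((h.a.fst.mul_one h.q1).smooth i).continuous x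
      rw [h1, mean_fst, add_zero] at h2
      exact h2
    have mp22 : mean (fun z => (d i).p2 z * (d i).p2 z) x
        = (d i).a x ^ 2 * mean (fun z => (d i).q2 z ^ 2) x := by
      rw [← mean_mul_left (fun x => (d i).a x ^ 2)]
      refine mean_congr fun θ => ?_
      simp only [SD.p2]
      ring
    have m1 : mean (fun z => f i z * ((d i).p1 z * (d i).ip z)
        - (c1 i z.1 + (d i).p2 z * c2 i z.1) * (d i).p2 z) x
        = v1 i x * ((d i).κ ^ 2 * (d i).iA x) := by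
      have e : mean (fun z => (c1 i z.1 + (d i).p2 z * c2 i z.1) * (d i).p2 z) x
          = mean (fun z => c1 i z.1 * (d i).p2 z + c2 i z.1 * ((d i).p2 z * (d i).p2 z)) x :=
        mean_congr fun θ => by ring
      rw [mean_sub (hA1.smooth i).continuous ((cc1.fun_add (cp2.fun_mul cc2)).fun_mul cp2), e,
        mean_add (cc1.fun_mul cp2) (cc2.fun_mul (cp2.fun_mul cp2)), mean_mul_left, mean_mul_left, mp2, mp22]
      have h1 := (h.ok i).im_mul x hx
      have h2 := (h.ok i).a_sq_iA x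
      have h3 : mean (fun z => f i z * ((d i).p1 z * (d i).ip z)) x = v1 i x := by rw [ev1]
      rw [h3, ec2]
      linear_combination (-(v1 i x * (d i).iA x * (d i).a x ^ 2)) * h1 - v1 i x * h2
    have m2 : mean (fun z => f i z * ((d i).p2 z * (d i).ip z)
        + (c1 i z.1 + (d i).p2 z * c2 i z.1) * (d i).p1 z) x = 0 := by
      have e : mean (fun z => (c1 i z.1 + (d i).p2 z * c2 i z.1) * (d i).p1 z) x
          = mean (fun z => c1 i z.1 * (d i).p1 z + c2 i z.1 * ((d i).p2 z * (d i).p1 z)) x :=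
        mean_congr fun θ => by ring
      rw [mean_add (hA2.smooth i).continuous ((cc1.fun_add (cp2.fun_mul cc2)).fun_mul cp1), e,
        mean_add (cc1.fun_mul cp1) (cc2.fun_mul (cp2.fun_mul cp1)), mean_mul_left, mean_mul_left, mp1]
      have h1 := fr.irho_mul
      have h3 : mean (fun z => f i z * ((d i).p2 z * (d i).ip z)) x = v2 i x := by rw [ev2]
      have h4 : mean (fun z => (d i).p2 z * (d i).p1 z) x = m12 i x := by rw [em12]
      rw [h3, h4, ec1]
      linear_combination (-(v2 i x + m12 i x * c2 i x)) * h1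
    have h1 := (h.ok i).ip_mul x hx θ
    simp only [m1, m2]
    linear_combination (2 * f i (x, θ)) * h1
  · have hw := (h.ok i).w_eq_zero hx
    have z1 : ∀ θ, _ = (0 : ℝ) := fun θ => hζ1.eq_zero (i := i) (x := (x, θ)) (by simp [hw])
    have z2 : ∀ θ, _ = (0 : ℝ) := fun θ => hζ2.eq_zero (i := i) (x := (x, θ)) (by simp [hw])
    have z3 : f i (x, θ) = 0 := hf.eq_zero (by simp [hw])
    have z4 : v1 i x = 0 := hv1.eq_zero (by simp [hw])
    rw [z1, z2, b1_mean_zero z1, b1_mean_zero z2, z3, z4]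
    simp

theorem b1_dθ {X Y P Q : E2 × ℝ → ℝ} (hX : ContDiff ℝ ∞ X) (hY : ContDiff ℝ ∞ Y)
    (hP : ContDiff ℝ ∞ P) (hQ : ContDiff ℝ ∞ Q) {a b c e : E2 → E4}
    (hu : ContDiff ℝ ∞ fun z : E2 × ℝ => X z • a z.1 + Y z • b z.1 + P z • c z.1 + Q z • e z.1)
    (z : E2 × ℝ) :
    dθ (fun z : E2 × ℝ => X z • a z.1 + Y z • b z.1 + P z • c z.1 + Q z • e z.1) z
      = dθ X z • a z.1 + dθ Y z • b z.1 + dθ P z • c z.1 + dθ Q z • e z.1 := by
  obtain ⟨x, θ⟩ := z
  exact (Int2_lineθ hu x θ).unique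
    (((((Int2_lineθ hX x θ).smul_const (a x)).fun_add
      ((Int2_lineθ hY x θ).smul_const (b x))).fun_add
      ((Int2_lineθ hP x θ).smul_const (c x))).fun_add ((Int2_lineθ hQ x θ).smul_const (e x)))

end

/-- The correction solving the frozen equations
`2⟪Gt, u_t⟫ = -r1`, `⟪Gt, u_θ⟫ = -(r2 - mean r2)`, `2⟪Gs + U0_θ, u_θ⟫ = -r3 + ψ` with a defect `ψ`
of size `κ² S`.

Construction. `X = -prim r2`, `Y = X_t + r1/2`, `f = -r3/2 - X_θ ⟪Gs,f1⟫ - Y_θ ⟪Gs,f2⟫`
(`mean f = -mean r3 / 2`), `v1 = mean (f p1 ip)`, `v2 = mean (f p2 ip)`, `c2 = v1 im iA`,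
`m12 = a² mean (q1 q2)`, `c1 = -(v2 + c2 m12) irho`, `ζ1 = f p1 ip - (c1 + c2 p2) p2`,
`ζ2 = f p2 ip + (c1 + c2 p2) p1`, `u = X f1 + Y f2 + prim ζ1 e0 + prim ζ2 nu`,
`ψ = -2 p1 (v1 κ² iA)`.
On `Z`: `mean p1 = rho`, `mean p2 = 0`, `mean (p1 p2) = m12`, `mean p2² = a² mean q2²`, hence
`mean ζ1 = v1 (1 - a² iA) = v1 κ² iA`, `mean ζ2 = 0`, `p1 ζ1 + p2 ζ2 = f`.
Classes: `v1 ∈ w² S` because `f p1 ip = irho f - f a (rho q1 + a (q1² + q2²)) ip irho` (on `Z` from
`ip_mul`, `irho_mul`; off `Z` `f = 0`); `c2 ∈ w² S iA`, `w² iA ≤ 2`; `mean u = (mean r1 / 2) f2`.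
Off `Z` all three identities read `0 = 0` (`Sy.eq_zero`, `Ok.fderiv_eq_zero`). -/
theorem exists_corrB {J N : Type} {π : J → N} {μ : J → ℝ} {d : J → SD} (h : Cl π μ d)
    {S : J → ℝ} {r1 r2 r3 : J → E2 × ℝ → ℝ} (p1 : ∀ i, Per (r1 i)) (p2 : ∀ i, Per (r2 i))
    (p3 : ∀ i, Per (r3 i))
    (h1 : Sy π μ (fun i z => (d i).w z.1 * S i) r1)
    (m1 : Sy π μ (fun i x => (d i).w x ^ 2 * S i) (fun i => mean (r1 i)))
    (h2 : Sy π μ (fun i z => (d i).w z.1 * S i) r2)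
    (h3 : Sy π μ (fun i z => (d i).w z.1 * S i) r3)
    (m3 : Sy π μ (fun i x => (d i).w x ^ 2 * S i) (fun i => mean (r3 i))) (hS : ∀ i, 0 ≤ S i) :
    ∃ (u : J → E2 × ℝ → E4) (ψ : J → E2 × ℝ → ℝ), (∀ i, Per (u i)) ∧ (∀ i, Per (ψ i)) ∧
      Sy π μ (fun i z => (d i).w z.1 * S i) u ∧
      Sy π μ (fun i x => (d i).w x ^ 2 * S i) (fun i => mean (u i)) ∧
      Sy π μ (fun i _ => (d i).κ ^ 2 * S i) ψ ∧
      (∀ i z, 2 * ⟪(d i).Gt z.1, dx (d i).et (u i) z⟫ = -r1 i z) ∧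
      (∀ i z, ⟪(d i).Gt z.1, dθ (u i) z⟫ = -(r2 i z - mean (r2 i) z.1)) ∧
      (∀ i z, 2 * ⟪(d i).Gs z.1 + dθ (d i).U0 z, dθ (u i) z⟫ = -r3 i z + ψ i z) := by
  have hX := (Sy.prim (w := fun i x => (d i).w x * S i) h2 p2).neg
  obtain ⟨X, eX⟩ : ∃ X : J → E2 × ℝ → ℝ, X = fun i z => -prim (r2 i) z := ⟨_, rfl⟩
  rw [← eX] at hX
  have pX : ∀ i, Per (X i) := fun i x θ => by
    simp only [eX, (p2 i).prim (h2.smooth i).continuous x θ]
  have mX : ∀ i x, mean (X i) x = 0 := fun i x => by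
    rw [eX]
    simp only [mean_neg, mean_prim (h2.smooth i), neg_zero]
  have dX : ∀ i z, dθ (X i) z = -(r2 i z - mean (r2 i) z.1) := fun i z => by
    obtain ⟨x, θ⟩ := z
    refine (Int2_lineθ (hX.smooth i) x θ).unique ?_
    rw [eX, ← dθ_prim (h2.smooth i)]
    exact (Int2_lineθ (contDiff_prim (h2.smooth i)) x θ).fun_neg
  have hXt := hX.dx (fun i => (d i).et) h.et_le
  have hY := hXt.add (h1.const_mul (1 / 2))
  obtain ⟨Y, eY⟩ : ∃ Y : J → E2 × ℝ → ℝ,
    Y = fun i z => dx (d i).et (X i) z + 1 / 2 * r1 i z := ⟨_, rfl⟩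
  rw [← eY] at hY
  have pY : ∀ i, Per (Y i) := fun i x θ => by
    simp only [eY, (pX i).dx _ x θ, p1 i x θ]
  have mY : ∀ i x, mean (Y i) x = 1 / 2 * mean (r1 i) x := fun i x => by
    have e0 : mean (X i) = fun _ => 0 := funext (mX i)
    rw [eY, mean_add (hXt.smooth i).continuous ((h1.const_mul (1 / 2)).smooth i).continuous,
      mean_dx (hX.smooth i), e0, mean_mul_left (fun _ => 1 / 2)]
    simp
  have hg1 := (h.Gs.one_inner h.f1).fst
  have hg2 := (h.Gs.one_inner h.f2).fst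
  have hf1 := h3.const_mul (-(1 / 2))
  have hf2 := hg1.one_mul hX.dθ
  have hf3 := hg2.one_mul hY.dθ
  have hf := (hf1.sub hf2).sub hf3
  obtain ⟨ζ1, ζ2, ψ, pζ1, pζ2, pψ, hζ1, hζ2, hψ, eq3⟩ := b1_normal h (fun i x θ => by
      simp only [p3 i x θ, (pX i).dθ x θ, (pY i).dθ x θ]) hf
    ((m3.const_mul (-(1 / 2))).congr fun i x => by
      rw [mean_sub ((hf1.sub hf2).smooth i).continuous (hf3.smooth i).continuous,
        mean_sub (hf1.smooth i).continuous (hf2.smooth i).continuous,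
        mean_mul_left (fun x => ⟪(d i).Gs x, (d i).f1 x⟫),
        mean_mul_left (fun x => ⟪(d i).Gs x, (d i).f2 x⟫), mean_mul_left (fun _ => -(1 / 2)),
        mean_dθ (hX.smooth i) (pX i), mean_dθ (hY.smooth i) (pY i)]
      ring) hS
  have hP := Sy.prim (w := fun i x => (d i).w x * S i) hζ1 pζ1
  have hQ := Sy.prim (w := fun i x => (d i).w x * S i) hζ2 pζ2
  have hu1 := hX.smul_one h.f1.fst
  have hu2 := hY.smul_one h.f2.fst
  have hu3 := hP.smul_one h.e0.fst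
  have hu4 := hQ.smul_one h.nu.fst
  have hu := ((hu1.add hu2).add hu3).add hu4
  have hoff : ∀ i x θ, x ∉ (d i).Z → fderiv ℝ (fun z : E2 × ℝ => X i z • (d i).f1 z.1
      + Y i z • (d i).f2 z.1 + prim (ζ1 i) z • (d i).e0 z.1 + prim (ζ2 i) z • (d i).nu z.1)
      (x, θ) = 0 := fun i x θ hx =>
    (h.ok i).fderiv_eq_zero (fun x θ hx => hu.eq_zero (i := i) (x := (x, θ))
      (by simp [(h.ok i).w_eq_zero hx])) hx θ
  have hon : ∀ i, ∀ x ∈ (d i).O, ∀ θ, _ ∧ _ := fun i x hx θ =>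
    (h.ok i).inner_dx (h.G.smooth i) (hu.smooth i) (X := X i) (fun x hx θ => by
      have fr := (h.ok i).fr x hx
      simp only [inner_add_right, inner_smul_right, fr.t_f1, fr.t_f2, fr.t_e0, fr.t_nu]
      ring) hx θ
  refine ⟨_, ψ, fun i x θ => ?_, pψ, hu, ?_, hψ, fun i z => ?_, fun i z => ?_, fun i z => ?_⟩
  · simp only [pX i x θ, pY i x θ, (pζ1 i).prim (hζ1.smooth i).continuous x θ,
      (pζ2 i).prim (hζ2.smooth i).continuous x θ]
  · refine ((m1.const_mul (1 / 2)).smul_one h.f2).congr fun i x => ?_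
    rw [mean_add (((hu1.add hu2).add hu3).smooth i).continuous (hu4.smooth i).continuous,
      mean_add ((hu1.add hu2).smooth i).continuous (hu3.smooth i).continuous,
      mean_add (hu1.smooth i).continuous (hu2.smooth i).continuous, mean_smul_right,
      mean_smul_right, mean_smul_right, mean_smul_right, mX, mY, mean_prim (hζ1.smooth i),
      mean_prim (hζ2.smooth i)]
    simp
  · obtain ⟨x, θ⟩ := z
    by_cases hx : x ∈ (d i).Z
    · have fr := (h.ok i).fr x ((h.ok i).sub hx)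
      rw [(hon i x ((h.ok i).sub hx) θ).1]
      simp only [inner_add_right, inner_smul_right, fr.tt_f1, fr.tt_f2, fr.tt_e0, fr.tt_nu, eY]
      ring
    · have z1 : r1 i (x, θ) = 0 := h1.eq_zero (by simp [(h.ok i).w_eq_zero hx])
      rw [dx, hoff i x θ hx, z1]
      simp
  · obtain ⟨x, θ⟩ := z
    by_cases hx : x ∈ (d i).Z
    · rw [(hon i x ((h.ok i).sub hx) θ).2, dX]
    · have z1 : ∀ θ, r2 i (x, θ) = 0 := fun θ => h2.eq_zero (by simp [(h.ok i).w_eq_zero hx])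
      rw [dθ, hoff i x θ hx, z1, b1_mean_zero z1]
      simp
  · have e3 := eq3 i z
    obtain ⟨x, θ⟩ := z
    by_cases hx : x ∈ (d i).Z
    · have fr := (h.ok i).fr x ((h.ok i).sub hx)
      have ne0 : ⟪(d i).nu x, (d i).e0 x⟫ = 0 := (real_inner_comm _ _).trans fr.e0_nu
      rw [b1_dθ (hX.smooth i) (hY.smooth i) (hP.smooth i) (hQ.smooth i) (hu.smooth i),
        dθ_prim (hζ1.smooth i), dθ_prim (hζ2.smooth i), h.dθ_U0]
      simp only [inner_add_right, inner_add_left, inner_smul_right, real_inner_smul_left,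
        fr.e0_e0, fr.nu_nu, fr.e0_nu, ne0, fr.e0_f1, fr.e0_f2, fr.nu_f1, fr.nu_f2, fr.s_e0,
        fr.s_nu]
      simp only [SD.p1, SD.p2] at e3
      linear_combination e3
    · have hw := (h.ok i).w_eq_zero hx
      have z1 : ∀ θ, ζ1 i (x, θ) = 0 := fun θ => hζ1.eq_zero (by simp [hw])
      have z2 : ∀ θ, ζ2 i (x, θ) = 0 := fun θ => hζ2.eq_zero (by simp [hw])
      have z3 : r3 i (x, θ) = 0 := h3.eq_zero (by simp [hw])
      have z4 := hf.eq_zero (i := i) (x := (x, θ)) (by simp [hw])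
      rw [z1, z2, b1_mean_zero z1, b1_mean_zero z2, z4] at e3
      simp only [dθ, hoff i x θ hx, z3, zero_apply, inner_zero_right]
      linarith

end Crest.Agent.R216
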