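import Crest.Agent.R216.StepB1

/-! # Row 216, the step lemma: algebraic correction, new state -/

set_option autoImplicit false
open Set Filter Metric
open scoped ContDiff RealInnerProductSpace Topology

noncomputable section
namespace Crest.Agent.R216

section h93aux
variable {J N : Type} {π : J → N} {μ : J → ℝ} {d : J → SD}

theorem h93_down (h : Cl π μ d) {T : J → ℝ} (hT : ∀ i, 0 ≤ T i) {f : J → E2 × ℝ → ℝ}
    (hf : Sy π μ (fun i z => (d i).w z.1 ^ 2 * T i) f) :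
    Sy π μ (fun i z => (d i).w z.1 * T i) f :=
  hf.of_le (fun i z => mul_nonneg ((h.ok i).w_nonneg _) (hT i)) 1 (fun _ => 2) (fun i z => by
    have h1 := mul_le_mul_of_nonneg_right (h.w_le i z.1)
      (mul_nonneg ((h.ok i).w_nonneg z.1) (hT i))
    nlinarith)

theorem h93_quad {S : J → ℝ} {A B : J → E2 × ℝ → E4} (hA : Sy π μ (fun i z => (d i).w z.1) A)
    (hB : Sy π μ (fun i z => (d i).w z.1 * S i) B) :
    Sy π μ (fun i z => (d i).w z.1 ^ 2 * S i) (fun i z => ⟪A i z, B i z⟫) :=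
  (hA.inner hB).mono fun i z => le_of_eq (by ring)

theorem h93_eps {X : Type} [NormedAddCommGroup X] [NormedSpace ℝ X] (h : Cl π μ d)
    {w f : J → X → ℝ} (hf : Sy π μ w f) :
    Sy π μ (fun i z => (d i).ε * w i z) (fun i z => (d i).ε * f i z) :=
  (hf.fam_mul fun i => (d i).ε).mono fun i z => by rw [abs_of_pos (h.ok i).ε_pos]

theorem h93_eps_le_one (h : Cl π μ d) (i : J) : (d i).ε ≤ 1 :=
  (h.ok i).ε_le.trans (pow_le_one₀ (h.ok i).τ_pos.le (h.ok i).τ_le)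

theorem h93_eps2 {X : Type} [NormedAddCommGroup X] [NormedSpace ℝ X] (h : Cl π μ d)
    {w f : J → X → ℝ} (hf : Sy π μ w f) :
    Sy π μ (fun i z => (d i).ε * w i z) (fun i z => (d i).ε ^ 2 * f i z) :=
  ((h93_eps h (h93_eps h hf)).mono fun i z =>
    mul_le_of_le_one_left (mul_nonneg (h.ok i).ε_pos.le (hf.w_nonneg i z))
      (h93_eps_le_one h i)).congr fun i z => by ring

theorem h93_tau {X : Type} [NormedAddCommGroup X] [NormedSpace ℝ X] (h : Cl π μ d)
    {w f : J → X → ℝ} {S : J → ℝ} (hw : ∀ i z, 0 ≤ w i z) (hS : ∀ i, 0 ≤ S i)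
    (hf : Sy π μ (fun i z => (d i).ε * (w i z * S i)) f) :
    Sy π μ (fun i z => w i z * (S i * (d i).τ ^ 2)) f :=
  hf.mono fun i z => by
    have := mul_le_mul_of_nonneg_right (h.ok i).ε_le (mul_nonneg (hw i z) (hS i))
    linarith

theorem h93_lin {G : J → E2 → E4} (hG : Sy π μ (fun _ _ => 1) G) (v : J → E2)
    (hv : ∀ i, ‖v i‖ ≤ μ i) {u : J → E2 × ℝ → E4} {w1 w2 : J → E2 → ℝ}
    (hu : Sy π μ (fun i z => w1 i z.1) u) (hm : Sy π μ w2 (fun i => mean (u i))) :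
    Sy π μ (fun i z => w1 i z.1) (fun i z => ⟪G i z.1, dx (v i) (u i) z⟫) ∧
      Sy π μ w2 (fun i => mean (fun z => ⟪G i z.1, dx (v i) (u i) z⟫)) :=
  ⟨hG.fst.one_inner (hu.dx v hv), (hG.one_inner (hm.dir v hv)).congr fun i x => by
    rw [mean_inner_left _ (contDiff_dx (hu.smooth i) _).continuous, mean_dx (hu.smooth i)]⟩

theorem h93_comb (h : Cl π μ d) {wq : J → E2 → ℝ} {Q L f : J → E2 × ℝ → ℝ}
    (hQ : Sy π μ (fun i z => (d i).ε * wq i z.1) Q) (hLs : ∀ i, ContDiff ℝ ∞ (L i))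
    (hL : Sy π μ wq (fun i => mean (L i))) (he : ∀ i z, Q i z + (d i).ε * L i z = f i z) :
    Sy π μ (fun i x => (d i).ε * wq i x) (fun i => mean (f i)) :=
  ((Sy.mean (w := fun i x => (d i).ε * wq i x) hQ).add (h93_eps h hL)).congr fun i x => by
    rw [← mean_mul_left (fun _ => (d i).ε) (L i) x,
      ← mean_add (v := fun z => (d i).ε * L i z) (hQ.smooth i).continuous
        (continuous_const.mul (hLs i).continuous)]
    exact mean_congr fun θ => he i _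

theorem h93_dθ_sub {U V : E2 × ℝ → E4} (hU : ContDiff ℝ ∞ U) (hV : ContDiff ℝ ∞ V) (z : E2 × ℝ) :
    dθ (fun z => U z - V z) z = dθ U z - dθ V z := by
  unfold dθ
  rw [fderiv_fun_sub (hU.differentiable (by simp) z) (hV.differentiable (by simp) z)]
  rfl

end h93aux

/-- Apply `exists_corrB` to the residuals, `U' = U + u`, `Φ3' = Φ3 + ψ`, and expand with `R*_add`:
`R1' = ε(2⟪U_t,u_t⟫ + |u_t|²)`, `R2' - Φ2 = mean r2 + ε(..) + ε(..) + ε²(..)`,
`R3' - Φ3' = 2⟪(U - U0)_θ, u_θ⟫ + |u_θ|² + ε(..)`.  Means of the terms linear in `u` with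
`θ`-independent coefficients are computed by `mean_inner_left`, `mean_dx` from `mean u ∈ w² S`;
all other terms have weight `w²`.  Use `ε ≤ τ²`, `S ≤ τ²`, `w ≤ 2μ`. -/
theorem step_B {J N : Type} {π : J → N} {μ : J → ℝ} {d : J → SD} (h : Cl π μ d)
    {S : J → ℝ} {U : J → E2 × ℝ → E4} {Φ2 Φ3 : J → E2 × ℝ → ℝ} (s : FSt π μ d S S U Φ2 Φ3)
    (hS : ∀ i, 0 ≤ S i) (hS' : ∀ i, S i ≤ (d i).τ ^ 2) :
    ∃ (U' : J → E2 × ℝ → E4) (Φ3' : J → E2 × ℝ → ℝ),
      FSt π μ d (fun i => S i * (d i).τ ^ 2) S U' Φ2 Φ3' ∧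
      Sy π μ (fun i z => (d i).w z.1 * S i) (fun i z => U' i z - U i z) ∧
      Sy π μ (fun i _ => (d i).κ ^ 2 * S i) (fun i z => Φ3' i z - Φ3 i z) := by
  obtain ⟨u, ψ, pu, pψ, hu, hmu, hψ, e1, e2, e3⟩ := exists_corrB h
    (r1 := fun i => (d i).R1 (U i)) (r2 := fun i z => (d i).R2 (U i) z - Φ2 i z)
    (r3 := fun i z => (d i).R3 (U i) z - Φ3 i z) (fun i => (d i).per_R1 (s.perU i))
    (fun i x θ => by
      simp only [(d i).per_R2 (s.perU i) x θ, s.per2 i x θ])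
    (fun i x θ => by
      simp only [(d i).per_R3 (s.perU i) x θ, s.per3 i x θ])
    s.r1 s.m1 s.r2 s.r3 s.m3 hS
  have hw : ∀ i x, 0 ≤ (d i).w x := fun i x => (h.ok i).w_nonneg x
  have hw2 : ∀ i x, 0 ≤ (d i).w x ^ 2 := fun i x => sq_nonneg _
  have hT : ∀ i, 0 ≤ S i * (d i).τ ^ 2 := fun i => mul_nonneg (hS i) (sq_nonneg _)
  have hU := s.U h
  have huτ : Sy π μ (fun i z => (d i).w z.1 * (d i).τ ^ 2) u :=
    hu.mono fun i z => mul_le_mul_of_nonneg_left (hS' i) (hw i _)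
  have hu1 : Sy π μ (fun i z => (d i).w z.1) u :=
    huτ.mono fun i z =>
      mul_le_of_le_one_right (hw i _) (pow_le_one₀ (h.ok i).τ_pos.le (h.ok i).τ_le)
  have Ut := hU.dx (fun i => (d i).et) h.et_le
  have Us := hU.dx (fun i => (d i).es) h.es_le
  have Uθ := hU.dθ
  have ut := hu.dx (fun i => (d i).et) h.et_le
  have us := hu.dx (fun i => (d i).es) h.es_le
  have uθ := hu.dθ
  have ut1 := hu1.dx (fun i => (d i).et) h.et_le
  have us1 := hu1.dx (fun i => (d i).es) h.es_le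
  have uθ1 := hu1.dθ
  obtain ⟨Lts, Mts⟩ := h93_lin h.Gt (fun i => (d i).es) h.es_le
    (w1 := fun i x => (d i).w x * S i) hu hmu
  obtain ⟨Lst, Mst⟩ := h93_lin h.Gs (fun i => (d i).et) h.et_le
    (w1 := fun i x => (d i).w x * S i) hu hmu
  obtain ⟨Lss, Mss⟩ := h93_lin h.Gs (fun i => (d i).es) h.es_le
    (w1 := fun i x => (d i).w x * S i) hu hmu
  -- the `tt` residual
  have A1 : Sy π μ (fun i (z : E2 × ℝ) => (d i).w z.1 ^ 2 * (S i * (d i).τ ^ 2))
      (fun i => (d i).R1 (fun z => U i z + u i z)) := by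
    refine h93_tau h (w := fun i (z : E2 × ℝ) => (d i).w z.1 ^ 2) (fun i z => hw2 i _) hS ?_
    refine (h93_eps h (((h93_quad Ut ut).const_mul 2).add (h93_quad ut1 ut))).congr fun i z => ?_
    rw [(d i).R1_add (hU.smooth i) (hu.smooth i), e1 i z]
    ring
  -- the `st` residual
  have Q2 := ((s.m2.fst.mono (w' := fun i (z : E2 × ℝ) => (d i).ε * ((d i).w z.1 ^ 2 * S i))
    fun i z => le_of_eq (by ring)).add
      (h93_eps h (((h93_quad Ut uθ).add (h93_quad Uθ ut)).add (h93_quad ut1 uθ)))).add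
      (h93_eps2 h (((h93_quad Ut us).add (h93_quad Us ut)).add (h93_quad ut1 us)))
  have L2 := Lts.add Lst
  have M2 : Sy π μ (fun i x => (d i).w x ^ 2 * S i) (fun i => mean (fun z =>
      ⟪(d i).Gt z.1, dx (d i).es (u i) z⟫ + ⟪(d i).Gs z.1, dx (d i).et (u i) z⟫)) :=
    (Mts.add Mst).congr fun i x =>
      (mean_add (Lts.smooth i).continuous (Lst.smooth i).continuous x).symm
  have E2' : ∀ i z, _ + (d i).ε * (⟪(d i).Gt z.1, dx (d i).es (u i) z⟫ +
      ⟪(d i).Gs z.1, dx (d i).et (u i) z⟫) = (d i).R2 (fun z => U i z + u i z) z - Φ2 i z :=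
    fun i z => (show mean (fun z => (d i).R2 (U i) z - Φ2 i z) z.1 +
      (d i).ε * (⟪dx (d i).et (U i) z, dθ (u i) z⟫ + ⟪dθ (U i) z, dx (d i).et (u i) z⟫ +
        ⟪dx (d i).et (u i) z, dθ (u i) z⟫) +
      (d i).ε ^ 2 * (⟪dx (d i).et (U i) z, dx (d i).es (u i) z⟫ +
        ⟪dx (d i).es (U i) z, dx (d i).et (u i) z⟫ + ⟪dx (d i).et (u i) z, dx (d i).es (u i) z⟫) +
      _ = _ by
        rw [(d i).R2_add (hU.smooth i) (hu.smooth i), e2 i z]
        ring)
  -- the `ss` residual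
  have Q3a : Sy π μ (fun i (z : E2 × ℝ) => (d i).w z.1 ^ 2 * (S i * (d i).τ ^ 2))
      (fun i z => 2 * ⟪dθ (fun z => U i z - (d i).U0 z) z, dθ (u i) z⟫ +
        ⟪dθ (u i) z, dθ (u i) z⟫) :=
    (((s.dU.dθ.inner uθ).const_mul 2).add (huτ.dθ.inner uθ)).mono fun i z => le_of_eq (by ring)
  have Q3b := (h93_eps h ((((h93_quad Us uθ).const_mul 2).add ((h93_quad Uθ us).const_mul 2)).add
      ((h93_quad uθ1 us).const_mul 2))).add
      (h93_eps2 h (((h93_quad Us us).const_mul 2).add (h93_quad us1 us)))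
  have L3 := Lss.const_mul 2
  have M3 : Sy π μ (fun i x => (d i).w x ^ 2 * S i) (fun i => mean (fun z =>
      2 * ⟪(d i).Gs z.1, dx (d i).es (u i) z⟫)) :=
    (Mss.const_mul 2).congr fun i x => (mean_mul_left (fun _ => (2 : ℝ)) _ x).symm
  have B3 := (h93_down h hT (h93_tau h (w := fun i (z : E2 × ℝ) => (d i).w z.1 ^ 2)
    (fun i z => hw2 i _) hS Q3b)).add
    (h93_tau h (w := fun i (z : E2 × ℝ) => (d i).w z.1) (fun i z => hw i _) hS (h93_eps h L3))
  have E3' : ∀ i z, (2 * ⟪dθ (fun z => U i z - (d i).U0 z) z, dθ (u i) z⟫ +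
        ⟪dθ (u i) z, dθ (u i) z⟫) +
      ((d i).ε * (2 * ⟪dx (d i).es (U i) z, dθ (u i) z⟫ + 2 * ⟪dθ (U i) z, dx (d i).es (u i) z⟫ +
        2 * ⟪dθ (u i) z, dx (d i).es (u i) z⟫) +
      (d i).ε ^ 2 * (2 * ⟪dx (d i).es (U i) z, dx (d i).es (u i) z⟫ +
        ⟪dx (d i).es (u i) z, dx (d i).es (u i) z⟫) +
      (d i).ε * (2 * ⟪(d i).Gs z.1, dx (d i).es (u i) z⟫)) =
      (d i).R3 (fun z => U i z + u i z) z - (Φ3 i z + ψ i z) := by
    intro i z
    have e4 := e3 i z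
    rw [(d i).R3_add (hU.smooth i) (hu.smooth i), h93_dθ_sub (hU.smooth i) (h.U0.smooth i),
      inner_sub_left, inner_add_left]
    rw [inner_add_left] at e4
    linarith
  refine ⟨fun i z => U i z + u i z, fun i z => Φ3 i z + ψ i z,
    ⟨fun i x θ => by simp only [s.perU i x θ, pu i x θ], s.per2,
      fun i x θ => by simp only [s.per3 i x θ, pψ i x θ], s.sm2,
      fun i => (s.sm3 i).add (hψ.smooth i), (s.dU.add huτ).congr fun i z => by abel,
      h93_down h hT A1, Sy.mean (w := fun i x => (d i).w x ^ 2 * (S i * (d i).τ ^ 2)) A1,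
      ?_, ?_, ?_, ?_⟩,
    hu.congr fun i z => (add_sub_cancel_left _ _).symm,
    hψ.congr fun i z => (add_sub_cancel_left _ _).symm⟩
  · exact ((h93_down h hT (h93_tau h (w := fun i (z : E2 × ℝ) => (d i).w z.1 ^ 2)
      (fun i z => hw2 i _) hS Q2)).add (h93_tau h (w := fun i (z : E2 × ℝ) => (d i).w z.1)
      (fun i z => hw i _) hS (h93_eps h L2))).congr E2'
  · exact (h93_comb h (wq := fun i x => (d i).w x ^ 2 * S i) Q2 L2.smooth M2 E2').mono
      fun i x => le_of_eq (by ring)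
  · exact ((h93_down h hT Q3a).add B3).congr E3'
  · refine ((Sy.mean (w := fun i x => (d i).w x ^ 2 * (S i * (d i).τ ^ 2)) Q3a).add
      (h93_tau h (w := fun i x => (d i).w x ^ 2) hw2 hS
        (h93_comb h (wq := fun i x => (d i).w x ^ 2 * S i) Q3b L3.smooth M3
          (fun _ _ => rfl)))).congr fun i x => ?_
    rw [← mean_add (Q3a.smooth i).continuous (B3.smooth i).continuous]
    exact mean_congr fun θ => E3' i _

end Crest.Agent.R216
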