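import Crest.Agent.R216.StepI
import Crest.Agent.R216.StepB2
import Crest.Agent.R216.StepA

/-! # Row 216, the step lemma: iteration with uniform exponent -/

set_option autoImplicit false
open Set Filter Metric
open scoped ContDiff RealInnerProductSpace Topology

noncomputable section
namespace Crest.Agent.R216

section
variable {J N : Type} {π : J → N} {μ : J → ℝ} {d : J → SD}

/-- absorb the uniform exponent with a small factor `t` -/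
theorem StepC_absorb {X W : Type*} [NormedAddCommGroup X] [NormedSpace ℝ X] [NormedAddCommGroup W]
    [NormedSpace ℝ W] {w : J → X → ℝ} {u : J → X → W} (h : Sy π μ w u) :
    ∃ k : ℕ, ∃ B : N → ℕ → ℝ, (∀ n j, 0 ≤ B n j) ∧ ∀ i (t : ℝ) (K : ℕ) (B' : ℕ → ℝ) (w' : X → ℝ),
      k ≤ K → t * μ i ^ K ≤ 1 → (∀ j, B (π i) j ≤ B' j) → (∀ x, 0 ≤ w' x) →
      (∀ x, w i x ≤ t * w' x) → Bd B' (μ i) w' (u i) := by
  have hw := h.w_nonneg
  obtain ⟨k, B, h⟩ := h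
  refine ⟨k, fun n j => |B n j|, fun n j => abs_nonneg _, fun i t K B' w' hk ht hB h0 h1 => ?_⟩
  refine (h i).mono (fun j => (le_abs_self _).trans (hB j)) le_rfl fun x => ?_
  have h2 := (h i).one_le
  calc w i x * μ i ^ k ≤ w i x * μ i ^ K :=
        mul_le_mul_of_nonneg_left (pow_le_pow_right₀ h2 hk) (hw i x)
    _ ≤ t * w' x * μ i ^ K := mul_le_mul_of_nonneg_right (h1 x) (by positivity)
    _ = w' x * (t * μ i ^ K) := by ring
    _ ≤ w' x := mul_le_of_le_one_right (h0 x) ht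

theorem StepC_zero {X W : Type*} [NormedAddCommGroup X] [NormedSpace ℝ X] [NormedAddCommGroup W]
    [NormedSpace ℝ W] {B : ℕ → ℝ} {m : ℝ} {w : X → ℝ} (hm : 1 ≤ m) (hB : ∀ j, 0 ≤ B j)
    (hw : ∀ x, 0 ≤ w x) : Bd B m w (fun _ => (0 : W)) := by
  refine ⟨contDiff_const, hm, hB, hw, fun j x => ?_⟩
  have h1 := hB j
  have h2 := hw x
  simp only [iteratedFDeriv_fun_zero, Pi.zero_apply, norm_zero]
  positivity

/-- explicit state from a family state, losing one factor `τ` -/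
theorem StepC_toSt (h : Cl π μ d) {S S' : J → ℝ} {U : J → E2 × ℝ → E4} {Φ2 Φ3 : J → E2 × ℝ → ℝ}
    (s : FSt π μ d S S U Φ2 Φ3) (h0 : ∀ i, 0 ≤ S' i) (hS : ∀ i, S i = (d i).τ * S' i) :
    ∃ k : ℕ, ∃ B : N → ℕ → ℝ, (∀ n j, 0 ≤ B n j) ∧ ∀ i (K : ℕ) (B' : ℕ → ℝ), k ≤ K →
      (d i).τ * μ i ^ K ≤ 1 → (∀ j, B (π i) j ≤ B' j) →
      Bd B' (μ i) (fun z => (d i).w z.1 * (d i).τ ^ 2) (fun z => U i z - (d i).U0 z) →
      Bd B' (μ i) (fun _ => (d i).κ ^ 2) (Φ2 i) → Bd B' (μ i) (fun _ => (d i).κ ^ 2) (Φ3 i) →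
      (d i).St B' (μ i) (S' i) (U i) (Φ2 i) (Φ3 i) := by
  obtain ⟨k1, B1, n1, a1⟩ := StepC_absorb s.r1
  obtain ⟨k2, B2, n2, a2⟩ := StepC_absorb s.m1
  obtain ⟨k3, B3, n3, a3⟩ := StepC_absorb s.r2
  obtain ⟨k4, B4, n4, a4⟩ := StepC_absorb s.m2
  obtain ⟨k5, B5, n5, a5⟩ := StepC_absorb s.r3
  obtain ⟨k6, B6, n6, a6⟩ := StepC_absorb s.m3
  refine ⟨k1 + k2 + k3 + k4 + k5 + k6,
    fun n j => B1 n j + B2 n j + B3 n j + B4 n j + B5 n j + B6 n j, fun n j => ?_,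
    fun i K B' hk ht hB b1 b2 b3 => ?_⟩
  · linarith [n1 n j, n2 n j, n3 n j, n4 n j, n5 n j, n6 n j]
  have hw := (h.ok i).w_nonneg
  have hε := (h.ok i).ε_pos.le
  have h1 := h0 i
  have hB' : ∀ j, B1 (π i) j ≤ B' j ∧ B2 (π i) j ≤ B' j ∧ B3 (π i) j ≤ B' j ∧ B4 (π i) j ≤ B' j ∧
      B5 (π i) j ≤ B' j ∧ B6 (π i) j ≤ B' j := fun j => by
    have := hB j
    refine ⟨?_, ?_, ?_, ?_, ?_, ?_⟩ <;>
      linarith [n1 (π i) j, n2 (π i) j, n3 (π i) j, n4 (π i) j, n5 (π i) j, n6 (π i) j]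
  have e : ∀ c : ℝ, c * S i ≤ (d i).τ * (c * S' i) := fun c => by
    rw [hS i]
    exact le_of_eq (by ring)
  exact ⟨s.perU i, s.per2 i, s.per3 i, b1,
    a1 i _ K B' _ (by omega) ht (fun j => (hB' j).1) (fun z => mul_nonneg (hw _) h1) fun _ => e _,
    a2 i _ K B' _ (by omega) ht (fun j => (hB' j).2.1) (fun x => by positivity) fun _ => e _,
    a3 i _ K B' _ (by omega) ht (fun j => (hB' j).2.2.1) (fun z => mul_nonneg (hw _) h1)
      fun _ => e _,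
    a4 i _ K B' _ (by omega) ht (fun j => (hB' j).2.2.2.1) (fun x => by positivity) fun _ => e _,
    a5 i _ K B' _ (by omega) ht (fun j => (hB' j).2.2.2.2.1) (fun z => mul_nonneg (hw _) h1)
      fun _ => e _,
    a6 i _ K B' _ (by omega) ht (fun j => (hB' j).2.2.2.2.2) (fun x => by positivity) fun _ => e _,
    b2, b3⟩

/-- index of the universal family -/
structure StepC_J (μ : J → ℝ) (d : J → SD) where
  i : J
  B : ℕ → ℝ
  S : ℝ
  U : E2 × ℝ → E4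
  Φ2 : E2 × ℝ → ℝ
  Φ3 : E2 × ℝ → ℝ
  h0 : 0 ≤ S
  h1 : S ≤ (d i).τ ^ 3
  st : (d i).St B (μ i) S U Φ2 Φ3

/-- One iteration with an exponent `k` independent of the state.  Apply `step_B`, `step_A` to the
universal family: inner index = the subtype of `(i, B, S, U, Φ2, Φ3)` with `St`, `0 ≤ S ≤ τ³`, outer
index `(π i, B) : N × (ℕ → ℝ)` (`Cl.comap`, `Sy.of_Bd`).  The eleven `Sy` statements obtained have
exponents `≤ k`; absorb `μ^k` with `τ μ^k ≤ 1` (`S τ² μ^k ≤ S τ`, `S μ^k ≤ τ²`, `S μ^k ≤ 1`), take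
the sum of all constants, `Bd.mono`, `Bd.add`. -/
theorem step_iter (h : Cl π μ d) : ∃ k : ℕ, ∀ B : N → ℕ → ℝ, ∃ B' : N → ℕ → ℝ,
    ∀ i (S : ℝ) U Φ2 Φ3, (d i).τ * μ i ^ k ≤ 1 → 0 ≤ S → S ≤ (d i).τ ^ 3 →
      (d i).St (B (π i)) (μ i) S U Φ2 Φ3 →
      ∃ U' Φ2' Φ3', (d i).St (B' (π i)) (μ i) (S * (d i).τ) U' Φ2' Φ3' := by
  let π' : StepC_J μ d → N × (ℕ → ℝ) := fun p => (π p.i, p.B)
  have h' : Cl π' (fun p => μ p.i) (fun p => d p.i) := h.comap (fun p => p.i) π' Prod.fst fun _ => rfl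
  have s0 : FSt π' (fun p => μ p.i) (fun p => d p.i) (fun p => p.S) (fun p => p.S) (fun p => p.U)
      (fun p => p.Φ2) (fun p => p.Φ3) :=
    ⟨fun p => p.st.perU, fun p => p.st.per2, fun p => p.st.per3, fun p => p.st.fl2.smooth,
      fun p => p.st.fl3.smooth, Sy.of_Bd (B := Prod.snd) fun p => p.st.dU,
      Sy.of_Bd (B := Prod.snd) fun p => p.st.r1, Sy.of_Bd (B := Prod.snd) fun p => p.st.m1,
      Sy.of_Bd (B := Prod.snd) fun p => p.st.r2, Sy.of_Bd (B := Prod.snd) fun p => p.st.m2,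
      Sy.of_Bd (B := Prod.snd) fun p => p.st.r3, Sy.of_Bd (B := Prod.snd) fun p => p.st.m3⟩
  have hS' : ∀ p : StepC_J μ d, p.S ≤ (d p.i).τ ^ 2 := fun p =>
    p.h1.trans (pow_le_pow_of_le_one (h.ok p.i).τ_pos.le (h.ok p.i).τ_le (by norm_num))
  obtain ⟨U1, Ψ3, s1, u1, f3⟩ := step_B h' s0 (fun p => p.h0) hS'
  obtain ⟨U2, Ψ2, s2, u2, f2⟩ := step_A h' s1 (fun p => p.h0) hS'
  obtain ⟨k0, B0, n0, a0⟩ := StepC_toSt h' s2 (S' := fun p => p.S * (d p.i).τ)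
    (fun p => mul_nonneg p.h0 (h.ok p.i).τ_pos.le) (fun p => by ring)
  obtain ⟨k1, B1, n1, a1⟩ := StepC_absorb (u1.add u2)
  obtain ⟨k2, B2, n2, a2⟩ := StepC_absorb f2
  obtain ⟨k3, B3, n3, a3⟩ := StepC_absorb f3
  refine ⟨k0 + k1 + k2 + k3, fun B => ⟨fun n j => B n j +
    (B0 (n, B n) j + B1 (n, B n) j + B2 (n, B n) j + B3 (n, B n) j),
    fun i S U Φ2 Φ3 ht h0 h1 st => ?_⟩⟩
  let p : StepC_J μ d := ⟨i, B (π i), S, U, Φ2, Φ3, h0, h1, st⟩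
  have hτ := (h.ok i).τ_pos
  have hw := (h.ok i).w_nonneg
  have hS1 : S ≤ (d i).τ := h1.trans (pow_le_of_le_one hτ.le (h.ok i).τ_le (by norm_num))
  have hB : ∀ j, B0 (π' p) j ≤ B0 (π' p) j + B1 (π' p) j + B2 (π' p) j + B3 (π' p) j ∧
      B1 (π' p) j ≤ B0 (π' p) j + B1 (π' p) j + B2 (π' p) j + B3 (π' p) j ∧
      B2 (π' p) j ≤ B0 (π' p) j + B1 (π' p) j + B2 (π' p) j + B3 (π' p) j ∧
      B3 (π' p) j ≤ B0 (π' p) j + B1 (π' p) j + B2 (π' p) j + B3 (π' p) j := fun j => by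
    refine ⟨?_, ?_, ?_, ?_⟩ <;> linarith [n0 (π' p) j, n1 (π' p) j, n2 (π' p) j, n3 (π' p) j]
  have hκ : (d i).κ ^ 2 * S ≤ (d i).τ * (d i).κ ^ 2 := by
    rw [mul_comm]
    exact mul_le_mul_of_nonneg_right hS1 (sq_nonneg _)
  refine ⟨U2 p, Ψ2 p, Ψ3 p, a0 p (k0 + k1 + k2 + k3) _ (by omega) ht
    (fun j => (hB j).1.trans (le_add_of_nonneg_left (st.dU.B_nonneg j))) ?_ ?_ ?_⟩
  · refine (st.dU.add (a1 p _ (k0 + k1 + k2 + k3) _ _ (by omega) ht (fun j => (hB j).2.1)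
      (fun z => mul_nonneg (hw _) (sq_nonneg _)) fun z => ?_)).congr fun z => ?_
    · exact (mul_le_mul_of_nonneg_left h1 (hw _)).trans (le_of_eq (by ring))
    · change U z - (d i).U0 z + (U1 p z - U z + (U2 p z - U1 p z)) = U2 p z - (d i).U0 z
      abel
  · exact (st.fl2.add (a2 p _ (k0 + k1 + k2 + k3) _ _ (by omega) ht (fun j => (hB j).2.2.1)
      (fun _ => sq_nonneg _) fun _ => hκ)).congr fun z => add_sub_cancel _ _
  · exact (st.fl3.add (a3 p _ (k0 + k1 + k2 + k3) _ _ (by omega) ht (fun j => (hB j).2.2.2)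
      (fun _ => sq_nonneg _) fun _ => hκ)).congr fun z => add_sub_cancel _ _

/-- The step lemma. -/
theorem step_core (h : Cl π μ d) : ∃ k : ℕ, ∀ n : ℕ, ∃ B : N → ℕ → ℝ,
    ∀ i, (d i).τ * μ i ^ k ≤ 1 →
      ∃ U Φ2 Φ3, (d i).St (B (π i)) (μ i) ((d i).τ ^ (n + 3)) U Φ2 Φ3 := by
  obtain ⟨k1, h1⟩ := step_iter h
  obtain ⟨k0, B0, n0, a0⟩ := StepC_toSt h (step_init h) (S' := fun i => (d i).τ ^ 3)
    (fun i => pow_nonneg (h.ok i).τ_pos.le _) (fun i => by ring)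
  refine ⟨k0 + k1, fun n => ?_⟩
  induction n with
  | zero =>
    refine ⟨B0, fun i ht => ⟨_, _, _, a0 i _ _ (by omega) ht (fun _ => le_rfl) ?_
      (StepC_zero (h.one_le i) (n0 _) fun _ => sq_nonneg _)
      (StepC_zero (h.one_le i) (n0 _) fun _ => sq_nonneg _)⟩⟩
    exact (StepC_zero (h.one_le i) (n0 _) fun z =>
      mul_nonneg ((h.ok i).w_nonneg _) (sq_nonneg _)).congr fun z => (sub_self _).symm
  | succ n ih =>
    obtain ⟨B, hB⟩ := ih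
    obtain ⟨B', hB'⟩ := h1 B
    refine ⟨B', fun i ht => ?_⟩
    obtain ⟨U, Φ2, Φ3, st⟩ := hB i ht
    have hτ := (h.ok i).τ_pos
    exact hB' i _ U Φ2 Φ3 ((mul_le_mul_of_nonneg_left
      (pow_le_pow_right₀ (h.one_le i) (by omega)) hτ.le).trans ht) (pow_nonneg hτ.le _)
      (pow_le_pow_of_le_one hτ.le (h.ok i).τ_le (by omega)) st

end

end Crest.Agent.R216
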