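import Crest.Agent.R216.Int3
import Crest.Agent.R216.Jet2

/-! # Row 216, the step lemma: data, residuals, states -/

set_option autoImplicit false
open Set Filter Metric
open scoped ContDiff RealInnerProductSpace Topology

noncomputable section
namespace Crest.Agent.R216

/-- Frame identities at a point: `f1, f2` is the basis of `span {Gt, Gtt}` dual to `Gt, Gtt`;
`e0, nu` is an orthonormal basis of the orthogonal complement, `rho • e0` is the projection of `Gs`. -/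
structure Fr (Gs Gt Gtt f1 f2 e0 nu : E4) (rho irho : ℝ) : Prop where
  t_f1 : ⟪Gt, f1⟫ = 1
  tt_f1 : ⟪Gtt, f1⟫ = 0
  t_f2 : ⟪Gt, f2⟫ = 0
  tt_f2 : ⟪Gtt, f2⟫ = 1
  t_e0 : ⟪Gt, e0⟫ = 0
  tt_e0 : ⟪Gtt, e0⟫ = 0
  t_nu : ⟪Gt, nu⟫ = 0
  tt_nu : ⟪Gtt, nu⟫ = 0
  e0_e0 : ⟪e0, e0⟫ = 1
  nu_nu : ⟪nu, nu⟫ = 1
  e0_nu : ⟪e0, nu⟫ = 0
  e0_f1 : ⟪e0, f1⟫ = 0
  e0_f2 : ⟪e0, f2⟫ = 0
  nu_f1 : ⟪nu, f1⟫ = 0
  nu_f2 : ⟪nu, f2⟫ = 0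
  s_e0 : ⟪Gs, e0⟫ = rho
  s_nu : ⟪Gs, nu⟫ = 0
  span : Gs = rho • e0 + ⟪Gs, f1⟫ • Gt + ⟪Gs, f2⟫ • Gtt
  rho_pos : 0 < rho
  irho_mul : irho * rho = 1

/-- Data of one step: the map `G`, the amplitude `a`, the loop `p = (rho + a q1, a q2)`, frames,
regularised inverses, directions, the support `Z`, the open set `O` where the frame is valid, and
the small parameters (`ε = τ ^ 4`). -/
structure SD where
  G : E2 → E4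
  a : E2 → ℝ
  q1 : E2 × ℝ → ℝ
  q2 : E2 × ℝ → ℝ
  f1 : E2 → E4
  f2 : E2 → E4
  e0 : E2 → E4
  nu : E2 → E4
  rho : E2 → ℝ
  irho : E2 → ℝ
  im : E2 → ℝ
  ip : E2 × ℝ → ℝ
  es : E2
  et : E2
  Z : Set E2
  O : Set E2
  κ : ℝ
  τ : ℝ
  β : ℝ

namespace SD

variable (d : SD)

def ε : ℝ := d.τ ^ 4
def Gs (x : E2) : E4 := fderiv ℝ d.G x d.es
def Gt (x : E2) : E4 := fderiv ℝ d.G x d.et
def Gtt (x : E2) : E4 := fderiv ℝ d.Gt x d.et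
/-- the weight -/
def w (x : E2) : ℝ := d.Z.indicator (fun x => |d.a x| + d.κ) x
def iA (x : E2) : ℝ := (d.a x ^ 2 + d.κ ^ 2)⁻¹
def p1 (z : E2 × ℝ) : ℝ := d.rho z.1 + d.a z.1 * d.q1 z
def p2 (z : E2 × ℝ) : ℝ := d.a z.1 * d.q2 z
/-- `|p|² - rho² - a²` -/
def hq (z : E2 × ℝ) : ℝ :=
  d.a z.1 * (2 * d.rho z.1 * d.q1 z + d.a z.1 * (d.q1 z ^ 2 + d.q2 z ^ 2 - 1))
/-- leading term -/
def U0 (z : E2 × ℝ) : E4 := d.a z.1 • (prim d.q1 z • d.e0 z.1 + prim d.q2 z • d.nu z.1)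
/-- `tt` residual divided by `ε` -/
def R1 (U : E2 × ℝ → E4) (z : E2 × ℝ) : ℝ :=
  2 * ⟪d.Gt z.1, dx d.et U z⟫ + d.ε * ⟪dx d.et U z, dx d.et U z⟫
/-- `st` residual -/
def R2 (U : E2 × ℝ → E4) (z : E2 × ℝ) : ℝ :=
  ⟪d.Gt z.1 + d.ε • dx d.et U z, d.Gs z.1 + dθ U z + d.ε • dx d.es U z⟫ - ⟪d.Gt z.1, d.Gs z.1⟫
/-- `ss` residual -/
def R3 (U : E2 × ℝ → E4) (z : E2 × ℝ) : ℝ :=
  ⟪d.Gs z.1 + dθ U z + d.ε • dx d.es U z, d.Gs z.1 + dθ U z + d.ε • dx d.es U z⟫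
    - ⟪d.Gs z.1, d.Gs z.1⟫ - d.a z.1 ^ 2

/-- pointwise hypotheses -/
structure Ok : Prop where
  closed : IsClosed d.Z
  isOpen : IsOpen d.O
  sub : d.Z ⊆ d.O
  ball : d.Z ⊆ closedBall 0 2
  norm_et : ‖d.et‖ = 1
  κ_pos : 0 < d.κ
  κ_le : d.κ ≤ 1
  τ_pos : 0 < d.τ
  τ_le : d.τ ≤ 1
  β_nonneg : 0 ≤ d.β
  β_le : d.β ≤ d.τ ^ 4
  a_zero : ∀ x, x ∉ d.Z → d.a x = 0
  per1 : Per d.q1
  per2 : Per d.q2
  perp : Per d.ip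
  even1 : ∀ x θ, d.q1 (x, -θ) = d.q1 (x, θ)
  even2 : ∀ x θ, d.q2 (x, -θ) = d.q2 (x, θ)
  fr : ∀ x ∈ d.O, Fr (d.Gs x) (d.Gt x) (d.Gtt x) (d.f1 x) (d.f2 x) (d.e0 x) (d.nu x) (d.rho x)
    (d.irho x)
  mean1 : ∀ x ∈ d.Z, mean d.q1 x = 0
  mean2 : ∀ x ∈ d.Z, mean d.q2 x = 0
  meansq : ∀ x ∈ d.Z, mean (fun z => d.q1 z ^ 2 + d.q2 z ^ 2) x = 1
  im_mul : ∀ x ∈ d.Z, d.im x * mean (fun z => d.q2 z ^ 2) x = 1
  ip_mul : ∀ x ∈ d.Z, ∀ θ, d.ip (x, θ) * (d.p1 (x, θ) ^ 2 + d.p2 (x, θ) ^ 2) = 1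

/-- State of the iteration with explicit constants. -/
structure St (B : ℕ → ℝ) (m S : ℝ) (U : E2 × ℝ → E4) (Φ2 Φ3 : E2 × ℝ → ℝ) : Prop where
  perU : Per U
  per2 : Per Φ2
  per3 : Per Φ3
  dU : Bd B m (fun z => d.w z.1 * d.τ ^ 2) (fun z => U z - d.U0 z)
  r1 : Bd B m (fun z => d.w z.1 * S) (d.R1 U)
  m1 : Bd B m (fun x => d.w x ^ 2 * S) (mean (d.R1 U))
  r2 : Bd B m (fun z => d.w z.1 * S) (fun z => d.R2 U z - Φ2 z)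
  m2 : Bd B m (fun x => d.ε * d.w x ^ 2 * S) (mean (fun z => d.R2 U z - Φ2 z))
  r3 : Bd B m (fun z => d.w z.1 * S) (fun z => d.R3 U z - Φ3 z)
  m3 : Bd B m (fun x => d.w x ^ 2 * S) (mean (fun z => d.R3 U z - Φ3 z))
  fl2 : Bd B m (fun _ => d.κ ^ 2) Φ2
  fl3 : Bd B m (fun _ => d.κ ^ 2) Φ3

end SD

section
variable {J N : Type} (π : J → N) (μ : J → ℝ) (d : J → SD)

/-- class hypotheses for a family of step data -/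
structure Cl : Prop where
  ok : ∀ i, (d i).Ok
  G : Sy π μ (fun _ _ => 1) (fun i => (d i).G)
  a : Sy π μ (fun i => (d i).w) (fun i => (d i).a)
  a_le : ∀ i x, |(d i).a x| ≤ μ i
  es_le : ∀ i, ‖(d i).es‖ ≤ μ i
  q1 : Sy π μ (fun _ _ => 1) (fun i => (d i).q1)
  q2 : Sy π μ (fun _ _ => 1) (fun i => (d i).q2)
  ip : Sy π μ (fun _ _ => 1) (fun i => (d i).ip)
  f1 : Sy π μ (fun _ _ => 1) (fun i => (d i).f1)
  f2 : Sy π μ (fun _ _ => 1) (fun i => (d i).f2)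
  e0 : Sy π μ (fun _ _ => 1) (fun i => (d i).e0)
  nu : Sy π μ (fun _ _ => 1) (fun i => (d i).nu)
  rho : Sy π μ (fun _ _ => 1) (fun i => (d i).rho)
  irho : Sy π μ (fun _ _ => 1) (fun i => (d i).irho)
  im : Sy π μ (fun _ _ => 1) (fun i => (d i).im)
  iA : Sy π μ (fun i => (d i).iA) (fun i => (d i).iA)
  hq : Sy π μ (fun i z => (d i).w z.1 * (d i).β) (fun i => (d i).hq)

/-- State of the iteration for a family: residuals of size `S`, mean of the `st` residual of size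
`ε w² S2`. -/
structure FSt (S S2 : J → ℝ) (U : J → E2 × ℝ → E4) (Φ2 Φ3 : J → E2 × ℝ → ℝ) : Prop where
  perU : ∀ i, Per (U i)
  per2 : ∀ i, Per (Φ2 i)
  per3 : ∀ i, Per (Φ3 i)
  sm2 : ∀ i, ContDiff ℝ ∞ (Φ2 i)
  sm3 : ∀ i, ContDiff ℝ ∞ (Φ3 i)
  dU : Sy π μ (fun i z => (d i).w z.1 * (d i).τ ^ 2) (fun i z => U i z - (d i).U0 z)
  r1 : Sy π μ (fun i z => (d i).w z.1 * S i) (fun i => (d i).R1 (U i))
  m1 : Sy π μ (fun i x => (d i).w x ^ 2 * S i) (fun i => mean ((d i).R1 (U i)))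
  r2 : Sy π μ (fun i z => (d i).w z.1 * S i) (fun i z => (d i).R2 (U i) z - Φ2 i z)
  m2 : Sy π μ (fun i x => (d i).ε * (d i).w x ^ 2 * S2 i)
    (fun i => mean (fun z => (d i).R2 (U i) z - Φ2 i z))
  r3 : Sy π μ (fun i z => (d i).w z.1 * S i) (fun i z => (d i).R3 (U i) z - Φ3 i z)
  m3 : Sy π μ (fun i x => (d i).w x ^ 2 * S i)
    (fun i => mean (fun z => (d i).R3 (U i) z - Φ3 i z))

end

end Crest.Agent.R216
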