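import Crest.Agent.R216.Step0

/-! # Row 216, the step lemma: initial state -/

set_option autoImplicit false
open Set Filter Metric
open scoped ContDiff RealInnerProductSpace Topology

noncomputable section
namespace Crest.Agent.R216

section h49
variable {J N : Type} {π : J → N} {μ : J → ℝ} {d : J → SD}

theorem h49_q2 (h : Cl π μ d) {u v : J → E2 × ℝ → E4} (hu : Sy π μ (fun i z => (d i).w z.1) u)
    (hv : Sy π μ (fun i z => (d i).w z.1) v) :
    Sy π μ (fun i z => (d i).w z.1 ^ 2 * (d i).τ ^ 4) (fun i z => (d i).ε * ⟪u i z, v i z⟫) := by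
  refine ((hu.inner hv).fam_mul fun i => (d i).ε).mono fun i z => le_of_eq ?_
  rw [abs_of_pos (h.ok i).ε_pos, SD.ε]
  ring

theorem h49_q1 (h : Cl π μ d) {g : J → E2 → E4} {v : J → E2 × ℝ → E4}
    (hg : Sy π μ (fun _ _ => 1) g) (hv : Sy π μ (fun i z => (d i).w z.1) v) :
    Sy π μ (fun i z => (d i).w z.1 * (d i).τ ^ 4) (fun i z => (d i).ε * ⟪g i z.1, v i z⟫) := by
  refine ((hg.fst.one_inner hv).fam_mul fun i => (d i).ε).mono fun i z => le_of_eq ?_
  rw [abs_of_pos (h.ok i).ε_pos, SD.ε]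
  ring

theorem h49_down (h : Cl π μ d) {u : J → E2 × ℝ → ℝ}
    (hu : Sy π μ (fun i z => (d i).w z.1 ^ 2 * (d i).τ ^ 4) u) :
    Sy π μ (fun i z => (d i).w z.1 * (d i).τ ^ 4) u := by
  refine hu.of_le (fun i z => mul_nonneg ((h.ok i).w_nonneg _) (by positivity)) 1 (fun _ => 2)
    fun i z => ?_
  have h1 := h.w_le i z.1
  have h2 : 0 ≤ (d i).w z.1 * (d i).τ ^ 4 := mul_nonneg ((h.ok i).w_nonneg _) (by positivity)
  calc (d i).w z.1 ^ 2 * (d i).τ ^ 4 = ((d i).w z.1 * (d i).τ ^ 4) * (d i).w z.1 := by ring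
    _ ≤ ((d i).w z.1 * (d i).τ ^ 4) * (2 * μ i) := mul_le_mul_of_nonneg_left h1 h2
    _ = _ := by ring

theorem h49_eps (h : Cl π μ d) {w u : J → E2 × ℝ → ℝ} (hu : Sy π μ w u) :
    Sy π μ w (fun i z => (d i).ε * u i z) := by
  refine (hu.fam_mul fun i => (d i).ε).mono fun i z => ?_
  rw [abs_of_pos (h.ok i).ε_pos]
  refine mul_le_of_le_one_left (hu.w_nonneg i z) ?_
  exact pow_le_one₀ (h.ok i).τ_pos.le (h.ok i).τ_le

theorem h49_orth (h : Cl π μ d) (i : J) (z : E2 × ℝ) :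
    ⟪(d i).Gt z.1, dx (d i).et (d i).U0 z⟫ = 0 ∧ ⟪(d i).Gt z.1, dθ (d i).U0 z⟫ = 0 := by
  obtain ⟨x, θ⟩ := z
  by_cases hx : x ∈ (d i).O
  · have h1 := (h.ok i).inner_dx (h.G.smooth i) (h.U0.smooth i) (X := fun _ => 0)
      (fun y hy θ => by
        have := (h.ok i).fr y hy
        simp only [SD.U0, inner_smul_right, inner_add_right, this.t_e0, this.t_nu, mul_zero,
          add_zero]) hx θ
    have h2 : ⟪(d i).Gtt x, (d i).U0 (x, θ)⟫ = 0 := by
      have := (h.ok i).fr x hx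
      simp only [SD.U0, inner_smul_right, inner_add_right, this.tt_e0, this.tt_nu, mul_zero,
        add_zero]
    rw [h1.1, h1.2, h2]
    simp [dx, dθ]
  · have h1 := (h.ok i).fderiv_eq_zero (u := (d i).U0)
      (fun y θ hy => by simp only [SD.U0, (h.ok i).a_zero y hy, zero_smul])
      (fun hz => hx ((h.ok i).sub hz)) θ
    simp [dx, dθ, h1]

theorem h49_mean_dx (h : Cl π μ d) (i : J) (c : E2 → E4) (v x : E2) :
    mean (fun z => ⟪c z.1, dx v (d i).U0 z⟫) x = 0 := by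
  have h1 : mean (d i).U0 = fun _ => 0 := funext (h.mean_U0 i)
  rw [mean_inner_left c (contDiff_dx (h.U0.smooth i) v).continuous, mean_dx (h.U0.smooth i), h1]
  simp

theorem h49_mean_odd (h : Cl π μ d) (i : J) (v x : E2) :
    mean (fun z => ⟪dx v (d i).U0 z, dθ (d i).U0 z⟫) x = 0 := by
  refine mean_odd (fun y θ => ?_) fun θ => ?_
  · simp only [(h.per_U0 i).dx v y θ, (h.per_U0 i).dθ y θ]
  · rw [dx_odd (h.U0.smooth i) (h.U0_odd i), h.dθ_U0, h.dθ_U0, (h.ok i).even1, (h.ok i).even2,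
      inner_neg_left]

theorem h49_R1 (h : Cl π μ d) (i : J) (z : E2 × ℝ) : (d i).R1 (d i).U0 z =
    (d i).ε * ⟪dx (d i).et (d i).U0 z, dx (d i).et (d i).U0 z⟫ := by
  rw [SD.R1, (h49_orth h i z).1, mul_zero, zero_add]

theorem h49_R2 (h : Cl π μ d) (i : J) (z : E2 × ℝ) : (d i).R2 (d i).U0 z - 0 =
    (d i).ε * ⟪(d i).Gt z.1, dx (d i).es (d i).U0 z⟫ +
      (d i).ε * ⟪(d i).Gs z.1, dx (d i).et (d i).U0 z⟫ +
      (d i).ε * ⟪dx (d i).et (d i).U0 z, dθ (d i).U0 z⟫ +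
      (d i).ε * ((d i).ε * ⟪dx (d i).et (d i).U0 z, dx (d i).es (d i).U0 z⟫) := by
  simp only [SD.R2, inner_add_left, inner_add_right, real_inner_smul_left, real_inner_smul_right,
    (h49_orth h i z).2, real_inner_comm ((d i).Gs z.1) (dx (d i).et (d i).U0 z)]
  ring

theorem h49_R3 (h : Cl π μ d) (i : J) (z : E2 × ℝ) : (d i).R3 (d i).U0 z - 0 =
    (d i).hq z + 2 * ((d i).ε * ⟪(d i).Gs z.1, dx (d i).es (d i).U0 z⟫) +
      (2 * ((d i).ε * ⟪dθ (d i).U0 z, dx (d i).es (d i).U0 z⟫) +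
      (d i).ε * ((d i).ε * ⟪dx (d i).es (d i).U0 z, dx (d i).es (d i).U0 z⟫)) := by
  have h1 := h.norm_sq_U0 i z
  rw [SD.R3, inner_add_left ((d i).Gs z.1 + dθ (d i).U0 z), inner_add_right _ (_ + _),
    inner_add_right _ (_ + _), h1, real_inner_comm ((d i).Gs z.1 + dθ (d i).U0 z)]
  simp only [inner_add_left, real_inner_smul_left, real_inner_smul_right]
  ring

end h49

/-- Expand with `R*_add` at `U = 0`, `u = U0`.  `⟪Gt, U0⟫ = 0 = ⟪Gtt, U0⟫` on `O`, so
`R1 = ε |U0_t|²`; `R2 = ε (⟪Gt, U0_s⟫ + ⟪Gs, U0_t⟫) + ε ⟪U0_t, U0_θ⟫ + ε² ⟪U0_t, U0_s⟫`, whose mean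
is that of the last term (`mean_inner_left`, `mean_dx`, `mean_U0`; `⟪U0_t, U0_θ⟫` is odd in `θ` by
`dx_odd`, `dθ_U0`, `even1/2`); `R3 = hq + 2ε ⟪Gs, U0_s⟫ + 2 ε ⟪U0_θ, U0_s⟫ + ε² |U0_s|²`.
Off `Z` everything vanishes (`Ok.fderiv_eq_zero`).  Weights: `w ≤ 2 μ`, `β ≤ τ⁴ = ε`, `ε ≤ 1`. -/
theorem step_init {J N : Type} {π : J → N} {μ : J → ℝ} {d : J → SD} (h : Cl π μ d) :
    FSt π μ d (fun i => (d i).τ ^ 4) (fun i => (d i).τ ^ 4) (fun i => (d i).U0)
      (fun _ _ => 0) (fun _ _ => 0) := by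
  have hU := h.U0
  have hA := hU.dx (fun i => (d i).et) h.et_le
  have hB := hU.dx (fun i => (d i).es) h.es_le
  have hC := hU.dθ
  have s1 := (h49_q2 h hA hA).congr fun i z => (h49_R1 h i z).symm
  have s3 := ((h49_q2 h hC hB).const_mul 2).add (h49_eps h (h49_q2 h hB hB))
  refine
    { perU := h.per_U0
      per2 := fun _ _ _ => rfl
      per3 := fun _ _ _ => rfl
      sm2 := fun _ => contDiff_const
      sm3 := fun _ => contDiff_const
      dU := (Sy.zero h.one_le fun i z => mul_nonneg ((h.ok i).w_nonneg _) (sq_nonneg _)).congr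
        fun i z => (sub_self _).symm
      r1 := h49_down h s1
      m1 := Sy.mean (w := fun i x => (d i).w x ^ 2 * (d i).τ ^ 4) s1
      r2 := ((((h49_q1 h h.Gt hB).add (h49_q1 h h.Gs hA)).add (h49_down h (h49_q2 h hA hC))).add
        (h49_down h (h49_eps h (h49_q2 h hA hB)))).congr fun i z => (h49_R2 h i z).symm
      m2 := ?_
      r3 := ?_
      m3 := ?_ }
  · have t1 : Sy π μ (fun i z => (d i).ε * (d i).w z.1 ^ 2 * (d i).τ ^ 4) fun i z =>
        (d i).ε * ((d i).ε * ⟪dx (d i).et (d i).U0 z, dx (d i).es (d i).U0 z⟫) := by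
      refine ((h49_q2 h hA hB).fam_mul fun i => (d i).ε).mono fun i z => le_of_eq ?_
      rw [abs_of_pos (h.ok i).ε_pos]
      ring
    refine (Sy.mean (w := fun i x => (d i).ε * (d i).w x ^ 2 * (d i).τ ^ 4) t1).congr
      fun i x => ?_
    have c1 := ((h49_q1 h h.Gt hB).smooth i).continuous
    have c2 := ((h49_q1 h h.Gs hA).smooth i).continuous
    have c3 := ((h49_q2 h hA hC).smooth i).continuous
    have c4 := (t1.smooth i).continuous
    have e1 := mean_mul_left (fun _ => (d i).ε)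
      (fun z => ⟪(d i).Gt z.1, dx (d i).es (d i).U0 z⟫) x
    have e2 := mean_mul_left (fun _ => (d i).ε)
      (fun z => ⟪(d i).Gs z.1, dx (d i).et (d i).U0 z⟫) x
    have e3 := mean_mul_left (fun _ => (d i).ε)
      (fun z => ⟪dx (d i).et (d i).U0 z, dθ (d i).U0 z⟫) x
    rw [h49_mean_dx h, mul_zero] at e1 e2
    rw [h49_mean_odd h, mul_zero] at e3
    rw [funext (h49_R2 h i), mean_add ((c1.fun_add c2).fun_add c3) c4, mean_add (c1.fun_add c2) c3,
      mean_add c1 c2, e1, e2, e3]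
    ring
  · refine (((h.hq.mono fun i z => ?_).add ((h49_q1 h h.Gs hB).const_mul 2)).add
      (h49_down h s3)).congr fun i z => (h49_R3 h i z).symm
    exact mul_le_mul_of_nonneg_left (h.ok i).β_le ((h.ok i).w_nonneg _)
  · refine (Sy.mean (w := fun i x => (d i).w x ^ 2 * (d i).τ ^ 4) s3).congr fun i x => ?_
    have c1 := (h.hq.smooth i).continuous
    have c2 := (((h49_q1 h h.Gs hB).const_mul 2).smooth i).continuous
    have c3 := (s3.smooth i).continuous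
    have e1 := mean_mul_left (fun _ => (d i).ε)
      (fun z => ⟪(d i).Gs z.1, dx (d i).es (d i).U0 z⟫) x
    have e2 := mean_mul_left (fun _ => (2 : ℝ))
      (fun z => (d i).ε * ⟪(d i).Gs z.1, dx (d i).es (d i).U0 z⟫) x
    rw [h49_mean_dx h, mul_zero] at e1
    rw [e1, mul_zero] at e2
    rw [funext (h49_R3 h i), mean_add (c1.fun_add c2) c3, mean_add c1 c2, e2, h.mean_hq]
    ring

end Crest.Agent.R216
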