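import Crest.Agent.R216.TopS

/-! # Row 216, topology: generic projection to dimension four -/

set_option autoImplicit false
open Set Filter Metric Function
open scoped ContDiff RealInnerProductSpace Topology

noncomputable section
namespace Crest.Agent.R216

namespace Atl

variable {M : Type*} [TopologicalSpace M] (A : Atl E2 M)

omit A in
theorem h49_reg {Ψ : E2 × E2 → E4} {s : Set (E2 × E2)} (hΨ : ∀ z ∈ s, DifferentiableAt ℝ Ψ z) :
    ∀ᵐ y : E4, ∀ z ∈ s, Ψ z = y → Injective (fderiv ℝ Ψ z) := by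
  have hd : Module.finrank ℝ (E2 × E2) = Module.finrank ℝ E4 := by simp
  have h := sard_easy (MeasureTheory.volume : MeasureTheory.Measure E4) hd.le (f := Ψ)
    (s := {z | z ∈ s ∧ ¬ Surjective (fderiv ℝ Ψ z)}) (fun z hz => hΨ z hz.1) fun z hz => hz.2
  filter_upwards [MeasureTheory.compl_mem_ae_iff.mpr h] with y hy z hz hzy
  have h1 : Surjective (fderiv ℝ Ψ z) := by
    by_contra h1
    exact hy ⟨z, ⟨hz, h1⟩, hzy⟩
  exact (LinearMap.injective_iff_surjective_of_finrank_eq_finrank hd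
    (f := (fderiv ℝ Ψ z : E2 × E2 →ₗ[ℝ] E4))).mpr h1

omit A in
theorem h49_quot {P : E2 × E2 → E4 × ℝ} (hP : Differentiable ℝ P) :
    ∀ᵐ y : E4, ∀ z, (P z).2 ≠ 0 → (P z).1 = (P z).2 • y →
      ∀ w, (fderiv ℝ P z w).1 = (fderiv ℝ P z w).2 • y → w = 0 := by
  have key : ∀ z, (P z).2 ≠ 0 → ∃ D : E2 × E2 →L[ℝ] E4,
      HasFDerivAt (fun z => ((P z).2)⁻¹ • (P z).1) D z ∧ ∀ w, D w =
        ((P z).2)⁻¹ • (fderiv ℝ P z w).1 -
          ((((P z).2) ^ 2)⁻¹ * (fderiv ℝ P z w).2) • (P z).1 := by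
    intro z hz
    have h1 := (hP z).hasFDerivAt.fst
    have h2 := (hasDerivAt_inv hz).comp_hasFDerivAt z (hP z).hasFDerivAt.snd
    refine ⟨_, h2.smul h1, fun w => ?_⟩
    simp [sub_eq_add_neg]
  filter_upwards [h49_reg (Ψ := fun z => ((P z).2)⁻¹ • (P z).1) (s := {z | (P z).2 ≠ 0})
    fun z hz => (key z hz).choose_spec.1.differentiableAt] with y hy z hz h1 w hw
  obtain ⟨D, hD, hD'⟩ := key z hz
  have h2 := hy z hz (by rw [h1, smul_smul, inv_mul_cancel₀ hz, one_smul])
  rw [hD.fderiv] at h2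
  refine h2 ?_
  rw [map_zero, hD', hw, h1, smul_smul, smul_smul, ← sub_smul]
  have : ((P z).2)⁻¹ * (fderiv ℝ P z w).2 -
      (((P z).2) ^ 2)⁻¹ * (fderiv ℝ P z w).2 * (P z).2 = 0 := by
    field_simp
    ring
  rw [this, zero_smul]

omit A in
theorem h49_dP {W : Type*} [NormedAddCommGroup W] [NormedSpace ℝ W] {G : E2 → W}
    (hG : ContDiff ℝ ∞ G) : Differentiable ℝ (fun z : E2 × E2 => fderiv ℝ G z.1 z.2) ∧
      ∀ x v ξ η, fderiv ℝ (fun z : E2 × E2 => fderiv ℝ G z.1 z.2) (x, v) (ξ, η) =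
        d2 G x ξ v + fderiv ℝ G x η := by
  have h1 : Differentiable ℝ (fderiv ℝ G) :=
    (hG.fderiv_right (m := 1) (by norm_cast)).differentiable one_ne_zero
  have h2 := fun z : E2 × E2 =>
    ((h1 z.1).hasFDerivAt.comp z hasFDerivAt_fst).clm_apply (hasFDerivAt_snd (p := z))
  refine ⟨fun z => (h2 z).differentiableAt, fun x v ξ η => ?_⟩
  have h3 := (h2 (x, v)).fderiv
  simp only [Function.comp_def] at h3
  rw [h3]
  simp [d2, add_comm]

/-- `g = f.1 - f.2 • y`, where `y` is a regular value (`sard_easy`, dimensions `4 ≤ 4`) of all maps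
`Ψ (x, x') = ((F x).2 - (F' x').2)⁻¹ • ((F x).1 - (F' x').1)` on `{(F x).2 ≠ (F' x').2}`
(`F = f ∘ p a`, `F' = f ∘ p b`) and is not in the images of
`(x, t) ↦ ((dF x (u + t • w)).2)⁻¹ • (dF x (u + t • w)).1` for `(u, w) = (b0, b1), (b1, b0)`
(`null_image`, `3 < 4`; every non-zero vector is a multiple of some `u + t • w`).  At a double point
of `g` the second components differ (`f` is injective), `Ψ (x, x') = y`, and
`DΨ (ξ, η) = (Δ.2)⁻¹ • (dg ξ - dg' η)`; surjective implies injective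
(`LinearMap.injective_iff_surjective_of_finrank_eq_finrank`). -/
theorem exists_dbl (h : A.EmbIn (E4 × ℝ)) : ∃ g : M → E4, A.Sm g ∧ A.Imm g ∧ A.Dbl g := by
  obtain ⟨f, hf, hi, hinj⟩ := h
  have hd : ∀ a, Differentiable ℝ (fun x => f (A.p a x)) := fun a =>
    (hf a).differentiable (by simp)
  have h1 : ∀ᵐ y : E4, ∀ a, _ := MeasureTheory.ae_all_iff.mpr fun a => h49_quot (h49_dP (hf a)).1
  have h2 : ∀ᵐ y : E4, ∀ a b, _ := MeasureTheory.ae_all_iff.mpr fun a =>
    MeasureTheory.ae_all_iff.mpr fun b =>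
      h49_quot (P := fun z : E2 × E2 => f (A.p a z.1) - f (A.p b z.2))
        (((hd a).comp differentiable_fst).sub ((hd b).comp differentiable_snd))
  obtain ⟨y, hy1, hy2⟩ := (h1.and h2).exists
  let L : E4 × ℝ →L[ℝ] E4 :=
    ContinuousLinearMap.fst ℝ E4 ℝ - (ContinuousLinearMap.snd ℝ E4 ℝ).smulRight y
  have hL : ∀ u, L u = u.1 - u.2 • y := fun u => rfl
  have hD : ∀ a x v, fderiv ℝ (fun x => L (f (A.p a x))) x v =
      L (fderiv ℝ (fun x => f (A.p a x)) x v) := fun a x v => by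
    have := (L.hasFDerivAt.comp x (hd a x).hasFDerivAt).fderiv
    simp only [Function.comp_def] at this
    rw [this]
    rfl
  refine ⟨fun m => L (f m), hf.comp L.contDiff, fun a x => ?_, fun a b x x' hne he ξ η hξ => ?_⟩
  · rw [injective_iff_map_eq_zero]
    intro v hv
    rw [hD, hL, sub_eq_zero] at hv
    by_cases h0 : (fderiv ℝ (fun x => f (A.p a x)) x v).2 = 0
    · refine hi a x ?_
      rw [h0, zero_smul] at hv
      rw [map_zero]
      exact Prod.ext hv h0
    · have := hy1 a (x, v) h0 hv (0, v) (by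
        rw [(h49_dP (hf a)).2, map_zero, zero_apply, zero_add]
        exact hv)
      exact congrArg Prod.snd this
  · have e1 : (f (A.p a x) - f (A.p b x')).1 = (f (A.p a x) - f (A.p b x')).2 • y := by
      rw [← sub_eq_zero, ← hL, map_sub, sub_eq_zero]
      exact he
    have e2 : (f (A.p a x) - f (A.p b x')).2 ≠ 0 := by
      intro h0
      rw [h0, zero_smul] at e1
      exact hne (hinj (sub_eq_zero.mp (Prod.ext e1 h0)))
    have e3 : fderiv ℝ (fun z : E2 × E2 => f (A.p a z.1) - f (A.p b z.2)) (x, x') (ξ, η) =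
        fderiv ℝ (fun x => f (A.p a x)) x ξ - fderiv ℝ (fun x => f (A.p b x)) x' η := by
      have q1 := fun z : E2 × E2 => (hd a z.1).hasFDerivAt.comp z hasFDerivAt_fst
      have q2 := fun z : E2 × E2 => (hd b z.2).hasFDerivAt.comp z hasFDerivAt_snd
      have := ((q1 (x, x')).fun_sub (q2 (x, x'))).fderiv
      simp only [Function.comp_def] at this
      rw [this]
      rfl
    have := hy2 a b (x, x') e2 e1 (ξ, η) (by
      rw [e3, ← sub_eq_zero, ← hL, map_sub, sub_eq_zero, ← hD, ← hD]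
      exact hξ)
    exact congrArg Prod.fst this

/-- `y ≠ 0` a regular value of all the maps `(x, v) ↦ dG x v`, `E2 × E2 → E4` (`G = g ∘ p a`), whose
derivative is `(ξ, η) ↦ d2 G x ξ v + dG x η`. -/
theorem exists_tng {g : M → E4} (hg : A.Sm g) : ∃ y : E4, y ≠ 0 ∧ A.Tng g y := by
  have h1 : ∀ᵐ y : E4, ∀ a, _ := MeasureTheory.ae_all_iff.mpr fun a =>
    h49_reg (s := univ) fun z _ => (h49_dP (hg a)).1 z
  have h2 : ∀ᵐ y : E4, y ∈ ({0} : Set E4)ᶜ :=
    MeasureTheory.compl_mem_ae_iff.mpr (MeasureTheory.measure_singleton 0)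
  obtain ⟨y, hy1, hy2⟩ := (h1.and h2).exists
  refine ⟨y, hy2, fun a x v hv ξ η h => ?_⟩
  have : (ξ, η) = 0 := hy1 a (x, v) (mem_univ _) hv (by
    rw [(h49_dP (hg a)).2, map_zero]
    exact h)
  exact congrArg Prod.fst this

/-- Compose with a linear automorphism `L` of `E4` with `L y = e3` (e.g. the reflection
`reflection_sub` exchanging `y` and `‖y‖ • e3`, followed by a scaling). -/
theorem exists_gen4 (h : A.EmbIn (E4 × ℝ)) : ∃ f : M → E4, A.Gen4 f := by
  obtain ⟨g, hg, hi, hd⟩ := A.exists_dbl h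
  obtain ⟨y, hy, ht⟩ := A.exists_tng hg
  have he : e3 ≠ 0 := fun h0 => by
    have := congrArg (fun v : E4 => v 3) h0
    simp [e3] at this
  obtain ⟨L, hL⟩ := SeparatingDual.exists_continuousLinearEquiv_apply_eq (R := ℝ) hy he
  have hs : A.Sm fun m => L (g m) := hg.comp L.contDiff
  have hD : ∀ a x v, fderiv ℝ (fun x => L (g (A.p a x))) x v =
      L (fderiv ℝ (fun x => g (A.p a x)) x v) := fun a x v => by
    have := L.comp_fderiv (f := fun x => g (A.p a x)) (x := x)
    simp only [Function.comp_def] at this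
    rw [this]
    rfl
  refine ⟨fun m => L (g m), hs, fun a x u v huv => ?_, fun a b x x' hne he ξ η hξ => ?_,
    fun a x v hv ξ η h0 => ?_⟩
  · rw [hD, hD] at huv
    exact hi a x (L.injective huv)
  · refine hd a b x x' hne (L.injective he) ξ η (L.injective ?_)
    exact (hD a x ξ).symm.trans (hξ.trans (hD b x' η))
  · refine ht a x v (L.injective ((hD a x v).symm.trans (hv.trans hL.symm))) ξ η (L.injective ?_)
    have e1 := (h49_dP (hs a)).2 x v ξ η
    have e2 := (h49_dP (hg a)).2 x v ξ η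
    have e3 := L.comp_fderiv
      (f := fun z : E2 × E2 => fderiv ℝ (fun x => g (A.p a x)) z.1 z.2) (x := (x, v))
    simp only [Function.comp_def, ← hD] at e3
    rw [e3] at e1
    rw [map_zero, ← h0]
    exact (congrArg L e2.symm).trans e1

end Atl

end Crest.Agent.R216
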