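import Crest.Agent.R216.TopA

/-! # Row 216, topology: bundle maps and their defects -/

set_option autoImplicit false
open Set Filter Metric Function
open scoped ContDiff RealInnerProductSpace Topology

noncomputable section
namespace Crest.Agent.R216

section
variable {W : Type*} [NormedAddCommGroup W] [NormedSpace ℝ W]

theorem topM1_b0 : b0 ≠ 0 := fun e => by
  have := norm_b0
  rw [e, norm_zero] at this
  exact zero_ne_one this

theorem topM1_surj {L : E2 →L[ℝ] E2} (h : Injective L) : Surjective L :=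
  (LinearMap.injective_iff_surjective (f := (L : E2 →ₗ[ℝ] E2))).1 h

theorem NdAt.of_injective {φ : E2 → (E2 →L[ℝ] W)} {x : E2} (h : Injective (φ x)) : NdAt φ x := by
  refine ⟨fun h0 => topM1_b0 (h ?_), fun v hv h0 => absurd (h (h0.trans (map_zero _).symm)) hv⟩
  rw [h0, map_zero, zero_apply]

theorem NdAt.congr {φ ψ : E2 → (E2 →L[ℝ] W)} {x : E2} (h : NdAt φ x) (he : ψ =ᶠ[𝓝 x] φ) :
    NdAt ψ x := by
  unfold NdAt
  rw [he.eq_of_nhds, he.fderiv_eq]
  exact h

/-- Change of coordinates: for `ψ y = φ (T y) ∘ DT y` one has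
`Dψ ξ v = Dφ (DT ξ) (DT v) + φ (d2 T ξ v)`. -/
theorem NdAt.comp {φ : E2 → (E2 →L[ℝ] W)} {T : E2 → E2} {x : E2} (hφ : ContDiff ℝ ∞ φ)
    (hT : ContDiffAt ℝ ∞ T x) (hi : Injective (fderiv ℝ T x)) (h : NdAt φ (T x)) :
    NdAt (fun y => (φ (T y)).comp (fderiv ℝ T y)) x := by
  have hs := topM1_surj hi
  refine ⟨fun h0 => h.1 ?_, fun v hv h0 ξ η h1 => ?_⟩
  · ext1 w
    obtain ⟨u, rfl⟩ := hs w
    exact congrArg (fun L : E2 →L[ℝ] W => L u) h0
  · have hTd : HasFDerivAt T (fderiv ℝ T x) x := (hT.differentiableAt (by simp)).hasFDerivAt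
    have hc : HasFDerivAt (fun y => φ (T y)) ((fderiv ℝ φ (T x)).comp (fderiv ℝ T x)) x :=
      (hφ.differentiable (by simp) (T x)).hasFDerivAt.comp x hTd
    have hd : HasFDerivAt (fderiv ℝ T) (fderiv ℝ (fderiv ℝ T) x) x :=
      ((hT.fderiv_right (m := ∞) (by simp)).differentiableAt (by simp)).hasFDerivAt
    rw [(hc.clm_comp hd).fderiv] at h1
    refine hi ((h.2 (fderiv ℝ T x v) (fun e => hv (hi (e.trans (map_zero _).symm))) h0
      (fderiv ℝ T x ξ) (fderiv ℝ (fderiv ℝ T) x ξ v + fderiv ℝ T x η) ?_).trans (map_zero _).symm)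
    rw [← h1, map_add]
    simp only [add_apply, ContinuousLinearMap.comp_apply, ContinuousLinearMap.compL_apply,
      ContinuousLinearMap.flip_apply]
    abel

namespace Atl

variable {M : Type*} [TopologicalSpace M] {A : Atl E2 M}

theorem Frm_dF {F : M → W} (hF : A.Sm F) : A.Frm (A.dF F) := by
  exact ⟨fun a => (hF a).fderiv_right (m := ∞) (by simp), fun a b x hx => hF.fderiv_chart hx⟩

theorem Frm.map {W' : Type*} [NormedAddCommGroup W'] [NormedSpace ℝ W']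
    {φ : A.ι → E2 → (E2 →L[ℝ] W)} (h : A.Frm φ) (L : W →L[ℝ] W') :
    A.Frm (fun a x => L.comp (φ a x)) := by
  refine ⟨fun a => contDiff_const.clm_comp (h.smooth a), fun a b x hx => ?_⟩
  rw [h.compat a b x hx, ContinuousLinearMap.comp_assoc]

theorem Frm.add {φ ψ : A.ι → E2 → (E2 →L[ℝ] W)} (h : A.Frm φ) (h' : A.Frm ψ) :
    A.Frm (fun a x => φ a x + ψ a x) := by
  refine ⟨fun a => (h.smooth a).add (h'.smooth a), fun a b x hx => ?_⟩
  rw [h.compat a b x hx, h'.compat a b x hx, ContinuousLinearMap.add_comp]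

theorem Frm.smul {f : M → ℝ} (hf : A.Sm f) {φ : A.ι → E2 → (E2 →L[ℝ] W)} (h : A.Frm φ) :
    A.Frm (fun a x => f (A.p a x) • φ a x) := by
  refine ⟨fun a => (hf a).smul (h.smooth a), fun a b x hx => ?_⟩
  rw [h.compat a b x hx, p_T hx, ContinuousLinearMap.smul_comp]

theorem Frm.injective_iff {φ : A.ι → E2 → (E2 →L[ℝ] W)} (h : A.Frm φ) {a b : A.ι} {x : E2}
    (hx : x ∈ A.O a b) : Injective (φ a x) ↔ Injective (φ b (A.T a b x)) := by
  rw [h.compat a b x hx, ContinuousLinearMap.coe_comp]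
  exact Injective.of_comp_iff' _ ⟨fderiv_T_injective hx, topM1_surj (fderiv_T_injective hx)⟩

theorem Frm.ndAt {φ : A.ι → E2 → (E2 →L[ℝ] W)} (h : A.Frm φ) {a b : A.ι} {x : E2}
    (hx : x ∈ A.O a b) (hn : NdAt (φ b) (A.T a b x)) : NdAt (φ a) x := by
  refine (NdAt.comp (h.smooth b) (contDiffAt_T hx) (fderiv_T_injective hx) hn).congr ?_
  filter_upwards [(A.isOpen_O a b).mem_nhds hx] with z hz using h.compat a b z hz

/-- Modification inside a chart: `φ' b x = φ b x + Ψ b x` with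
`Ψ b x = if x ∈ O b a then ((ψ - φ a) (T b a x)) ∘ D(T b a) x else 0` (`contDiff_extend`,
`fderiv_T_comp`). -/
theorem Frm.modify [T2Space M] {φ : A.ι → E2 → (E2 →L[ℝ] W)} (h : A.Frm φ) (a : A.ι)
    {ψ : E2 → (E2 →L[ℝ] W)} (hψ : ContDiff ℝ ∞ ψ) {K : Set E2} (hK : IsCompact K)
    (he : ∀ x, x ∉ K → ψ x = φ a x) :
    ∃ φ' : A.ι → E2 → (E2 →L[ℝ] W), A.Frm φ' ∧ φ' a = ψ ∧
      ∀ b x, A.p b x ∉ A.p a '' K → φ' b =ᶠ[𝓝 x] φ b := by
  classical
  set Ψ : A.ι → E2 → (E2 →L[ℝ] W) := fun b x => if x ∈ A.O b a then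
    (ψ (A.T b a x) - φ a (A.T b a x)).comp (fderiv ℝ (A.T b a) x) else 0 with hΨ
  have h0 : ∀ b, ∀ x ∈ A.O b a, A.T b a x ∉ K → Ψ b x = 0 := fun b x hx hk => by
    simp only [hΨ, if_pos hx, he _ hk, sub_self, ContinuousLinearMap.zero_comp]
  have h1 : ∀ b x, x ∉ A.O b a → Ψ b x = 0 := fun b x hx => by simp only [hΨ, if_neg hx]
  have hF : A.Frm Ψ := by
    refine ⟨fun b => A.contDiff_extend a b hK (fun x hx => ?_) (h0 b) (h1 b), fun b c x hx => ?_⟩
    · have hT := contDiffAt_T hx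
      have hD : ContDiffAt ℝ ∞ (fderiv ℝ (A.T b a)) x := hT.fderiv_right (by simp)
      have h2 : ContDiffAt ℝ ∞ (fun z => ψ (A.T b a z) - φ a (A.T b a z)) x :=
        (hψ.sub (h.smooth a)).contDiffAt.comp x hT
      refine (h2.clm_comp hD).congr_of_eventuallyEq ?_
      filter_upwards [(A.isOpen_O b a).mem_nhds hx] with z hz
      simp only [hΨ, if_pos hz]
    · have e : A.T b c x ∈ A.O c a ↔ x ∈ A.O b a := by
        simp only [O, mem_preimage, p_T hx]
      by_cases hm : x ∈ A.O b a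
      · have e2 : A.T c a (A.T b c x) = A.T b a x := congrArg (A.e a) (p_T hx)
        simp only [hΨ, if_pos hm, if_pos (e.2 hm)]
        rw [fderiv_T_comp hx hm, e2, ContinuousLinearMap.comp_assoc]
      · simp only [hΨ, if_neg hm, if_neg (mt e.1 hm), ContinuousLinearMap.zero_comp]
  refine ⟨fun b x => φ b x + Ψ b x, h.add hF, ?_, fun b x hx => ?_⟩
  · funext x
    simp only [hΨ, O_self, mem_univ, if_true, T_self, id, fderiv_id,
      ContinuousLinearMap.comp_id, add_sub_cancel]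
  · have hc : IsClosed (A.p b ⁻¹' (A.p a '' K)) :=
      (A.isCompact_image_p a hK).isClosed.preimage (A.continuous_p b)
    filter_upwards [hc.isOpen_compl.mem_nhds hx] with z hz
    by_cases hm : z ∈ A.O b a
    · rw [h0 b z hm fun hk => hz ⟨_, hk, p_T hm⟩, add_zero]
    · rw [h1 b z hm, add_zero]

/-- `Frm.modify`; at points of `O b a` use `injective_iff`, `ndAt`, at the other points
`φ' b = φ b` locally. -/
theorem real_modify [T2Space M] {S : Set M} {φ : A.ι → E2 → (E2 →L[ℝ] E3)} (h : A.Frm φ)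
    (hn : ∀ a x, NdAt (φ a) x) (hS : ∀ a x, x ∈ Df (φ a) ↔ A.p a x ∈ S) (a : A.ι)
    {ψ : E2 → (E2 →L[ℝ] E3)} (hψ : ContDiff ℝ ∞ ψ) {K : Set E2} (hK : IsCompact K)
    (he : ∀ x, x ∉ K → ψ x = φ a x) (hψn : ∀ x, NdAt ψ x) :
    A.Real ((S \ (A.e a).source) ∪ A.p a '' Df ψ) := by
  obtain ⟨φ', hφ', ha, hev⟩ := h.modify a hψ hK he
  have hout : ∀ b x, x ∉ A.O b a → ∀ Z : Set E2, A.p b x ∉ A.p a '' Z := by
    rintro b x hx Z ⟨z, -, hz⟩
    exact hx (mem_O_of_eq hz.symm).1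
  refine ⟨φ', hφ', fun b x => ?_, fun b x => ?_⟩
  · by_cases hx : x ∈ A.O b a
    · exact hφ'.ndAt hx (ha ▸ hψn _)
    · exact (hn b x).congr (hev b x (hout b x hx K))
  · by_cases hx : x ∈ A.O b a
    · have h1 : x ∈ Df (φ' b) ↔ A.T b a x ∈ Df ψ := by
        rw [← ha]
        exact not_congr (hφ'.injective_iff hx)
      rw [h1]
      refine ⟨fun h2 => Or.inr ⟨_, h2, p_T hx⟩, ?_⟩
      rintro (h2 | ⟨z, hz, h2⟩)
      · exact absurd hx h2.2
      · rwa [(mem_O_of_eq h2.symm).2]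
    · have h1 : x ∈ Df (φ' b) ↔ x ∈ Df (φ b) := by
        simp only [Df, mem_ofPred_eq, (hev b x (hout b x hx K)).eq_of_nhds]
      rw [h1, hS]
      exact ⟨fun h2 => Or.inl ⟨h2, hx⟩, fun h2 => (h2.resolve_right (hout b x hx _)).1⟩

/-- `φ a x = init4 ∘ dF f a x`.  `φ v = 0` iff `dF v = t • e3` (`init4_eq_zero`), `t ≠ 0` if `v ≠ 0`;
`Tan f` does not depend on the chart (`Frm.compat`); `Dφ ξ v = init4 (d2 F ξ v)`; `φ x ≠ 0` since
otherwise `dF b0, dF b1` are both multiples of `e3`. -/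
theorem real_tan {f : M → E4} (hf : A.Gen4 f) : A.Real (A.Tan f) := by
  have hF := (Frm_dF hf.sm).map init4
  have hker : ∀ a x v, v ≠ 0 → init4 (A.dF f a x v) = 0 →
      ∃ t : ℝ, t ≠ 0 ∧ A.dF f a x (t⁻¹ • v) = e3 := by
    intro a x v hv h0
    have h1 := init4_eq_zero h0
    have ht : A.dF f a x v 3 ≠ 0 := fun e => by
      rw [e, zero_smul] at h1
      exact hv (hf.imm a x (h1.trans (map_zero _).symm))
    refine ⟨_, ht, ?_⟩
    rw [map_smul]
    nth_rewrite 2 [h1]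
    rw [inv_smul_smul₀ ht]
  refine ⟨_, hF, fun a x => ⟨fun h0 => ?_, fun v hv h0 ξ η h1 => ?_⟩, fun a x => ⟨fun h0 => ?_, ?_⟩⟩
  · have h1 : ∀ v, init4 (A.dF f a x v) = 0 := fun v => congrArg (fun L : E2 →L[ℝ] E3 => L v) h0
    have hb1 : b1 ≠ 0 := fun e => by
      have := norm_b1
      rw [e, norm_zero] at this
      exact zero_ne_one this
    obtain ⟨s, hs, h2⟩ := hker a x b0 topM1_b0 (h1 _)
    obtain ⟨t, -, h3⟩ := hker a x b1 hb1 (h1 _)
    have h4 := congrArg (fun v : E2 => v 0) (hf.imm a x (h2.trans h3.symm))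
    simp [b0, b1, hs] at h4
  · obtain ⟨t, ht, h2⟩ := hker a x v hv h0
    have hd : HasFDerivAt (A.dF f a) (d2 (fun x => f (A.p a x)) x) x :=
      (((Frm_dF hf.sm).smooth a).differentiable (by simp) x).hasFDerivAt
    rw [((hasFDerivAt_const init4 x).clm_comp hd).fderiv] at h1
    have h3 : init4 (d2 (fun x => f (A.p a x)) x ξ v + A.dF f a x η) = 0 := by
      rw [← h1, map_add]
      simp
    have h4 := init4_eq_zero h3
    set c := (d2 (fun x => f (A.p a x)) x ξ v + A.dF f a x η) 3 with hc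
    refine hf.tng a x _ h2 ξ (t⁻¹ • (η - c • t⁻¹ • v)) ?_
    rw [map_smul, map_smul, map_sub, map_smul, h2, ← smul_add, ← h4]
    simp
  · have h1 : ∃ v, v ≠ 0 ∧ init4 (A.dF f a x v) = 0 := by
      by_contra hc
      refine h0 ((injective_iff_map_eq_zero _).2 fun v hv => ?_)
      by_contra hv0
      exact hc ⟨v, hv0, hv⟩
    obtain ⟨v, hv, h2⟩ := h1
    obtain ⟨t, -, h3⟩ := hker a x v hv h2
    exact ⟨a, x, _, rfl, h3⟩
  · rintro ⟨b, z, v, h1, h2⟩ hi
    obtain ⟨h3, h4⟩ := mem_O_of_eq h1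
    have h5 := (hF.injective_iff h3).1 hi
    rw [h4] at h5
    have h6 : v = 0 := h5 (a₂ := 0) (by
      show init4 (A.dF f b z v) = init4 (A.dF f b z 0)
      rw [h2, init4_e3, map_zero, map_zero])
    rw [h6, map_zero] at h2
    exact e3_ne_zero h2.symm

end Atl

end

end Crest.Agent.R216
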