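import Crest.Agent.R216.TopH1
import Crest.Agent.R216.TopM1

/-! # Row 216, topology: the h-principle for immersions of surfaces in three-space -/

set_option autoImplicit false
open Set Filter Metric Function
open scoped ContDiff RealInnerProductSpace Topology

noncomputable section
namespace Crest.Agent.R216

/-- `corr_dir` twice: first `P = ψ b0`, `Q = ψ b1`, `D = - E b0`, `(u, v) = (b0, b1)`; then
`P = ψ b1 + dG₁ b1`, `Q = ψ b0 - β • E b0 + dG₁ b0`, `D = - E b1`, `(u, v) = (b1, b0)`;
`G = G₁ + G₂` (`cr3_comm`, `injective_iff_cr3`). -/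
theorem corr_chart {ψ E : E2 → (E2 →L[ℝ] E3)} (hψ : ContDiff ℝ ∞ ψ) (hE : ContDiff ℝ ∞ E)
    (hi : ∀ x, Injective (ψ x)) {β : E2 → ℝ} (hβ : ContDiff ℝ ∞ β) (hc : HasCompactSupport β)
    (h0 : ∀ x, 0 ≤ β x) :
    ∃ G : E2 → E3, ContDiff ℝ ∞ G ∧ tsupport G ⊆ tsupport β ∧
      ∀ x, Injective (ψ x - β x • E x + fderiv ℝ G x) := by
  have hd : ∀ {G : E2 → E3}, ContDiff ℝ ∞ G → ∀ v : E2, ContDiff ℝ ∞ fun x => fderiv ℝ G x v :=
    fun hG v => (hG.fderiv_right (m := ∞) (by simp)).clm_apply contDiff_const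
  obtain ⟨G₁, hG₁, hs₁, h₁⟩ := corr_dir (P := fun x => ψ x b0) (Q := fun x => ψ x b1)
    (D := fun x => - E x b0) (hψ.clm_apply contDiff_const) (hψ.clm_apply contDiff_const)
    (hE.clm_apply contDiff_const).neg (fun x => (injective_iff_cr3 _).1 (hi x)) hβ hc h0
    (EuclideanSpace.proj (0 : Fin 2)) (u := b0) (v := b1) (by simp [b0]) (by simp [b1])
  obtain ⟨G₂, hG₂, hs₂, h₂⟩ := corr_dir (P := fun x => ψ x b1 + fderiv ℝ G₁ x b1)
    (Q := fun x => ψ x b0 + β x • (- E x b0) + fderiv ℝ G₁ x b0) (D := fun x => - E x b1)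
    ((hψ.clm_apply contDiff_const).add (hd hG₁ _))
    (((hψ.clm_apply contDiff_const).add (hβ.smul (hE.clm_apply contDiff_const).neg)).add (hd hG₁ _))
    (hE.clm_apply contDiff_const).neg (fun x => by
      rw [cr3_comm]
      exact neg_ne_zero.2 (h₁ x)) hβ hc h0
    (EuclideanSpace.proj (1 : Fin 2)) (u := b1) (v := b0) (by simp [b1]) (by simp [b0])
  refine ⟨fun x => G₁ x + G₂ x, hG₁.add hG₂, (tsupport_add G₁ G₂).trans (union_subset hs₁ hs₂),
    fun x => ?_⟩
  rw [injective_iff_cr3, fderiv_fun_add (hG₁.differentiable (by simp) x)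
    (hG₂.differentiable (by simp) x), cr3_comm, neg_ne_zero]
  convert h₂ x using 2
  · simp only [add_apply, sub_apply, smul_apply]
    module
  · simp only [add_apply, sub_apply, smul_apply]
    module

namespace Atl

variable {M : Type*} [TopologicalSpace M] [T2Space M] {A : Atl E2 M}

/-- `f' = f + push a G` with `G` from `corr_chart` (`ψ = dF f a + s • φ a`, `E = s • φ a`).  Both
bundle maps are `Frm`; at points of `O b a` use `Frm.injective_iff`, at the others nothing has
changed (`push_eventually_zero`). -/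
theorem hp_step {φ : A.ι → E2 → (E2 →L[ℝ] E3)} (hφ : A.Frm φ) {f : M → E3} (hf : A.Sm f)
    {s : M → ℝ} (hs : A.Sm s) (hi : ∀ b x, Injective (A.dF f b x + s (A.p b x) • φ b x))
    (a : A.ι) {β : E2 → ℝ} (hβ : ContDiff ℝ ∞ β) (hc : HasCompactSupport β) (h0 : ∀ x, 0 ≤ β x) :
    ∃ f' : M → E3, A.Sm f' ∧ ∀ b x, Injective
      (A.dF f' b x + ((1 - A.push a β (A.p b x)) * s (A.p b x)) • φ b x) := by
  have h1 : A.Frm (fun b x => s (A.p b x) • φ b x) := hφ.smul hs
  have h2 : A.Frm (fun b x => A.dF f b x + s (A.p b x) • φ b x) := (Frm_dF hf).add h1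
  obtain ⟨G, hG, hGs, hGi⟩ := corr_chart (h2.smooth a) (h1.smooth a) (hi a) hβ hc h0
  have hGc : HasCompactSupport G := hc.of_isClosed_subset (isClosed_tsupport _) hGs
  have hp := A.Sm_push a hG hGc
  have hf' : A.Sm (fun y => f y + A.push a G y) := hf.add hp
  have hd : ∀ b x, A.dF (fun y => f y + A.push a G y) b x =
      A.dF f b x + fderiv ℝ (fun z => A.push a G (A.p b z)) x := fun b x =>
    fderiv_fun_add ((hf b).differentiable (by simp) x) ((hp b).differentiable (by simp) x)
  have hs' : A.Sm (fun y => (1 - A.push a β y) * s y) :=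
    ((Sm.const (A := A) (1 : ℝ)).sub (A.Sm_push a hβ hc)).smul hs
  have h3 := (Frm_dF hf').add (hφ.smul hs')
  refine ⟨_, hf', fun b x => ?_⟩
  by_cases hx : x ∈ A.O b a
  · refine (h3.injective_iff hx).2 ?_
    generalize A.T b a x = z
    simp only [hd, push_p]
    convert hGi z using 2
    module
  · have hx' : A.p b x ∉ A.p a '' tsupport β := by
      rintro ⟨z, -, hz⟩
      exact hx (mem_O_of_eq hz.symm).1
    have e1 := (A.push_eventually_zero a b hc (u := G) (fun z hz =>
      image_eq_zero_of_notMem_tsupport fun h => hz (hGs h)) hx').fderiv_eq (𝕜 := ℝ)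
    have e2 := A.push_eq_zero a (u := β) (fun z hz => image_eq_zero_of_notMem_tsupport hz) hx'
    rw [hd, e1, e2]
    simpa using hi b x

/-- `Finset.induction` on the charts with `s t = ∏ a ∈ t, (1 - push a β)`, `β = 1` on the unit ball,
starting from `f = 0`; `s univ = 0`. -/
theorem imm_of_real_empty (h : A.Real ∅) : ∃ f : M → E3, A.Sm f ∧ A.Imm f := by
  classical
  obtain ⟨φ, hφ, -, hi⟩ := h
  let β : ContDiffBump (0 : E2) := ⟨1, 2, one_pos, one_lt_two⟩
  have key : ∀ t : Finset A.ι, ∃ f : M → E3, A.Sm f ∧ ∀ b x,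
      Injective (A.dF f b x + (∏ a ∈ t, (1 - A.push a β (A.p b x))) • φ b x) := by
    intro t
    induction t using Finset.induction_on with
    | empty =>
      refine ⟨fun _ => 0, Sm.const 0, fun b x => ?_⟩
      have := hi b x
      simp only [Df, mem_ofPred_eq, mem_empty_iff_false, iff_false, not_not] at this
      simpa [dF] using this
    | insert a t ha ih =>
      obtain ⟨f, hf, hfi⟩ := ih
      have hs : A.Sm (fun y => ∏ a ∈ t, (1 - A.push a β y)) := fun b =>
        contDiff_prod fun a _ => contDiff_const.sub (A.Sm_push a β.contDiff β.hasCompactSupport b)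
      obtain ⟨f', hf', hi'⟩ := hp_step hφ hf hs hfi a β.contDiff β.hasCompactSupport
        (fun _ => β.nonneg)
      refine ⟨f', hf', fun b x => ?_⟩
      rw [Finset.prod_insert ha]
      exact hi' b x
  obtain ⟨f, hf, hfi⟩ := key Finset.univ
  refine ⟨f, hf, fun b x => ?_⟩
  obtain ⟨a, ha, ha'⟩ := A.cover (A.p b x)
  have h1 : 1 - A.push a β (A.p b x) = 0 := by
    rw [push, if_pos ha, β.one_of_mem_closedBall (by simpa using ha'.le), sub_self]
  have := hfi b x
  rw [Finset.prod_eq_zero (Finset.mem_univ a) h1] at this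
  simpa [dF] using this

end Atl

end Crest.Agent.R216
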