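import Crest.Agent.R216.TopC1
import Crest.Agent.R216.TopM1

/-! # Row 216, topology: the index of a defect -/

set_option autoImplicit false
open Set Filter Metric Function
open scoped ContDiff RealInnerProductSpace Topology

noncomputable section
namespace Crest.Agent.R216

/-- the vector `d = φ ∧ l` -/
def dv (L : E2 →L[ℝ] E3) (l : E2 →L[ℝ] ℝ) : E3 := l b1 • L b0 - l b0 • L b1

/-- the index of the defect `x` of `φ` for the fourth component `l` -/
def idx (φ : E2 → (E2 →L[ℝ] E3)) (x : E2) (l : E2 →L[ℝ] ℝ) : ℝ :=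
  det3 (dv (φ x) l) (fderiv ℝ (crs φ) x b0) (fderiv ℝ (crs φ) x b1)

theorem TopC4_cd {u w : E2 → E3} (hu : ContDiff ℝ ∞ u) (hw : ContDiff ℝ ∞ w) :
    ContDiff ℝ ∞ fun y => cr3 (u y) (w y) := by
  obtain ⟨L, hL⟩ := exists_crL
  simp only [← hL]
  exact (L.contDiff.comp hu).clm_apply hw

theorem TopC4_fd {u w : E2 → E3} {u' w' : E2 →L[ℝ] E3} {x : E2} (hu : HasFDerivAt u u' x)
    (hw : HasFDerivAt w w' x) : ∃ D : E2 →L[ℝ] E3, HasFDerivAt (fun y => cr3 (u y) (w y)) D x ∧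
      ∀ ξ, D ξ = cr3 (u' ξ) (w x) + cr3 (u x) (w' ξ) := by
  obtain ⟨L, hL⟩ := exists_crL
  simp only [← hL]
  refine ⟨_, (L.hasFDerivAt.comp x hu).clm_apply hw, fun ξ => ?_⟩
  simp [add_comm]

theorem TopC4_zero_left (u : E3) : cr3 0 u = 0 := by
  obtain ⟨L, hL⟩ := exists_crL
  simp [← hL]

theorem TopC4_zero_right (u : E3) : cr3 u 0 = 0 := by
  obtain ⟨L, hL⟩ := exists_crL
  simp [← hL]

theorem TopC4_crs {φ : E2 → (E2 →L[ℝ] E3)} (hφ : ContDiff ℝ ∞ φ) (x ξ : E2) :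
    fderiv ℝ (crs φ) x ξ =
      cr3 (fderiv ℝ φ x ξ b0) (φ x b1) + cr3 (φ x b0) (fderiv ℝ φ x ξ b1) := by
  have h := (hφ.differentiable (by simp) x).hasFDerivAt
  obtain ⟨D, h1, h2⟩ := TopC4_fd (h.clm_apply (hasFDerivAt_const b0 x))
    (h.clm_apply (hasFDerivAt_const b1 x))
  have h3 : HasFDerivAt (crs φ) D x := h1
  rw [h3.fderiv, h2]
  simp

theorem contDiff_crs {φ : E2 → (E2 →L[ℝ] E3)} (hφ : ContDiff ℝ ∞ φ) : ContDiff ℝ ∞ (crs φ) := by
  exact TopC4_cd (hφ.clm_apply contDiff_const) (hφ.clm_apply contDiff_const)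

theorem mem_Df_iff (φ : E2 → (E2 →L[ℝ] E3)) (x : E2) : x ∈ Df φ ↔ crs φ x = 0 := by
  simp only [Df, mem_ofPred_eq, injective_iff_cr3, crs, not_not]

theorem idx_neg (φ : E2 → (E2 →L[ℝ] E3)) (x : E2) (l : E2 →L[ℝ] ℝ) :
    idx φ x (-l) = - idx φ x l := by
  simp only [idx, dv, topA_det3_eq, neg_apply, PiLp.sub_apply, PiLp.smul_apply, smul_eq_mul]
  ring

theorem eq_zero_of_dv {L : E2 →L[ℝ] E3} {l : E2 →L[ℝ] ℝ} (h : dv L l ≠ 0) {v : E2}
    (h1 : L v = 0) (h2 : l v = 0) : v = 0 := by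
  rw [E2_decomp v, map_add, map_smul, map_smul] at h1 h2
  have a0 : v 0 • dv L l = 0 := by
    simp only [smul_eq_mul] at h2
    have : v 0 • dv L l = l b1 • (v 0 • L b0 + v 1 • L b1) - (v 0 * l b0 + v 1 * l b1) • L b1 := by
      unfold dv
      module
    rw [this, h1, h2]
    simp
  have a1 : v 1 • dv L l = 0 := by
    simp only [smul_eq_mul] at h2
    have : v 1 • dv L l = (v 0 * l b0 + v 1 * l b1) • L b0 - l b0 • (v 0 • L b0 + v 1 • L b1) := by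
      unfold dv
      module
    rw [this, h1, h2]
    simp
  rw [E2_decomp v, (smul_eq_zero.1 a0).resolve_right h, (smul_eq_zero.1 a1).resolve_right h]
  simp

/-- Let `v ≠ 0` span the kernel.  There is `a ≠ 0` in the range of `φ x` with `φ x b0 = v 1 • a`,
`φ x b1 = - v 0 • a`.  Then `d(crs φ) ξ = cr3 a (Dφ ξ v)`, `dv (φ x) l = l v • a`,
`det3 a (a × X) (a × Y) = ‖a‖² det3 a X Y` with `X = Dφ b0 v`, `Y = Dφ b1 v`, and `det3 a X Y ≠ 0`:
otherwise `cr3 (a × X) (a × Y) = det3 a X Y • a = 0`, so `β • (a × X) + γ • (a × Y) = 0` for some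
`(β, γ) ≠ 0` (`injective_iff_cr3`), `Dφ ξ v ∈ ℝ a` for `ξ = β b0 + γ b1 ≠ 0`
(`exists_smul_of_cr3_eq_zero`), contradicting `NdAt`.  Take `l = ± ⟪v, ·⟫`. -/
theorem exists_idx {φ : E2 → (E2 →L[ℝ] E3)} (hφ : ContDiff ℝ ∞ φ) {x : E2} (hn : NdAt φ x)
    (hx : x ∈ Df φ) : ∃ l : E2 →L[ℝ] ℝ, 0 < idx φ x l := by
  obtain ⟨v, hv0, hv⟩ : ∃ v, φ x v = 0 ∧ v ≠ 0 := by
    by_contra hc
    push Not at hc
    exact hx ((injective_iff_map_eq_zero _).2 hc)
  have hN : 0 < v 0 ^ 2 + v 1 ^ 2 := by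
    by_contra hc
    have a0 : v 0 = 0 := by nlinarith [sq_nonneg (v 0), sq_nonneg (v 1)]
    have a1 : v 1 = 0 := by nlinarith [sq_nonneg (v 0), sq_nonneg (v 1)]
    apply hv
    rw [E2_decomp v, a0, a1]
    simp
  set N := v 0 ^ 2 + v 1 ^ 2 with hNd
  have hk : v 0 • φ x b0 + v 1 • φ x b1 = 0 := by
    rw [← map_smul, ← map_smul, ← map_add, ← E2_decomp v, hv0]
  set w : E2 := (v 1 / N) • b0 - (v 0 / N) • b1 with hw
  set a := φ x w with ha
  have ha' : a = (v 1 / N) • φ x b0 - (v 0 / N) • φ x b1 := by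
    rw [ha, hw, map_sub, map_smul, map_smul]
  have hp : φ x b0 = v 1 • a := by
    have e : v 1 • a = (N / N) • φ x b0 - (v 0 / N) • (v 0 • φ x b0 + v 1 • φ x b1) := by
      rw [ha']
      nth_rewrite 3 [hNd]
      module
    rw [e, hk, div_self hN.ne']
    simp
  have hq : φ x b1 = (-v 0) • a := by
    have e : (-v 0) • a = (N / N) • φ x b1 - (v 1 / N) • (v 0 • φ x b0 + v 1 • φ x b1) := by
      rw [ha']
      nth_rewrite 3 [hNd]
      module
    rw [e, hk, div_self hN.ne']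
    simp
  have ha0 : a ≠ 0 := by
    intro h0
    apply hn.1
    refine ContinuousLinearMap.ext fun u => ?_
    rw [E2_decomp u, map_add, map_smul, map_smul, hp, hq, h0]
    simp
  have hD : ∀ ξ, fderiv ℝ (crs φ) x ξ = cr3 a (fderiv ℝ φ x ξ v) := by
    intro ξ
    have e : fderiv ℝ φ x ξ v = v 0 • fderiv ℝ φ x ξ b0 + v 1 • fderiv ℝ φ x ξ b1 := by
      rw [← map_smul, ← map_smul, ← map_add, ← E2_decomp v]
    rw [TopC4_crs hφ, hp, hq, e]
    refine topA_ext3 ?_ ?_ ?_ <;>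
      simp only [topA_cr3_0, topA_cr3_1, topA_cr3_2, PiLp.add_apply, PiLp.smul_apply,
        smul_eq_mul] <;> ring
  have hinj : Injective (fderiv ℝ (crs φ) x) := by
    refine (injective_iff_map_eq_zero _).2 fun ξ hξ => ?_
    rw [hD] at hξ
    obtain ⟨t, ht⟩ := exists_smul_of_cr3_eq_zero ha0 hξ
    refine hn.2 v hv hv0 ξ (-(t • w)) ?_
    rw [map_neg, map_smul, ← ha, ht, add_neg_cancel]
  have h1 := (injective_iff_cr3 _).1 hinj
  set X := fderiv ℝ φ x b0 v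
  set Y := fderiv ℝ φ x b1 v
  have h2 : cr3 (cr3 a X) (cr3 a Y) = det3 a X Y • a := by
    refine topA_ext3 ?_ ?_ ?_ <;>
      simp only [topA_cr3_0, topA_cr3_1, topA_cr3_2, topA_det3_eq, PiLp.smul_apply,
        smul_eq_mul] <;> ring
  rw [hD, hD, h2] at h1
  have h3 : det3 a X Y ≠ 0 := fun h0 => h1 (by rw [h0, zero_smul])
  have h4 : ∀ l : E2 →L[ℝ] ℝ, idx φ x l = l v * (det3 a X Y * ‖a‖ ^ 2) := by
    intro l
    have e : l v = v 0 * l b0 + v 1 * l b1 := by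
      rw [← smul_eq_mul, ← smul_eq_mul, ← map_smul, ← map_smul, ← map_add, ← E2_decomp v]
    have e2 : dv (φ x) l = l v • a := by
      rw [dv, hp, hq, e]
      module
    rw [idx, hD, hD, det3, h2, e2, real_inner_smul_left, real_inner_smul_right,
      real_inner_self_eq_norm_sq]
  refine ⟨det3 a X Y • innerSL ℝ v, ?_⟩
  rw [h4, smul_apply, innerSL_apply_apply, real_inner_self_eq_norm_sq, smul_eq_mul]
  have h5 : 0 < det3 a X Y ^ 2 * ‖v‖ ^ 2 * ‖a‖ ^ 2 := by positivity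
  exact h5.trans_eq (by ring)

/-- a finite set with an even number of elements splits into two halves -/
theorem exists_halves {α : Type*} {Z : Set α} (hZ : Z.Finite) (he : Even Z.ncard) :
    ∃ (k : ℕ) (p q : Fin k → α), Injective p ∧ Injective q ∧ (∀ i j, p i ≠ q j) ∧
      Z = range p ∪ range q := by
  obtain ⟨k, hk⟩ := he
  have := hZ.to_subtype
  have e : Fin k ⊕ Fin k ≃ Z :=
    finSumFinEquiv.trans (Finite.equivFinOfCardEq (α := Z) (by rw [← hk]; rfl)).symm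
  refine ⟨k, fun i => e (.inl i), fun i => e (.inr i), fun i j h => ?_, fun i j h => ?_,
    fun i j h => ?_, ?_⟩
  · exact Sum.inl_injective (e.injective (Subtype.ext h))
  · exact Sum.inr_injective (e.injective (Subtype.ext h))
  · exact Sum.inl_ne_inr (e.injective (Subtype.ext h))
  · ext z
    constructor
    · intro hz
      obtain ⟨i | i, hi⟩ := e.surjective ⟨z, hz⟩
      · exact Or.inl ⟨i, congrArg Subtype.val hi⟩
      · exact Or.inr ⟨i, congrArg Subtype.val hi⟩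
    · rintro (⟨i, rfl⟩ | ⟨i, rfl⟩)
      · exact (e _).2
      · exact (e _).2

/-- `exists_halves`, `exists_idx`, `idx_neg`, `exists_interp` -/
theorem exists_omega {φ : E2 → (E2 →L[ℝ] E3)} (hφ : ContDiff ℝ ∞ φ) (hn : ∀ x, NdAt φ x)
    (hZ : (Df φ).Finite) (he : Even (Df φ).ncard) :
    ∃ (k : ℕ) (p q : Fin k → E2) (om : E2 → (E2 →L[ℝ] ℝ)), Injective p ∧ Injective q ∧
      Df φ = range p ∪ range q ∧ ContDiff ℝ ∞ om ∧ HasCompactSupport om ∧
      (∀ i, 0 < idx φ (p i) (om (p i))) ∧ ∀ i, idx φ (q i) (om (q i)) < 0 := by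
  classical
  obtain ⟨k, p, q, hp, hq, hpq, hZ'⟩ := exists_halves hZ he
  have h1 : ∀ x, ∃ l : E2 →L[ℝ] ℝ, x ∈ Df φ → 0 < idx φ x l := fun x => by
    by_cases hx : x ∈ Df φ
    · obtain ⟨l, hl⟩ := exists_idx hφ (hn x) hx
      exact ⟨l, fun _ => hl⟩
    · exact ⟨0, fun h => absurd h hx⟩
  choose l hl using h1
  obtain ⟨om, o1, o2, o3⟩ := exists_interp hZ fun x => if x ∈ range p then l x else -l x
  refine ⟨k, p, q, om, hp, hq, hZ', o1, o2, fun i => ?_, fun i => ?_⟩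
  · have hm : p i ∈ Df φ := by
      rw [hZ']
      exact Or.inl ⟨i, rfl⟩
    rw [o3 _ hm, if_pos ⟨i, rfl⟩]
    exact hl _ hm
  · have hm : q i ∈ Df φ := by
      rw [hZ']
      exact Or.inr ⟨i, rfl⟩
    rw [o3 _ hm, if_neg (fun ⟨j, hj⟩ => hpq j i hj), idx_neg]
    exact neg_neg_of_pos (hl _ hm)

/-- The lift to `ℝ⁴` and its normal section: `σ x v = snoc3 (φ x v) (om x v)` (`exists_snocL`),
`n x = snoc3 (cr3 (dv (φ x) (om x)) (crs φ x)) (‖crs φ x‖ ^ 2)` (`inner_nB`).  At a zero of `crs φ`,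
`dn ξ = snoc3 (cr3 d (d(crs φ) ξ)) 0`, and `det4_nB` applies. -/
theorem exists_lift {φ : E2 → (E2 →L[ℝ] E3)} (hφ : ContDiff ℝ ∞ φ) {om : E2 → (E2 →L[ℝ] ℝ)}
    (hom : ContDiff ℝ ∞ om) (hd : ∀ x ∈ Df φ, idx φ x (om x) ≠ 0) :
    ∃ (σ : E2 → (E2 →L[ℝ] E4)) (n : E2 → E4), ContDiff ℝ ∞ σ ∧ ContDiff ℝ ∞ n ∧
      (∀ x, Injective (σ x)) ∧ (∀ x v, ⟪σ x v, n x⟫ = 0) ∧ (∀ x, n x = 0 ↔ x ∈ Df φ) ∧
      (∀ x, om x = 0 → (∀ v, σ x v = snoc3 (φ x v) 0) ∧ ∃ s : ℝ, 0 ≤ s ∧ n x = snoc3 0 s) ∧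
      ∀ x ∈ Df φ, ∃ c : ℝ, 0 < c ∧
        det4 (σ x b0) (σ x b1) (fderiv ℝ n x b0) (fderiv ℝ n x b1) = c * idx φ x (om x) := by
  obtain ⟨S, hS⟩ := exists_snocL
  have hσ : ∀ x v, (S.comp ((φ x).prod (om x))) v = snoc3 (φ x v) (om x v) := fun x v => by
    rw [← hS]
    rfl
  have hc := contDiff_crs hφ
  have hdv : ContDiff ℝ ∞ fun x => dv (φ x) (om x) :=
    ((hom.clm_apply contDiff_const).smul (hφ.clm_apply contDiff_const)).sub
      ((hom.clm_apply contDiff_const).smul (hφ.clm_apply contDiff_const))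
  have hd0 : ∀ x ∈ Df φ, dv (φ x) (om x) ≠ 0 := fun x hx h0 => hd x hx (by
    rw [idx, h0, det3, inner_zero_left])
  refine ⟨fun x => S.comp ((φ x).prod (om x)),
    fun x => S (cr3 (dv (φ x) (om x)) (crs φ x), ‖crs φ x‖ ^ 2), ?_, ?_, fun x => ?_,
    fun x v => ?_, fun x => ?_, fun x hx => ⟨fun v => ?_, _, sq_nonneg ‖crs φ x‖, ?_⟩,
    fun x hx => ⟨‖dv (φ x) (om x)‖ ^ 2, ?_, ?_⟩⟩
  · refine contDiff_clm_apply_iff.2 fun v => ?_
    exact S.contDiff.comp ((hφ.clm_apply contDiff_const).prodMk (hom.clm_apply contDiff_const))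
  · exact S.contDiff.comp ((TopC4_cd hdv hc).prodMk (hc.norm_sq ℝ))
  · refine (injective_iff_map_eq_zero _).2 fun v hv => ?_
    rw [hσ] at hv
    have h1 : φ x v = 0 := topA_ext3 (congrArg (fun w : E4 => w 0) hv)
      (congrArg (fun w : E4 => w 1) hv) (congrArg (fun w : E4 => w 2) hv)
    have h2 : om x v = 0 := congrArg (fun w : E4 => w 3) hv
    by_cases hx : x ∈ Df φ
    · exact eq_zero_of_dv (hd0 x hx) h1 h2
    · exact (injective_iff_map_eq_zero _).1 (not_not.1 hx) v h1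
  · obtain ⟨h1, h2⟩ := inner_nB (φ x b0) (φ x b1) (om x b0) (om x b1)
    beta_reduce
    rw [E2_decomp v, map_add, map_smul, map_smul, inner_add_left, real_inner_smul_left,
      real_inner_smul_left, hσ, hσ, hS]
    unfold dv crs
    rw [h1, h2]
    simp
  · rw [mem_Df_iff]
    constructor
    · intro h
      beta_reduce at h
      rw [hS] at h
      have h2 : ‖crs φ x‖ ^ 2 = 0 := congrArg (fun w : E4 => w 3) h
      simpa using h2
    · intro h
      simp only [h, TopC4_zero_right, norm_zero, ne_eq, OfNat.ofNat_ne_zero, not_false_eq_true,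
        zero_pow]
      exact map_zero S
  · rw [hσ, hx]
    rfl
  · simp only [hS, dv, hx, zero_apply, zero_smul, sub_zero, TopC4_zero_left]
  · exact pow_pos (norm_pos_iff.2 (hd0 x hx)) 2
  · have h0 := (mem_Df_iff φ x).1 hx
    have g1 := (hc.differentiable (by simp) x).hasFDerivAt
    obtain ⟨D, h1, h2⟩ := TopC4_fd (hdv.differentiable (by simp) x).hasFDerivAt g1
    have h3 : HasFDerivAt (fun x => S (cr3 (dv (φ x) (om x)) (crs φ x), ‖crs φ x‖ ^ 2)) _ x :=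
      S.hasFDerivAt.comp x (h1.prodMk g1.norm_sq)
    have h4 : ∀ ξ, fderiv ℝ (fun x => S (cr3 (dv (φ x) (om x)) (crs φ x), ‖crs φ x‖ ^ 2)) x ξ =
        snoc3 (cr3 (dv (φ x) (om x)) (fderiv ℝ (crs φ) x ξ)) 0 := by
      intro ξ
      rw [h3.fderiv, ← hS]
      simp [h2, h0, TopC4_zero_right]
    rw [h4, h4, hσ, hσ]
    exact det4_nB _ _ _ _ _ _

end Crest.Agent.R216
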