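import Crest.Agent.R216.TopC3
import Crest.Agent.R216.TopC4

/-! # Row 216, topology: cancelling an even number of defects in the plane -/

set_option autoImplicit false
open Set Filter Metric Function
open scoped ContDiff RealInnerProductSpace Topology

noncomputable section
namespace Crest.Agent.R216

/-- Take `ν` from `exists_normal_field`, `μ = cr4 (σ b0) (σ b1) ν` (`exists_cr4L`, `cr4_ne_zero`),
`u x = !₂[⟪n, ν⟫, ⟪n, μ⟫]`.  On the closed ball `u = 0 ↔ n = 0` (`normal_expand`); at a zero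
`du ξ = !₂[⟪dn ξ, ν⟫, ⟪dn ξ, μ⟫]`, so the Jacobian is given by `jac_frame`.  With `u'` from
`cancel_zeros` put `n' = n + ((u' 0 - u 0) / ‖ν‖²) • ν + ((u' 1 - u 1) / ‖μ‖²) • μ`; it is smooth
(for `‖x‖ > R'` it is `n` locally, for `‖x‖ < R` the denominators do not vanish). -/
theorem cancel_section {σ : E2 → (E2 →L[ℝ] E4)} {n : E2 → E4} (hσ : ContDiff ℝ ∞ σ)
    (hn : ContDiff ℝ ∞ n) (hi : ∀ x, Injective (σ x)) (ho : ∀ x v, ⟪σ x v, n x⟫ = 0) {k : ℕ}
    {p q : Fin k → E2} (hp : Injective p) (hq : Injective q)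
    (hz : ∀ x, n x = 0 ↔ x ∈ range p ∪ range q)
    (hp' : ∀ i, 0 < det4 (σ (p i) b0) (σ (p i) b1) (fderiv ℝ n (p i) b0) (fderiv ℝ n (p i) b1))
    (hq' : ∀ i, det4 (σ (q i) b0) (σ (q i) b1) (fderiv ℝ n (q i) b0) (fderiv ℝ n (q i) b1) < 0) :
    ∃ n' : E2 → E4, ContDiff ℝ ∞ n' ∧ (∀ x v, ⟪σ x v, n' x⟫ = 0) ∧ (∀ x, n' x ≠ 0) ∧
      ∃ R : ℝ, ∀ x, R ≤ ‖x‖ → n' x = n x := by
  obtain ⟨R0, hR0⟩ := ((finite_range p).union (finite_range q)).isBounded.exists_norm_le
  set R := R0 + 1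
  have hR : ∀ x ∈ range p ∪ range q, ‖x‖ < R := fun x hx => (hR0 x hx).trans_lt (lt_add_one _)
  obtain ⟨ν, hν, hνo, hν0⟩ := exists_normal_field hσ hi R
  obtain ⟨L, hL⟩ := exists_cr4L
  let μ : E2 → E4 := fun x => cr4 (σ x b0) (σ x b1) (ν x)
  have hμ : ContDiff ℝ ∞ μ := by
    have : μ = fun x => L (σ x b0) (σ x b1) (ν x) := funext fun x => (hL _ _ _).symm
    rw [this]
    exact ((L.contDiff.comp (hσ.clm_apply contDiff_const)).clm_apply
      (hσ.clm_apply contDiff_const)).clm_apply hν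
  have hg : ∀ x, g2 (σ x b0) (σ x b1) ≠ 0 := fun x => ((g2_pos_iff _).2 (hi x)).ne'
  have hμ0 : ∀ x ∈ closedBall (0 : E2) R, μ x ≠ 0 := fun x hx =>
    cr4_ne_zero (hg x) (hν0 x hx) (hνo x _) (hνo x _)
  have hμo : ∀ x v, ⟪σ x v, μ x⟫ = 0 := fun x v => by
    rw [E2_decomp v, map_add, map_smul, map_smul, inner_add_left, real_inner_smul_left,
      real_inner_smul_left, real_inner_comm, real_inner_comm (μ x), inner_cr4, inner_cr4,
      det4_self1, det4_self2, mul_zero, mul_zero, add_zero]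
  have hνμ : ∀ x, ⟪μ x, ν x⟫ = 0 := fun x => by rw [inner_cr4, det4_self3]
  let u : E2 → E2 := fun x => ⟪n x, ν x⟫ • b0 + ⟪n x, μ x⟫ • b1
  have u0 : ∀ x, u x 0 = ⟪n x, ν x⟫ := fun x => by simp [u, b0, b1]
  have u1 : ∀ x, u x 1 = ⟪n x, μ x⟫ := fun x => by simp [u, b0, b1]
  have hu : ContDiff ℝ ∞ u :=
    ((hn.inner ℝ hν).smul contDiff_const).add ((hn.inner ℝ hμ).smul contDiff_const)
  have hexp : ∀ x ∈ closedBall (0 : E2) R,
      n x = (u x 0 / ‖ν x‖ ^ 2) • ν x + (u x 1 / ‖μ x‖ ^ 2) • μ x := fun x hx => by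
    rw [u0, u1]
    exact normal_expand (hg x) (hν0 x hx) (hνo x _) (hνo x _) (ho x _) (ho x _)
  have huz : ∀ x ∈ closedBall (0 : E2) R, u x = 0 ↔ x ∈ range p ∪ range q := fun x hx => by
    rw [← hz]
    constructor
    · intro h
      rw [hexp x hx, h]; simp
    · intro h
      simp [u, h]
  have hjac : ∀ x, n x = 0 → det2 (fderiv ℝ u x b0) (fderiv ℝ u x b1) =
      ‖ν x‖ ^ 2 * det4 (σ x b0) (σ x b1) (fderiv ℝ n x b0) (fderiv ℝ n x b1) := by
    intro x hx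
    have dn := (hn.differentiable (by simp) x).hasFDerivAt
    have d1 := dn.inner ℝ (hν.differentiable (by simp) x).hasFDerivAt
    have d2 := dn.inner ℝ (hμ.differentiable (by simp) x).hasFDerivAt
    have d3 := (d1.smul_const b0).add (d2.smul_const b1)
    have e : ∀ ξ, fderiv ℝ u x ξ =
        ⟪fderiv ℝ n x ξ, ν x⟫ • b0 + ⟪fderiv ℝ n x ξ, μ x⟫ • b1 := fun ξ => by
      rw [show fderiv ℝ u x = _ from d3.fderiv]
      simp [hx]
    rw [e, e, ← jac_frame _ _ (hνo x _) (hνo x _)]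
    simp [det2, b0, b1, μ]
  have hpos : ∀ x ∈ range p ∪ range q, 0 < ‖ν x‖ ^ 2 := fun x hx =>
    pow_pos (norm_pos_iff.2 (hν0 x (mem_closedBall_zero_iff.2 (hR x hx).le))) 2
  obtain ⟨u', hu', ⟨R', hR', he⟩, hne⟩ := cancel_zeros hu hp hq
    (fun i => hR _ (Or.inl (mem_range_self i))) (fun i => hR _ (Or.inr (mem_range_self i))) huz
    (fun i => by
      rw [hjac _ ((hz _).2 (Or.inl (mem_range_self i)))]
      exact mul_pos (hpos _ (Or.inl (mem_range_self i))) (hp' i))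
    (fun i => by
      rw [hjac _ ((hz _).2 (Or.inr (mem_range_self i)))]
      exact mul_neg_of_pos_of_neg (hpos _ (Or.inr (mem_range_self i))) (hq' i))
  let n' : E2 → E4 := fun x =>
    n x + ((u' x 0 - u x 0) / ‖ν x‖ ^ 2) • ν x + ((u' x 1 - u x 1) / ‖μ x‖ ^ 2) • μ x
  have hfar : ∀ x, R' ≤ ‖x‖ → n' x = n x := fun x hx => by simp [n', he x hx]
  refine ⟨n', contDiff_iff_contDiffAt.2 fun x => ?_, fun x v => ?_, fun x => ?_, R', hfar⟩
  · by_cases hx : R' < ‖x‖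
    · refine hn.contDiffAt.congr_of_eventuallyEq ?_
      filter_upwards [(isOpen_lt continuous_const continuous_norm).mem_nhds hx] with y hy
      exact hfar y (le_of_lt hy)
    · have hxR : x ∈ closedBall (0 : E2) R :=
        mem_closedBall_zero_iff.2 ((not_lt.1 hx).trans hR'.le)
      have c : ∀ i, ContDiff ℝ ∞ fun y => u' y i - u y i := fun i =>
        ((EuclideanSpace.proj i : E2 →L[ℝ] ℝ).contDiff.comp hu').sub
          ((EuclideanSpace.proj i : E2 →L[ℝ] ℝ).contDiff.comp hu)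
      exact (hn.contDiffAt.add (((c 0).contDiffAt.div (hν.norm_sq ℝ).contDiffAt
        (pow_ne_zero 2 (norm_ne_zero_iff.2 (hν0 x hxR)))).smul hν.contDiffAt)).add
        (((c 1).contDiffAt.div (hμ.norm_sq ℝ).contDiffAt
          (pow_ne_zero 2 (norm_ne_zero_iff.2 (hμ0 x hxR)))).smul hμ.contDiffAt)
  · simp only [n', inner_add_right, real_inner_smul_right, ho, hνo, hμo, mul_zero, add_zero]
  · by_cases hx : x ∈ closedBall (0 : E2) R
    · intro h0
      have a1 := pow_ne_zero 2 (norm_ne_zero_iff.2 (hν0 x hx))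
      have a2 := pow_ne_zero 2 (norm_ne_zero_iff.2 (hμ0 x hx))
      have b1' : ⟪n' x, ν x⟫ = u' x 0 := by
        simp only [n', inner_add_left, real_inner_smul_left, hνμ, real_inner_self_eq_norm_sq, ← u0]
        rw [div_mul_cancel₀ _ a1]
        ring
      have b2' : ⟪n' x, μ x⟫ = u' x 1 := by
        simp only [n', inner_add_left, real_inner_smul_left, real_inner_comm (μ x) (ν x), hνμ,
          real_inner_self_eq_norm_sq, ← u1]
        rw [div_mul_cancel₀ _ a2]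
        ring
      rw [h0, inner_zero_left] at b1' b2'
      refine hne x hx ?_
      rw [E2_decomp (u' x), ← b1', ← b2', zero_smul, zero_smul, add_zero]
    · have hx' : R < ‖x‖ := not_le.1 fun h => hx (mem_closedBall_zero_iff.2 h)
      rw [hfar x (hR'.trans hx').le]
      exact fun h => lt_asymm hx' (hR x ((hz x).1 h))

/-- `exists_omega`, `exists_lift`, `cancel_section`; `ψ x = ‖n' x‖⁻¹ • (q4 (n' x) ∘ σ x)`
(`exists_q4L`, `q4_eq_zero`, `q4_snoc3`; far away `n' = snoc3 0 s`, `‖n'‖ = s ≠ 0`). -/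
theorem planar_cancel {φ : E2 → (E2 →L[ℝ] E3)} (hφ : ContDiff ℝ ∞ φ) (hn : ∀ x, NdAt φ x)
    (hZ : (Df φ).Finite) (he : Even (Df φ).ncard) :
    ∃ ψ : E2 → (E2 →L[ℝ] E3), ContDiff ℝ ∞ ψ ∧ (∃ K, IsCompact K ∧ ∀ x, x ∉ K → ψ x = φ x) ∧
      ∀ x, Injective (ψ x) := by
  obtain ⟨k, p, q, om, hp, hq, hD, hom, homc, hp', hq'⟩ := exists_omega hφ hn hZ he
  obtain ⟨σ, n, hσ, hn', hi, ho, hz, hfar, hdet⟩ := exists_lift hφ hom (fun x hx => by
    rw [hD] at hx
    rcases hx with ⟨i, rfl⟩ | ⟨i, rfl⟩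
    exacts [(hp' i).ne', (hq' i).ne])
  obtain ⟨n', h1, h2, h3, R, h4⟩ := cancel_section hσ hn' hi ho hp hq (fun x => hD ▸ hz x)
    (fun i => by
      obtain ⟨c, hc, e⟩ := hdet (p i) (hD ▸ Or.inl (mem_range_self i))
      rw [e]; exact mul_pos hc (hp' i))
    (fun i => by
      obtain ⟨c, hc, e⟩ := hdet (q i) (hD ▸ Or.inr (mem_range_self i))
      rw [e]; exact mul_neg_of_pos_of_neg hc (hq' i))
  obtain ⟨L, hL⟩ := exists_q4L
  refine ⟨fun x => ‖n' x‖⁻¹ • (L (n' x)).comp (σ x), ?_,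
    ⟨closedBall 0 R ∪ tsupport om, (isCompact_closedBall 0 R).union homc, fun x hx => ?_⟩,
    fun x => ?_⟩
  · exact ((h1.norm ℝ h3).inv fun x => norm_ne_zero_iff.2 (h3 x)).smul
      ((L.contDiff.comp h1).clm_comp hσ)
  · rw [mem_union, not_or] at hx
    have hxR : R ≤ ‖x‖ := (not_le.1 fun h => hx.1 (mem_closedBall_zero_iff.2 h)).le
    obtain ⟨a1, s, hs, a2⟩ := hfar x (image_eq_zero_of_notMem_tsupport hx.2)
    have a3 : n' x = snoc3 0 s := (h4 x hxR).trans a2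
    have a4 : ‖n' x‖ = s := by
      have : ‖n' x‖ ^ 2 = s ^ 2 := by
        rw [← real_inner_self_eq_norm_sq, a3, inner_snoc3, inner_zero_left, zero_add, sq]
      exact (pow_left_inj₀ (norm_nonneg _) hs two_ne_zero).1 this
    have a5 : s ≠ 0 := a4 ▸ norm_ne_zero_iff.2 (h3 x)
    ext1 v
    rw [ContinuousLinearMap.smul_apply, ContinuousLinearMap.comp_apply, hL, a4, a3, a1, q4_snoc3,
      smul_smul, inv_mul_cancel₀ a5, one_smul]
  · refine (injective_iff_map_eq_zero _).2 fun v hv => ?_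
    rw [ContinuousLinearMap.smul_apply, ContinuousLinearMap.comp_apply, hL,
      smul_eq_zero_iff_right (inv_ne_zero (norm_ne_zero_iff.2 (h3 x)))] at hv
    have := q4_eq_zero (h3 x) (by rw [real_inner_comm]; exact h2 x v) hv
    exact (injective_iff_map_eq_zero _).1 (hi x) v this

end Crest.Agent.R216
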