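import Crest.Agent.R216.TopM1

/-! # Row 216, topology: moving a defect in the plane -/

set_option autoImplicit false
open Set Filter Metric Function
open scoped ContDiff RealInnerProductSpace Topology

noncomputable section
namespace Crest.Agent.R216

/-- the maps used to move `q'` to `q` while fixing the finite set `Z` -/
def Mv (Z : Set E2) (q' q : E2) : Prop :=
  ∃ θ : E2 → E2, ContDiff ℝ ∞ θ ∧ Injective θ ∧ (∃ K, IsCompact K ∧ ∀ x, x ∉ K → θ x = x) ∧
    (∀ z ∈ Z, θ =ᶠ[𝓝 z] id) ∧ θ =ᶠ[𝓝 q'] fun x => x + (q - q')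

theorem Mv.trans {Z : Set E2} {q₁ q₂ q₃ : E2} (h : Mv Z q₁ q₂) (h' : Mv Z q₂ q₃) : Mv Z q₁ q₃ := by
  obtain ⟨θ, hθ, hi, ⟨K, hK, hKe⟩, hz, hq⟩ := h
  obtain ⟨θ', hθ', hi', ⟨K', hK', hKe'⟩, hz', hq'⟩ := h'
  refine ⟨θ' ∘ θ, hθ'.comp hθ, hi'.comp hi, ⟨K ∪ K', hK.union hK', fun x hx => ?_⟩,
    fun z hzZ => ?_, ?_⟩
  · rw [mem_union, not_or] at hx
    simp only [comp_apply, hKe x hx.1, hKe' x hx.2]
  · filter_upwards [hz z hzZ, hz' z hzZ] with x h1 h2
    simp only [comp_apply, id] at *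
    rw [h1, h2]
  · have ht : Tendsto (fun x : E2 => x + (q₂ - q₁)) (𝓝 q₁) (𝓝 q₂) := by
      have : Continuous (fun x : E2 => x + (q₂ - q₁)) := by fun_prop
      have h2 := this.tendsto q₁
      simpa using h2
    filter_upwards [hq, ht.eventually hq'] with x h1 h2
    simp only [comp_apply]
    rw [h1, h2]
    abel

/-- `θ x = x + χ x • (q - q')` with a bump `χ` centred at `y`, `= 1` on `closedBall y ρ`, supported
in a closed ball disjoint from `Z`; `χ` is Lipschitz (`ContDiff.lipschitzWith_of_hasCompactSupport`)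
with constant `L`, and `θ` is injective if `L ‖q - q'‖ < 1`. -/
theorem Mv.local {Z : Set E2} (hZ : Z.Finite) {y : E2} (hy : y ∉ Z) :
    ∃ r > 0, ∀ q ∈ ball y r, ∀ q' ∈ ball y r, Mv Z q' q := by
  have hcl : IsClosed Z := hZ.isClosed
  obtain ⟨ε, hε, hεZ⟩ : ∃ ε > 0, ball y ε ⊆ Zᶜ :=
    Metric.isOpen_iff.1 hcl.isOpen_compl y hy
  let χ : ContDiffBump y := ⟨ε / 4, ε / 2, by positivity, by linarith⟩
  have hχ : ContDiff ℝ ∞ χ := χ.contDiff
  obtain ⟨L, hL⟩ := ContDiff.lipschitzWith_of_hasCompactSupport χ.hasCompactSupport hχ (by simp)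
  have hL0 : (0 : ℝ) ≤ L := L.2
  refine ⟨min (ε / 4) (1 / (2 * (L + 1))), by positivity, fun q hq q' hq' => ?_⟩
  have hqq : ‖q - q'‖ * (L + 1) < 1 := by
    have h1 : dist q y < 1 / (2 * (L + 1)) := lt_of_lt_of_le (mem_ball.1 hq) (min_le_right _ _)
    have h2 : dist q' y < 1 / (2 * (L + 1)) := lt_of_lt_of_le (mem_ball.1 hq') (min_le_right _ _)
    have h3 : ‖q - q'‖ ≤ dist q y + dist q' y := by
      rw [← dist_eq_norm]; exact dist_triangle_right _ _ _
    have h4 : ‖q - q'‖ < 1 / (L + 1) := by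
      have : 1 / (2 * ((L : ℝ) + 1)) + 1 / (2 * (L + 1)) = 1 / (L + 1) := by
        field_simp; ring
      linarith
    rwa [lt_div_iff₀ (by positivity)] at h4
  refine ⟨fun x => x + χ x • (q - q'), contDiff_id.add (hχ.smul contDiff_const), ?_,
    ⟨closedBall y (ε / 2), isCompact_closedBall _ _, fun x hx => ?_⟩, fun z hz => ?_, ?_⟩
  · intro a b hab
    have hab' : a - b = (χ b - χ a) • (q - q') := by
      have : a + χ a • (q - q') = b + χ b • (q - q') := hab
      rw [sub_smul, sub_eq_sub_iff_add_eq_add, this, add_comm]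
    have h1 : ‖a - b‖ ≤ L * ‖a - b‖ * ‖q - q'‖ := by
      conv_lhs => rw [hab', norm_smul]
      refine mul_le_mul_of_nonneg_right ?_ (norm_nonneg _)
      have := hL.dist_le_mul b a
      rwa [dist_eq_norm, dist_eq_norm, norm_sub_rev b a] at this
    have h2 : ‖a - b‖ = 0 := by
      by_contra hne
      have hpos : 0 < ‖a - b‖ := lt_of_le_of_ne (norm_nonneg _) (Ne.symm hne)
      have h3 : 1 ≤ L * ‖q - q'‖ := by
        have : ‖a - b‖ * 1 ≤ ‖a - b‖ * (L * ‖q - q'‖) := by linarith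
        exact le_of_mul_le_mul_left this hpos
      nlinarith [norm_nonneg (q - q')]
    exact sub_eq_zero.1 (norm_eq_zero.1 h2)
  · have : χ x = 0 := χ.zero_of_le_dist (by
      rw [mem_closedBall, not_le] at hx
      exact hx.le)
    simp [this]
  · have hzb : z ∉ closedBall y (ε / 2) := fun hzb =>
      hεZ (closedBall_subset_ball (by linarith) hzb) hz
    filter_upwards [isClosed_closedBall.isOpen_compl.mem_nhds hzb] with x hx
    have : χ x = 0 := χ.zero_of_le_dist (by
      rw [mem_compl_iff, mem_closedBall, not_le] at hx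
      exact hx.le)
    simp [this]
  · have hqb : q' ∈ ball y (ε / 4) := ball_subset_ball (min_le_left _ _) hq'
    filter_upwards [isOpen_ball.mem_nhds hqb] with x hx
    have : χ x = 1 := χ.one_of_mem_closedBall (ball_subset_closedBall hx)
    simp [this]

/-- `Zᶜ` is preconnected (`Set.Countable.isConnected_compl_of_one_lt_rank`);
`IsPreconnected.induction₂'` -/
theorem Mv.all {Z : Set E2} (hZ : Z.Finite) {q q' : E2} (hq : q ∉ Z) (hq' : q' ∉ Z) :
    Mv Z q' q := by
  have hc : IsPreconnected (Zᶜ) :=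
    (hZ.countable.isConnected_compl_of_one_lt_rank (by
      rw [← Module.finrank_eq_rank, finrank_euclideanSpace_fin]; norm_num)).isPreconnected
  refine hc.induction₂' (fun a b => Mv Z a b) (fun y hy => ?_)
    (fun a b c _ _ _ h1 h2 => h1.trans h2) hq' hq
  obtain ⟨r, hr, h⟩ := Mv.local hZ hy
  filter_upwards [mem_nhdsWithin_of_mem_nhds (ball_mem_nhds y hr)] with x hx
  exact ⟨h x hx y (mem_ball_self hr), h y (mem_ball_self hr) x hx⟩

theorem NdAt.translate {W : Type*} [NormedAddCommGroup W] [NormedSpace ℝ W]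
    {φ : E2 → (E2 →L[ℝ] W)} {x c : E2} (h : NdAt φ (x + c)) : NdAt (fun y => φ (y + c)) x := by
  refine ⟨h.1, fun v hv h0 ξ η he => h.2 v hv h0 ξ η ?_⟩
  rwa [fderiv_comp_add_right] at he

/-- `ψ = φ ∘ θ` -/
theorem planar_move {W : Type*} [NormedAddCommGroup W] [NormedSpace ℝ W]
    {φ : E2 → (E2 →L[ℝ] W)} (hφ : ContDiff ℝ ∞ φ) (hn : ∀ x, NdAt φ x) {Z : Set E2}
    (hZ : Z.Finite) {q q' : E2} (hq : q ∉ Z) (hq' : q' ∉ Z) (hd : Df φ = insert q Z) :
    ∃ ψ : E2 → (E2 →L[ℝ] W), ContDiff ℝ ∞ ψ ∧ (∃ K, IsCompact K ∧ ∀ x, x ∉ K → ψ x = φ x) ∧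
      (∀ x, NdAt ψ x) ∧ Df ψ = insert q' Z := by
  obtain ⟨θ, hθ, hi, ⟨K, hK, hKe⟩, hz, hq1⟩ := Mv.all hZ hq hq'
  have hθq : θ q' = q := by simpa using hq1.eq_of_nhds
  have hθz : ∀ z ∈ Z, θ z = z := fun z h => (hz z h).eq_of_nhds
  have hiff : ∀ x, θ x ∈ insert q Z ↔ x ∈ insert q' Z := by
    intro x
    constructor
    · rintro (h | h)
      · exact Or.inl (hi (h.trans hθq.symm))
      · exact Or.inr (by
          have : θ x = x := hi (hθz _ h)
          rwa [this] at h)
    · rintro (h | h)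
      · exact Or.inl (by rw [h, hθq])
      · exact Or.inr (by rwa [hθz x h])
  refine ⟨fun x => φ (θ x), hφ.comp hθ, ⟨K, hK, fun x hx => by simp only [hKe x hx]⟩,
    fun x => ?_, ?_⟩
  · by_cases hx : x ∈ insert q' Z
    · rcases hx with hx | hx
      · subst hx
        have h1 : NdAt φ (x + (q - x)) := hn _
        refine h1.translate.congr ?_
        filter_upwards [hq1] with y hy
        rw [hy]
      · refine (hn x).congr ?_
        filter_upwards [hz x hx] with y hy
        rw [hy]; rfl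
    · refine NdAt.of_injective ?_
      by_contra hni
      have : θ x ∈ Df φ := hni
      rw [hd, hiff] at this
      exact hx this
  · ext x
    rw [← hiff, ← hd]
    rfl

end Crest.Agent.R216
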