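import Crest.Agent.R216.TopS
import Crest.Agent.R216.TopM2
import Crest.Agent.R216.TopC5

/-! # Row 216, topology: removing all defects -/

set_option autoImplicit false
open Set Filter Metric Function
open scoped ContDiff RealInnerProductSpace Topology

noncomputable section
namespace Crest.Agent.R216

theorem TopM3_par {M : Type*} [TopologicalSpace M] {S : Set M} (hS : S.Finite) {q q' : M}
    (hq : q ∉ S) (hq' : q' ∉ S) (hc : q' ∈ connectedComponent q) (h : Par (insert q S)) :
    Par (insert q' S) := by
  intro D hD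
  have h1 := h D hD
  by_cases hqD : q ∈ D
  · have hqD' : q' ∈ D := hD.connectedComponent_subset hqD hc
    rw [insert_inter_of_mem hqD, ncard_insert_of_notMem (fun h => hq h.1) (hS.inter_of_left D)] at h1
    rwa [insert_inter_of_mem hqD', ncard_insert_of_notMem (fun h => hq' h.1) (hS.inter_of_left D)]
  · have hqD' : q' ∉ D := fun h' => hqD (hD.connectedComponent_subset h' (by
      rw [← connectedComponent_eq hc]; exact mem_connectedComponent))
    rw [insert_inter_of_notMem hqD] at h1
    rwa [insert_inter_of_notMem hqD']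

namespace Atl

variable {M : Type*} [TopologicalSpace M] [T2Space M] {A : Atl E2 M}

/-- `planar_move` with `Z = (p a)⁻¹' S`, then `real_modify` -/
theorem real_move_chart {S : Set M} (hS : S.Finite) {q q' : M} (hq : q ∉ S) (hq' : q' ∉ S)
    (a : A.ι) (ha : q ∈ (A.e a).source) (ha' : q' ∈ (A.e a).source) (h : A.Real (insert q S)) :
    A.Real (insert q' S) := by
  obtain ⟨φ, h1, h2, h3⟩ := h
  have hd : Df (φ a) = insert (A.e a q) (A.p a ⁻¹' S) := by
    ext x
    rw [h3, mem_insert_iff, mem_insert_iff, mem_preimage]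
    refine or_congr_left ⟨fun e => by rw [← e, A.e_p], fun e => by rw [e, A.p_e a ha]⟩
  obtain ⟨ψ, k1, ⟨K, k2, k3⟩, k4, k5⟩ := planar_move (h1.smooth a) (h2 a)
    (hS.preimage (A.injective_p a).injOn) (q' := A.e a q') (by rwa [mem_preimage, A.p_e a ha])
    (by rwa [mem_preimage, A.p_e a ha']) hd
  have := real_modify h1 h2 h3 a k1 k2 k3 k4
  rw [k5, image_insert_eq, A.p_e a ha', image_preimage_eq_inter_range, ← A.source_eq_range,
    insert_diff_of_mem _ ha, union_insert, diff_union_inter] at this
  exact this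

/-- a non-empty open set is not contained in a finite set (read it in a chart) -/
theorem exists_notMem_of_isOpen (A : Atl E2 M) {U S : Set M} (hU : IsOpen U) (hne : U.Nonempty)
    (hS : S.Finite) : ∃ y ∈ U, y ∉ S := by
  obtain ⟨y, hy⟩ := hne
  obtain ⟨a, ha, -⟩ := A.cover y
  have h1 : (A.p a ⁻¹' U).Infinite :=
    infinite_of_mem_nhds (A.e a y) ((hU.preimage (A.continuous_p a)).mem_nhds (by
      rwa [mem_preimage, A.p_e a ha]))
  obtain ⟨x, hx, hx'⟩ := h1.exists_notMem_finite (hS.preimage (A.injective_p a).injOn)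
  exact ⟨_, hx, hx'⟩

/-- Call a chart good if some (hence every, `real_move_chart`) `y ∈ source \ S` has
`Real (insert y S)`.  A good and a bad chart have disjoint sources (`exists_notMem_of_isOpen`), so
the union of the good sources is clopen; it contains `q`. -/
theorem real_move {S : Set M} (hS : S.Finite) {q q' : M} (hq : q ∉ S) (hq' : q' ∉ S)
    (hc : q' ∈ connectedComponent q) (h : A.Real (insert q S)) : A.Real (insert q' S) := by
  set Good : A.ι → Prop := fun a => ∀ y ∈ (A.e a).source, y ∉ S → A.Real (insert y S) with hGood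
  have key : ∀ a b x, x ∈ (A.e a).source → x ∈ (A.e b).source → Good a → Good b := by
    intro a b x h1 h2 hg y hy hyS
    obtain ⟨z, hz, hzS⟩ := A.exists_notMem_of_isOpen
      ((A.e a).open_source.inter (A.e b).open_source) ⟨x, h1, h2⟩ hS
    exact real_move_chart hS hzS hyS b hz.2 hy (hg z hz.1 hzS)
  have h1 : ∀ a, q' ∈ (A.e a).source → Good a := by
    refine (isPreconnected_connectedComponent.induction₂
      (fun x y => ((∀ a, x ∈ (A.e a).source → Good a) ↔ ∀ a, y ∈ (A.e a).source → Good a))
      (fun y _ => ?_) (fun _ _ _ _ _ _ => Iff.trans) (fun _ _ _ _ => Iff.symm)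
      mem_connectedComponent hc).1 fun a ha y hy hyS => real_move_chart hS hq hyS a ha hy h
    obtain ⟨b, hb, -⟩ := A.cover y
    filter_upwards [nhdsWithin_le_nhds ((A.e b).open_source.mem_nhds hb)] with z hz
    exact ⟨fun h a ha => key b a z hz ha (h b hb), fun h a ha => key b a y hb ha (h b hz)⟩
  obtain ⟨b, hb, -⟩ := A.cover q'
  exact h1 b hb q' hb hq'

/-- Induction on the number of points of `S ∩ C \ source`.  Replacing `q` by a point `q'` of the same
component does not change the number of points in a clopen set. -/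
theorem real_gather (a : A.ι) {S : Set M} (hS : S.Finite) (h : A.Real S) (hp : Par S) :
    ∃ S' : Set M, S'.Finite ∧ A.Real S' ∧ Par S' ∧
      S' \ connectedComponent (A.p a 0) = S \ connectedComponent (A.p a 0) ∧
      S' ∩ connectedComponent (A.p a 0) ⊆ (A.e a).source := by
  set C := connectedComponent (A.p a 0) with hC
  have hsub : (A.e a).source ⊆ C :=
    (A.isPreconnected_source a).subset_connectedComponent (A.p_mem a 0)
  generalize hn : ((S ∩ C) \ (A.e a).source).ncard = n
  induction n generalizing S with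
  | zero =>
    refine ⟨S, hS, h, hp, rfl, ?_⟩
    rwa [ncard_eq_zero ((hS.inter_of_left C).subset diff_subset), diff_eq_empty] at hn
  | succ n ih =>
    obtain ⟨q, hq⟩ : ((S ∩ C) \ (A.e a).source).Nonempty := nonempty_of_ncard_ne_zero (by omega)
    obtain ⟨q', h1, h2⟩ := A.exists_notMem_of_isOpen (A.e a).open_source ⟨_, A.p_mem a 0⟩ hS
    have hS0 : (S \ {q}).Finite := hS.subset diff_subset
    have e : insert q (S \ {q}) = S := by rw [insert_diff_singleton, insert_eq_of_mem hq.1.1]
    have hc : q' ∈ connectedComponent q := by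
      rw [← connectedComponent_eq hq.1.2]
      exact hsub h1
    have n1 : q ∉ S \ {q} := fun h => h.2 rfl
    have n2 : q' ∉ S \ {q} := fun h => h2 h.1
    obtain ⟨S', k1, k2, k3, k4, k5⟩ := ih (hS0.insert q')
      (real_move hS0 n1 n2 hc (e.symm ▸ h)) (TopM3_par hS0 n1 n2 hc (e.symm ▸ hp)) (by
        have e2 : (insert q' (S \ {q}) ∩ C) \ (A.e a).source =
            ((S ∩ C) \ (A.e a).source) \ {q} := by
          ext y
          simp only [Set.mem_sdiff, mem_inter_iff, mem_insert_iff, mem_singleton_iff]
          constructor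
          · rintro ⟨⟨rfl | h3, h4⟩, h5⟩
            · exact absurd h1 h5
            · exact ⟨⟨⟨h3.1, h4⟩, h5⟩, h3.2⟩
          · rintro ⟨⟨⟨h3, h4⟩, h5⟩, h6⟩
            exact ⟨⟨Or.inr ⟨h3, h6⟩, h4⟩, h5⟩
        rw [e2, ncard_diff_singleton_of_mem hq, hn]
        rfl)
    refine ⟨S', k1, k2, k3, k4.trans ?_, k5⟩
    ext y
    simp only [Set.mem_sdiff, mem_insert_iff, mem_singleton_iff]
    constructor
    · rintro ⟨rfl | h3, h4⟩
      · exact absurd (hsub h1) h4
      · exact ⟨h3.1, h4⟩
    · rintro ⟨h3, h4⟩
      exact ⟨Or.inr ⟨h3, fun e => h4 (e ▸ hq.1.2)⟩, h4⟩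

/-- `C = connectedComponent (p a 0)` is clopen and contains the source, so `Df (φ a)` is in
bijection with `S ∩ C`; `planar_cancel`, `real_modify`. -/
theorem real_cancel (a : A.ι) {S : Set M} (hS : S.Finite) (h : A.Real S) (hp : Par S)
    (hC : S ∩ connectedComponent (A.p a 0) ⊆ (A.e a).source) :
    A.Real (S \ connectedComponent (A.p a 0)) := by
  have hsub : (A.e a).source ⊆ connectedComponent (A.p a 0) :=
    (A.isPreconnected_source a).subset_connectedComponent (A.p_mem a 0)
  obtain ⟨φ, h1, h2, h3⟩ := h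
  have hd : Df (φ a) = A.p a ⁻¹' S := Set.ext (h3 a)
  have e1 : S ∩ (A.e a).source = S ∩ connectedComponent (A.p a 0) :=
    Subset.antisymm (inter_subset_inter_right _ hsub) fun y hy => ⟨hy.1, hC hy⟩
  have he : Even (Df (φ a)).ncard := by
    rw [← ncard_image_of_injective _ (A.injective_p a), hd, image_preimage_eq_inter_range,
      ← A.source_eq_range, e1]
    exact hp _ (A.isClopen_connectedComponent _)
  obtain ⟨ψ, k1, ⟨K, k2, k3⟩, k4⟩ := planar_cancel (h1.smooth a) (h2 a)
    (hd ▸ hS.preimage (A.injective_p a).injOn) he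
  have := real_modify h1 h2 h3 a k1 k2 k3 fun x => ⟨fun h0 => ?_, fun v hv h0 =>
    absurd (k4 x (h0.trans (map_zero _).symm)) hv⟩
  · rw [show Df ψ = ∅ from eq_empty_of_forall_notMem fun x hx => hx (k4 x), image_empty,
      union_empty, ← diff_self_inter, e1, diff_self_inter] at this
    exact this
  · have h5 : (b0 : E2) = 0 := k4 x (by rw [h0]; rfl)
    simpa [b0] using congrArg (fun v : E2 => v 0) h5

/-- Strong induction on `S.ncard`: if `y ∈ S`, take a chart `a` at `y`; `S \ C` has fewer points and
`(S \ C) ∩ C' = S ∩ (C' \ C)`. -/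
theorem real_empty {S : Set M} (hS : S.Finite) (h : A.Real S) (hp : Par S) : A.Real ∅ := by
  generalize hn : S.ncard = n
  induction n using Nat.strong_induction_on generalizing S with
  | _ n ih =>
    rcases S.eq_empty_or_nonempty with rfl | ⟨y, hy⟩
    · exact h
    obtain ⟨a, ha, -⟩ := A.cover y
    have hyC : y ∈ connectedComponent (A.p a 0) :=
      (A.isPreconnected_source a).subset_connectedComponent (A.p_mem a 0) ha
    obtain ⟨S', k1, k2, k3, k4, k5⟩ := real_gather a hS h hp
    have k6 := real_cancel a k1 k2 k3 k5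
    rw [k4] at k6
    refine ih _ ?_ (hS.subset diff_subset) k6 (fun D hD => ?_) rfl
    · rw [← hn]
      exact ncard_lt_ncard ⟨diff_subset, fun h => (h hy).2 hyC⟩ hS
    · have := hp _ (hD.diff (A.isClopen_connectedComponent (A.p a 0)))
      rwa [show S ∩ (D \ connectedComponent (A.p a 0)) = S \ connectedComponent (A.p a 0) ∩ D by
        ext z; simp only [mem_inter_iff, Set.mem_sdiff]; tauto] at this

end Atl

end Crest.Agent.R216
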