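import Crest.Agent.R216.TopS
import Crest.Agent.R216.TopA

/-! # Row 216, topology: normal field and neighbourhood of the diagonal -/

set_option autoImplicit false
open Set Filter Metric Function
open scoped ContDiff RealInnerProductSpace Topology

noncomputable section
namespace Crest.Agent.R216

/-- Take `m > 0` with `m ‖v‖ ≤ ‖dF x₀ v‖` and `r` such that `‖dF x - dF x₀‖ ≤ m / 4` on the ball.
For `x, x'` in the ball, `v = x - x'`, `L = dF x₀`: `‖F x - F x' - L v‖ ≤ m/4 ‖v‖` (mean value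
inequality), `‖dF x' v - L v‖ ≤ m/4 ‖v‖`, so `⟪F x - F x', dF x' v⟫ > 0` unless `v = 0`. -/
theorem local_normal {W : Type*} [NormedAddCommGroup W] [InnerProductSpace ℝ W] {F : E2 → W}
    (hF : ContDiff ℝ ∞ F) {x₀ : E2} (hi : Injective (fderiv ℝ F x₀)) :
    ∃ r > 0, ∀ x ∈ ball x₀ r, ∀ x' ∈ ball x₀ r,
      (∀ v, ⟪F x - F x', fderiv ℝ F x' v⟫ = 0) → x = x' := by
  obtain ⟨K, hK, hL⟩ := (fderiv ℝ F x₀ : E2 →ₗ[ℝ] W).exists_antilipschitzWith
    (LinearMap.ker_eq_bot.2 hi)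
  have hK' : (0 : ℝ) < K := hK
  have hc : Continuous (fderiv ℝ F) := hF.continuous_fderiv (by simp)
  obtain ⟨r, hr, hb⟩ := Metric.continuousAt_iff.1 (hc.continuousAt (x := x₀)) (1 / (4 * K))
    (by positivity)
  have hb' : ∀ x ∈ ball x₀ r, ‖fderiv ℝ F x - fderiv ℝ F x₀‖ ≤ 1 / (4 * K) := fun x hx => by
    rw [← dist_eq_norm]
    exact (hb hx).le
  refine ⟨r, hr, fun x hx x' hx' h => ?_⟩
  have h1 := (convex_ball x₀ r).norm_image_sub_le_of_norm_fderiv_le'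
    (fun y _ => hF.differentiable (by simp) y) hb' hx' hx
  have h2 : ‖fderiv ℝ F x' (x - x') - fderiv ℝ F x₀ (x - x')‖ ≤ 1 / (4 * K) * ‖x - x'‖ :=
    (fderiv ℝ F x' - fderiv ℝ F x₀).le_of_opNorm_le (hb' x' hx') (x - x')
  have h3 : ‖x - x'‖ ≤ K * ‖fderiv ℝ F x₀ (x - x')‖ := by
    simpa using hL.le_mul_dist (x - x') 0
  have h4 := h (x - x')
  set a := F x - F x'
  set b := fderiv ℝ F x' (x - x')
  set l := fderiv ℝ F x₀ (x - x')
  set e := 1 / (4 * K) * ‖x - x'‖ with he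
  have h5 : ‖a - b‖ ≤ 2 * e := by
    calc ‖a - b‖ = ‖(a - l) - (b - l)‖ := by congr 1; abel
      _ ≤ ‖a - l‖ + ‖b - l‖ := norm_sub_le _ _
      _ ≤ 2 * e := by linarith
  have h6 : ‖b‖ ≤ ‖a - b‖ := by
    refine le_of_sq_le_sq (b := ‖a - b‖) ?_ (norm_nonneg _)
    rw [norm_sub_sq_real, h4]
    nlinarith [sq_nonneg ‖a‖]
  have h7 : ‖l‖ ≤ 3 * e := by
    calc ‖l‖ = ‖b - (b - l)‖ := by congr 1; abel
      _ ≤ ‖b‖ + ‖b - l‖ := norm_sub_le _ _
      _ ≤ 3 * e := by linarith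
  have h8 : K * (3 * e) = 3 / 4 * ‖x - x'‖ := by
    rw [he]
    field_simp
  have h9 := mul_le_mul_of_nonneg_left h7 hK'.le
  have h10 : ‖x - x'‖ ≤ 0 := by linarith
  exact sub_eq_zero.1 (norm_le_zero_iff.1 h10)

theorem TopP3_coef {W : Type*} [NormedAddCommGroup W] [InnerProductSpace ℝ W]
    {u v z : E2 → W} (hu : ContDiff ℝ ∞ u) (hv : ContDiff ℝ ∞ v) (hz : ContDiff ℝ ∞ z)
    (h : ∀ x, g2 (u x) (v x) ≠ 0) :
    (ContDiff ℝ ∞ fun x => (⟪v x, v x⟫ * ⟪u x, z x⟫ - ⟪u x, v x⟫ * ⟪v x, z x⟫) / g2 (u x) (v x)) ∧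
    ContDiff ℝ ∞ fun x => (⟪u x, u x⟫ * ⟪v x, z x⟫ - ⟪u x, v x⟫ * ⟪u x, z x⟫) / g2 (u x) (v x) := by
  have hg : ContDiff ℝ ∞ fun x => g2 (u x) (v x) :=
    ((hu.inner ℝ hu).mul (hv.inner ℝ hv)).sub ((hu.inner ℝ hv).pow 2)
  exact ⟨(((hv.inner ℝ hv).mul (hu.inner ℝ hz)).sub ((hu.inner ℝ hv).mul (hv.inner ℝ hz))).div hg h,
    (((hu.inner ℝ hu).mul (hv.inner ℝ hz)).sub ((hu.inner ℝ hv).mul (hu.inner ℝ hz))).div hg h⟩

/-- smoothness of the projection (`ContDiff.div`, `g2_pos_iff`) -/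
theorem contDiff_nproj {W : Type*} [NormedAddCommGroup W] [InnerProductSpace ℝ W]
    {σ : E2 → (E2 →L[ℝ] W)} (hσ : ContDiff ℝ ∞ σ) (hi : ∀ x, Injective (σ x)) {z : E2 → W}
    (hz : ContDiff ℝ ∞ z) : ContDiff ℝ ∞ fun x => nproj (σ x b0) (σ x b1) (z x) := by
  have hu : ContDiff ℝ ∞ fun x => σ x b0 := hσ.clm_apply contDiff_const
  have hv : ContDiff ℝ ∞ fun x => σ x b1 := hσ.clm_apply contDiff_const
  obtain ⟨h1, h2⟩ := TopP3_coef hu hv hz fun x => ((g2_pos_iff _).2 (hi x)).ne'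
  exact (hz.sub (h1.smul hu)).sub (h2.smul hv)

theorem TopP3_deriv {W : Type*} [NormedAddCommGroup W] [InnerProductSpace ℝ W] {F : E2 → W}
    (hF : ContDiff ℝ ∞ F) {α β : E2 → ℝ} (hα : ContDiff ℝ ∞ α) (hβ : ContDiff ℝ ∞ β) (z : W)
    (x η : E2) :
    fderiv ℝ (fun y => z - α y • fderiv ℝ F y b0 - β y • fderiv ℝ F y b1) x η =
      -(d2 F x η (α x • b0 + β x • b1) +
        fderiv ℝ F x (fderiv ℝ α x η • b0 + fderiv ℝ β x η • b1)) := by
  have hσ : ContDiff ℝ ∞ (fderiv ℝ F) := hF.fderiv_right (by simp)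
  have hu : ∀ b, DifferentiableAt ℝ (fun y => fderiv ℝ F y b) x := fun b =>
    (hσ.clm_apply contDiff_const).differentiable (by simp) x
  have h1 := ((hα.differentiable (by simp) x).hasFDerivAt.smul (hu b0).hasFDerivAt).const_sub z
  have h2 := (hβ.differentiable (by simp) x).hasFDerivAt.smul (hu b1).hasFDerivAt
  have h3 : HasFDerivAt (fun y => z - α y • fderiv ℝ F y b0 - β y • fderiv ℝ F y b1) _ x :=
    h1.sub h2
  rw [h3.fderiv]
  simp only [map_add, map_smul]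
  simp only [d2_apply hF.contDiffAt, sub_apply, neg_apply, add_apply, smul_apply,
    ContinuousLinearMap.smulRight_apply]
  abel

/-- `n = z - α • F₀ - β • F₁` with smooth `α, β` (`F_i = dF b_i`).  At a zero of `n`,
`v = α b0 + β b1` has `dF v = z`, and `dn η = - d2 F η v - dF (dα η • b0 + dβ η • b1)`. -/
theorem nproj_regular {W : Type*} [NormedAddCommGroup W] [InnerProductSpace ℝ W] {F : E2 → W}
    (hF : ContDiff ℝ ∞ F) (hi : ∀ x, Injective (fderiv ℝ F x)) (z : W) {x : E2}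
    (h0 : nproj (fderiv ℝ F x b0) (fderiv ℝ F x b1) z = 0)
    (ht : ∀ v, fderiv ℝ F x v = z → ∀ ξ η, d2 F x ξ v + fderiv ℝ F x η = 0 → ξ = 0) (ξ η : E2)
    (h : fderiv ℝ (fun y => nproj (fderiv ℝ F y b0) (fderiv ℝ F y b1) z) x η = fderiv ℝ F x ξ) :
    η = 0 := by
  have hσ : ContDiff ℝ ∞ (fderiv ℝ F) := hF.fderiv_right (by simp)
  have hu : ContDiff ℝ ∞ fun x => fderiv ℝ F x b0 := hσ.clm_apply contDiff_const
  have hv : ContDiff ℝ ∞ fun x => fderiv ℝ F x b1 := hσ.clm_apply contDiff_const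
  obtain ⟨h1, h2⟩ := TopP3_coef hu hv (contDiff_const (c := z))
    fun x => ((g2_pos_iff _).2 (hi x)).ne'
  have h3 := TopP3_deriv hF h1 h2 z x η
  have h4 := h3.symm.trans h
  have h5 := add_eq_zero_iff_neg_eq.2 h4
  rw [add_assoc, ← map_add] at h5
  refine ht _ ?_ η _ h5
  rw [map_add, map_smul, map_smul]
  rw [nproj, sub_sub, sub_eq_zero] at h0
  exact h0.symm

theorem nproj_eq_zero_iff {W : Type*} [NormedAddCommGroup W] [InnerProductSpace ℝ W]
    {L : E2 →L[ℝ] W} (hL : Injective L) (z : W) :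
    nproj (L b0) (L b1) z = 0 ↔ ∃ v, L v = z := by
  constructor
  · intro h0
    rw [nproj, sub_sub, sub_eq_zero, ← map_smul, ← map_smul, ← map_add] at h0
    exact ⟨_, h0.symm⟩
  · rintro ⟨v, rfl⟩
    rw [E2_decomp v, map_add, map_smul, map_smul]
    exact nproj_span ((g2_pos_iff _).2 hL).ne' _ _

namespace Atl

variable {M : Type*} [TopologicalSpace M] (A : Atl E2 M)
  {W : Type*} [NormedAddCommGroup W] [InnerProductSpace ℝ W]

/-- The normal part of a constant vector.  Define `n y` in a chart chosen by `cover`; independence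
of the chart: `Sm.fderiv_chart`, `nproj_basis` (`det2 (DT b0) (DT b1) ≠ 0`, e.g. from `g2_map`,
`g2_pos_iff`). -/
theorem exists_nrm {f : M → W} (hf : A.Sm f) (hi : A.Imm f) (z : W) :
    ∃ n : M → W, A.Sm n ∧
      ∀ a x, n (A.p a x) = nproj (A.dF f a x b0) (A.dF f a x b1) z := by
  choose c hc _ using A.cover
  have key : ∀ a x, nproj (A.dF f (c (A.p a x)) (A.e (c (A.p a x)) (A.p a x)) b0)
      (A.dF f (c (A.p a x)) (A.e (c (A.p a x)) (A.p a x)) b1) z =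
      nproj (A.dF f a x b0) (A.dF f a x b1) z := by
    intro a x
    have hx : x ∈ A.O a (c (A.p a x)) := hc _
    have e := hf.fderiv_chart hx
    have h1 := (g2_pos_iff _).2 (hi a x)
    unfold dF
    rw [e] at h1 ⊢
    simp only [ContinuousLinearMap.comp_apply] at h1 ⊢
    rw [g2_map] at h1
    refine (nproj_basis (hi _ _) (fun h0 => ?_) z).symm
    rw [h0] at h1
    simp at h1
  refine ⟨fun y => nproj (A.dF f (c y) (A.e (c y) y) b0) (A.dF f (c y) (A.e (c y) y) b1) z,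
    fun a => ?_, key⟩
  simp only [key]
  exact contDiff_nproj (σ := A.dF f a) ((hf a).fderiv_right (by simp)) (hi a) contDiff_const

/-- `U` is the union of the sets `p a '' ball x₀ r ×ˢ p a '' ball x₀ r` of `local_normal`; the
orthogonality condition is transported by `Sm.fderiv_chart`. -/
theorem exists_diag_nhd {f : M → W} (hf : A.Sm f) (hi : A.Imm f) :
    ∃ U : Set (M × M), IsOpen U ∧ (∀ y, (y, y) ∈ U) ∧
      ∀ y b x', (y, A.p b x') ∈ U → (∀ v, ⟪f y - f (A.p b x'), A.dF f b x' v⟫ = 0) →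
        y = A.p b x' := by
  choose r hr hp using fun a x₀ => local_normal (hf a) (hi a x₀)
  refine ⟨⋃ a, ⋃ x₀, (A.p a '' ball x₀ (r a x₀)) ×ˢ (A.p a '' ball x₀ (r a x₀)), ?_, fun y => ?_,
    fun y b x' hU h => ?_⟩
  · exact isOpen_iUnion fun a => isOpen_iUnion fun x₀ =>
      (A.isOpenMap_p a _ isOpen_ball).prod (A.isOpenMap_p a _ isOpen_ball)
  · obtain ⟨a, ha, -⟩ := A.cover y
    have h1 : y ∈ A.p a '' ball (A.e a y) (r a (A.e a y)) :=
      ⟨_, mem_ball_self (hr _ _), A.p_e a ha⟩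
    exact mem_iUnion.2 ⟨a, mem_iUnion.2 ⟨A.e a y, h1, h1⟩⟩
  · obtain ⟨a, hU⟩ := mem_iUnion.1 hU
    obtain ⟨x₀, ⟨x, hx, e1⟩, x'', hx'', e2⟩ := mem_iUnion.1 hU
    simp only at e1 e2
    obtain ⟨h1, h2⟩ := A.mem_O_of_eq e2
    have h3 := hp a x₀ x hx x'' hx'' fun v => by
      rw [hf.fderiv_chart h1, h2, e1, e2]
      exact h _
    rw [← e1, ← e2, h3]

end Atl

end Crest.Agent.R216
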