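import Crest.Agent.R216.TopP2
import Crest.Agent.R216.TopP3

/-! # Row 216, topology: the number of tangencies is even -/

set_option autoImplicit false
open Set Filter Metric Function
open scoped ContDiff RealInnerProductSpace Topology

noncomputable section
namespace Crest.Agent.R216

/-- a finite set with a fixed point free involution has an even number of elements -/
theorem even_ncard_of_invol {α : Type*} {S : Set α} (hS : S.Finite) {σ : α → α}
    (h1 : ∀ x ∈ S, σ x ∈ S) (h2 : ∀ x ∈ S, σ (σ x) = x) (h3 : ∀ x ∈ S, σ x ≠ x) :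
    Even S.ncard := by
  classical
  rw [Set.ncard_eq_toFinset_card S hS, ← ZMod.natCast_eq_zero_iff_even]
  have h := Finset.sum_involution (s := hS.toFinset) (f := fun _ => (1 : ZMod 2))
    (fun x _ => σ x) (fun _ _ => rfl) (fun x hx _ => h3 x (hS.mem_toFinset.1 hx))
    (fun x hx => hS.mem_toFinset.2 (h1 x (hS.mem_toFinset.1 hx)))
    (fun x hx => h2 x (hS.mem_toFinset.1 hx))
  simpa using h

theorem h93_fst {F : E2 → E4} {L : E2 →L[ℝ] E4} {x : E2} (x' : E2) (h : HasFDerivAt F L x) :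
    HasFDerivAt (fun z : E2 × E2 => F z.1) (L.comp (ContinuousLinearMap.fst ℝ E2 E2)) (x, x') :=
  HasFDerivAt.comp (x, x') (f := Prod.fst) h hasFDerivAt_fst

theorem h93_snd {F : E2 → E4} {L : E2 →L[ℝ] E4} {x' : E2} (x : E2) (h : HasFDerivAt F L x') :
    HasFDerivAt (fun z : E2 × E2 => F z.2) (L.comp (ContinuousLinearMap.snd ℝ E2 E2)) (x, x') :=
  HasFDerivAt.comp (x, x') (f := Prod.snd) h hasFDerivAt_snd

namespace Atl

variable {M : Type*} [TopologicalSpace M] [T2Space M] [CompactSpace M] (A : Atl E2 M)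

/-- Take `n` from `exists_nrm` (`z = e3`), `U` from `exists_diag_nhd`, `θ` from `exists_cutoff` for
the atlas `A.prod A`, the diagonal and `U`; `G (y, y') = f y - f y' - θ (y, y') • n y'`.
If `G = 0` at a point of `U` then `f y - f y'` is normal at `y'`, so `y = y'`, `θ = 1`, `n y = 0`
(`nproj_eq_zero_iff`; the set `Tan f` is chart independent).  Outside `U` we are outside
`tsupport θ`, where `G = f y - f y'` locally.  A double point is never in `U`.
Regularity (`Reg_of_local`): on the diagonal in the chart `(a, a)`,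
`dG (ξ, η) = dF (ξ - η) - dn η` and `nproj_regular`; at double points `Dbl` and `Imm`. -/
theorem exists_G {f : M → E4} (hf : A.Gen4 f) :
    ∃ G : M × M → E4, (A.prod A).Sm G ∧ (A.prod A).Reg G ∧
      ∀ y y', G (y, y') = 0 ↔ (y = y' ∧ y ∈ A.Tan f) ∨ (y ≠ y' ∧ f y = f y') := by
  obtain ⟨n, hn, hn'⟩ := A.exists_nrm hf.sm hf.imm e3
  obtain ⟨U, hU, hUd, hUn⟩ := A.exists_diag_nhd hf.sm hf.imm
  obtain ⟨θ, hθ, hθ1, hθU⟩ := (A.prod A).exists_cutoff (K := diagonal M) isClosed_diagonal hU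
    (by rintro ⟨y, y'⟩ h; obtain rfl : y = y' := h; exact hUd y)
  have hch : ∀ y : M, ∃ a x, y = A.p a x := fun y => by
    obtain ⟨a, ha, -⟩ := A.cover y
    exact ⟨a, _, (A.p_e a ha).symm⟩
  have hT : ∀ y, n y = 0 ↔ y ∈ A.Tan f := fun y => by
    constructor
    · intro h
      obtain ⟨a, x, rfl⟩ := hch y
      rw [hn'] at h
      obtain ⟨v, hv⟩ := (nproj_eq_zero_iff (hf.imm a x) e3).1 h
      exact ⟨a, x, v, rfl, hv⟩
    · rintro ⟨a, x, v, rfl, hv⟩
      rw [hn']
      exact (nproj_eq_zero_iff (hf.imm a x) e3).2 ⟨v, hv⟩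
  have hout : ∀ y y', y ≠ y' → f y = f y' → (y, y') ∉ U := by
    intro y y' hne he hm
    obtain ⟨b, x', rfl⟩ := hch y'
    exact hne (hUn y b x' hm fun v => by rw [he, sub_self, inner_zero_left])
  have hs : (A.prod A).Sm fun z : M × M => f z.1 - f z.2 - θ z • n z.2 :=
    (Sm.sub (A := A.prod A) (F := fun z => f z.1) (G := fun z => f z.2)
      (fun a => (hf.sm a.1).comp contDiff_fst) (fun a => (hf.sm a.2).comp contDiff_snd)).sub
      (hθ.smul (G := fun z => n z.2) (fun a => (hn a.2).comp contDiff_snd))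
  have hiff : ∀ y y', f y - f y' - θ (y, y') • n y' = 0 ↔
      (y = y' ∧ y ∈ A.Tan f) ∨ (y ≠ y' ∧ f y = f y') := by
    intro y y'
    constructor
    · intro h
      by_cases hm : (y, y') ∈ U
      · have hyy : y = y' := by
          obtain ⟨b, x', rfl⟩ := hch y'
          refine hUn y b x' hm fun v => ?_
          have hg := ((g2_pos_iff _).2 (hf.imm b x')).ne'
          have h0 := inner_nproj_left hg e3
          have h1 := inner_nproj_right hg e3
          rw [sub_eq_zero.1 h, hn', real_inner_comm, E2_decomp v, map_add, map_smul, map_smul,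
            inner_smul_right, inner_add_left, real_inner_smul_left, real_inner_smul_left]
          simp only [dF]
          rw [h0, h1]
          simp
        subst hyy
        have h1 : θ (y, y) = 1 := (hθ1 (y, y) rfl).self_of_nhds
        rw [h1, one_smul, sub_self, zero_sub, neg_eq_zero] at h
        exact Or.inl ⟨rfl, (hT y).1 h⟩
      · have h0 : θ (y, y') = 0 := image_eq_zero_of_notMem_tsupport fun h' => hm (hθU h')
        rw [h0, zero_smul, sub_zero, sub_eq_zero] at h
        exact Or.inr ⟨fun he => hm (he ▸ hUd y), h⟩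
    · rintro (⟨rfl, h⟩ | ⟨hne, he⟩)
      · rw [(hT y).2 h]; simp
      · have h0 : θ (y, y') = 0 :=
          image_eq_zero_of_notMem_tsupport fun h' => hout y y' hne he (hθU h')
        rw [h0, he]; simp
  refine ⟨fun z => f z.1 - f z.2 - θ z • n z.2, hs, Reg_of_local hs ?_, hiff⟩
  rintro ⟨y, y'⟩ hz
  have hd : ∀ a x, HasFDerivAt (fun x => f (A.p a x)) (A.dF f a x) x := fun a x =>
    ((hf.sm a).differentiable (by simp) x).hasFDerivAt
  rcases (hiff y y').1 hz with ⟨rfl, h⟩ | ⟨hne, he⟩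
  · obtain ⟨a, x, rfl⟩ := hch y
    refine ⟨(a, a), (x, x), rfl, ?_⟩
    have hc : Tendsto ((A.prod A).p (a, a)) (𝓝 (x, x)) (𝓝 (A.p a x, A.p a x)) :=
      ((A.prod A).continuous_p (a, a)).tendsto (x, x)
    have hN : HasFDerivAt (fun x => n (A.p a x)) (fderiv ℝ (fun x => n (A.p a x)) x) x :=
      ((hn a).differentiable (by simp) x).hasFDerivAt
    have h1 : HasFDerivAt (fun z : E2 × E2 => f (A.p a z.1) - f (A.p a z.2) - n (A.p a z.2))
        ((A.dF f a x).comp (ContinuousLinearMap.fst ℝ E2 E2)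
          - (A.dF f a x).comp (ContinuousLinearMap.snd ℝ E2 E2)
          - (fderiv ℝ (fun x => n (A.p a x)) x).comp (ContinuousLinearMap.snd ℝ E2 E2)) (x, x) :=
      ((h93_fst x (hd a x)).fun_sub (h93_snd x (hd a x))).fun_sub (h93_snd x hN)
    have h2 := (h1.congr_of_eventuallyEq (f₁ := fun z : E2 × E2 =>
      f ((A.prod A).p (a, a) z).1 - f ((A.prod A).p (a, a) z).2 -
        θ ((A.prod A).p (a, a) z) • n ((A.prod A).p (a, a) z).2) (by
      filter_upwards [hc.eventually (hθ1 (A.p a x, A.p a x) rfl)] with z hz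
      rw [hz, one_smul]; rfl)).fderiv
    rw [h2, injective_iff_map_eq_zero]
    rintro ⟨ξ, η⟩ hk
    have hk' : A.dF f a x ξ - A.dF f a x η - fderiv ℝ (fun x => n (A.p a x)) x η = 0 := hk
    have hη : η = 0 := by
      refine nproj_regular (hf.sm a) (hf.imm a) e3 (x := x) ?_ (hf.tng a x) (ξ - η) η ?_
      · exact (hn' a x).symm.trans ((hT _).2 h)
      · have e : (fun x => n (A.p a x)) = fun y => nproj (fderiv ℝ (fun x => f (A.p a x)) y b0)
            (fderiv ℝ (fun x => f (A.p a x)) y b1) e3 := funext fun x => hn' a x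
        rw [← e, map_sub]
        exact (sub_eq_zero.1 hk').symm
    subst hη
    rw [map_zero, map_zero, sub_zero, sub_zero] at hk'
    have hξ : ξ = 0 := (injective_iff_map_eq_zero _).1 (hf.imm a x) ξ hk'
    rw [hξ]; rfl
  · have hθ0 : θ =ᶠ[𝓝 (y, y')] 0 :=
      notMem_tsupport_iff_eventuallyEq.1 fun h' => hout y y' hne he (hθU h')
    obtain ⟨a, x, rfl⟩ := hch y
    obtain ⟨b, x', rfl⟩ := hch y'
    refine ⟨(a, b), (x, x'), rfl, ?_⟩
    have hc : Tendsto ((A.prod A).p (a, b)) (𝓝 (x, x')) (𝓝 (A.p a x, A.p b x')) :=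
      ((A.prod A).continuous_p (a, b)).tendsto (x, x')
    have h1 : HasFDerivAt (fun z : E2 × E2 => f (A.p a z.1) - f (A.p b z.2))
        ((A.dF f a x).comp (ContinuousLinearMap.fst ℝ E2 E2)
          - (A.dF f b x').comp (ContinuousLinearMap.snd ℝ E2 E2)) (x, x') :=
      (h93_fst x' (hd a x)).fun_sub (h93_snd x (hd b x'))
    have h2 := (h1.congr_of_eventuallyEq (f₁ := fun z : E2 × E2 =>
      f ((A.prod A).p (a, b) z).1 - f ((A.prod A).p (a, b) z).2 -
        θ ((A.prod A).p (a, b) z) • n ((A.prod A).p (a, b) z).2) (by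
      filter_upwards [hc.eventually hθ0] with z hz
      rw [hz, Pi.zero_apply, zero_smul, sub_zero]; rfl)).fderiv
    rw [h2, injective_iff_map_eq_zero]
    rintro ⟨ξ, η⟩ hk
    have hk' : A.dF f a x ξ - A.dF f b x' η = 0 := hk
    have hξ : ξ = 0 := hf.dbl a b x x' hne he ξ η (sub_eq_zero.1 hk')
    subst hξ
    rw [map_zero, zero_sub, neg_eq_zero] at hk'
    have hη : η = 0 := (injective_iff_map_eq_zero _).1 (hf.imm b x') η hk'
    rw [hη]; rfl

/-- `even_zeros` on the clopen set `C ×ˢ C`; the zeros off the diagonal are permuted by the swap,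
those on the diagonal are the image of `Tan f ∩ C` under `y ↦ (y, y)`. -/
theorem par_tan {f : M → E4} (hf : A.Gen4 f) : (A.Tan f).Finite ∧ Par (A.Tan f) := by
  obtain ⟨G, hG, hr, hz⟩ := A.exists_G hf
  have hfin : {z | G z = 0}.Finite := Reg.finite hG hr
  have hpar := (A.prod A).even_zeros (W := E4) (by simp [Module.finrank_prod]) hG hr
  have hinj : Injective fun y : M => (y, y) := fun _ _ h => (Prod.ext_iff.1 h).1
  have hT : (A.Tan f).Finite :=
    (hfin.preimage hinj.injOn).subset fun y hy => (hz y y).2 (Or.inl ⟨rfl, hy⟩)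
  refine ⟨hT, fun C hC => ?_⟩
  have h1 := hpar (C ×ˢ C) (hC.prod hC)
  set D : Set (M × M) := {z | z.1 ≠ z.2 ∧ f z.1 = f z.2} ∩ C ×ˢ C with hD
  have hDf : D.Finite := hfin.subset fun z hz' => (hz z.1 z.2).2 (Or.inr hz'.1)
  have e : {z | G z = 0} ∩ C ×ˢ C = (fun y => (y, y)) '' (A.Tan f ∩ C) ∪ D := by
    ext ⟨y, y'⟩
    constructor
    · rintro ⟨h, hc⟩
      rcases (hz y y').1 h with ⟨rfl, h'⟩ | h'
      · exact Or.inl ⟨y, ⟨h', hc.1⟩, rfl⟩
      · exact Or.inr ⟨h', hc⟩
    · rintro (⟨w, ⟨h, hc⟩, he⟩ | ⟨h, hc⟩)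
      · obtain ⟨rfl, rfl⟩ := Prod.ext_iff.1 he
        exact ⟨(hz _ _).2 (Or.inl ⟨rfl, h⟩), hc, hc⟩
      · exact ⟨(hz _ _).2 (Or.inr h), hc⟩
  have hdisj : Disjoint ((fun y : M => (y, y)) '' (A.Tan f ∩ C)) D := by
    rw [Set.disjoint_left]
    rintro _ ⟨w, -, rfl⟩ h
    exact h.1.1 rfl
  have h2 : Even D.ncard := even_ncard_of_invol hDf (σ := Prod.swap)
    (fun z h => ⟨⟨fun he => h.1.1 he.symm, h.1.2.symm⟩, h.2.2, h.2.1⟩) (fun _ _ => rfl)
    (fun z h he => h.1.1 (Prod.ext_iff.1 he).2)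
  rw [e, Set.ncard_union_eq hdisj ((hT.inter_of_left C).image _) hDf,
    Set.ncard_image_of_injective _ hinj, Nat.even_add] at h1
  exact h1.2 h2

end Atl

end Crest.Agent.R216
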