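import Crest.Agent.R216.TopE1
import Crest.Agent.R216.TopE2
import Crest.Agent.R216.TopP4
import Crest.Agent.R216.TopM3
import Crest.Agent.R216.TopH2

/-! # Row 216, every compact surface immerses in three-space -/

set_option autoImplicit false
open Set Filter Metric Function
open scoped ContDiff RealInnerProductSpace Topology

noncomputable section
namespace Crest.Agent.R216

theorem exists_imm3 {M : Type*} [TopologicalSpace M] [T2Space M] [CompactSpace M]
    (A : Atl E2 M) : ∃ f : M → E3, A.Sm f ∧ A.Imm f := by
  obtain ⟨f, hf⟩ := A.exists_gen4 A.embIn_five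
  obtain ⟨h1, h2⟩ := A.par_tan hf
  exact Atl.imm_of_real_empty (Atl.real_empty h1 (Atl.real_tan hf) h2)

end Crest.Agent.R216
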