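import Crest.Agent.R216.TopP3

/-! # Row 216, topology: a normal field over a disc -/

set_option autoImplicit false
open Set Filter Metric Function
open scoped ContDiff RealInnerProductSpace Topology

noncomputable section
namespace Crest.Agent.R216

/-- Let `m > 0` with `m ‖ξ‖ ≤ ‖σ x ξ‖` on the ball, and `δ` a modulus of uniform continuity with
`‖σ x - σ x'‖ < m`.  If `w = σ x ξ` is orthogonal to the range of `σ x'` then
`‖w‖² = ⟪w, (σ x - σ x') ξ⟫`, which forces `ξ = 0`. -/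
theorem normal_step {σ : E2 → (E2 →L[ℝ] E4)} (hσ : Continuous σ) (hi : ∀ x, Injective (σ x))
    (R : ℝ) : ∃ δ > 0, ∀ x ∈ closedBall (0 : E2) R, ∀ x' ∈ closedBall (0 : E2) R, ‖x - x'‖ ≤ δ →
      ∀ w : E4, w ≠ 0 → (∀ v, ⟪σ x' v, w⟫ = 0) → nproj (σ x b0) (σ x b1) w ≠ 0 := by
  obtain ⟨m, hm, hmb⟩ := ((isCompact_closedBall (0 : E2) R).prod
    (isCompact_sphere (0 : E2) 1)).exists_forall_le' (f := fun z : E2 × E2 => ‖σ z.1 z.2‖) (a := 0)
    ((hσ.comp continuous_fst).clm_apply continuous_snd).norm.continuousOn fun z hz => by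
      refine norm_pos_iff.2 fun h => ?_
      have h1 : z.2 = 0 := hi z.1 (h.trans (map_zero _).symm)
      have h2 := hz.2
      simp [h1] at h2
  obtain ⟨δ, hδ, hu⟩ := Metric.uniformContinuousOn_iff_le.1
    ((isCompact_closedBall (0 : E2) R).uniformContinuousOn_of_continuous hσ.continuousOn)
    (m / 2) (half_pos hm)
  refine ⟨δ, hδ, fun x hx x' hx' hd w hw ho h0 => ?_⟩
  obtain ⟨v, rfl⟩ := (nproj_eq_zero_iff (hi x) w).1 h0
  have hv : v ≠ 0 := fun h => hw (by rw [h, map_zero])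
  have hv' : 0 < ‖v‖ := norm_pos_iff.2 hv
  have h1 : m * ‖v‖ ≤ ‖σ x v‖ := by
    have := hmb (x, ‖v‖⁻¹ • v) ⟨hx, by simp [norm_smul, hv'.ne']⟩
    simp only [map_smul, norm_smul, norm_inv, norm_norm] at this
    rwa [← div_eq_inv_mul, le_div_iff₀ hv'] at this
  have h2 : ‖σ x - σ x'‖ ≤ m / 2 := by
    rw [← dist_eq_norm]
    exact hu x hx x' hx' (by rwa [dist_eq_norm])
  have h3 : ‖σ x v‖ ^ 2 = ⟪(σ x - σ x') v, σ x v⟫ := by
    rw [sub_apply, inner_sub_left, ho, real_inner_self_eq_norm_sq, sub_zero]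
  have h4 : ⟪(σ x - σ x') v, σ x v⟫ ≤ m / 2 * ‖v‖ * ‖σ x v‖ :=
    (real_inner_le_norm _ _).trans (mul_le_mul_of_nonneg_right
      (((σ x - σ x').le_opNorm v).trans (mul_le_mul_of_nonneg_right h2 hv'.le)) (norm_nonneg _))
  have h5 : 0 < ‖σ x v‖ := norm_pos_iff.2 hw
  nlinarith

theorem topC1_orth {L : E2 →L[ℝ] E4} (hL : Injective L) (z : E4) (v : E2) :
    ⟪L v, nproj (L b0) (L b1) z⟫ = 0 := by
  have h := ((g2_pos_iff L).2 hL).ne'
  rw [E2_decomp v, map_add, map_smul, map_smul, inner_add_left, real_inner_smul_left,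
    real_inner_smul_left, inner_nproj_left h, inner_nproj_right h]
  ring

/-- Take `N` with `R / N ≤ δ`, a non-zero vector `ν₀` normal to the range of `σ 0` (dimension), and
`ν_{k+1} x = nproj (σ y b0) (σ y b1) (ν_k x)` with `y = ((k + 1) / N) • x` (`contDiff_nproj`,
`normal_step`, `inner_nproj_left/right`, `E2_decomp`). -/
theorem exists_normal_field {σ : E2 → (E2 →L[ℝ] E4)} (hσ : ContDiff ℝ ∞ σ)
    (hi : ∀ x, Injective (σ x)) (R : ℝ) :
    ∃ ν : E2 → E4, ContDiff ℝ ∞ ν ∧ (∀ x v, ⟪σ x v, ν x⟫ = 0) ∧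
      ∀ x ∈ closedBall (0 : E2) R, ν x ≠ 0 := by
  obtain ⟨δ, hδ, hstep⟩ := normal_step hσ.continuous hi R
  obtain ⟨N, hN⟩ := exists_nat_gt (|R| / δ)
  have hN0 : (0 : ℝ) < N := lt_of_le_of_lt (by positivity) hN
  have hRN : |R| / N ≤ δ := by
    rw [div_lt_iff₀ hδ] at hN
    rw [div_le_iff₀ hN0]
    linarith
  have hmem : ∀ k : ℕ, k ≤ N → ∀ x ∈ closedBall (0 : E2) R,
      ((k : ℝ) / N) • x ∈ closedBall (0 : E2) R := by
    intro k hk x hx
    rw [mem_closedBall_zero_iff] at hx ⊢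
    have h1 : (k : ℝ) / N ≤ 1 := (div_le_one hN0).2 (by exact_mod_cast hk)
    rw [norm_smul, Real.norm_eq_abs, abs_of_nonneg (by positivity)]
    exact (mul_le_of_le_one_left (norm_nonneg _) h1).trans hx
  have key : ∀ k : ℕ, k ≤ N → ∃ ν : E2 → E4, ContDiff ℝ ∞ ν ∧
      (∀ x v, ⟪σ (((k : ℝ) / N) • x) v, ν x⟫ = 0) ∧ ∀ x ∈ closedBall (0 : E2) R, ν x ≠ 0 := by
    intro k
    induction k with
    | zero =>
      intro _
      obtain ⟨z, hz⟩ : ∃ z, ¬ ∃ v, σ 0 v = z := by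
        by_contra hc
        push Not at hc
        have := LinearMap.finrank_le_finrank_of_surjective (f := (σ 0 : E2 →ₗ[ℝ] E4)) hc
        simp at this
      refine ⟨fun _ => nproj (σ 0 b0) (σ 0 b1) z, contDiff_const, fun x v => ?_,
        fun x _ h => hz ((nproj_eq_zero_iff (hi 0) z).1 h)⟩
      rw [Nat.cast_zero, zero_div, zero_smul]
      exact topC1_orth (hi 0) z v
    | succ k ih =>
      intro hk
      obtain ⟨ν, h1, h2, h3⟩ := ih (Nat.le_of_succ_le hk)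
      refine ⟨fun x => nproj (σ ((((k + 1 : ℕ) : ℝ) / N) • x) b0)
        (σ ((((k + 1 : ℕ) : ℝ) / N) • x) b1) (ν x),
        contDiff_nproj (σ := fun x => σ ((((k + 1 : ℕ) : ℝ) / N) • x))
          (hσ.comp (contDiff_id.const_smul _)) (fun x => hi _) h1,
        fun x v => topC1_orth (hi _) _ v, fun x hx => ?_⟩
      refine hstep _ (hmem _ hk x hx) _ (hmem _ (Nat.le_of_succ_le hk) x hx) ?_ _ (h3 x hx) (h2 x)
      have e : ((k + 1 : ℕ) : ℝ) / N - k / N = 1 / N := by push_cast; ring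
      rw [← sub_smul, e, norm_smul, Real.norm_eq_abs, abs_of_nonneg (by positivity)]
      refine le_trans ?_ hRN
      rw [one_div_mul_eq_div]
      exact div_le_div_of_nonneg_right ((mem_closedBall_zero_iff.1 hx).trans (le_abs_self R))
        hN0.le
  obtain ⟨ν, h1, h2, h3⟩ := key N le_rfl
  refine ⟨ν, h1, fun x v => ?_, h3⟩
  have := h2 x v
  rwa [div_self hN0.ne', one_smul] at this

/-- sum of bumps: `om = Σ_{z ∈ Z} χ z • l z` with `χ z z = 1` and `χ z z' = 0` for `z' ∈ Z \ {z}` -/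
theorem exists_interp {Y : Type*} [NormedAddCommGroup Y] [NormedSpace ℝ Y] {Z : Set E2}
    (hZ : Z.Finite) (l : E2 → Y) :
    ∃ om : E2 → Y, ContDiff ℝ ∞ om ∧ HasCompactSupport om ∧ ∀ z ∈ Z, om z = l z := by
  induction Z, hZ using Set.Finite.induction_on with
  | empty => exact ⟨fun _ => 0, contDiff_const, HasCompactSupport.zero, fun _ h => h.elim⟩
  | @insert z₀ Z h0 hZ ih =>
    obtain ⟨om, h1, h2, h3⟩ := ih
    obtain ⟨χ, c1, c2, c3, -, c4⟩ := exists_contDiff_tsupport_subset (n := ⊤)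
      (hZ.isClosed.isOpen_compl.mem_nhds h0)
    refine ⟨fun x => om x + χ x • (l z₀ - om z₀), h1.add (c3.smul contDiff_const),
      h2.add (c2.smul_right (f' := fun _ => l z₀ - om z₀)), fun z hz => ?_⟩
    rcases hz with rfl | hz
    · simp [c4]
    · have : χ z = 0 := image_eq_zero_of_notMem_tsupport fun h => c1 h hz
      simp [this, h3 z hz]

end Crest.Agent.R216
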