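import Crest.Agent.R216.TopDefs

/-! # Row 216, topology: non-degenerate zeros of a map of the plane, local form -/

set_option autoImplicit false
open Set Filter Metric Function
open scoped ContDiff RealInnerProductSpace Topology

noncomputable section
namespace Crest.Agent.R216

/-- Jacobian determinant of a real-differentiable map `ℂ → ℂ` -/
def jacC (u : ℂ → ℂ) (z : ℂ) : ℝ :=
  (fderiv ℝ u z 1).re * (fderiv ℝ u z Complex.I).im
    - (fderiv ℝ u z 1).im * (fderiv ℝ u z Complex.I).re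

/-- `α = (A 1 - I * A I) / 2`, `γ = (A 1 + I * A I) / 2` -/
theorem clm_complex (A : ℂ →L[ℝ] ℂ) : ∃ α γ : ℂ, (∀ w, A w = α * w + γ * (starRingEnd ℂ) w) ∧
    (A 1).re * (A Complex.I).im - (A 1).im * (A Complex.I).re = ‖α‖ ^ 2 - ‖γ‖ ^ 2 := by
  refine ⟨(A 1 - Complex.I * A Complex.I) / 2, (A 1 + Complex.I * A Complex.I) / 2, fun w => ?_, ?_⟩
  · have h : A w = (w.re : ℂ) * A 1 + (w.im : ℂ) * A Complex.I := by
      conv_lhs => rw [show w = w.re • (1 : ℂ) + w.im • Complex.I by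
        simp [Complex.re_add_im]]
      rw [map_add, map_smul, map_smul, Complex.real_smul, Complex.real_smul]
    rw [h]
    apply Complex.ext <;> simp <;> ring
  · rw [Complex.sq_norm, Complex.sq_norm, Complex.normSq_apply, Complex.normSq_apply]
    simp
    ring

/-- `u z / (z - q) = α + γ * θ + o(1)` with `‖θ‖ = 1`, `‖γ‖ < ‖α‖`; `β = α * g q`. -/
theorem local_pos {u g : ℂ → ℂ} {q : ℂ} (hu : DifferentiableAt ℝ u q) (h0 : u q = 0)
    (hj : 0 < jacC u q) (hg : ContinuousAt g q) (hg0 : g q ≠ 0) :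
    ∃ β : ℂ, β ≠ 0 ∧ ∀ᶠ z in 𝓝[≠] q, 0 < (u z / (z - q) * g z * (starRingEnd ℂ) β).re := by
  obtain ⟨α, γ, hA, hdet⟩ := clm_complex (fderiv ℝ u q)
  have hlt : ‖γ‖ < ‖α‖ := by
    refine lt_of_pow_lt_pow_left₀ 2 (norm_nonneg _) ?_
    have : jacC u q = ‖α‖ ^ 2 - ‖γ‖ ^ 2 := hdet
    linarith
  have hα : 0 < ‖α‖ := lt_of_le_of_lt (norm_nonneg _) hlt
  refine ⟨α * g q, mul_ne_zero (norm_pos_iff.1 hα) hg0, ?_⟩
  set r : ℂ → ℂ := fun z => (u z - fderiv ℝ u q (z - q)) / (z - q) with hr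
  have hr0 : Tendsto r (𝓝 q) (𝓝 0) := by
    have h := hu.hasFDerivAt.isLittleO.tendsto_div_nhds_zero
    simpa only [h0, sub_zero] using h
  set c : ℝ := ‖g q‖ ^ 2 with hc
  have hc0 : 0 < c := by have := norm_pos_iff.2 hg0; positivity
  set h : ℂ → ℂ := fun z => g z * (starRingEnd ℂ) (g q) with hh
  have hh0 : Tendsto h (𝓝 q) (𝓝 (c : ℂ)) := by
    have := hg.tendsto.mul_const ((starRingEnd ℂ) (g q))
    rwa [Complex.mul_conj, Complex.normSq_eq_norm_sq] at this
  have hF : Tendsto (fun z => (‖α‖ + ‖γ‖) * ‖α‖ * ‖h z - c‖ + ‖r z‖ * ‖α‖ * ‖h z‖) (𝓝 q)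
      (𝓝 ((‖α‖ + ‖γ‖) * ‖α‖ * ‖(c : ℂ) - c‖ + ‖(0 : ℂ)‖ * ‖α‖ * ‖(c : ℂ)‖)) :=
    (((hh0.sub_const _).norm).const_mul _).add ((hr0.norm.mul_const _).mul hh0.norm)
  simp only [sub_self, norm_zero, mul_zero, zero_mul, add_zero] at hF
  have hpos : 0 < c * (‖α‖ * (‖α‖ - ‖γ‖)) := mul_pos hc0 (mul_pos hα (sub_pos.2 hlt))
  filter_upwards [nhdsWithin_le_nhds (hF.eventually (gt_mem_nhds hpos)), self_mem_nhdsWithin]
    with z hz hzq
  have hne : z - q ≠ 0 := sub_ne_zero.2 hzq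
  set θ : ℂ := (starRingEnd ℂ) (z - q) / (z - q) with hθ
  have hθ1 : ‖θ‖ = 1 := by rw [hθ, norm_div, Complex.norm_conj, div_self (norm_ne_zero_iff.2 hne)]
  have e1 : u z / (z - q) = α + γ * θ + r z := by
    simp only [hr, hθ, hA]
    field_simp
    ring
  have e2 : u z / (z - q) * g z * (starRingEnd ℂ) (α * g q) =
      c * (α * (starRingEnd ℂ) α) + c * (γ * θ * (starRingEnd ℂ) α) +
        (α + γ * θ) * (starRingEnd ℂ) α * (h z - c) + r z * (starRingEnd ℂ) α * h z := by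
    rw [e1, map_mul]
    simp only [hh]
    ring
  rw [e2, Complex.add_re, Complex.add_re, Complex.add_re, Complex.mul_conj,
    Complex.normSq_eq_norm_sq, Complex.re_ofReal_mul, Complex.re_ofReal_mul, Complex.ofReal_re]
  have b1 := (abs_le.1 (Complex.abs_re_le_norm (γ * θ * (starRingEnd ℂ) α))).1
  have b2 := (abs_le.1 (Complex.abs_re_le_norm ((α + γ * θ) * (starRingEnd ℂ) α * (h z - c)))).1
  have b3 := (abs_le.1 (Complex.abs_re_le_norm (r z * (starRingEnd ℂ) α * h z))).1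
  rw [norm_mul, norm_mul, Complex.norm_conj] at b1 b2 b3
  rw [hθ1, mul_one] at b1
  have b4 : ‖α + γ * θ‖ ≤ ‖α‖ + ‖γ‖ := (norm_add_le _ _).trans (by rw [norm_mul, hθ1, mul_one])
  have b5 : ‖α + γ * θ‖ * ‖α‖ * ‖h z - c‖ ≤ (‖α‖ + ‖γ‖) * ‖α‖ * ‖h z - c‖ := by gcongr
  have b6 := mul_le_mul_of_nonneg_left b1 hc0.le
  nlinarith

/-- the same with `α` and `γ` exchanged (or apply `local_pos` to the conjugates of `u`, `g`) -/
theorem local_neg {u g : ℂ → ℂ} {q : ℂ} (hu : DifferentiableAt ℝ u q) (h0 : u q = 0)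
    (hj : jacC u q < 0) (hg : ContinuousAt g q) (hg0 : g q ≠ 0) :
    ∃ β : ℂ, β ≠ 0 ∧
      ∀ᶠ z in 𝓝[≠] q, 0 < (u z / (starRingEnd ℂ) (z - q) * g z * (starRingEnd ℂ) β).re := by
  have hd : HasFDerivAt (fun z => (starRingEnd ℂ) (u z))
      ((Complex.conjCLE : ℂ →L[ℝ] ℂ).comp (fderiv ℝ u q)) q :=
    (Complex.conjCLE : ℂ →L[ℝ] ℂ).hasFDerivAt.comp q hu.hasFDerivAt
  obtain ⟨β, hβ, h⟩ := local_pos (u := fun z => (starRingEnd ℂ) (u z))
    (g := fun z => (starRingEnd ℂ) (g z)) (q := q) hd.differentiableAt (by simp [h0])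
    (by
      unfold jacC at hj ⊢
      rw [hd.fderiv]
      simp
      linarith)
    (Complex.continuous_conj.continuousAt.comp hg) (by simpa using hg0)
  refine ⟨(starRingEnd ℂ) β, by simpa using hβ, h.mono fun z hz => ?_⟩
  rw [← Complex.conj_re] at hz
  simpa only [map_mul, map_div₀, Complex.conj_conj] using hz

/-- `(z - p) conj (z - q) = |z|² (1 - p/z) conj (1 - q/z)` is a product of two numbers with positive
real part, so it is not a real number `≤ 0`. -/
theorem pair_ne_zero {z p q : ℂ} (hp : ‖p‖ < ‖z‖) (hq : ‖q‖ < ‖z‖) {t : ℝ} (h0 : 0 ≤ t)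
    (h1 : t ≤ 1) : ((1 - t : ℝ) : ℂ) * ((z - p) * (starRingEnd ℂ) (z - q)) + t ≠ 0 := by
  intro h
  have hz : 0 < ‖z‖ := lt_of_le_of_lt (norm_nonneg _) hp
  have key : ∀ w : ℂ, ‖w‖ < ‖z‖ → 0 < ((z - w) * (starRingEnd ℂ) z).re := fun w hw => by
    have h1 := (abs_le.1 (Complex.abs_re_le_norm (w * (starRingEnd ℂ) z))).2
    rw [norm_mul, Complex.norm_conj] at h1
    rw [sub_mul, Complex.sub_re, Complex.mul_conj, Complex.ofReal_re, Complex.normSq_eq_norm_sq]
    nlinarith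
  have ha := key p hp
  have hb := key q hq
  rw [← Complex.conj_re] at hb
  set a := (z - p) * (starRingEnd ℂ) z with hadef
  set b := (starRingEnd ℂ) ((z - q) * (starRingEnd ℂ) z) with hbdef
  have e : ((1 - t : ℝ) : ℂ) * (a * b) + ((t * ‖z‖ ^ 2 : ℝ) : ℂ) = 0 := by
    have : ((‖z‖ ^ 2 : ℝ) : ℂ) = z * (starRingEnd ℂ) z := by
      rw [Complex.mul_conj, Complex.normSq_eq_norm_sq]
    rw [Complex.ofReal_mul, this, hadef, hbdef, map_mul, Complex.conj_conj]
    linear_combination (z * (starRingEnd ℂ) z) * h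
  have e1 := congrArg Complex.re e
  have e2 := congrArg Complex.im e
  simp only [Complex.add_re, Complex.add_im, Complex.re_ofReal_mul, Complex.im_ofReal_mul,
    Complex.ofReal_re, Complex.ofReal_im, Complex.zero_re, Complex.zero_im, add_zero] at e1 e2
  rcases h1.eq_or_lt with rfl | h1
  · rw [sub_self, zero_mul, zero_add, one_mul] at e1
    exact (pow_pos hz 2).ne' e1
  · have e3 : (a * b).im = 0 := (mul_eq_zero.1 e2).resolve_left (sub_pos.2 h1).ne'
    have e4 : (a * b).re ≤ 0 := by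
      by_contra h4
      have := mul_pos (sub_pos.2 h1) (not_le.1 h4)
      have := mul_nonneg h0 (pow_pos hz 2).le
      linarith
    rw [Complex.mul_im] at e3
    rw [Complex.mul_re] at e4
    have e5 : (a.re * b.re - a.im * b.im) * b.re = a.re * (b.re ^ 2 + b.im ^ 2) := by
      linear_combination (-b.im) * e3
    have e6 : 0 < a.re * (b.re ^ 2 + b.im ^ 2) := by positivity
    nlinarith

/-- Filling finitely many punctures.  Take pairwise disjoint closed balls around the points of `Z`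
inside `O` and inside the neighbourhoods given by `hv'`, bumps `χ z` supported in them and equal to
`1` near `z`, and `v' = (1 - Σ χ z) • v + Σ χ z • β z`. -/
theorem fill_punctures {v : ℂ → ℂ} {Z O : Set ℂ} (hZ : Z.Finite) (hO : IsOpen O) (hZO : Z ⊆ O)
    (hv : ∀ z, z ∉ Z → ContDiffAt ℝ ∞ v z)
    (hv' : ∀ q ∈ Z, ∃ β : ℂ, β ≠ 0 ∧ ∀ᶠ z in 𝓝[≠] q, 0 < (v z * (starRingEnd ℂ) β).re) :
    ∃ v' : ℂ → ℂ, ContDiff ℝ ∞ v' ∧ (∀ z, z ∉ O → v' z = v z) ∧
      ∀ z, (z ∉ Z → v z ≠ 0) → v' z ≠ 0 := by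
  induction Z, hZ using Set.Finite.induction_on generalizing v with
  | empty =>
    exact ⟨v, contDiff_iff_contDiffAt.2 fun z => hv z (notMem_empty z), fun _ _ => rfl,
      fun z hz => hz (notMem_empty z)⟩
  | @insert q Z hq hZ ih =>
    obtain ⟨β, hβ, hev⟩ := hv' q (mem_insert _ _)
    have h1 : ∀ᶠ z in 𝓝 q, (z ≠ q → 0 < (v z * (starRingEnd ℂ) β).re) ∧ z ∈ O ∧ z ∉ Z :=
      (eventually_nhdsWithin_iff.1 hev).and ((hO.eventually_mem (hZO (mem_insert _ _))).and
        (hZ.isClosed.isOpen_compl.eventually_mem hq))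
    obtain ⟨ε, hε, hball⟩ := Metric.nhds_basis_closedBall.eventually_iff.1 h1
    let χ : ContDiffBump q := ⟨ε / 2, ε, half_pos hε, half_lt_self hε⟩
    have hχ0 : ∀ z, z ∉ closedBall q ε → χ z = 0 := fun z hz =>
      χ.zero_of_le_dist (le_of_lt (not_le.1 hz))
    set v₁ : ℂ → ℂ := fun z => ((1 - χ z : ℝ) : ℂ) * v z + (χ z : ℂ) * β with hv₁
    have hout : ∀ z, z ∉ closedBall q ε → v₁ z = v z := fun z hz => by simp [hv₁, hχ0 z hz]
    have hnear : v₁ =ᶠ[𝓝 q] fun _ => β := χ.eventuallyEq_one.mono fun z hz => by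
      simp only [hv₁, hz, Pi.one_apply]
      simp
    obtain ⟨v', s1, s2, s3⟩ := ih (v := v₁) ((subset_insert _ _).trans hZO)
      (fun z hz => by
        rcases eq_or_ne z q with rfl | hzq
        · exact contDiffAt_const.congr_of_eventuallyEq hnear
        · have hc : ContDiffAt ℝ ∞ (fun z => χ z) z := χ.contDiff.contDiffAt
          exact ((Complex.ofRealCLM.contDiff.contDiffAt.comp z (contDiffAt_const.sub hc)).mul
            (hv z fun h => h.elim hzq hz)).add
            ((Complex.ofRealCLM.contDiff.contDiffAt.comp z hc).mul contDiffAt_const))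
      (fun q' hq' => by
        obtain ⟨β', hβ', hev'⟩ := hv' q' (mem_insert_of_mem _ hq')
        refine ⟨β', hβ', ?_⟩
        have : ∀ᶠ z in 𝓝 q', z ∉ closedBall q ε :=
          isClosed_closedBall.isOpen_compl.eventually_mem fun h => (hball h).2.2 hq'
        filter_upwards [hev', nhdsWithin_le_nhds this] with z h1 h2
        rwa [hout z h2])
    refine ⟨v', s1, fun z hz => (s2 z hz).trans (hout z fun h => hz (hball h).2.1),
      fun z hz => s3 z fun hzZ => ?_⟩
    rcases eq_or_ne z q with rfl | hzq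
    · rw [hnear.self_of_nhds]
      exact hβ
    · by_cases hb : z ∈ closedBall q ε
      · intro h0
        have h2 := (hball hb).1 hzq
        have h3 : (v₁ z * (starRingEnd ℂ) β).re =
            (1 - χ z) * (v z * (starRingEnd ℂ) β).re + χ z * ‖β‖ ^ 2 := by
          simp only [hv₁]
          rw [add_mul, mul_assoc, mul_assoc, Complex.add_re, Complex.re_ofReal_mul,
            Complex.re_ofReal_mul, Complex.mul_conj, Complex.ofReal_re, Complex.normSq_eq_norm_sq]
        rw [h0, zero_mul, Complex.zero_re] at h3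
        have h4 : 0 ≤ χ z := χ.nonneg
        have h5 : χ z ≤ 1 := χ.le_one
        have h6 : 0 < ‖β‖ ^ 2 := pow_pos (norm_pos_iff.2 hβ) 2
        rcases h4.eq_or_lt with h7 | h7
        · rw [← h7] at h3
          linarith
        · have := mul_pos h7 h6
          have := mul_nonneg (sub_nonneg.2 h5) h2.le
          linarith
      · rw [hout z hb]
        exact hz fun h => h.elim hzq hzZ

end Crest.Agent.R216
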