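import Crest.Agent.R216.TopC2

/-! # Row 216, topology: cancelling zeros of opposite sign -/

set_option autoImplicit false
open Set Filter Metric Function
open scoped ContDiff RealInnerProductSpace Topology

noncomputable section
namespace Crest.Agent.R216

theorem TopC3_conj_smooth : ContDiff ℝ ∞ fun z : ℂ => (starRingEnd ℂ) z :=
  Complex.conjCLE.contDiff

theorem TopC3_fac_smooth (a b : ℂ) :
    ContDiff ℝ ∞ fun z : ℂ => (z - a) * (starRingEnd ℂ) (z - b) :=
  (contDiff_id.sub contDiff_const).mul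
    (TopC3_conj_smooth.comp (contDiff_id.sub contDiff_const))

theorem TopC3_fac_ne {z a b : ℂ} (ha : z ≠ a) (hb : z ≠ b) :
    (z - a) * (starRingEnd ℂ) (z - b) ≠ 0 :=
  mul_ne_zero (sub_ne_zero.2 ha) ((map_ne_zero _).2 (sub_ne_zero.2 hb))

/-- `π z = ∏ i, (z - p i) * conj (z - q i)`, `v = u / π` (smooth off the zeros; `p i ≠ q j` because
of the signs).  Take `R₁ < R₂ < R` with all `‖p i‖, ‖q i‖ < R₁` (if `k = 0` take `u' = u`), fill the
punctures of `v` inside `ball 0 R₁` (`local_pos`, `local_neg` with `g` the inverse of the other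
factors), take a bump `t` (`= 1` on `closedBall 0 R₁`, `= 0` outside `ball 0 R₂`) and
`u' = v' * ∏ i, ((1 - t) * ((z - p i) * conj (z - q i)) + t)` (`pair_ne_zero`). -/
theorem cancel_zeros_complex {u : ℂ → ℂ} (hu : ContDiff ℝ ∞ u) {R : ℝ} {k : ℕ} {p q : Fin k → ℂ}
    (hp : Injective p) (hq : Injective q) (hpR : ∀ i, ‖p i‖ < R) (hqR : ∀ i, ‖q i‖ < R)
    (hz : ∀ x ∈ closedBall (0 : ℂ) R, u x = 0 ↔ x ∈ range p ∪ range q)
    (hp' : ∀ i, 0 < jacC u (p i)) (hq' : ∀ i, jacC u (q i) < 0) :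
    ∃ u' : ℂ → ℂ, ContDiff ℝ ∞ u' ∧ (∃ R' < R, ∀ x, R' ≤ ‖x‖ → u' x = u x) ∧
      ∀ x ∈ closedBall (0 : ℂ) R, u' x ≠ 0 := by
  classical
  rcases isEmpty_or_nonempty (Fin k) with hk | ⟨⟨i₀⟩⟩
  · refine ⟨u, hu, ⟨R - 1, by linarith, fun _ _ => rfl⟩, fun x hx h => ?_⟩
    rcases (hz x hx).1 h with ⟨i, -⟩ | ⟨i, -⟩ <;> exact hk.elim i
  have hpq : ∀ i j, p i ≠ q j := fun i j h => by
    have h1 := hp' i
    rw [h] at h1
    exact lt_asymm h1 (hq' j)
  obtain ⟨R₁, hR₁, hR₁'⟩ : ∃ R₁ < R, ∀ i, ‖p i‖ < R₁ ∧ ‖q i‖ < R₁ := by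
    have h1 : ∀ᶠ r in 𝓝[<] R, ∀ i, ‖p i‖ < r ∧ ‖q i‖ < r :=
      eventually_all.2 fun i => nhdsWithin_le_nhds
        ((eventually_gt_nhds (hpR i)).and (eventually_gt_nhds (hqR i)))
    obtain ⟨r, hr, hr'⟩ := (h1.and self_mem_nhdsWithin).exists
    exact ⟨r, hr', hr⟩
  have hR0 : 0 < R₁ := (norm_nonneg _).trans_lt (hR₁' i₀).1
  obtain ⟨R₂, h12, h2R⟩ := exists_between hR₁
  set Z : Set ℂ := range p ∪ range q with hZ
  have hZf : Z.Finite := (finite_range p).union (finite_range q)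
  have hZO : Z ⊆ ball (0 : ℂ) R₁ := by
    rintro _ (⟨i, rfl⟩ | ⟨i, rfl⟩)
    · simpa using (hR₁' i).1
    · simpa using (hR₁' i).2
  set π : ℂ → ℂ := fun z => ∏ i, (z - p i) * (starRingEnd ℂ) (z - q i) with hπ
  have hπs : ContDiff ℝ ∞ π := contDiff_prod fun i _ => TopC3_fac_smooth _ _
  have hπ0 : ∀ z, z ∉ Z → π z ≠ 0 := fun z hzZ =>
    Finset.prod_ne_zero_iff.2 fun i _ => TopC3_fac_ne (fun h => hzZ (Or.inl ⟨i, h.symm⟩))
      (fun h => hzZ (Or.inr ⟨i, h.symm⟩))
  have hrest : ∀ j, ContDiff ℝ ∞ fun z : ℂ =>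
      ∏ i ∈ Finset.univ.erase j, (z - p i) * (starRingEnd ℂ) (z - q i) := fun j =>
    contDiff_prod fun i _ => TopC3_fac_smooth _ _
  have hsplit : ∀ j z, π z = (z - p j) * (starRingEnd ℂ) (z - q j) *
      ∏ i ∈ Finset.univ.erase j, (z - p i) * (starRingEnd ℂ) (z - q i) := fun j z =>
    (Finset.mul_prod_erase Finset.univ (fun i => (z - p i) * (starRingEnd ℂ) (z - q i))
      (Finset.mem_univ j)).symm
  have hu0 : ∀ z ∈ Z, u z = 0 := fun z hzZ =>
    (hz z (ball_subset_closedBall (ball_subset_ball hR₁.le (hZO hzZ)))).2 hzZ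
  obtain ⟨v', hv's, hv'e, hv'0⟩ := fill_punctures (v := fun z => u z / π z) hZf isOpen_ball hZO
    (fun z hzZ => by
      simp only [div_eq_mul_inv]
      exact hu.contDiffAt.mul (hπs.contDiffAt.inv (hπ0 z hzZ)))
    (by
      rintro _ (⟨j, rfl⟩ | ⟨j, rfl⟩)
      · have hne : (starRingEnd ℂ) (p j - q j) *
            ∏ i ∈ Finset.univ.erase j, (p j - p i) * (starRingEnd ℂ) (p j - q i) ≠ 0 :=
          mul_ne_zero ((map_ne_zero _).2 (sub_ne_zero.2 (hpq j j)))
            (Finset.prod_ne_zero_iff.2 fun i hi => TopC3_fac_ne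
              (fun h => (Finset.mem_erase.1 hi).1 (hp h).symm) (hpq j i))
        obtain ⟨β, hβ, hβ'⟩ := local_pos (u := u) (q := p j)
          (g := fun z => ((starRingEnd ℂ) (z - q j) *
            ∏ i ∈ Finset.univ.erase j, (z - p i) * (starRingEnd ℂ) (z - q i))⁻¹)
          (hu.differentiable (by simp) _) (hu0 _ (Or.inl ⟨j, rfl⟩)) (hp' j)
          (ContinuousAt.inv₀ (((TopC3_conj_smooth.comp
            (contDiff_id.sub contDiff_const)).mul (hrest j)).continuous.continuousAt) hne)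
          (inv_ne_zero hne)
        refine ⟨β, hβ, hβ'.mono fun z hz' => ?_⟩
        rw [hsplit j z, mul_assoc (z - p j), div_mul_eq_div_div, div_eq_mul_inv (u z / _)]
        exact hz'
      · have hne : (q j - p j) *
            ∏ i ∈ Finset.univ.erase j, (q j - p i) * (starRingEnd ℂ) (q j - q i) ≠ 0 :=
          mul_ne_zero (sub_ne_zero.2 (hpq j j).symm)
            (Finset.prod_ne_zero_iff.2 fun i hi => TopC3_fac_ne (hpq i j).symm
              (fun h => (Finset.mem_erase.1 hi).1 (hq h).symm))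
        obtain ⟨β, hβ, hβ'⟩ := local_neg (u := u) (q := q j)
          (g := fun z => ((z - p j) *
            ∏ i ∈ Finset.univ.erase j, (z - p i) * (starRingEnd ℂ) (z - q i))⁻¹)
          (hu.differentiable (by simp) _) (hu0 _ (Or.inr ⟨j, rfl⟩)) (hq' j)
          (ContinuousAt.inv₀ (((contDiff_id.sub contDiff_const).mul
            (hrest j)).continuous.continuousAt) hne)
          (inv_ne_zero hne)
        refine ⟨β, hβ, hβ'.mono fun z hz' => ?_⟩
        rw [hsplit j z, mul_comm (z - p j), mul_assoc ((starRingEnd ℂ) (z - q j)),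
          div_mul_eq_div_div, div_eq_mul_inv (u z / _)]
        exact hz')
  let t : ContDiffBump (0 : ℂ) := ⟨R₁, R₂, hR0, h12⟩
  have hts : ContDiff ℝ ∞ fun z => ((t z : ℝ) : ℂ) := Complex.ofRealCLM.contDiff.comp t.contDiff
  have hts' : ContDiff ℝ ∞ fun z => ((1 - t z : ℝ) : ℂ) :=
    Complex.ofRealCLM.contDiff.comp (contDiff_const.sub t.contDiff)
  refine ⟨fun z => v' z * ∏ i, (((1 - t z : ℝ) : ℂ) * ((z - p i) * (starRingEnd ℂ) (z - q i)) + t z),
    hv's.mul (contDiff_prod fun i _ => (hts'.mul (TopC3_fac_smooth _ _)).add hts),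
    ⟨R₂, h2R, fun x hx => ?_⟩, fun x hx => mul_ne_zero (hv'0 x fun hxZ => ?_) ?_⟩
  · have hxO : x ∉ ball (0 : ℂ) R₁ := fun h => by
      rw [mem_ball_zero_iff] at h
      linarith
    have ht : t x = 0 := t.zero_of_le_dist (by simpa using hx)
    have h0 := hπ0 x fun h => hxO (hZO h)
    simp only [ht, sub_zero, Complex.ofReal_one, one_mul, Complex.ofReal_zero, add_zero]
    rw [hv'e x hxO]
    exact div_mul_cancel₀ _ h0
  · exact div_ne_zero (fun h => hxZ ((hz x hx).1 h)) (hπ0 x hxZ)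
  · refine Finset.prod_ne_zero_iff.2 fun i _ => ?_
    rcases le_or_gt ‖x‖ R₁ with h | h
    · have ht : t x = 1 := t.one_of_mem_closedBall (by simpa using h)
      simp [ht]
    · exact pair_ne_zero ((hR₁' i).1.trans h) ((hR₁' i).2.trans h) (t.nonneg' x) t.le_one

/-- transport along the linear isometry `Complex.orthonormalBasisOneI.repr : ℂ ≃ₗᵢ[ℝ] E2` -/
theorem cancel_zeros {u : E2 → E2} (hu : ContDiff ℝ ∞ u) {R : ℝ} {k : ℕ} {p q : Fin k → E2}
    (hp : Injective p) (hq : Injective q) (hpR : ∀ i, ‖p i‖ < R) (hqR : ∀ i, ‖q i‖ < R)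
    (hz : ∀ x ∈ closedBall (0 : E2) R, u x = 0 ↔ x ∈ range p ∪ range q)
    (hp' : ∀ i, 0 < det2 (fderiv ℝ u (p i) b0) (fderiv ℝ u (p i) b1))
    (hq' : ∀ i, det2 (fderiv ℝ u (q i) b0) (fderiv ℝ u (q i) b1) < 0) :
    ∃ u' : E2 → E2, ContDiff ℝ ∞ u' ∧ (∃ R' < R, ∀ x, R' ≤ ‖x‖ → u' x = u x) ∧
      ∀ x ∈ closedBall (0 : E2) R, u' x ≠ 0 := by
  set L : ℂ ≃ₗᵢ[ℝ] E2 := Complex.orthonormalBasisOneI.repr with hL
  have hL1 : L 1 = b0 := by
    ext i
    fin_cases i <;> simp [hL, b0]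
  have hLI : L Complex.I = b1 := by
    ext i
    fin_cases i <;> simp [hL, b1]
  have hre : ∀ a : E2, (L.symm a).re = a 0 := fun a => by simp [hL]
  have him : ∀ a : E2, (L.symm a).im = a 1 := fun a => by simp [hL]
  have hjac : ∀ x : E2, jacC (fun z => L.symm (u (L z))) (L.symm x) =
      det2 (fderiv ℝ u x b0) (fderiv ℝ u x b1) := fun x => by
    have h1 : HasFDerivAt u (fderiv ℝ u x) (L (L.symm x)) := by
      rw [L.apply_symm_apply]
      exact (hu.differentiable (by simp) x).hasFDerivAt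
    have h2 := L.symm.toContinuousLinearEquiv.hasFDerivAt.comp (L.symm x)
      (h1.comp (L.symm x) L.toContinuousLinearEquiv.hasFDerivAt)
    have h3 : ∀ w, fderiv ℝ (fun z => L.symm (u (L z))) (L.symm x) w =
        L.symm (fderiv ℝ u x (L w)) := fun w => by
      have := h2.fderiv
      exact congrArg (fun A : ℂ →L[ℝ] ℂ => A w) this
    simp only [jacC, h3, hL1, hLI, hre, him, det2]
  obtain ⟨u', hu', ⟨R', hR', he⟩, hne⟩ := cancel_zeros_complex (u := fun z => L.symm (u (L z)))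
    (L.symm.contDiff.comp (hu.comp L.contDiff)) (R := R) (p := fun i => L.symm (p i))
    (q := fun i => L.symm (q i)) (L.symm.injective.comp hp) (L.symm.injective.comp hq)
    (fun i => by simpa using hpR i) (fun i => by simpa using hqR i)
    (fun x hx => by
      have hx' : L x ∈ closedBall (0 : E2) R := by simpa using hx
      rw [map_eq_zero_iff _ L.symm.injective, hz _ hx']
      simp only [mem_union, mem_range, LinearIsometryEquiv.symm_apply_eq])
    (fun i => by rw [hjac]; exact hp' i) (fun i => by rw [hjac]; exact hq' i)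
  refine ⟨fun x => L (u' (L.symm x)), L.contDiff.comp (hu'.comp L.symm.contDiff),
    ⟨R', hR', fun x hx => ?_⟩, fun x hx h => ?_⟩
  · simp [he (L.symm x) (by simpa using hx)]
  · exact hne (L.symm x) (by simpa using hx) ((map_eq_zero_iff _ L.injective).1 h)

end Crest.Agent.R216
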