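import Crest.Agent.R216.AtlL2

/-!
# Row 216, topology: definitions

Goal (`Top.lean`): every compact surface has an immersion into `ℝ³`.

1. `TopE*`: injective immersion into a big space, generic projections (easy Sard theorem) give
   `f : M → ℝ⁴` with `Gen4 f` (immersion, transverse double points, non-degenerate tangencies with
   `e3`).
2. `TopP*`: a map of a compact manifold to a vector space of the same dimension has an even number
   of regular zeros.  Applied to `(y, y') ↦ f y - f y' - χ • n y'` on `M × M` (`n` the normal part of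
   `e3`) this shows that the number of points where `e3` is tangent is even on every clopen set.
3. `TopM*`, `TopC*`: these points are the defects of the formal map `init4 ∘ df : TM → ℝ³`.  Defects
   of formal maps can be moved into one chart and cancelled in pairs.
4. `TopH*`: h-principle (one explicit corrugation per chart and direction).
-/

set_option autoImplicit false
open Set Filter Metric Function
open scoped ContDiff RealInnerProductSpace Topology

noncomputable section
namespace Crest.Agent.R216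

/-- cross product -/
def cr3 (u v : E3) : E3 :=
  !₂[u 1 * v 2 - u 2 * v 1, u 2 * v 0 - u 0 * v 2, u 0 * v 1 - u 1 * v 0]

/-- determinant of three vectors -/
def det3 (u v w : E3) : ℝ := ⟪u, cr3 v w⟫

/-- `(v, t) ∈ ℝ⁴` -/
def snoc3 (v : E3) (t : ℝ) : E4 := !₂[v 0, v 1, v 2, t]

/-- the first three coordinates -/
def init4 : E4 →L[ℝ] E3 :=
  (EuclideanSpace.proj (0 : Fin 4) : E4 →L[ℝ] ℝ).smulRight (EuclideanSpace.single (0 : Fin 3) (1 : ℝ))
  + (EuclideanSpace.proj (1 : Fin 4) : E4 →L[ℝ] ℝ).smulRight (EuclideanSpace.single (1 : Fin 3) (1 : ℝ))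
  + (EuclideanSpace.proj (2 : Fin 4) : E4 →L[ℝ] ℝ).smulRight (EuclideanSpace.single (2 : Fin 3) (1 : ℝ))

/-- the last basis vector of `ℝ⁴` -/
def e3 : E4 := EuclideanSpace.single 3 1

/-- determinant of four vectors (expansion along the last coordinate) -/
def det4 (u v w z : E4) : ℝ :=
  - u 3 * det3 (init4 v) (init4 w) (init4 z) + v 3 * det3 (init4 u) (init4 w) (init4 z)
    - w 3 * det3 (init4 u) (init4 v) (init4 z) + z 3 * det3 (init4 u) (init4 v) (init4 w)

/-- generalised cross product: `⟪cr4 u v w, z⟫ = det4 u v w z` -/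
def cr4 (u v w : E4) : E4 :=
  !₂[det4 u v w (EuclideanSpace.single 0 1), det4 u v w (EuclideanSpace.single 1 1),
    det4 u v w (EuclideanSpace.single 2 1), det4 u v w (EuclideanSpace.single 3 1)]

/-- imaginary part of the quaternion `conj n * w` (the real part is the last coordinate) -/
def q4 (n w : E4) : E3 := n 3 • init4 w - w 3 • init4 n - cr3 (init4 n) (init4 w)

section
variable {W : Type*} [NormedAddCommGroup W] [NormedSpace ℝ W]

/-- `φ` is injective at `x` or has a non-degenerate defect (a formal cross-cap) there -/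
def NdAt (φ : E2 → (E2 →L[ℝ] W)) (x : E2) : Prop :=
  φ x ≠ 0 ∧ ∀ v, v ≠ 0 → φ x v = 0 → ∀ ξ η, fderiv ℝ φ x ξ v + φ x η = 0 → ξ = 0

/-- the set of defects -/
def Df (φ : E2 → (E2 →L[ℝ] W)) : Set E2 := {x | ¬ Injective (φ x)}

end

/-- the cross product of the two columns -/
def crs (φ : E2 → (E2 →L[ℝ] E3)) (x : E2) : E3 := cr3 (φ x b0) (φ x b1)

/-- even number of points in every clopen set -/
def Par {M : Type*} [TopologicalSpace M] (S : Set M) : Prop :=
  ∀ C : Set M, IsClopen C → Even (S ∩ C).ncard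

namespace Atl

section prod
variable {V V' : Type} [NormedAddCommGroup V] [NormedSpace ℝ V] [NormedAddCommGroup V']
  [NormedSpace ℝ V'] {M M' : Type*} [TopologicalSpace M] [TopologicalSpace M']

/-- product atlas -/
def prod (A : Atl V M) (B : Atl V' M') : Atl (V × V') (M × M') where
  ι := A.ι × B.ι
  fin := inferInstance
  e := fun a => (A.e a.1).prod (B.e a.2)
  tgt := fun a => by simp [A.tgt, B.tgt]
  smooth := fun a b => by
    have h1 := (A.smooth a.1 b.1).comp (contDiffOn_fst (𝕜 := ℝ) (n := ∞)
      (s := ((A.e a.1).prod (B.e a.2)).symm ⁻¹' ((A.e b.1).prod (B.e b.2)).source))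
      (fun x hx => by simpa using hx.1)
    have h2 := (B.smooth a.2 b.2).comp (contDiffOn_snd (𝕜 := ℝ) (n := ∞)
      (s := ((A.e a.1).prod (B.e a.2)).symm ⁻¹' ((A.e b.1).prod (B.e b.2)).source))
      (fun x hx => by simpa using hx.2)
    exact h1.prodMk h2
  cover := fun y => by
    obtain ⟨a, ha, ha'⟩ := A.cover y.1
    obtain ⟨b, hb, hb'⟩ := B.cover y.2
    refine ⟨(a, b), ⟨ha, hb⟩, ?_⟩
    change ‖(A.e a y.1, B.e b y.2)‖ < 1
    rw [Prod.norm_def]
    exact max_lt ha' hb'

theorem prod_p (A : Atl V M) (B : Atl V' M') (a : A.ι) (b : B.ι) (z : V × V') :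
    (A.prod B).p (a, b) z = (A.p a z.1, B.p b z.2) := rfl

end prod

variable {M : Type*} [TopologicalSpace M] (A : Atl E2 M)

section
variable {W : Type*} [NormedAddCommGroup W] [NormedSpace ℝ W]

/-- a smooth bundle map `TM → W`, given by its chart expressions -/
structure Frm (φ : A.ι → E2 → (E2 →L[ℝ] W)) : Prop where
  smooth : ∀ a, ContDiff ℝ ∞ (φ a)
  compat : ∀ a b, ∀ x ∈ A.O a b, φ a x = (φ b (A.T a b x)).comp (fderiv ℝ (A.T a b) x)

/-- the differential of `F`, as a bundle map -/
def dF (F : M → W) : A.ι → E2 → (E2 →L[ℝ] W) := fun a x => fderiv ℝ (fun x => F (A.p a x)) x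

/-- there is an injective immersion into `W` -/
def EmbIn (W : Type*) [NormedAddCommGroup W] [NormedSpace ℝ W] : Prop :=
  ∃ f : M → W, A.Sm f ∧ A.Imm f ∧ Injective f

/-- double points are transverse -/
def Dbl (f : M → W) : Prop :=
  ∀ a b x x', A.p a x ≠ A.p b x' → f (A.p a x) = f (A.p b x') →
    ∀ ξ η, A.dF f a x ξ = A.dF f b x' η → ξ = 0

/-- tangencies with the vector `y` are non-degenerate -/
def Tng (f : M → W) (y : W) : Prop :=
  ∀ a x v, A.dF f a x v = y →
    ∀ ξ η, d2 (fun x => f (A.p a x)) x ξ v + A.dF f a x η = 0 → ξ = 0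

end

/-- `S` is the set of defects of a bundle map `TM → ℝ³` with non-degenerate defects -/
def Real (S : Set M) : Prop :=
  ∃ φ : A.ι → E2 → (E2 →L[ℝ] E3), A.Frm φ ∧ (∀ a x, NdAt (φ a) x) ∧
    ∀ a x, x ∈ Df (φ a) ↔ A.p a x ∈ S

/-- generic immersion into `ℝ⁴` -/
structure Gen4 (f : M → E4) : Prop where
  sm : A.Sm f
  imm : A.Imm f
  dbl : A.Dbl f
  tng : A.Tng f e3

/-- points at which `e3` is tangent -/
def Tan (f : M → E4) : Set M := {y | ∃ a x v, y = A.p a x ∧ A.dF f a x v = e3}

end Atl

end Crest.Agent.R216
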