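import Crest.Agent.R216.TopS

/-! # Row 216, topology: embedding into a Euclidean space and first projections -/

set_option autoImplicit false
open Set Filter Metric Function
open scoped ContDiff RealInnerProductSpace Topology

noncomputable section
namespace Crest.Agent.R216

namespace Atl

variable {M : Type*} [TopologicalSpace M] (A : Atl E2 M)

theorem TopE1_fderiv {A : Atl E2 M} {W W' : Type*} [NormedAddCommGroup W] [NormedSpace ℝ W]
    [NormedAddCommGroup W'] [NormedSpace ℝ W'] {f : M → W} (hf : A.Sm f) (L : W →L[ℝ] W')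
    (a : A.ι) (x v : E2) :
    fderiv ℝ (fun x => L (f (A.p a x))) x v = L (fderiv ℝ (fun x => f (A.p a x)) x v) := by
  have h := L.hasFDerivAt.comp x (((hf a).differentiable (by simp)) x).hasFDerivAt
  exact congrArg (fun T : E2 →L[ℝ] W' => T v) h.fderiv

theorem EmbIn.map {A : Atl E2 M} {W W' : Type*} [NormedAddCommGroup W] [NormedSpace ℝ W]
    [NormedAddCommGroup W'] [NormedSpace ℝ W'] (h : A.EmbIn W) (L : W →L[ℝ] W')
    (hL : Injective L) : A.EmbIn W' := by
  obtain ⟨f, h1, h2, h3⟩ := h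
  refine ⟨fun y => L (f y), h1.comp L.contDiff, fun a x v w hvw => ?_, hL.comp h3⟩
  rw [TopE1_fderiv h1, TopE1_fderiv h1] at hvw
  exact h2 a x (hL hvw)

/-- `f y a = (push a β y, push a (β • id) y)` with a bump `β` that is `1` on `closedBall 0 1` and
has compact support.  If `y` is in the unit ball of chart `a` and `f y = f y'` then
`push a β y' = 1`, so `y'` is in the source and `e a y' = e a y`.  Immersion: `Imm_of_local`, the
component `(a, 2)` of `f ∘ p a` is the identity near `x`. -/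
theorem embIn_pi [T2Space M] : A.EmbIn (A.ι → ℝ × E2) := by
  let β : ContDiffBump (0 : E2) := ⟨1, 2, one_pos, one_lt_two⟩
  have hβ : ∀ x : E2, ‖x‖ < 1 → β x = 1 := fun x hx =>
    β.one_of_mem_closedBall (mem_closedBall_zero_iff.mpr hx.le)
  have s1 : ∀ a, A.Sm (A.push a β) := fun a => A.Sm_push a β.contDiff β.hasCompactSupport
  have s2 : ∀ a, A.Sm (A.push a fun x : E2 => β x • x) := fun a =>
    A.Sm_push a (β.contDiff.smul contDiff_id) β.hasCompactSupport.smul_right
  have hs : A.Sm fun y a => (A.push a β y, A.push a (fun x : E2 => β x • x) y) := fun b =>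
    contDiff_pi.mpr fun a => (s1 a b).prodMk (s2 a b)
  refine ⟨_, hs, Imm_of_local hs fun a x hx v w hvw => ?_, fun y y' h => ?_⟩
  · let Λ : (A.ι → ℝ × E2) →L[ℝ] E2 :=
      (ContinuousLinearMap.snd ℝ ℝ E2).comp (ContinuousLinearMap.proj a)
    have e := congrArg Λ hvw
    rw [← TopE1_fderiv hs, ← TopE1_fderiv hs] at e
    have e1 : (fun x => Λ (fun b => (A.push b β (A.p a x),
        A.push b (fun x : E2 => β x • x) (A.p a x)))) =ᶠ[𝓝 x] id := by
      filter_upwards [(isOpen_lt continuous_norm continuous_const).mem_nhds hx] with z hz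
      change A.push a (fun x : E2 => β x • x) (A.p a z) = z
      rw [push_p, hβ z hz, one_smul]
    rw [e1.fderiv_eq, fderiv_id] at e
    exact e
  · obtain ⟨a, ha, ha1⟩ := A.cover y
    have h1 : A.push a β y = A.push a β y' := congrArg Prod.fst (congrFun h a)
    have h2 : A.push a (fun x : E2 => β x • x) y = A.push a (fun x : E2 => β x • x) y' :=
      congrArg Prod.snd (congrFun h a)
    have ha' : y' ∈ (A.e a).source := by
      by_contra hn
      simp only [push, if_pos ha, if_neg hn, hβ _ ha1] at h1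
      exact one_ne_zero h1
    simp only [push, if_pos ha, if_pos ha', hβ _ ha1] at h1 h2
    rw [← h1, one_smul, one_smul] at h2
    exact (A.e a).injOn ha ha' h2

/-- Projection along a generic direction.  `g = f.1 - f.2 • y` is an injective immersion unless `y`
lies in the image of one of the maps (for charts `a, b`, `F = f ∘ p a`, `F' = f ∘ p b`)
`(x, x') ↦ ((F x).2 - (F' x').2)⁻¹ • ((F x).1 - (F' x').1)` on `{(F x).2 ≠ (F' x').2}` and
`(x, v) ↦ ((dF x v).2)⁻¹ • (dF x v).1` on `{(dF x v).2 ≠ 0}`; these are null sets (`null_image`,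
`finrank (E2 × E2) = 4`; use `borel W`, `Measure.addHaar`). -/
theorem EmbIn.proj {A : Atl E2 M} {W : Type*} [NormedAddCommGroup W] [NormedSpace ℝ W]
    [FiniteDimensional ℝ W] (hd : 5 ≤ Module.finrank ℝ W) (h : A.EmbIn (W × ℝ)) : A.EmbIn W := by
  obtain ⟨f, h1, h2, h3⟩ := h
  borelize W
  let μ : MeasureTheory.Measure W := MeasureTheory.Measure.addHaar
  have hdim : Module.finrank ℝ (E2 × E2) < Module.finrank ℝ W := by
    simp only [Module.finrank_prod, finrank_euclideanSpace, Fintype.card_fin]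
    omega
  have hdf : ∀ a, Differentiable ℝ fun x => f (A.p a x) := fun a =>
    (h1 a).differentiable (by simp)
  have n1 : ∀ a b : A.ι, μ ((fun z : E2 × E2 => ((f (A.p a z.1)).2 - (f (A.p b z.2)).2)⁻¹ •
      ((f (A.p a z.1)).1 - (f (A.p b z.2)).1)) ''
      {z | (f (A.p a z.1)).2 - (f (A.p b z.2)).2 ≠ 0}) = 0 := by
    intro a b
    refine null_image μ hdim fun z hz => ?_
    have d1 : DifferentiableAt ℝ (fun z : E2 × E2 => f (A.p a z.1)) z :=
      (hdf a z.1).comp z differentiableAt_fst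
    have d2 : DifferentiableAt ℝ (fun z : E2 × E2 => f (A.p b z.2)) z :=
      (hdf b z.2).comp z differentiableAt_snd
    exact ((d1.snd.sub d2.snd).inv hz).smul (d1.fst.sub d2.fst)
  have n2 : ∀ a : A.ι, μ ((fun z : E2 × E2 =>
      (fderiv ℝ (fun x => f (A.p a x)) z.1 z.2).2⁻¹ • (fderiv ℝ (fun x => f (A.p a x)) z.1 z.2).1) ''
      {z | (fderiv ℝ (fun x => f (A.p a x)) z.1 z.2).2 ≠ 0}) = 0 := by
    intro a
    refine null_image μ hdim fun z hz => ?_
    have d0 : Differentiable ℝ (fderiv ℝ fun x => f (A.p a x)) :=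
      ((h1 a).fderiv_right (m := 1) (by norm_cast)).differentiable (by simp)
    have d1 : DifferentiableAt ℝ
        (fun z : E2 × E2 => fderiv ℝ (fun x => f (A.p a x)) z.1 z.2) z :=
      ((d0 z.1).comp z differentiableAt_fst).clm_apply differentiableAt_snd
    exact (d1.snd.inv hz).smul d1.fst
  have a1 := MeasureTheory.ae_all_iff.mpr fun a => MeasureTheory.ae_all_iff.mpr fun b =>
    MeasureTheory.measure_eq_zero_iff_ae_notMem.mp (n1 a b)
  have a2 := MeasureTheory.ae_all_iff.mpr fun a =>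
    MeasureTheory.measure_eq_zero_iff_ae_notMem.mp (n2 a)
  obtain ⟨y, hy1, hy2⟩ := (a1.and a2).exists
  let L : W × ℝ →L[ℝ] W :=
    ContinuousLinearMap.fst ℝ W ℝ - (ContinuousLinearMap.snd ℝ W ℝ).smulRight y
  have hL : ∀ w : W × ℝ, L w = 0 → w = 0 ∨ (w.2 ≠ 0 ∧ w.2⁻¹ • w.1 = y) := by
    intro w hw
    have e : w.1 = w.2 • y := sub_eq_zero.mp hw
    by_cases h0 : w.2 = 0
    · exact Or.inl (Prod.ext (by rw [e, h0, zero_smul]; rfl) h0)
    · exact Or.inr ⟨h0, by rw [e, smul_smul, inv_mul_cancel₀ h0, one_smul]⟩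
  refine ⟨fun m => L (f m), h1.comp L.contDiff, fun a x => ?_, fun m m' hm => ?_⟩
  · refine (injective_iff_map_eq_zero _).mpr fun v hv => ?_
    rw [TopE1_fderiv h1] at hv
    rcases hL _ hv with h0 | h0
    · exact (injective_iff_map_eq_zero _).mp (h2 a x) v h0
    · exact absurd ⟨(x, v), h0.1, h0.2⟩ (hy2 a)
  · have hv : L (f m - f m') = 0 := by rw [map_sub]; exact sub_eq_zero.mpr hm
    rcases hL _ hv with h0 | h0
    · exact h3 (sub_eq_zero.mp h0)
    · obtain ⟨a, ha, -⟩ := A.cover m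
      obtain ⟨b, hb, -⟩ := A.cover m'
      refine absurd ⟨(A.e a m, A.e b m'), ?_, ?_⟩ (hy1 a b)
      · simp only [mem_ofPred_eq, A.p_e a ha, A.p_e b hb]
        exact h0.1
      · simp only [A.p_e a ha, A.p_e b hb]
        exact h0.2

theorem TopE1_down {A : Atl E2 M} (n : ℕ) : ∀ (W : Type) [NormedAddCommGroup W] [NormedSpace ℝ W]
    [FiniteDimensional ℝ W], Module.finrank ℝ W = 5 + n → A.EmbIn W → A.EmbIn (E4 × ℝ) := by
  induction n with
  | zero =>
    intro W _ _ _ hd h
    have e : W ≃L[ℝ] (E4 × ℝ) := ContinuousLinearEquiv.ofFinrankEq (by simp [hd])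
    exact h.map (e : W →L[ℝ] (E4 × ℝ)) e.injective
  | succ n ih =>
    intro W _ _ _ hd h
    have e : W ≃L[ℝ] (EuclideanSpace ℝ (Fin (5 + n)) × ℝ) :=
      ContinuousLinearEquiv.ofFinrankEq (by simp [hd]; ring)
    exact ih (EuclideanSpace ℝ (Fin (5 + n))) (by simp)
      (EmbIn.proj (by simp) (h.map (e : W →L[ℝ] _) e.injective))

/-- `embIn_pi`, `EmbIn.map` into `EuclideanSpace ℝ (Fin (5 + n))` (`n` the dimension; e.g. first
`inl` into `W × EuclideanSpace ℝ (Fin 5)`, then `ContinuousLinearEquiv.ofFinrankEq`), induction on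
`n` with `EmbIn.proj`. -/
theorem embIn_five [T2Space M] : A.EmbIn (E4 × ℝ) := by
  refine TopE1_down (Module.finrank ℝ (A.ι → ℝ × E2))
    ((A.ι → ℝ × E2) × EuclideanSpace ℝ (Fin 5)) ?_
    (A.embIn_pi.map (ContinuousLinearMap.inl ℝ _ _) fun x y h => congrArg Prod.fst h)
  rw [Module.finrank_prod, finrank_euclideanSpace, Fintype.card_fin, add_comm]

end Atl

end Crest.Agent.R216
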