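import Crest.Agent.R216.TopA

/-! # Row 216, topology: one corrugation -/

set_option autoImplicit false
open Set Filter Metric Function
open scoped ContDiff RealInnerProductSpace Topology

noncomputable section
namespace Crest.Agent.R216

theorem topH1_ne {P Q : E3} (h : cr3 P Q ≠ 0) : cr3 (cr3 P Q) Q ≠ 0 := by
  intro h0
  have h1 := cr3_cr3 Q (cr3 P Q) Q
  have h2 := cr3_cr3 (cr3 P Q) (cr3 P Q) Q
  have hQ : Q ≠ 0 := by
    rintro rfl
    refine h (topA_ext3 ?_ ?_ ?_) <;> simp [topA_cr3_0, topA_cr3_1, topA_cr3_2]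
  have h3 : cr3 Q (0 : E3) = 0 := by
    refine topA_ext3 ?_ ?_ ?_ <;> simp [topA_cr3_0, topA_cr3_1, topA_cr3_2]
  rw [h0, h3, inner_cr3_right, zero_smul, sub_zero] at h1
  rcases smul_eq_zero.1 h1.symm with h4 | h4
  · exact hQ ((inner_self_eq_zero (𝕜 := ℝ)).1 h4)
  · exact h h4

/-- With `c = P × Q`, `γ = P + β D + β R (cos s • c - cos (2 s) • P)` one has
`γ × Q = (1 - β R cos 2s) c + β D × Q + β R cos s • (c × Q)`.  Pair with `c` and with `c × Q`
(orthogonal, non-zero: `‖c × Q‖² = ‖c‖² ‖Q‖²`).  If `γ × Q = 0` then `β ≠ 0`, `|cos s| ≤ 1/2`, so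
`- cos 2s ≥ 1/2`, and `1 + β (δ₁ - R cos 2s) ≥ 1`, a contradiction. -/
theorem loop_ne_zero {P Q D : E3} (h : cr3 P Q ≠ 0) {β R : ℝ} (hβ : 0 ≤ β) (hR : 0 < R)
    (h1 : 2 * |⟪cr3 D Q, cr3 P Q⟫| ≤ R * ‖cr3 P Q‖ ^ 2)
    (h2 : 2 * |⟪cr3 D Q, cr3 (cr3 P Q) Q⟫| ≤ R * ‖cr3 (cr3 P Q) Q‖ ^ 2) (s : ℝ) :
    cr3 (P + β • D + (β * R) • (Real.cos s • cr3 P Q - Real.cos (2 * s) • P)) Q ≠ 0 := by
  intro h0
  have he := topH1_ne h
  have e : cr3 (P + β • D + (β * R) • (Real.cos s • cr3 P Q - Real.cos (2 * s) • P)) Q =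
      (1 - β * R * Real.cos (2 * s)) • cr3 P Q + β • cr3 D Q +
        (β * R * Real.cos s) • cr3 (cr3 P Q) Q := by
    refine topA_ext3 ?_ ?_ ?_ <;>
      simp only [topA_cr3_0, topA_cr3_1, topA_cr3_2, PiLp.add_apply, PiLp.sub_apply,
        PiLp.smul_apply, smul_eq_mul] <;> ring
  rw [e] at h0
  have o1 := inner_cr3_left (cr3 P Q) Q
  have o2 : ⟪cr3 (cr3 P Q) Q, cr3 P Q⟫ = 0 := by rw [real_inner_comm, o1]
  have e1 := congrArg (fun z => ⟪z, cr3 P Q⟫) h0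
  have e2 := congrArg (fun z => ⟪z, cr3 (cr3 P Q) Q⟫) h0
  simp only [inner_add_left, real_inner_smul_left, inner_zero_left, real_inner_self_eq_norm_sq,
    o1, o2, mul_zero, zero_add, add_zero] at e1 e2
  have n1 : 0 < ‖cr3 P Q‖ ^ 2 := by positivity
  have n2 : 0 < ‖cr3 (cr3 P Q) Q‖ ^ 2 := by positivity
  generalize ‖cr3 P Q‖ ^ 2 = A at *
  generalize ‖cr3 (cr3 P Q) Q‖ ^ 2 = B at *
  generalize ⟪cr3 D Q, cr3 P Q⟫ = a at *
  generalize ⟪cr3 D Q, cr3 (cr3 P Q) Q⟫ = b at *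
  rcases hβ.eq_or_lt with rfl | hβ'
  · simp at e1
    exact n1.ne' e1
  have e3 : b = -(R * B * Real.cos s) := by
    apply mul_left_cancel₀ hβ'.ne'
    linarith
  have hRB : 0 < R * B := mul_pos hR n2
  have c1 : |Real.cos s| ≤ 1 / 2 := by
    rw [e3, abs_neg, abs_mul, abs_of_pos hRB] at h2
    by_contra h3
    nlinarith [not_le.1 h3]
  have c2 : Real.cos (2 * s) ≤ -(1 / 2) := by
    rw [Real.cos_two_mul]
    have := sq_le_sq' (abs_le.1 c1).1 (abs_le.1 c1).2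
    linarith
  have c3 : -(R * A) ≤ 2 * a := by linarith [neg_abs_le a]
  have c4 : β * -(R * A) ≤ β * (2 * a) := mul_le_mul_of_nonneg_left c3 hβ
  have c5 : β * R * A * Real.cos (2 * s) ≤ β * R * A * -(1 / 2) :=
    mul_le_mul_of_nonneg_left c2 (by positivity)
  linarith

theorem topH1_fderiv {a b : E2 → E3} (ha : Differentiable ℝ a) (hb : Differentiable ℝ b)
    (l : E2 →L[ℝ] ℝ) {N : ℝ} (hN : N ≠ 0) (x w : E2) :
    fderiv ℝ (fun x => N⁻¹ • (Real.sin (N * l x) • a x - (Real.sin (2 * (N * l x)) / 2) • b x)) x w =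
      l w • (Real.cos (N * l x) • a x - Real.cos (2 * (N * l x)) • b x) +
        N⁻¹ • (Real.sin (N * l x) • fderiv ℝ a x w -
          (Real.sin (2 * (N * l x)) / 2) • fderiv ℝ b x w) := by
  have h1 : HasFDerivAt (fun x => N * l x) (N • l) x := l.hasFDerivAt.const_mul N
  have h2 := ((h1.const_mul 2).sin).mul_const (2 : ℝ)⁻¹
  have h3 := ((h1.sin.smul (ha x).hasFDerivAt).sub (h2.smul (hb x).hasFDerivAt)).const_smul N⁻¹
  have h4 := congrArg (fun L : E2 →L[ℝ] E3 => L w) h3.fderiv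
  refine Eq.trans ?_ (h4.trans ?_)
  · rfl
  · simp only [smul_apply, add_apply, sub_apply, ContinuousLinearMap.smulRight_apply, smul_eq_mul]
    match_scalars <;> field_simp

/-- `G x = N⁻¹ • (sin (N l x) • a x - (sin (2 N l x) / 2) • b x)` with `a = β R • (P × Q)`,
`b = β R • P` (smooth, compact support, so `‖Da‖, ‖Db‖ ≤ C`).  `dG u = cos • a - cos 2 • b + O(1/N)`,
`dG v = O(1/N)`.  `R` exists by compactness of `tsupport β`; on the compact set
`tsupport β ×ˢ [0, 2π]` (or: parametrise by `cos s ∈ [-1, 1]`, `cos 2s = 2 cos² s - 1`) the norm of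
`γ × Q` is bounded below and `‖γ‖, ‖Q‖` are bounded above (`norm_cr3_le`); off `tsupport β`,
`β = 0` and `dG = 0`. -/
theorem corr_dir {P Q D : E2 → E3} (hP : ContDiff ℝ ∞ P) (hQ : ContDiff ℝ ∞ Q)
    (hD : ContDiff ℝ ∞ D) (hPQ : ∀ x, cr3 (P x) (Q x) ≠ 0) {β : E2 → ℝ} (hβ : ContDiff ℝ ∞ β)
    (hc : HasCompactSupport β) (h0 : ∀ x, 0 ≤ β x) (l : E2 →L[ℝ] ℝ) {u v : E2} (hu : l u = 1)
    (hv : l v = 0) :
    ∃ G : E2 → E3, ContDiff ℝ ∞ G ∧ tsupport G ⊆ tsupport β ∧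
      ∀ x, cr3 (P x + β x • D x + fderiv ℝ G x u) (Q x + fderiv ℝ G x v) ≠ 0 := by
  obtain ⟨L, hL⟩ := exists_crL
  have hcs : ContDiff ℝ ∞ fun x => cr3 (P x) (Q x) := by
    simp only [← hL]
    exact (L.contDiff.comp hP).clm_apply hQ
  have cP := hP.continuous
  have cQ := hQ.continuous
  have cD := hD.continuous
  have cβ := hβ.continuous
  obtain ⟨R, hR, hR1, hR2⟩ : ∃ R : ℝ, 0 < R ∧ (∀ x ∈ tsupport β,
      2 * |⟪cr3 (D x) (Q x), cr3 (P x) (Q x)⟫| ≤ R * ‖cr3 (P x) (Q x)‖ ^ 2) ∧ ∀ x ∈ tsupport β,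
      2 * |⟪cr3 (D x) (Q x), cr3 (cr3 (P x) (Q x)) (Q x)⟫| ≤
        R * ‖cr3 (cr3 (P x) (Q x)) (Q x)‖ ^ 2 := by
    have n1 : ∀ x, 0 < ‖cr3 (P x) (Q x)‖ ^ 2 := fun x => by have := hPQ x; positivity
    have n2 : ∀ x, 0 < ‖cr3 (cr3 (P x) (Q x)) (Q x)‖ ^ 2 := fun x => by
      have := topH1_ne (hPQ x); positivity
    have k1 : Continuous fun x =>
        2 * |⟪cr3 (D x) (Q x), cr3 (P x) (Q x)⟫| / ‖cr3 (P x) (Q x)‖ ^ 2 := by
      refine Continuous.div ?_ ?_ fun x => (n1 x).ne' <;> simp only [← hL] <;> fun_prop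
    have k2 : Continuous fun x => 2 * |⟪cr3 (D x) (Q x), cr3 (cr3 (P x) (Q x)) (Q x)⟫| /
        ‖cr3 (cr3 (P x) (Q x)) (Q x)‖ ^ 2 := by
      refine Continuous.div ?_ ?_ fun x => (n2 x).ne' <;> simp only [← hL] <;> fun_prop
    obtain ⟨R1, b1⟩ := hc.isCompact.bddAbove_image k1.continuousOn
    obtain ⟨R2, b2⟩ := hc.isCompact.bddAbove_image k2.continuousOn
    refine ⟨max 1 (max R1 R2), lt_max_of_lt_left one_pos, fun x hx => ?_, fun x hx => ?_⟩
    · exact (div_le_iff₀ (n1 x)).1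
        ((b1 (mem_image_of_mem _ hx)).trans (le_max_of_le_right (le_max_left _ _)))
    · exact (div_le_iff₀ (n2 x)).1
        ((b2 (mem_image_of_mem _ hx)).trans (le_max_of_le_right (le_max_right _ _)))
  set a : E2 → E3 := fun x => (β x * R) • cr3 (P x) (Q x) with ha
  set b : E2 → E3 := fun x => (β x * R) • P x with hb
  have sa : ContDiff ℝ ∞ a := (hβ.mul contDiff_const).smul hcs
  have sb : ContDiff ℝ ∞ b := (hβ.mul contDiff_const).smul hP
  have ka : HasCompactSupport a := hc.mono fun x hx h => hx (by simp [ha, h])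
  have kb : HasCompactSupport b := hc.mono fun x hx h => hx (by simp [hb, h])
  obtain ⟨Ca, hCa⟩ := (sa.continuous_fderiv (by simp)).bounded_above_of_compact_support (ka.fderiv ℝ)
  obtain ⟨Cb, hCb⟩ := (sb.continuous_fderiv (by simp)).bounded_above_of_compact_support (kb.fderiv ℝ)
  have Ca0 : 0 ≤ Ca := (norm_nonneg _).trans (hCa 0)
  have Cb0 : 0 ≤ Cb := (norm_nonneg _).trans (hCb 0)
  have hF : Continuous fun z : (E3 × E3) × (E2 × ℝ) =>
      cr3 (P z.2.1 + β z.2.1 • D z.2.1 + ((z.2.2 • a z.2.1 - (2 * z.2.2 ^ 2 - 1) • b z.2.1) + z.1.1))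
        (Q z.2.1 + z.1.2) := by
    have := sa.continuous
    have := sb.continuous
    simp only [← hL]
    fun_prop
  have hev : ∀ᶠ y : E3 × E3 in 𝓝 0, ∀ z ∈ tsupport β ×ˢ Icc (-1 : ℝ) 1,
      cr3 (P z.1 + β z.1 • D z.1 + ((z.2 • a z.1 - (2 * z.2 ^ 2 - 1) • b z.1) + y.1))
        (Q z.1 + y.2) ≠ 0 := by
    refine (hc.isCompact.prod isCompact_Icc).eventually_forall_of_forall_eventually
      fun z hz => hF.continuousAt.eventually_ne ?_
    have h1 := loop_ne_zero (hPQ z.1) (h0 z.1) hR (hR1 z.1 hz.1) (hR2 z.1 hz.1) (Real.arccos z.2)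
    rw [Real.cos_two_mul, Real.cos_arccos hz.2.1 hz.2.2] at h1
    convert h1 using 2
    · simp only [ha, hb, Prod.fst_zero, add_zero]
      module
    · simp
  obtain ⟨ε, hε, hball⟩ := Metric.eventually_nhds_iff.1 hev
  set B := (Ca + Cb) * (‖u‖ + ‖v‖) with hB
  have B0 : 0 ≤ B := by positivity
  set N := (B + 1) / ε with hN
  have N0 : 0 < N := by positivity
  have hsm : ∀ x w, ‖w‖ ≤ ‖u‖ + ‖v‖ → ‖N⁻¹ • (Real.sin (N * l x) • fderiv ℝ a x w -
      (Real.sin (2 * (N * l x)) / 2) • fderiv ℝ b x w)‖ < ε := by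
    intro x w hw
    have e1 : ‖Real.sin (N * l x) • fderiv ℝ a x w‖ ≤ Ca * (‖u‖ + ‖v‖) := by
      rw [norm_smul]
      refine (mul_le_of_le_one_left (norm_nonneg _) (Real.abs_sin_le_one _)).trans ?_
      exact ((fderiv ℝ a x).le_opNorm w).trans (mul_le_mul (hCa x) hw (norm_nonneg _) Ca0)
    have e2 : ‖(Real.sin (2 * (N * l x)) / 2) • fderiv ℝ b x w‖ ≤ Cb * (‖u‖ + ‖v‖) := by
      rw [norm_smul]
      refine (mul_le_of_le_one_left (norm_nonneg _) ?_).trans ?_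
      · rw [Real.norm_eq_abs, abs_div, abs_two]
        linarith [Real.abs_sin_le_one (2 * (N * l x))]
      · exact ((fderiv ℝ b x).le_opNorm w).trans (mul_le_mul (hCb x) hw (norm_nonneg _) Cb0)
    rw [norm_smul, norm_inv, Real.norm_of_nonneg N0.le, inv_mul_lt_iff₀ N0, hN,
      div_mul_cancel₀ _ hε.ne']
    refine (norm_sub_le _ _).trans_lt ?_
    linarith
  have hsupp : tsupport (fun x => N⁻¹ • (Real.sin (N * l x) • a x -
      (Real.sin (2 * (N * l x)) / 2) • b x)) ⊆ tsupport β :=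
    closure_mono fun x hx h => hx (by simp [ha, hb, h])
  refine ⟨_, ?_, hsupp, fun x => ?_⟩
  · have hl : ContDiff ℝ ∞ fun x => N * l x := contDiff_const.mul l.contDiff
    exact ((hl.sin.smul sa).sub (((contDiff_const.mul hl).sin.div_const 2).smul sb)).const_smul _
  by_cases hx : x ∈ tsupport β
  · rw [topH1_fderiv (sa.differentiable (by simp)) (sb.differentiable (by simp)) l N0.ne',
      topH1_fderiv (sa.differentiable (by simp)) (sb.differentiable (by simp)) l N0.ne', hu, hv,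
      one_smul, zero_smul, zero_add, Real.cos_two_mul]
    refine hball (y := (_, _)) ?_ (x, Real.cos (N * l x))
      ⟨hx, Real.neg_one_le_cos _, Real.cos_le_one _⟩
    rw [dist_zero_right, Prod.norm_def]
    exact max_lt (hsm x u (by linarith [norm_nonneg v])) (hsm x v (by linarith [norm_nonneg u]))
  · rw [fderiv_of_notMem_tsupport ℝ fun h => hx (hsupp h), image_eq_zero_of_notMem_tsupport hx]
    simpa using hPQ x

end Crest.Agent.R216
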