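import Crest.Agent.R216.TopS
import Crest.Agent.R197.Deg2
import Crest.Agent.R197.Deg4

/-! # Row 216, topology: parity of the number of zeros, local version -/

set_option autoImplicit false
open Set Filter Metric Function
open scoped ContDiff RealInnerProductSpace Topology

noncomputable section
namespace Crest.Agent.R216

theorem topP1_sum_sign {α : Type} (s : α → ℝ) (Y : Finset α) :
    (∀ z ∈ Y, s z = 1 ∨ s z = -1) → ∃ k : ℤ, ∑ z ∈ Y, s z = Y.card - 2 * k := by
  classical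
  induction Y using Finset.induction_on with
  | empty => exact fun _ => ⟨0, by simp⟩
  | insert a Y ha ih =>
    intro h
    obtain ⟨k, hk⟩ := ih fun z hz => h z (Finset.mem_insert_of_mem hz)
    rw [Finset.sum_insert ha, Finset.card_insert_of_notMem ha, hk]
    rcases h a (Finset.mem_insert_self _ _) with h1 | h1
    · exact ⟨k, by rw [h1]; push_cast; ring⟩
    · exact ⟨k + 1, by rw [h1]; push_cast; ring⟩

open Crest.Agent.R197 MeasureTheory in
/-- Copy the proof of `R197.ess_of_odd` (`local_ball`, small disjoint balls around the zeros), then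
`dint_congr_set` to pass from the union of the balls to `K` (`‖f‖` is bounded below on the compact
set `K \ ⋃ open balls`). -/
theorem dint_count {ι : Type} [Fintype ι] [DecidableEq ι] {f : (ι → ℝ) → (ι → ℝ)}
    (hf : ContDiff ℝ 1 f) (Z : Finset (ι → ℝ)) (hZ : ∀ x, x ∈ Z ↔ f x = 0)
    (hreg : ∀ x ∈ Z, (fderiv ℝ f x).det ≠ 0) {K : Set (ι → ℝ)} (hK : IsCompact K)
    (hZK : ∀ x ∈ Z, x ∈ interior K) :
    ∃ k : ℤ, ∀ᶠ η in 𝓝[>] (0 : ℝ),
      dint f K η = ((Z.card : ℝ) - 2 * k) * ∫ y : ι → ℝ, bump η y := by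
  classical
  have h1 : ∀ z, ∃ s : ℝ, z ∈ Z → (s = 1 ∨ s = -1) ∧ ∀ᶠ r in 𝓝[>] (0 : ℝ),
      Metric.closedBall z r ⊆ interior K ∧ ∀ᶠ η in 𝓝[>] (0 : ℝ),
        dint f (Metric.closedBall z r) η = s * ∫ y : ι → ℝ, bump η y := by
    intro z
    by_cases hz : z ∈ Z
    · obtain ⟨s, hs⟩ := local_ball isOpen_interior hf.contDiffOn (hZK z hz) ((hZ z).1 hz)
        (hreg z hz)
      exact ⟨s, fun _ => hs⟩
    · exact ⟨0, fun h => absurd h hz⟩
  choose s hs using h1
  have h2 : ∀ᶠ r in 𝓝[>] (0 : ℝ), ∀ z ∈ Z, ∀ z' ∈ Z, z ≠ z' → r + r < dist z z' := by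
    refine (Z.eventually_all).2 fun z _ => (Z.eventually_all).2 fun z' _ => ?_
    by_cases h : z = z'
    · exact Eventually.of_forall fun _ h' => absurd h h'
    · have : 0 < dist z z' / 2 := by have := dist_pos.2 h; linarith
      filter_upwards [Ioo_mem_nhdsGT this] with r hr _
      linarith [hr.2]
  have h3 := (Z.eventually_all).2 fun z hz => (hs z hz).2
  obtain ⟨r, ⟨hr1, hr2⟩, hr0⟩ := ((h2.and h3).and self_mem_nhdsWithin).exists
  obtain ⟨k, hk⟩ := topP1_sum_sign s Z fun z hz => (hs z hz).1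
  refine ⟨k, ?_⟩
  have hC : IsCompact (K \ ⋃ z ∈ Z, Metric.ball z r) :=
    hK.diff (isOpen_biUnion fun z _ => Metric.isOpen_ball)
  obtain ⟨m, hm0, hm⟩ : ∃ m : ℝ, 0 < m ∧ ∀ x ∈ K \ ⋃ z ∈ Z, Metric.ball z r, m ≤ ‖f x‖ :=
    hC.exists_forall_le' hf.continuous.norm.continuousOn fun x hx => norm_pos_iff.2 fun h0 =>
      hx.2 (mem_iUnion₂.2 ⟨x, (hZ x).2 h0, Metric.mem_ball_self hr0⟩)
  have h4 := (Z.eventually_all).2 fun z hz => (hr2 z hz).2
  filter_upwards [h4, Ioo_mem_nhdsGT hm0] with η hη hη0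
  have hcont : Continuous (fun x => bump η (f x) * (fderiv ℝ f x).det) :=
    ((continuous_bump η).comp hf.continuous).mul
      (ContinuousLinearMap.continuous_det.comp (hf.continuous_fderiv one_ne_zero))
  have e : dint f (⋃ z ∈ Z, Metric.closedBall z r) η
      = ∑ z ∈ Z, dint f (Metric.closedBall z r) η := by
    unfold dint
    refine integral_biUnion_finset Z (fun z _ => Metric.isClosed_closedBall.measurableSet) ?_
      fun z hz => hcont.continuousOn.integrableOn_compact (isCompact_closedBall z r)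
    intro z hz z' hz' hne
    exact Metric.closedBall_disjoint_closedBall (hr1 z hz z' hz' hne)
  rw [dint_congr_set hK (Z.isCompact_biUnion fun z _ => isCompact_closedBall z r) hη0.1 ?_ ?_, e,
    Finset.sum_congr rfl hη, ← Finset.sum_mul, hk]
  · intro x hx hx'
    refine hη0.2.le.trans (hm x ⟨hx, fun h => hx' ?_⟩)
    obtain ⟨z, hz, hxz⟩ := mem_iUnion₂.1 h
    exact mem_iUnion₂.2 ⟨z, hz, Metric.ball_subset_closedBall hxz⟩
  · intro x hx hx'
    obtain ⟨z, hz, hxz⟩ := mem_iUnion₂.1 hx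
    exact absurd (interior_subset ((hr2 z hz).1 hxz)) hx'

/-- Take closed balls `K' = closedBall 0 R ⊆ interior K₁`, `K₁ = closedBall 0 (R + 1)` with all zeros
and `K` in the open ball of radius `R`; on the collar `f = g` has no zero, so
`R197.dint_eq_of_close` applies for small `η`; compare with `dint_count`, `integral_bump_pos`. -/
theorem parity_pi {ι : Type} [Fintype ι] [DecidableEq ι] {f g : (ι → ℝ) → (ι → ℝ)}
    (hf : ContDiff ℝ 1 f) (hg : ContDiff ℝ 1 g) {K : Set (ι → ℝ)} (hK : IsCompact K)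
    (he : ∀ x, x ∉ K → f x = g x) (hZf : {x | f x = 0}.Finite) (hZg : {x | g x = 0}.Finite)
    (hrf : ∀ x, f x = 0 → (fderiv ℝ f x).det ≠ 0) (hrg : ∀ x, g x = 0 → (fderiv ℝ g x).det ≠ 0) :
    Even {x | f x = 0}.ncard ↔ Even {x | g x = 0}.ncard := by
  obtain ⟨R, hR⟩ := ((hK.isBounded.union hZf.isBounded).union hZg.isBounded).subset_ball 0
  have hK1 : IsCompact (closedBall (0 : ι → ℝ) (R + 1)) := isCompact_closedBall _ _
  have hK0 : IsCompact (closedBall (0 : ι → ℝ) R) := isCompact_closedBall _ _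
  have hb0 : ball (0 : ι → ℝ) R ⊆ interior (closedBall 0 R) := ball_subset_interior_closedBall
  have hb1 : closedBall (0 : ι → ℝ) R ⊆ interior (closedBall 0 (R + 1)) :=
    (closedBall_subset_ball (by linarith)).trans ball_subset_interior_closedBall
  obtain ⟨k, hk⟩ := dint_count hf hZf.toFinset (fun x => by simp)
    (fun x hx => hrf x (by simpa using hx)) hK1 fun x hx =>
      hb1 (ball_subset_closedBall (hR (Or.inl (Or.inr (by simpa using hx)))))
  obtain ⟨k', hk'⟩ := dint_count hg hZg.toFinset (fun x => by simp)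
    (fun x hx => hrg x (by simpa using hx)) hK1 fun x hx =>
      hb1 (ball_subset_closedBall (hR (Or.inr (by simpa using hx))))
  have hC : IsCompact (closedBall (0 : ι → ℝ) (R + 1) \ ball 0 R) := hK1.diff isOpen_ball
  obtain ⟨m, hm0, hm⟩ : ∃ m : ℝ, 0 < m ∧
      ∀ x ∈ closedBall (0 : ι → ℝ) (R + 1) \ ball 0 R, m ≤ ‖f x‖ :=
    hC.exists_forall_le' hf.continuous.norm.continuousOn fun x hx => norm_pos_iff.2 fun h0 =>
      hx.2 (hR (Or.inl (Or.inr h0)))
  obtain ⟨η, ⟨h1, h2⟩, hη⟩ := ((hk.and hk').and (Ioo_mem_nhdsGT hm0)).exists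
  have h3 := R197.dint_eq_of_close isOpen_univ hK1 hK0 (subset_univ _) hb1 hf.contDiffOn
    hg.contDiffOn hη.1 (fun x hx hx' t _ => by
      have hxb : x ∉ ball (0 : ι → ℝ) R := fun h => hx' (hb0 h)
      rw [← he x fun h => hxb (hR (Or.inl (Or.inl h))), sub_self, smul_zero, add_zero]
      exact hη.2.le.trans (hm x ⟨hx, hxb⟩))
  rw [h1, h2] at h3
  have h4 := mul_right_cancel₀ (R197.integral_bump_pos hη.1).ne' h3
  have h5 : (hZf.toFinset.card : ℤ) - 2 * k = hZg.toFinset.card - 2 * k' := by exact_mod_cast h4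
  rw [ncard_eq_toFinset_card _ hZf, ncard_eq_toFinset_card _ hZg, Nat.even_iff, Nat.even_iff]
  omega

theorem topP1_transport {V W : Type*} [NormedAddCommGroup V] [NormedSpace ℝ V]
    [NormedAddCommGroup W] [NormedSpace ℝ W] {n : ℕ} (A : (Fin n → ℝ) ≃L[ℝ] V)
    (B : W ≃L[ℝ] (Fin n → ℝ)) {f : V → W} (hf : ContDiff ℝ 1 f)
    (hrf : ∀ x, f x = 0 → Injective (fderiv ℝ f x)) :
    ContDiff ℝ 1 (fun y => B (f (A y))) ∧ {x | f x = 0} = A '' {y | B (f (A y)) = 0} ∧
      ∀ y, B (f (A y)) = 0 → (fderiv ℝ (fun y => B (f (A y))) y).det ≠ 0 := by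
  refine ⟨B.contDiff.comp (hf.comp A.contDiff), ?_, fun y hy => ?_⟩
  · ext x
    simp only [mem_setOf_eq, map_eq_zero_iff B B.injective, mem_image]
    constructor
    · intro hx
      exact ⟨A.symm x, by simpa using hx, by simp⟩
    · rintro ⟨y, hy, rfl⟩
      exact hy
  · have h0 : f (A y) = 0 := (map_eq_zero_iff B B.injective).1 hy
    have h1 := B.hasFDerivAt.comp y
      ((hf.differentiable one_ne_zero (A y)).hasFDerivAt.comp y A.hasFDerivAt)
    have h2 : fderiv ℝ (fun y => B (f (A y))) y = _ := h1.fderiv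
    rw [h2, ContinuousLinearMap.det, Ne, LinearMap.det_eq_zero_iff_ker_ne_bot, not_not,
      LinearMap.ker_eq_bot]
    exact B.injective.comp ((hrf _ h0).comp A.injective)

/-- transport to `Fin n → ℝ` by `ContinuousLinearEquiv.ofFinrankEq` -/
theorem parity_local {V W : Type*} [NormedAddCommGroup V] [NormedSpace ℝ V]
    [FiniteDimensional ℝ V] [NormedAddCommGroup W] [NormedSpace ℝ W] [FiniteDimensional ℝ W]
    (hd : Module.finrank ℝ V = Module.finrank ℝ W) {f g : V → W}
    (hf : ContDiff ℝ 1 f) (hg : ContDiff ℝ 1 g) {K : Set V} (hK : IsCompact K)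
    (he : ∀ x, x ∉ K → f x = g x) (hZf : {x | f x = 0}.Finite) (hZg : {x | g x = 0}.Finite)
    (hrf : ∀ x, f x = 0 → Injective (fderiv ℝ f x))
    (hrg : ∀ x, g x = 0 → Injective (fderiv ℝ g x)) :
    Even {x | f x = 0}.ncard ↔ Even {x | g x = 0}.ncard := by
  let A : (Fin (Module.finrank ℝ V) → ℝ) ≃L[ℝ] V := ContinuousLinearEquiv.ofFinrankEq (by simp)
  let B : W ≃L[ℝ] (Fin (Module.finrank ℝ V) → ℝ) :=
    ContinuousLinearEquiv.ofFinrankEq (by simp [hd])
  obtain ⟨f1, f2, f3⟩ := topP1_transport A B hf hrf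
  obtain ⟨g1, g2, g3⟩ := topP1_transport A B hg hrg
  rw [f2] at hZf ⊢
  rw [g2] at hZg ⊢
  rw [ncard_image_of_injective _ A.injective, ncard_image_of_injective _ A.injective]
  refine parity_pi f1 g1 (hK.image A.symm.continuous) (fun y hy => ?_)
    (hZf.of_finite_image A.injective.injOn) (hZg.of_finite_image A.injective.injOn) f3 g3
  rw [he _ fun h => hy ⟨_, h, by simp⟩]

end Crest.Agent.R216
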