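import Crest.Agent.R216.TopP1

/-! # Row 216, topology: a map of a compact manifold has an even number of regular zeros -/

set_option autoImplicit false
open Set Filter Metric Function
open scoped ContDiff RealInnerProductSpace Topology

noncomputable section
namespace Crest.Agent.R216

namespace Atl

variable {V : Type} [NormedAddCommGroup V] [NormedSpace ℝ V] [FiniteDimensional ℝ V]
  {X : Type*} [TopologicalSpace X] [T2Space X] [CompactSpace X] (A : Atl V X)
  {W : Type*} [NormedAddCommGroup W] [NormedSpace ℝ W] [FiniteDimensional ℝ W]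

/-- all zeros are regular -/
def Reg {V : Type} [NormedAddCommGroup V] [NormedSpace ℝ V] {X : Type*} [TopologicalSpace X]
    (A : Atl V X) {W : Type*} [NormedAddCommGroup W] [NormedSpace ℝ W] (G : X → W) : Prop :=
  ∀ a x, G (A.p a x) = 0 → Injective (fderiv ℝ (fun x => G (A.p a x)) x)

/-- `finite_of_isolated`; at a zero `isolated_zero`, elsewhere continuity -/
theorem Reg.finite {A : Atl V X} {G : X → W} (hG : A.Sm G) (hr : A.Reg G) :
    {y | G y = 0}.Finite := by
  refine A.finite_of_isolated fun a x => ?_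
  by_cases h : G (A.p a x) = 0
  · have h1 := isolated_zero ((hG a).differentiable (by simp) x) (hr a x h)
    filter_upwards [h1] with z hz
    rw [h] at hz
    exact hz
  · exact ((hG a).continuous.continuousAt.eventually_ne h).filter_mono nhdsWithin_le_nhds

/-- regularity can be checked in one chart at each zero (`Sm.fderiv_chart`, `fderiv_T_injective`) -/
theorem Reg_of_local {A : Atl V X} {G : X → W} (hG : A.Sm G)
    (h : ∀ y, G y = 0 → ∃ a x, y = A.p a x ∧ Injective (fderiv ℝ (fun x => G (A.p a x)) x)) :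
    A.Reg G := by
  intro a x hx
  obtain ⟨b, z, hz, hi⟩ := h _ hx
  obtain ⟨h1, h2⟩ := mem_O_of_eq hz
  rw [hG.fderiv_chart h1, h2]
  exact hi.comp (fderiv_T_injective h1)

/-- One step.  Outside the source of chart `a` the zero sets agree.  The source is contained in `C`
or disjoint from it (`source_subset_or_disjoint`); in the first case use `parity_local` for
`G ∘ p a`, `G' ∘ p a` and split `Z ∩ C = (Z ∩ C \ source) ∪ p a '' {x | G (p a x) = 0}`. -/
theorem parity_step (hd : Module.finrank ℝ V = Module.finrank ℝ W) {G G' : X → W} (hG : A.Sm G)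
    (hG' : A.Sm G') (hr : A.Reg G) (hr' : A.Reg G') (a : A.ι) {K : Set V} (hK : IsCompact K)
    (he : ∀ y, y ∉ A.p a '' K → G y = G' y) {C : Set X} (hC : IsClopen C) :
    Even ({y | G y = 0} ∩ C).ncard ↔ Even ({y | G' y = 0} ∩ C).ncard := by
  have hout : ∀ y, y ∉ (A.e a).source → G y = G' y := by
    intro y hy
    refine he y ?_
    rintro ⟨x, -, rfl⟩
    exact hy (A.p_mem a x)
  rcases A.source_subset_or_disjoint a hC with h | h
  · have hfin : ∀ {H : X → W}, A.Sm H → A.Reg H → {x | H (A.p a x) = 0}.Finite :=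
      fun hH hrH => (Reg.finite hH hrH).preimage (A.injective_p a).injOn
    have key : ∀ {H : X → W}, A.Sm H → A.Reg H → ({y | H y = 0} ∩ C).ncard
        = (({y | H y = 0} ∩ C) \ (A.e a).source).ncard + {x | H (A.p a x) = 0}.ncard := by
      intro H hH hrH
      have e : {y | H y = 0} ∩ C
          = (({y | H y = 0} ∩ C) \ (A.e a).source) ∪ A.p a '' {x | H (A.p a x) = 0} := by
        ext y
        constructor
        · intro hy
          by_cases hs : y ∈ (A.e a).source
          · refine Or.inr ⟨A.e a y, ?_, A.p_e a hs⟩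
            rw [mem_ofPred_eq, A.p_e a hs]
            exact hy.1
          · exact Or.inl ⟨hy, hs⟩
        · rintro (hy | ⟨x, hx, rfl⟩)
          · exact hy.1
          · exact ⟨hx, h (A.p_mem a x)⟩
      have hdis : Disjoint (({y | H y = 0} ∩ C) \ (A.e a).source)
          (A.p a '' {x | H (A.p a x) = 0}) := by
        rw [Set.disjoint_left]
        rintro y hy ⟨x, -, rfl⟩
        exact hy.2 (A.p_mem a x)
      conv_lhs => rw [e]
      rw [ncard_union_eq hdis (((Reg.finite hH hrH).inter_of_left _).subset sdiff_subset)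
        ((hfin hH hrH).image _), ncard_image_of_injective _ (A.injective_p a)]
    have e : ({y | G y = 0} ∩ C) \ (A.e a).source = ({y | G' y = 0} ∩ C) \ (A.e a).source := by
      ext y
      constructor
      · rintro ⟨⟨h1, h2⟩, h3⟩
        exact ⟨⟨(hout y h3).symm.trans h1, h2⟩, h3⟩
      · rintro ⟨⟨h1, h2⟩, h3⟩
        exact ⟨⟨(hout y h3).trans h1, h2⟩, h3⟩
    have hp := parity_local hd ((hG a).of_le (by simp)) ((hG' a).of_le (by simp)) hK
      (fun x hx => he _ (by
        rintro ⟨z, hz, hzx⟩
        exact hx (A.injective_p a hzx ▸ hz))) (hfin hG hr) (hfin hG' hr') (hr a) (hr' a)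
    rw [key hG hr, key hG' hr', e, Nat.even_add, Nat.even_add, hp]
  · have e : {y | G y = 0} ∩ C = {y | G' y = 0} ∩ C := by
      ext y
      constructor
      · rintro ⟨h1, h2⟩
        exact ⟨(hout y (fun h3 => Set.disjoint_left.1 h h3 h2)).symm.trans h1, h2⟩
      · rintro ⟨h1, h2⟩
        exact ⟨(hout y (fun h3 => Set.disjoint_left.1 h h3 h2)).trans h1, h2⟩
    rw [e]

/-- For a generic large `w` all the maps `G + s k • w` have regular zeros.  Choose `w` in the
non-empty open set `{R < ‖w‖}` outside the null sets of critical values (`sard_easy`) of the maps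
`x ↦ - (s k (p a x))⁻¹ • G (p a x)` on `{s k (p a x) ≠ 0}`.  At a zero with `s ≠ 0`,
`d(G + s • w) = - s • d(- s⁻¹ • G)` is surjective, hence injective; at a zero with `s = 0` the
function `s ≥ 0` has a minimum, so `ds = 0` (`IsLocalMin.fderiv_eq_zero`). -/
theorem exists_generic [Nontrivial W] (hd : Module.finrank ℝ V = Module.finrank ℝ W) {G : X → W}
    (hG : A.Sm G) (hr : A.Reg G) {κ : Type} [Finite κ] {s : κ → X → ℝ} (hs : ∀ k, A.Sm (s k))
    (h0 : ∀ k y, 0 ≤ s k y) (R : ℝ) :
    ∃ w : W, R < ‖w‖ ∧ ∀ k, A.Reg (fun y => G y + s k y • w) := by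
  borelize W
  let μ : MeasureTheory.Measure W := MeasureTheory.Measure.addHaar
  let φ : κ → A.ι → V → W := fun k a x => -(s k (A.p a x))⁻¹ • G (A.p a x)
  have hφ : ∀ k a x, s k (A.p a x) ≠ 0 → DifferentiableAt ℝ (φ k a) x := by
    intro k a x hx
    exact (((hs k a).differentiable (by simp) x).inv hx).neg.smul
      ((hG a).differentiable (by simp) x)
  let B : Set W := ⋃ k, ⋃ a,
    φ k a '' {x | s k (A.p a x) ≠ 0 ∧ ¬ Surjective (fderiv ℝ (φ k a) x)}
  have hB : μ B = 0 := by
    refine MeasureTheory.measure_iUnion_null fun k => MeasureTheory.measure_iUnion_null fun a => ?_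
    exact sard_easy μ hd.le (fun x hx => hφ k a x hx.1) (fun x hx => hx.2)
  have hU : IsOpen {w : W | R < ‖w‖} := isOpen_lt continuous_const continuous_norm
  have hUne : {w : W | R < ‖w‖}.Nonempty := NormedSpace.exists_lt_norm ℝ W R
  obtain ⟨w, hw, hwB⟩ : ∃ w, R < ‖w‖ ∧ w ∉ B := by
    by_contra hcon
    push Not at hcon
    exact (hU.measure_pos μ hUne).ne' (MeasureTheory.measure_mono_null hcon hB)
  refine ⟨w, hw, fun k a x hx => ?_⟩
  have hGd := ((hG a).differentiable (by simp) x).hasFDerivAt
  have hsd := ((hs k a).differentiable (by simp) x).hasFDerivAt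
  by_cases h1 : s k (A.p a x) = 0
  · have hmin : IsLocalMin (fun x => s k (A.p a x)) x :=
      Eventually.of_forall fun z => by
        simp only [h1]
        exact h0 k _
    have hG0 : G (A.p a x) = 0 := by simpa [h1] using hx
    rw [hmin.fderiv_eq_zero] at hsd
    have h2 := hGd.fun_add (hsd.smul_const w)
    rw [h2.fderiv]
    simpa using hr a x hG0
  · have hφx : φ k a x = w := by
      have h2 : G (A.p a x) = -(s k (A.p a x) • w) := eq_neg_of_add_eq_zero_left hx
      simp only [φ, h2, smul_neg, neg_smul, neg_neg, smul_smul, inv_mul_cancel₀ h1, one_smul]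
    have hsurj : Surjective (fderiv ℝ (φ k a) x) := by
      by_contra hcon
      exact hwB (mem_iUnion.2 ⟨k, mem_iUnion.2 ⟨a, x, ⟨h1, hcon⟩, hφx⟩⟩)
    have hinj : Injective (fderiv ℝ (φ k a) x) :=
      (LinearMap.injective_iff_surjective_of_finrank_eq_finrank
        (f := (fderiv ℝ (φ k a) x : V →ₗ[ℝ] W)) hd).2 hsurj
    have hev : (fun x => G (A.p a x) + s k (A.p a x) • w)
        =ᶠ[𝓝 x] fun z => s k (A.p a z) • (w - φ k a z) := by
      filter_upwards [(hs k a).continuous.continuousAt.eventually_ne h1] with z hz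
      simp only [φ, neg_smul, sub_neg_eq_add, smul_add, smul_smul, mul_inv_cancel₀ hz, one_smul]
      exact add_comm _ _
    have h2 := hsd.fun_smul ((hφ k a x h1).hasFDerivAt.const_sub w)
    rw [hev.fderiv_eq, h2.fderiv, hφx, injective_iff_map_eq_zero]
    intro v hv
    refine (injective_iff_map_eq_zero _).1 hinj v ?_
    simpa [h1] using hv

/-- With the partition of unity `χ` of `exists_pou` put `s t = Σ_{a ∈ t} push a (χ a)` for
`t : Finset A.ι` and take `w` from `exists_generic` with `R ≥ sup ‖G‖`.  `Finset.induction` with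
`parity_step` (`K = tsupport (χ a)`); for `t = univ` there is no zero. -/
theorem even_zeros [Nontrivial W] (hd : Module.finrank ℝ V = Module.finrank ℝ W) {G : X → W}
    (hG : A.Sm G) (hr : A.Reg G) : Par {y | G y = 0} := by
  classical
  intro C hC
  obtain ⟨χ, hχ, hsupp, hχ0, hsum⟩ := A.exists_pou
  have hK : ∀ a, IsCompact (tsupport (χ a)) := fun a =>
    (isCompact_closedBall (0 : V) (3 / 2)).of_isClosed_subset (isClosed_tsupport _)
      ((hsupp a).trans ball_subset_closedBall)
  let s : Finset A.ι → X → ℝ := fun t y => ∑ a ∈ t, A.push a (χ a) y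
  have hs : ∀ t, A.Sm (s t) := fun t => Sm.sum t fun a _ => A.Sm_push a (hχ a) (hK a)
  have hs0 : ∀ t y, 0 ≤ s t y := fun t y => Finset.sum_nonneg fun a _ => by
    unfold push
    split_ifs
    · exact hχ0 _ _
    · exact le_rfl
  obtain ⟨R, hR⟩ := isCompact_univ.exists_bound_of_continuousOn hG.continuous.continuousOn
  obtain ⟨w, hw, hreg⟩ := A.exists_generic hd hG hr hs hs0 R
  have hsm : ∀ t, A.Sm (fun y => G y + s t y • w) := fun t =>
    hG.add ((hs t).smul (Sm.const w))
  have key : ∀ t : Finset A.ι, (Even ({y | G y = 0} ∩ C).ncard ↔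
      Even ({y | G y + s t y • w = 0} ∩ C).ncard) := by
    intro t
    induction t using Finset.induction_on with
    | empty => simp [s]
    | insert a t hat ih =>
      refine ih.trans (A.parity_step hd (hsm t) (hsm _) (hreg t) (hreg _) a (hK a) ?_ hC)
      intro y hy
      have h1 : A.push a (χ a) y = 0 :=
        A.push_eq_zero a (fun x hx => image_eq_zero_of_notMem_tsupport hx) hy
      simp only [s, Finset.sum_insert hat, h1, zero_add]
  rw [key Finset.univ]
  have e : {y | G y + s Finset.univ y • w = 0} = ∅ := by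
    refine eq_empty_of_forall_notMem fun y hy => ?_
    have h1 : s Finset.univ y = 1 := hsum y
    rw [mem_ofPred_eq, h1, one_smul] at hy
    have h2 : G y = -w := eq_neg_of_add_eq_zero_left hy
    have h3 := hR y (mem_univ y)
    rw [h2, norm_neg] at h3
    linarith
  rw [e]
  simp

end Atl

end Crest.Agent.R216
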